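import Mathlib
import Crest.Agent.R183.Amp1

-- ▼ part R183/Amp2
section

/-!
R183 / Amp2 : valuative criterion for integrality over an ideal, in an arbitrary commutative ring.

If `x` is not integral over `J` (no `x ^ (n+1) ∈ J (J + x) ^ n`) there are an algebraically closed
field `K`, a valuation subring `V` and a ring map `φ : P → V` with `φ x ≠ 0` and
`φ z ∈ m_V φ x` for all `z ∈ J`.
-/

set_option autoImplicit false

namespace Crest.Agent.R183.Amp

universe u

open IsLocalRing

/-- `x` is integral over the ideal `J`. -/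
def IntOver {P : Type*} [CommRing P] (J : Ideal P) (x : P) : Prop :=
  ∃ n : ℕ, x ^ (n + 1) ∈ J * (J ⊔ Ideal.span {x}) ^ n

/-- push a proper ideal of a commutative ring, containing the kernel of a map to a field, into a
valuation subring. -/
lemma exists_valuation {A : Type u} [CommRing A] {K : Type u} [Field K] (f : A →+* K)
    (M : Ideal A) (hM : M.IsMaximal) (hker : RingHom.ker f ≤ M) :
    ∃ (V : ValuationSubring K) (hV : ∀ a, f a ∈ V),
      ∀ a ∈ M, (⟨f a, hV a⟩ : V) ∈ maximalIdeal V := by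
  -- image ideal in the range
  have hsurj : Function.Surjective f.rangeRestrict := f.rangeRestrict_surjective
  have hI : (M.map f.rangeRestrict) ≠ ⊤ := by
    intro h
    have hk : RingHom.ker f.rangeRestrict ≤ M := by
      intro a ha
      apply hker
      rw [RingHom.mem_ker] at ha ⊢
      have := congrArg Subtype.val ha
      simpa using this
    have h1 : Ideal.comap f.rangeRestrict (M.map f.rangeRestrict) = M := by
      rw [Ideal.comap_map_of_surjective _ hsurj]
      rw [sup_eq_left]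
      exact hk
    rw [h, Ideal.comap_top] at h1
    exact hM.ne_top h1.symm
  obtain ⟨V, hV, hV2⟩ := Ideal.image_subset_nonunits_valuationSubring _ hI
  refine ⟨V, fun a => hV ⟨a, rfl⟩, ?_⟩
  intro a ha
  have hmem : (f a) ∈ (V.nonunits : Set K) := by
    apply hV2
    exact ⟨f.rangeRestrict a, Ideal.mem_map_of_mem _ ha, rfl⟩
  rw [← V.image_maximalIdeal] at hmem
  obtain ⟨b, hb, hb2⟩ := hmem
  have : (⟨f a, hV ⟨a, rfl⟩⟩ : V) = b := Subtype.ext hb2.symm
  rw [this]; exact hb

section Crit

variable {P : Type u} [CommRing P] (J : Ideal P) (x : P)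

local notation "Px" => Localization.Away x
local notation "al" => algebraMap P (Localization.Away x)

/-- the affine blow-up algebra `P[J/x]` inside `P_x`. -/
def blowA : Subring (Localization.Away x) where
  carrier := {y | ∃ n : ℕ, ∃ a ∈ (J ⊔ Ideal.span {x}) ^ n, y * (al x) ^ n = al a}
  zero_mem' := ⟨0, 0, zero_mem _, by simp⟩
  one_mem' := ⟨0, 1, by simp, by simp⟩
  add_mem' := by
    rintro y z ⟨n, a, ha, hy⟩ ⟨m, b, hb, hz⟩
    have hx : x ∈ J ⊔ Ideal.span {x} := Ideal.mem_sup_right (Ideal.mem_span_singleton_self x)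
    refine ⟨n + m, a * x ^ m + b * x ^ n, ?_, ?_⟩
    · refine add_mem ?_ ?_
      · rw [pow_add]; exact Ideal.mul_mem_mul ha (Ideal.pow_mem_pow hx m)
      · rw [add_comm, pow_add]; exact Ideal.mul_mem_mul hb (Ideal.pow_mem_pow hx n)
    · rw [map_add, map_mul, map_mul, map_pow, map_pow, ← hy, ← hz]; ring
  mul_mem' := by
    rintro y z ⟨n, a, ha, hy⟩ ⟨m, b, hb, hz⟩
    refine ⟨n + m, a * b, ?_, ?_⟩
    · rw [pow_add]; exact Ideal.mul_mem_mul ha hb
    · rw [map_mul, ← hy, ← hz]; ring
  neg_mem' := by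
    rintro y ⟨n, a, ha, hy⟩
    exact ⟨n, -a, neg_mem ha, by rw [map_neg, ← hy]; ring⟩

/-- the ideal `(J/x)` of `P[J/x]`. -/
def blowI : Ideal (blowA J x) where
  carrier := {y | ∃ n : ℕ, ∃ a ∈ J * (J ⊔ Ideal.span {x}) ^ n,
    (y : Localization.Away x) * (al x) ^ (n + 1) = al a}
  zero_mem' := ⟨0, 0, zero_mem _, by simp⟩
  add_mem' := by
    rintro y z ⟨n, a, ha, hy⟩ ⟨m, b, hb, hz⟩
    have hx : x ∈ J ⊔ Ideal.span {x} := Ideal.mem_sup_right (Ideal.mem_span_singleton_self x)
    refine ⟨n + m + 1, a * x ^ (m + 1) + b * x ^ (n + 1), ?_, ?_⟩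
    · refine add_mem ?_ ?_
      · rw [add_assoc, pow_add, ← mul_assoc]
        exact Ideal.mul_mem_mul ha (Ideal.pow_mem_pow hx (m + 1))
      · rw [show n + m + 1 = m + (n + 1) by ring, pow_add, ← mul_assoc]
        exact Ideal.mul_mem_mul hb (Ideal.pow_mem_pow hx (n + 1))
    · rw [map_add, map_mul, map_mul, map_pow, map_pow, ← hy, ← hz]
      push_cast
      ring
  smul_mem' := by
    rintro c y ⟨n, a, ha, hy⟩
    obtain ⟨m, b, hb, hz⟩ := c.2
    refine ⟨m + n, b * a, ?_, ?_⟩
    · rw [pow_add, mul_left_comm]; exact Ideal.mul_mem_mul hb ha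
    · rw [map_mul, ← hy, ← hz, smul_eq_mul, Subring.coe_mul]
      ring

lemma blowI_ne_top (h : ¬ IntOver J x) : blowI J x ≠ ⊤ := by
  intro htop
  have h1 : (1 : blowA J x) ∈ blowI J x := by rw [htop]; trivial
  obtain ⟨n, a, ha, he⟩ := h1
  rw [Subring.coe_one, one_mul, ← map_pow] at he
  obtain ⟨⟨_, k, rfl⟩, hk⟩ := (IsLocalization.eq_iff_exists (Submonoid.powers x) Px).1 he
  apply h
  have hx : x ∈ J ⊔ Ideal.span {x} := Ideal.mem_sup_right (Ideal.mem_span_singleton_self x)
  refine ⟨n + k, ?_⟩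
  have h2 : x ^ (n + k + 1) = x ^ k * a := by
    rw [← hk]; simp only; ring
  rw [h2, pow_add, ← mul_assoc, mul_comm (x ^ k)]
  exact Ideal.mul_mem_mul ha (Ideal.pow_mem_pow hx k)

/-- the inclusion `P → P[J/x]`. -/
def toBlow : P →+* blowA J x :=
  (al).codRestrict (blowA J x) (fun a => ⟨0, a, by simp, by simp⟩)

lemma toBlow_x_nzd : toBlow J x x ∈ nonZeroDivisors (blowA J x) := by
  rw [mem_nonZeroDivisors_iff_right]
  intro b hb
  have h1 : (b : Localization.Away x) * al x = 0 := by
    exact congrArg Subtype.val hb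
  have hu : IsUnit (al x) := IsLocalization.Away.algebraMap_isUnit x
  apply Subtype.ext
  exact (hu.mul_left_eq_zero).1 h1

lemma div_mem {z : P} (hz : z ∈ J) :
    ∃ w : blowA J x, w ∈ blowI J x ∧ toBlow J x z = w * toBlow J x x := by
  have hu : IsUnit (al x) := IsLocalization.Away.algebraMap_isUnit x
  obtain ⟨v, hv⟩ := hu.exists_left_inv
  have hw : (al z * v) ∈ blowA J x := by
    refine ⟨1, z, by rw [pow_one]; exact Ideal.mem_sup_left hz, ?_⟩
    rw [pow_one, mul_assoc, hv, mul_one]
  refine ⟨⟨al z * v, hw⟩, ⟨0, z, by simpa using hz, ?_⟩, ?_⟩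
  · simp only [zero_add, pow_one]
    rw [mul_assoc, hv, mul_one]
  · apply Subtype.ext
    show al z = al z * v * al x
    rw [mul_assoc, hv, mul_one]

/-- **valuative criterion**. -/
theorem exists_valuation_of_not_intOver (h : ¬ IntOver J x) :
    ∃ (K : Type u) (_ : Field K) (_ : IsAlgClosed K) (V : ValuationSubring K) (φ : P →+* V),
      φ x ≠ 0 ∧ ∀ z ∈ J, ∃ s ∈ maximalIdeal V, φ z = s * φ x := by
  obtain ⟨M, hM, hle⟩ := Ideal.exists_le_maximal _ (blowI_ne_top J x h)
  have := hM.isPrime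
  obtain ⟨𝔮, h𝔮, h𝔮M⟩ := Ideal.exists_minimalPrimes_le (I := (⊥ : Ideal (blowA J x))) (J := M) bot_le
  have : 𝔮.IsPrime := h𝔮.1.1
  have hx𝔮 : toBlow J x x ∉ 𝔮 := by
    intro hx
    exact Set.disjoint_left.mp (Ideal.disjoint_nonZeroDivisors_of_mem_minimalPrimes h𝔮) hx
      (toBlow_x_nzd J x)
  let K := AlgebraicClosure (FractionRing (blowA J x ⧸ 𝔮))
  let f : blowA J x →+* K := ((algebraMap (FractionRing (blowA J x ⧸ 𝔮)) K).comp
    (algebraMap (blowA J x ⧸ 𝔮) (FractionRing (blowA J x ⧸ 𝔮)))).comp (Ideal.Quotient.mk 𝔮)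
  have hfinj : Function.Injective ((algebraMap (FractionRing (blowA J x ⧸ 𝔮)) K).comp
      (algebraMap (blowA J x ⧸ 𝔮) (FractionRing (blowA J x ⧸ 𝔮)))) := by
    rw [RingHom.coe_comp]
    exact (RingHom.injective _).comp (IsFractionRing.injective _ _)
  have hker : RingHom.ker f = 𝔮 := by
    ext a
    rw [RingHom.mem_ker]
    show ((algebraMap (FractionRing (blowA J x ⧸ 𝔮)) K).comp
      (algebraMap (blowA J x ⧸ 𝔮) (FractionRing (blowA J x ⧸ 𝔮)))) (Ideal.Quotient.mk 𝔮 a) = 0 ↔ _
    rw [map_eq_zero_iff _ hfinj, Ideal.Quotient.eq_zero_iff_mem]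
  obtain ⟨V, hV, hV2⟩ := exists_valuation f M hM (by rw [hker]; exact h𝔮M)
  let φ : P →+* V := (f.comp (toBlow J x)).codRestrict V.toSubring (fun a => hV _)
  refine ⟨K, inferInstance, inferInstance, V, φ, ?_, ?_⟩
  · intro h0
    apply hx𝔮
    rw [← hker, RingHom.mem_ker]
    exact congrArg Subtype.val h0
  · intro z hz
    obtain ⟨w, hw, hw2⟩ := div_mem J x hz
    refine ⟨⟨f w, hV w⟩, hV2 w (hle hw), ?_⟩
    apply Subtype.ext
    show f (toBlow J x z) = f w * f (toBlow J x x)
    rw [hw2, map_mul]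

end Crit

/-- the version for primes: a prime `𝔮` and an element of a maximal ideal above it. -/
theorem exists_valuation_of_prime {P : Type u} [CommRing P] (𝔮 : Ideal P) [𝔮.IsPrime] :
    ∃ (K : Type u) (_ : Field K) (_ : IsAlgClosed K) (V : ValuationSubring K) (φ : P →+* V),
      RingHom.ker φ = 𝔮 ∧ ∀ π ∈ Ideal.jacobson (⊥ : Ideal P), φ π ∈ maximalIdeal V := by
  obtain ⟨M, hM, hle⟩ := Ideal.exists_le_maximal 𝔮 (Ideal.IsPrime.ne_top inferInstance)
  let K := AlgebraicClosure (FractionRing (P ⧸ 𝔮))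
  let f : P →+* K := ((algebraMap (FractionRing (P ⧸ 𝔮)) K).comp
    (algebraMap (P ⧸ 𝔮) (FractionRing (P ⧸ 𝔮)))).comp (Ideal.Quotient.mk 𝔮)
  have hfinj : Function.Injective ((algebraMap (FractionRing (P ⧸ 𝔮)) K).comp
      (algebraMap (P ⧸ 𝔮) (FractionRing (P ⧸ 𝔮)))) := by
    rw [RingHom.coe_comp]
    exact (RingHom.injective _).comp (IsFractionRing.injective _ _)
  have hker : RingHom.ker f = 𝔮 := by
    ext a
    rw [RingHom.mem_ker]
    show ((algebraMap (FractionRing (P ⧸ 𝔮)) K).comp
      (algebraMap (P ⧸ 𝔮) (FractionRing (P ⧸ 𝔮)))) (Ideal.Quotient.mk 𝔮 a) = 0 ↔ _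
    rw [map_eq_zero_iff _ hfinj, Ideal.Quotient.eq_zero_iff_mem]
  obtain ⟨V, hV, hV2⟩ := exists_valuation f M hM (by rw [hker]; exact hle)
  let φ : P →+* V := f.codRestrict V.toSubring (fun a => hV _)
  refine ⟨K, inferInstance, inferInstance, V, φ, ?_, ?_⟩
  · refine Eq.trans ?_ hker
    ext a
    rw [RingHom.mem_ker, RingHom.mem_ker]
    constructor
    · intro h0; exact congrArg Subtype.val h0
    · intro h0; exact Subtype.ext h0
  · intro π hπ
    exact hV2 π (Ideal.mem_sInf.1 hπ ⟨bot_le, hM⟩)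

end Crest.Agent.R183.Amp
end

-- ▼ part R183/Amp3
section

/-!
R183 / Amp3 : Lemma A (integrality is transferred from `Omega = W(P)/(p u - [π])` to the perfect
ring `P`) and Lemma A' (`π` is in the radical of `(z)`).
-/

set_option autoImplicit false

namespace Crest.Agent.R183.Amp

universe u

open IsLocalRing WittVector

variable {p : ℕ} [hp : Fact p.Prime]

/-- A valuation subring of an algebraically closed field of characteristic `p` is perfect. -/
lemma perfect_valuationSubring {K : Type u} [Field K] [IsAlgClosed K] (V : ValuationSubring K)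
    [CharP V p] : PerfectRing V p := by
  refine PerfectRing.ofSurjective V p ?_
  intro a
  obtain ⟨b, hb⟩ := IsAlgClosed.exists_pow_nat_eq (a : K) hp.out.pos
  have hbV : b ∈ V := by
    rw [← V.valuation_le_one_iff]
    have h1 : V.valuation b ^ p ≤ 1 := by
      rw [← map_pow, hb, V.valuation_le_one_iff]; exact a.2
    by_contra hcon
    exact absurd h1 (not_le.2 (one_lt_pow₀ (not_le.1 hcon) hp.out.ne_zero))
  refine ⟨⟨b, hbV⟩, ?_⟩
  apply Subtype.ext
  rw [frobenius_def]
  push_cast
  exact hb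

lemma charP_of_hom {P : Type*} [CommRing P] [CharP P p] {V : Type*} [CommRing V] [Nontrivial V]
    (φ : P →+* V) : CharP V p := by
  rw [CharP.charP_iff_prime_eq_zero hp.out]
  have := congrArg φ (CharP.cast_eq_zero P p)
  rw [map_natCast, map_zero] at this
  exact this

/-- Lemma A. -/
theorem lemmaA {P : Type u} [CommRing P] [CharP P p] {ι κ : Type*} [Finite ι]
    (x : ι → P) (z : κ → P) (u : WittVector p P) (hu : IsUnit u) (π : P) (M : ℕ)
    (hM : π ^ M ∈ Ideal.span (Set.range z)) (c : ℕ)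
    (H : Ideal.span (Set.range fun i => teichmuller p (x i)) ^ (c + 1) ≤
      Ideal.span (Set.range fun i => teichmuller p (z i)) *
        Ideal.span (Set.range fun i => teichmuller p (x i)) ^ c ⊔ Ideal.span {xi u π})
    (j : ι) : IntOver (Ideal.span (Set.range z)) (x j) := by
  by_contra hcon
  obtain ⟨K, _, _, V, φ, hx, hz⟩ := exists_valuation_of_not_intOver _ _ hcon
  have hVp : CharP V p := charP_of_hom φ
  have hPerf : PerfectRing V p := perfect_valuationSubring V
  have : Nonempty ι := ⟨j⟩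
  obtain ⟨j0, hj0⟩ := Finite.exists_max (fun i => V.valuation (φ (x i) : K))
  set y : V := φ (x j0) with hy
  have hy0 : y ≠ 0 := by
    intro h0
    have h1 := hj0 j
    have h2 : V.valuation ((φ (x j0) : V) : K) = 0 := by
      rw [← hy, h0]; simp
    rw [h2, le_zero_iff, map_eq_zero] at h1
    exact hx (Subtype.ext h1)
  have hy0K : ((y : V) : K) ≠ 0 := fun h => hy0 (Subtype.ext h)
  have ht : ∀ i, ∃ t : V, φ (x i) = t * y := by
    intro i
    have h1 : V.valuation (((φ (x i) : V) : K) / ((y : V) : K)) ≤ 1 := by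
      rw [map_div₀]
      exact div_le_one_of_le₀ (hj0 i) zero_le
    rw [V.valuation_le_one_iff] at h1
    refine ⟨⟨_, h1⟩, ?_⟩
    apply Subtype.ext
    show ((φ (x i) : V) : K) = ((φ (x i) : V) : K) / ((y : V) : K) * ((y : V) : K)
    rw [div_mul_cancel₀ _ hy0K]
  have hz' : ∀ a ∈ Ideal.span (Set.range z), ∃ s ∈ maximalIdeal V, φ a = s * y := by
    intro a ha
    obtain ⟨s, hs, hsa⟩ := hz a ha
    obtain ⟨t, ht'⟩ := ht j
    exact ⟨s * t, Ideal.mul_mem_right _ _ hs, by rw [hsa, ht']; ring⟩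
  -- now in the Witt vectors of `V`
  set Φ : WittVector p P →+* WittVector p V := WittVector.map φ with hΦ
  set 𝔟 : Ideal (WittVector p V) := (maximalIdeal V).comap constantCoeff with h𝔟
  have hJ : Ideal.map Φ (Ideal.span (Set.range fun i => teichmuller p (z i)))
      ≤ Ideal.span {teichmuller p y} * 𝔟 := by
    rw [Ideal.map_span, Ideal.span_le]
    rintro _ ⟨_, ⟨i, rfl⟩, rfl⟩
    obtain ⟨s, hs, hsa⟩ := hz' (z i) (Ideal.subset_span ⟨i, rfl⟩)
    show Φ (teichmuller p (z i)) ∈ _
    have h0 : Φ (teichmuller p (z i)) = teichmuller p y * teichmuller p s := by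
      rw [hΦ, map_teichmuller, hsa, map_mul, mul_comm]
    rw [h0]
    refine Ideal.mul_mem_mul (Ideal.mem_span_singleton_self _) ?_
    rw [h𝔟, Ideal.mem_comap]
    have : constantCoeff (teichmuller p s) = s := by simp [constantCoeff]
    rw [this]; exact hs
  have hX : Ideal.map Φ (Ideal.span (Set.range fun i => teichmuller p (x i)))
      ≤ Ideal.span {teichmuller p y} := by
    rw [Ideal.map_span, Ideal.span_le]
    rintro _ ⟨_, ⟨i, rfl⟩, rfl⟩
    obtain ⟨t, ht'⟩ := ht i
    show Φ (teichmuller p (x i)) ∈ Ideal.span {teichmuller p y}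
    rw [hΦ, map_teichmuller, ht', map_mul]
    exact Ideal.mul_mem_left _ _ (Ideal.mem_span_singleton_self _)
  have hmem : (teichmuller p y) ^ (c + 1) ∈
      Ideal.span {teichmuller p y} * 𝔟 * Ideal.span {teichmuller p y} ^ c ⊔
        Ideal.span {xi (Φ u) (φ π)} := by
    have h1 : (teichmuller p y) ^ (c + 1) ∈ Ideal.map Φ
        (Ideal.span (Set.range fun i => teichmuller p (x i)) ^ (c + 1)) := by
      have : (teichmuller p y) ^ (c + 1) = Φ (teichmuller p (x j0) ^ (c + 1)) := by
        rw [map_pow, hΦ, map_teichmuller, hy]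
      rw [this]
      exact Ideal.mem_map_of_mem _ (Ideal.pow_mem_pow
        (Ideal.subset_span (Set.mem_range_self (f := fun i => teichmuller p (x i)) j0)) _)
    have h2 := Ideal.map_mono (f := Φ) H h1
    rw [Ideal.map_sup, Ideal.map_mul, Ideal.map_pow, Ideal.map_span Φ {xi u π},
      Set.image_singleton] at h2
    have h3 : Φ (xi u π) = xi (Φ u) (φ π) := map_xi φ u π
    rw [h3] at h2
    exact sup_le_sup (Ideal.mul_mono hJ (Ideal.pow_right_mono hX c)) le_rfl h2
  obtain ⟨b', hb', e, he, hsum⟩ := Submodule.mem_sup.1 hmem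
  have hb'' : b' ∈ Ideal.span {teichmuller p y ^ (c + 1)} * 𝔟 := by
    have : Ideal.span {teichmuller p y} * 𝔟 * Ideal.span {teichmuller p y} ^ c
        = Ideal.span {teichmuller p y ^ (c + 1)} * 𝔟 := by
      rw [mul_comm (Ideal.span {teichmuller p y} * 𝔟), ← mul_assoc, ← pow_succ,
        Ideal.span_singleton_pow]
    rwa [this] at hb'
  obtain ⟨b, hb, rfl⟩ := Ideal.mem_span_singleton_mul.1 hb''
  obtain ⟨r, rfl⟩ := Ideal.mem_span_singleton'.1 he
  obtain ⟨s, hs, hsM⟩ := hz' _ hM
  rw [map_pow] at hsM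
  refine core4 (u := Φ u) (π := φ π) (y := y) (s := s) (hu.map Φ) hy0 hs hsM (c + 1)
    (w := 1 - b) (b := r) ?_ ?_
  · rw [map_sub, map_one]
    have hb0 : constantCoeff b ∈ maximalIdeal V := hb
    by_contra hnu
    have h1 : (1 : V) - constantCoeff b ∈ maximalIdeal V := (mem_maximalIdeal _).2 hnu
    have h2 : (1 : V) ∈ maximalIdeal V := by
      have h3 := add_mem h1 hb0
      rwa [sub_add_cancel] at h3
    exact (mem_maximalIdeal _).1 h2 isUnit_one
  · linear_combination (-1 : WittVector p V) * hsum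

/-- Lemma A'. -/
theorem lemmaA' {P : Type u} [CommRing P] [CharP P p] {κ : Type*}
    (z : κ → P) (u : WittVector p P) (π : P) (hπ : π ∈ Ideal.jacobson (⊥ : Ideal P)) (M : ℕ)
    (H : (p : WittVector p P) ^ M ∈
      Ideal.span (Set.range fun i => teichmuller p (z i)) ⊔ Ideal.span {xi u π}) :
    ∃ N : ℕ, π ^ N ∈ Ideal.span (Set.range z) := by
  by_contra! hcon
  have h1 : π ∉ (Ideal.span (Set.range z)).radical := by
    rintro ⟨n, hn⟩; exact hcon n hn
  rw [Ideal.radical_eq_sInf, Ideal.mem_sInf] at h1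
  push Not at h1
  obtain ⟨𝔮, ⟨hle, hprime⟩, hπ𝔮⟩ := h1
  have := hprime
  obtain ⟨K, _, _, V, φ, hker, hjac⟩ := exists_valuation_of_prime 𝔮
  have hVp : CharP V p := charP_of_hom φ
  have hPerf : PerfectRing V p := perfect_valuationSubring V
  have hφz : ∀ i, φ (z i) = 0 := by
    intro i
    have : z i ∈ RingHom.ker φ := by rw [hker]; exact hle (Ideal.subset_span ⟨i, rfl⟩)
    exact this
  have hφπ : φ π ≠ 0 := by
    intro h0
    exact hπ𝔮 (by rw [← hker]; exact h0)
  have h2 := Ideal.mem_map_of_mem (WittVector.map φ) H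
  rw [Ideal.map_sup, Ideal.map_span, Ideal.map_span, Set.image_singleton, map_pow, map_natCast,
    map_xi] at h2
  have h3 : Ideal.span ((WittVector.map φ) '' (Set.range fun i => teichmuller p (z i))) = ⊥ := by
    rw [Ideal.span_eq_bot]
    rintro _ ⟨_, ⟨i, rfl⟩, rfl⟩
    rw [map_teichmuller, hφz, teichmuller_zero]
  rw [h3, bot_sup_eq, Ideal.mem_span_singleton'] at h2
  obtain ⟨r, hr⟩ := h2
  refine core3 (u := WittVector.map φ u) (π := φ π) hφπ (hjac π hπ) M (w := 1) (b := r) ?_ ?_
  · rw [map_one]; exact isUnit_one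
  · rw [mul_one, ← hr]; ring

end Crest.Agent.R183.Amp
end

-- ▼ part R183/Amp4

/-!
R183 / Amp4 : Lemma B (integral over `(z)` implies membership in `(z^{1/q})^{q-n}`), Lemma C
(Teichmueller lifts of elements of `(ζ)^N`), and the assembled amplifier.
-/

set_option autoImplicit false

namespace Crest.Agent.R183.Amp

universe u

open IsLocalRing WittVector

/-! ### powers of an ideal and an element integral over it -/

lemma pow_succ_le {P : Type*} [CommRing P] (J : Ideal P) (x : P) (k : ℕ) :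
    (J ⊔ Ideal.span {x}) ^ (k + 1) ≤ J * (J ⊔ Ideal.span {x}) ^ k ⊔ Ideal.span {x ^ (k + 1)} := by
  induction k with
  | zero => simp
  | succ k ih =>
    have hx : Ideal.span {x} ≤ J ⊔ Ideal.span {x} := le_sup_right
    rw [pow_succ (J ⊔ Ideal.span {x}) (k + 1)]
    calc (J ⊔ Ideal.span {x}) ^ (k + 1) * (J ⊔ Ideal.span {x})
        = (J ⊔ Ideal.span {x}) ^ (k + 1) * J ⊔ (J ⊔ Ideal.span {x}) ^ (k + 1) * Ideal.span {x} :=
          Ideal.mul_sup _ _ _
      _ ≤ J * (J ⊔ Ideal.span {x}) ^ (k + 1) ⊔ Ideal.span {x ^ (k + 1 + 1)} := by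
          refine sup_le ?_ ?_
          · rw [mul_comm]; exact le_sup_left
          · calc (J ⊔ Ideal.span {x}) ^ (k + 1) * Ideal.span {x}
                ≤ (J * (J ⊔ Ideal.span {x}) ^ k ⊔ Ideal.span {x ^ (k + 1)}) * Ideal.span {x} :=
                  Ideal.mul_mono_left ih
              _ = J * (J ⊔ Ideal.span {x}) ^ k * Ideal.span {x} ⊔
                    Ideal.span {x ^ (k + 1)} * Ideal.span {x} := Ideal.sup_mul _ _ _
              _ ≤ _ := by
                  refine sup_le ?_ ?_
                  · refine le_trans ?_ le_sup_left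
                    rw [mul_assoc]
                    refine Ideal.mul_mono_right ?_
                    rw [pow_succ]
                    exact Ideal.mul_mono_right hx
                  · refine le_trans ?_ le_sup_right
                    rw [Ideal.span_singleton_mul_span_singleton, ← pow_succ]

/-- Lemma B1 -/
lemma IntOver.pow_mem {P : Type*} [CommRing P] {J : Ideal P} {x : P} (h : IntOver J x) :
    ∃ n : ℕ, ∀ N : ℕ, x ^ (n + N) ∈ J ^ N := by
  obtain ⟨n, hn⟩ := h
  have h1 : (J ⊔ Ideal.span {x}) ^ (n + 1) ≤ J * (J ⊔ Ideal.span {x}) ^ n := by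
    refine (pow_succ_le J x n).trans (sup_le le_rfl ?_)
    rw [Ideal.span_singleton_le_iff_mem]; exact hn
  have h2 : ∀ N : ℕ, (J ⊔ Ideal.span {x}) ^ (n + N) ≤ J ^ N * (J ⊔ Ideal.span {x}) ^ n := by
    intro N
    induction N with
    | zero => simp
    | succ N ih =>
      calc (J ⊔ Ideal.span {x}) ^ (n + (N + 1))
          = (J ⊔ Ideal.span {x}) ^ (n + N) * (J ⊔ Ideal.span {x}) := by rw [← add_assoc, pow_succ]
        _ ≤ J ^ N * (J ⊔ Ideal.span {x}) ^ n * (J ⊔ Ideal.span {x}) := Ideal.mul_mono_left ih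
        _ = J ^ N * (J ⊔ Ideal.span {x}) ^ (n + 1) := by rw [mul_assoc, ← pow_succ]
        _ ≤ J ^ N * (J * (J ⊔ Ideal.span {x}) ^ n) := Ideal.mul_mono_right h1
        _ = J ^ (N + 1) * (J ⊔ Ideal.span {x}) ^ n := by rw [pow_succ, mul_assoc]
  refine ⟨n, fun N => ?_⟩
  have hx : x ∈ J ⊔ Ideal.span {x} := Ideal.mem_sup_right (Ideal.mem_span_singleton_self x)
  exact Ideal.mul_le_left (h2 N (Ideal.pow_mem_pow hx _))

/-! ### pigeonhole for powers -/

/-- powers of a sum of two ideals. -/
lemma sup_pow_le {R : Type*} [CommRing R] (A B C : Ideal R) (n : ℕ)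
    (h : ∀ i j, i + j = n → A ^ i * B ^ j ≤ C) : (A ⊔ B) ^ n ≤ C := by
  rw [← Submodule.add_eq_sup, add_pow]
  refine Finset.sum_induction _ (fun I => I ≤ C) (fun I J hI hJ => sup_le hI hJ) bot_le ?_
  intro i hi
  refine le_trans Ideal.mul_le_left (h i (n - i) ?_)
  have := Finset.mem_range.1 hi
  omega

lemma span_pow_le_aux {R : Type*} [CommRing R] {κ : Type*} (t : κ → R) (q : ℕ) (hq : 0 < q)
    (s : Finset κ) (m : ℕ) :
    Ideal.span (t '' (s : Set κ)) ^ (q * (m + s.card)) ≤
      Ideal.span ((fun i => t i ^ q) '' (s : Set κ)) ^ m := by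
  classical
  induction s using Finset.induction_on generalizing m with
  | empty =>
    simp only [Finset.coe_empty, Set.image_empty, Ideal.span_empty, Finset.card_empty, add_zero]
    rcases Nat.eq_zero_or_pos m with rfl | hm
    · simp
    · rw [← Ideal.zero_eq_bot, zero_pow (by positivity)]; exact bot_le
  | insert a s ha ih =>
    rw [Finset.coe_insert, Set.image_insert_eq, Set.image_insert_eq, Ideal.span_insert,
      Ideal.span_insert, Finset.card_insert_of_notMem ha]
    refine sup_pow_le _ _ _ _ ?_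
    intro i j hij
    have hi : Ideal.span {t a} ^ i ≤ Ideal.span {t a ^ q} ^ (i / q) := by
      rw [Ideal.span_singleton_pow, Ideal.span_singleton_pow, Ideal.span_singleton_le_span_singleton,
        ← pow_mul]
      exact pow_dvd_pow _ (Nat.mul_div_le i q)
    have hj : Ideal.span (t '' (s : Set κ)) ^ j ≤
        Ideal.span ((fun i => t i ^ q) '' (s : Set κ)) ^ (j / q - s.card) := by
      rcases le_or_gt s.card (j / q) with hle | hlt
      · refine le_trans (Ideal.pow_le_pow_right ?_) (ih (j / q - s.card))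
        rw [Nat.sub_add_cancel hle]
        exact Nat.mul_div_le j q
      · rw [Nat.sub_eq_zero_of_le hlt.le, pow_zero, Ideal.one_eq_top]; exact le_top
    have hsum : m ≤ i / q + (j / q - s.card) := by
      have h1 : (i + j) / q = m + (s.card + 1) := by
        rw [hij, Nat.mul_div_cancel_left _ hq]
      have h2 : (i + j) / q ≤ i / q + j / q + 1 := by
        rw [Nat.div_le_iff_le_mul_add_pred hq]
        have e1 := Nat.div_add_mod i q
        have e2 := Nat.div_add_mod j q
        have e3 := Nat.mod_lt i hq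
        have e4 := Nat.mod_lt j hq
        have e5 : q * (i / q + j / q + 1) = q * (i / q) + q * (j / q) + q := by ring
        omega
      omega
    calc Ideal.span {t a} ^ i * Ideal.span (t '' (s : Set κ)) ^ j
        ≤ Ideal.span {t a ^ q} ^ (i / q) *
          Ideal.span ((fun i => t i ^ q) '' (s : Set κ)) ^ (j / q - s.card) := Ideal.mul_mono hi hj
      _ ≤ (Ideal.span {t a ^ q} ⊔ Ideal.span ((fun i => t i ^ q) '' (s : Set κ))) ^ (i / q) *
          (Ideal.span {t a ^ q} ⊔ Ideal.span ((fun i => t i ^ q) '' (s : Set κ))) ^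
            (j / q - s.card) :=
          Ideal.mul_mono (Ideal.pow_right_mono le_sup_left _) (Ideal.pow_right_mono le_sup_right _)
      _ = (Ideal.span {t a ^ q} ⊔ Ideal.span ((fun i => t i ^ q) '' (s : Set κ))) ^
            (i / q + (j / q - s.card)) := (pow_add _ _ _).symm
      _ ≤ _ := Ideal.pow_le_pow_right hsum

/-- `(t)^{qN} ⊆ (t^q)^{N-d}` for a family of `d` elements (in the form `N = m + d`). -/
lemma span_pow_le {R : Type*} [CommRing R] {κ : Type*} [Fintype κ] (t : κ → R) (q : ℕ)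
    (hq : 0 < q) (m : ℕ) :
    Ideal.span (Set.range t) ^ (q * (m + Fintype.card κ)) ≤
      Ideal.span (Set.range fun i => t i ^ q) ^ m := by
  have := span_pow_le_aux t q hq Finset.univ m
  simpa [Finset.card_univ] using this

/-! ### roots -/

section Roots

variable {p : ℕ} [hp : Fact p.Prime] {P : Type u} [CommRing P] [CharP P p] [PerfectRing P p]

/-- the `p^e`-th root automorphism. -/
noncomputable def rt (e : ℕ) : P ≃+* P := (iterateFrobeniusEquiv P p e).symm

lemma rt_pow (e : ℕ) (a : P) : (rt (p := p) e a) ^ p ^ e = a := by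
  have := (iterateFrobeniusEquiv P p e).apply_symm_apply a
  rwa [iterateFrobeniusEquiv_def] at this

lemma rt_of_pow (e : ℕ) (a : P) : rt (p := p) e (a ^ p ^ e) = a := by
  have := (iterateFrobeniusEquiv P p e).symm_apply_apply a
  rwa [iterateFrobeniusEquiv_def] at this

lemma map_rt_span (e : ℕ) {κ : Type*} (z : κ → P) (m : ℕ) {a : P}
    (h : a ∈ Ideal.span (Set.range z) ^ m) :
    rt (p := p) e a ∈ Ideal.span (Set.range fun i => rt (p := p) e (z i)) ^ m := by
  have := Ideal.mem_map_of_mem ((rt (p := p) e : P ≃+* P) : P →+* P) h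
  rw [Ideal.map_pow, Ideal.map_span, ← Set.range_comp] at this
  exact this

/-- Lemma B. -/
lemma IntOver.root_mem {κ : Type*} {z : κ → P} {x : P} (h : IntOver (Ideal.span (Set.range z)) x) :
    ∃ n : ℕ, ∀ e N : ℕ, n + N ≤ p ^ e →
      x ∈ Ideal.span (Set.range fun i => rt (p := p) e (z i)) ^ N := by
  obtain ⟨n, hn⟩ := h.pow_mem
  refine ⟨n, fun e N hN => ?_⟩
  have h1 : x ^ p ^ e ∈ Ideal.span (Set.range z) ^ N := by
    have := hn (p ^ e - n)
    rw [Nat.add_sub_cancel' (by omega)] at this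
    exact Ideal.pow_le_pow_right (by omega) this
  have := map_rt_span (p := p) e z N h1
  rwa [rt_of_pow] at this

/-- Lemma C. -/
lemma teich_mem {κ : Type*} [Fintype κ] (ζ : κ → P) {a : P} {N m : ℕ}
    (hN : m + Fintype.card κ ≤ N) (ha : a ∈ Ideal.span (Set.range ζ) ^ N) (k : ℕ) :
    teichmuller p a ∈ Ideal.span (Set.range fun i => teichmuller p (ζ i)) ^ m ⊔
      Ideal.span {(p : WittVector p P) ^ (k + 1)} := by
  -- `p^k`-th root
  have ha' : rt (p := p) k a ∈ Ideal.span (Set.range fun i => rt (p := p) k (ζ i)) ^ N :=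
    map_rt_span k ζ N ha
  have hsurj : Function.Surjective (constantCoeff : WittVector p P →+* P) :=
    constantCoeff_surjective p
  have hmap : Ideal.map (constantCoeff : WittVector p P →+* P)
      (Ideal.span (Set.range fun i => teichmuller p (rt (p := p) k (ζ i))) ^ N) =
      Ideal.span (Set.range fun i => rt (p := p) k (ζ i)) ^ N := by
    rw [Ideal.map_pow, Ideal.map_span, ← Set.range_comp]
    have e1 : ((constantCoeff : WittVector p P →+* P) ∘
        fun i => teichmuller p (rt (p := p) k (ζ i))) = fun i => rt (p := p) k (ζ i) := by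
      funext i
      simp [constantCoeff]
    rw [e1]
  rw [← hmap] at ha'
  obtain ⟨w, hw, hwa⟩ := (Ideal.mem_map_iff_of_surjective _ hsurj).1 ha'
  have hdvd : (p : WittVector p P) ∣ teichmuller p (rt (p := p) k a) - w := by
    rw [← Ideal.mem_span_singleton, mem_span_p_iff_coeff_zero_eq_zero]
    show constantCoeff (teichmuller p (rt (p := p) k a) - w) = 0
    rw [map_sub, hwa]
    simp [constantCoeff]
  have hdvd2 := dvd_sub_pow_of_dvd_sub hdvd k
  rw [← map_pow, rt_pow] at hdvd2
  obtain ⟨c, hc⟩ := hdvd2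
  have hw2 : w ^ p ^ k ∈ Ideal.span (Set.range fun i => teichmuller p (ζ i)) ^ m := by
    have h1 : w ^ p ^ k ∈ (Ideal.span (Set.range fun i =>
        teichmuller p (rt (p := p) k (ζ i))) ^ N) ^ p ^ k := Ideal.pow_mem_pow hw _
    rw [← pow_mul] at h1
    have h2 : w ^ p ^ k ∈ Ideal.span (Set.range fun i =>
        teichmuller p (rt (p := p) k (ζ i))) ^ (p ^ k * (m + Fintype.card κ)) := by
      refine Ideal.pow_le_pow_right ?_ h1
      rw [mul_comm]
      exact Nat.mul_le_mul_right _ hN
    have h3 := span_pow_le _ (p ^ k) (pow_pos hp.out.pos k) m h2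
    have h4 : (fun i => teichmuller p (rt (p := p) k (ζ i)) ^ p ^ k)
        = fun i => teichmuller p (ζ i) := by
      funext i
      rw [← map_pow, rt_pow]
    rwa [h4] at h3
  have : teichmuller p a = w ^ p ^ k + (p : WittVector p P) ^ (k + 1) * c := by
    rw [← hc]; ring
  rw [this]
  exact Submodule.add_mem_sup hw2 (Ideal.mul_mem_right _ _ (Ideal.mem_span_singleton_self _))

/-- the prime `p` is in the Jacobson radical of `W(P)`. -/
lemma p_mem_jacobson : (p : WittVector p P) ∈ Ideal.jacobson (⊥ : Ideal (WittVector p P)) :=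
  IsAdicComplete.le_jacobson_bot (Ideal.span {(p : WittVector p P)})
    (Ideal.mem_span_singleton_self _)

/-- **The amplifier.**  `x` a finite family of sharps generating an ideal that contains `p` modulo
`E = p u - [π]`, `(x)^{c+1} ⊆ (z)(x)^c` and `p^M ∈ (z)` modulo `E`, `π` in the Jacobson radical of
`P`.  Then there is a constant `n` with `x_j ∈ (z^{1/q})^N` modulo `E` for all `q = p^e ≥ N + n`. -/
theorem amplifier {ι κ : Type*} [Finite ι] [Fintype κ]
    (x : ι → P) (z : κ → P) (u : WittVector p P) (hu : IsUnit u) (π : P)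
    (hπ : π ∈ Ideal.jacobson (⊥ : Ideal P)) (M c : ℕ)
    (H1 : (p : WittVector p P) ^ M ∈
      Ideal.span (Set.range fun i => teichmuller p (z i)) ⊔ Ideal.span {xi u π})
    (H2 : Ideal.span (Set.range fun i => teichmuller p (x i)) ^ (c + 1) ≤
      Ideal.span (Set.range fun i => teichmuller p (z i)) *
        Ideal.span (Set.range fun i => teichmuller p (x i)) ^ c ⊔ Ideal.span {xi u π})
    (H3 : (p : WittVector p P) ∈
      Ideal.span (Set.range fun i => teichmuller p (x i)) ⊔ Ideal.span {xi u π}) :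
    ∃ n : ℕ, ∀ e N : ℕ, n + N ≤ p ^ e →
      Ideal.span (Set.range fun i => teichmuller p (x i)) ≤
        Ideal.span (Set.range fun i => teichmuller p (rt (p := p) e (z i))) ^ N ⊔
          Ideal.span {xi u π} := by
  classical
  have := Fintype.ofFinite ι
  obtain ⟨M', hM'⟩ := lemmaA' z u π hπ M H1
  have hA : ∀ j, IntOver (Ideal.span (Set.range z)) (x j) := fun j =>
    lemmaA x z u hu π M' hM' c H2 j
  choose n hn using fun j => (hA j).root_mem (p := p)
  refine ⟨(Finset.univ.sup n) + Fintype.card κ, ?_⟩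
  intro e N hN
  set 𝔷 := Ideal.span (Set.range fun i => teichmuller p (rt (p := p) e (z i))) ^ N with h𝔷
  have h1 : Ideal.span (Set.range fun i => teichmuller p (x i)) ≤
      𝔷 ⊔ Ideal.span {(p : WittVector p P) ^ 2} := by
    rw [Ideal.span_le]
    rintro _ ⟨j, rfl⟩
    have hj : x j ∈ Ideal.span (Set.range fun i => rt (p := p) e (z i)) ^
        (N + Fintype.card κ) := by
      refine hn j e (N + Fintype.card κ) ?_
      have := Finset.le_sup (f := n) (Finset.mem_univ j)
      omega
    exact teich_mem _ le_rfl hj 1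
  have h2 : (p : WittVector p P) ∈ 𝔷 ⊔ Ideal.span {xi u π} := by
    have h3 : (p : WittVector p P) ∈ (𝔷 ⊔ Ideal.span {xi u π}) ⊔
        Ideal.span {(p : WittVector p P) ^ 2} := by
      have := sup_le_sup_right h1 (Ideal.span {xi u π}) H3
      rw [sup_right_comm] at this
      exact this
    obtain ⟨a, ha, b, hb, hab⟩ := Submodule.mem_sup.1 h3
    obtain ⟨r, rfl⟩ := Ideal.mem_span_singleton'.1 hb
    have hun : IsUnit (1 - (p : WittVector p P) * r) := by
      have := Ideal.mem_jacobson_bot.1 (p_mem_jacobson (p := p) (P := P)) (-r)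
      have e1 : (p : WittVector p P) * -r + 1 = 1 - p * r := by ring
      rwa [e1] at this
    obtain ⟨v, hv⟩ := hun
    have h4 : (p : WittVector p P) * v = a := by
      rw [hv]
      have : (p : WittVector p P) = a + r * (p : WittVector p P) ^ 2 := hab.symm
      linear_combination this
    have h5 : (p : WittVector p P) = a * (v⁻¹ : (WittVector p P)ˣ) := by
      rw [← h4, mul_assoc, Units.mul_inv, mul_one]
    rw [h5]
    exact Ideal.mul_mem_right _ _ ha
  refine h1.trans (sup_le le_sup_left ?_)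
  rw [Ideal.span_singleton_le_iff_mem, sq]
  exact Ideal.mul_mem_left _ _ h2

end Roots

end Crest.Agent.R183.Amp
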