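import Mathlib

-- ▼ part R183/BCM1
section

/-!
# R183 (Lech), block BCM, part 1: flat descent of submodules of free modules
(helper523)
-/

set_option autoImplicit false

namespace Crest.Agent.R183.BCM

open TensorProduct

universe u

section finite

variable {R R₁ : Type u} [CommRing R] [CommRing R₁] [Algebra R R₁]
variable {ι : Type}

/-- The base change map `(ι → R) → (ι → R₁)`. -/
def bc (R : Type u) {R₁ : Type u} [CommRing R] [CommRing R₁] [Algebra R R₁] (ι : Type) :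
    (ι → R) →ₗ[R] (ι → R₁) where
  toFun v := fun i => algebraMap R R₁ (v i)
  map_add' v w := by ext i; simp
  map_smul' r v := by ext i; simp [Algebra.smul_def]

@[simp] theorem bc_apply (v : ι → R) (i : ι) : bc R ι v i = algebraMap R R₁ (v i) := rfl

/-- The submodule of `R`-points of a submodule `S` of `ι → R₁`. -/
def pts (S : Submodule R₁ (ι → R₁)) : Submodule R (ι → R) :=
  (S.restrictScalars R).comap (bc R ι)

@[simp] theorem mem_pts {S : Submodule R₁ (ι → R₁)} {v : ι → R} :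
    v ∈ pts (R := R) S ↔ bc R ι v ∈ S := Iff.rfl

/-- The two embeddings of `ι → R₁` into `ι → R₁ ⊗ R₁`. -/
def incl₂ (R : Type u) {R₁ : Type u} [CommRing R] [CommRing R₁] [Algebra R R₁] {ι : Type}
    (v : ι → R₁) : ι → R₁ ⊗[R] R₁ := fun i => v i ⊗ₜ[R] (1 : R₁)

def incl₁ (R : Type u) {R₁ : Type u} [CommRing R] [CommRing R₁] [Algebra R R₁] {ι : Type}
    (v : ι → R₁) : ι → R₁ ⊗[R] R₁ := fun i => (1 : R₁) ⊗ₜ[R] v i

/-- `R₁ ⊗ (ι → R) → (ι → R₁)`. -/
noncomputable def mulMap (R R₁ : Type u) [CommRing R] [CommRing R₁] [Algebra R R₁] (ι : Type) :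
    R₁ ⊗[R] (ι → R) →ₗ[R] (ι → R₁) :=
  TensorProduct.lift
    { toFun := fun x =>
        { toFun := fun v => x • bc R ι v
          map_add' := by intro v w; rw [map_add, smul_add]
          map_smul' := by intro r v; rw [map_smul, smul_comm, RingHom.id_apply] }
      map_add' := by intro x y; ext v; simp [add_mul]
      map_smul' := by intro r x; ext v; simp }

@[simp] theorem mulMap_tmul (x : R₁) (v : ι → R) :
    mulMap R R₁ ι (x ⊗ₜ v) = x • bc R ι v := rfl

variable [Fintype ι] [DecidableEq ι]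

/-- `(ι → R₁ ⊗ R₁) → R₁ ⊗ ((ι → R₁) / S)`. -/
noncomputable def psi (S : Submodule R₁ (ι → R₁)) :
    (ι → R₁ ⊗[R] R₁) →ₗ[R] R₁ ⊗[R] ((ι → R₁) ⧸ S) :=
  ∑ i, (LinearMap.lTensor R₁ ((S.mkQ.restrictScalars R).comp
    (LinearMap.single R (fun _ : ι => R₁) i))).comp (LinearMap.proj i)

theorem psi_apply (S : Submodule R₁ (ι → R₁)) (w : ι → R₁ ⊗[R] R₁) :
    psi (R := R) S w = ∑ i, (LinearMap.lTensor R₁ ((S.mkQ.restrictScalars R).comp
    (LinearMap.single R (fun _ : ι => R₁) i))) (w i) := by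
  simp [psi]

theorem psi_smul_tmul (S : Submodule R₁ (ι → R₁)) (x y : R₁) (w : ι → R₁ ⊗[R] R₁) :
    psi (R := R) S ((x ⊗ₜ[R] y) • w) =
      TensorProduct.map (LinearMap.mulLeft R x)
        (((LinearMap.lsmul R₁ ((ι → R₁) ⧸ S) y)).restrictScalars R) (psi (R := R) S w) := by
  rw [psi_apply, psi_apply, map_sum]
  refine Finset.sum_congr rfl fun i _ => ?_
  rw [Pi.smul_apply, smul_eq_mul]
  induction w i using TensorProduct.induction_on with
  | zero => simp
  | tmul a b =>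
    simp only [Algebra.TensorProduct.tmul_mul_tmul, LinearMap.lTensor_tmul, LinearMap.comp_apply,
      TensorProduct.map_tmul, LinearMap.mulLeft_apply, LinearMap.restrictScalars_apply,
      LinearMap.lsmul_apply, Submodule.mkQ_apply]
    congr 1
    rw [← Submodule.Quotient.mk_smul]
    congr 1
    ext j
    by_cases h : j = i
    · subst h; simp
    · simp [h]
  | add a b ha hb => rw [mul_add, map_add, ha, hb, map_add, map_add]

theorem psi_incl₁ (S : Submodule R₁ (ι → R₁)) {t : ι → R₁} (ht : t ∈ S) :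
    psi (R := R) S (incl₁ R t) = 0 := by
  rw [psi_apply]
  simp only [incl₁, LinearMap.lTensor_tmul]
  rw [← TensorProduct.tmul_sum]
  have : ∑ i, ((S.mkQ.restrictScalars R).comp (LinearMap.single R (fun _ : ι => R₁) i)) (t i)
      = 0 := by
    simp only [LinearMap.comp_apply, LinearMap.restrictScalars_apply]
    rw [← map_sum]
    have h2 : ∑ i, (LinearMap.single R (fun _ : ι => R₁) i) (t i) = t := by
      ext j
      simp [Finset.sum_apply, Pi.single_apply]
    rw [h2]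
    simpa using ht
  rw [this, TensorProduct.tmul_zero]

theorem psi_eq_zero_of_mem_span (S : Submodule R₁ (ι → R₁)) {w : ι → R₁ ⊗[R] R₁}
    (hw : w ∈ Submodule.span (R₁ ⊗[R] R₁) (incl₁ R '' (S : Set (ι → R₁)))) :
    psi (R := R) S w = 0 := by
  induction hw using Submodule.span_induction with
  | mem x hx =>
    obtain ⟨t, ht, rfl⟩ := hx
    exact psi_incl₁ S ht
  | zero => exact map_zero _
  | add x y _ _ hx hy => rw [map_add, hx, hy, add_zero]
  | smul a x _ hx =>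
    induction a using TensorProduct.induction_on with
    | zero => rw [zero_smul, map_zero]
    | tmul a b => rw [psi_smul_tmul, hx, map_zero]
    | add a b ha hb => rw [add_smul, map_add, ha, hb, add_zero]

/-- **Descent lemma.** A submodule `S` of `ι → R₁` with `S ⊗ 1 ⊆ 1 ⊗ S` (inside `ι → R₁ ⊗ R₁`,
up to scalars) is generated by its `R`-points. -/
theorem span_pts_eq [Module.Flat R R₁] (S : Submodule R₁ (ι → R₁))
    (h : ∀ s ∈ S, incl₂ R s ∈ Submodule.span (R₁ ⊗[R] R₁) (incl₁ R '' (S : Set (ι → R₁)))) :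
    Submodule.span R₁ (bc R ι '' (pts (R := R) S : Set (ι → R))) = S := by
  apply le_antisymm
  · rw [Submodule.span_le]
    rintro _ ⟨v, hv, rfl⟩
    exact hv
  intro s hs
  -- the map `φ : (ι → R) → (ι → R₁)/S`
  let φ : (ι → R) →ₗ[R] ((ι → R₁) ⧸ S) := (S.mkQ.restrictScalars R).comp (bc R ι)
  have hker : LinearMap.ker φ = pts (R := R) S := by
    ext v
    simp [φ]
  let sh : R₁ ⊗[R] (ι → R) := ∑ i, s i ⊗ₜ[R] (Pi.single i (1 : R) : ι → R)
  have h1 : LinearMap.lTensor R₁ φ sh = psi (R := R) S (incl₂ R s) := by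
    rw [psi_apply, map_sum]
    refine Finset.sum_congr rfl fun i _ => ?_
    simp only [incl₂, LinearMap.lTensor_tmul, φ, LinearMap.comp_apply,
      LinearMap.restrictScalars_apply]
    congr 2
    ext j
    by_cases hj : j = i
    · subst hj; simp
    · simp [hj]
  have h2 : LinearMap.lTensor R₁ φ sh = 0 := by
    rw [h1]; exact psi_eq_zero_of_mem_span S (h s hs)
  have h3 : sh ∈ LinearMap.range (LinearMap.lTensor R₁ (LinearMap.ker φ).subtype) := by
    have := Module.Flat.lTensor_exact R₁ (LinearMap.exact_subtype_ker_map φ)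
    exact (this sh).1 h2
  obtain ⟨y, hy⟩ := h3
  have h4 : mulMap R R₁ ι sh = s := by
    simp only [sh, map_sum, mulMap_tmul]
    ext j
    simp [Finset.sum_apply, Pi.single_apply, apply_ite (algebraMap R R₁)]
  rw [← h4, ← hy]
  clear hy h4
  induction y using TensorProduct.induction_on with
  | zero => simp
  | tmul x v =>
    rw [LinearMap.lTensor_tmul, mulMap_tmul]
    apply Submodule.smul_mem
    apply Submodule.subset_span
    refine ⟨v, ?_, rfl⟩
    exact hker.le v.2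
  | add a b ha hb => rw [map_add, map_add]; exact Submodule.add_mem _ ha hb

end finite

end Crest.Agent.R183.BCM
end

-- ▼ part R183/BCM2
section

/-!
# R183 (Lech), block BCM, part 2: descent along a tower, the limit module `X`
(helper523)
-/

set_option autoImplicit false

namespace Crest.Agent.R183.BCM

open TensorProduct

universe u

section tower

variable {A A₁ : Type u} [CommRing A] [CommRing A₁] [Algebra A A₁] {ι : Type}

/-- `b ^ N • M` as a submodule. -/
def P {B : Type u} [CommRing B] (ι : Type) (b : B) (N : ℕ) : Submodule B (ι → B) :=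
  LinearMap.range (LinearMap.lsmul B (ι → B) (b ^ N))

theorem mem_P {B : Type u} [CommRing B] {b : B} {N : ℕ} {v : ι → B} :
    v ∈ P ι b N ↔ ∃ w, b ^ N • w = v := by
  simp [P, LinearMap.mem_range]

theorem P_mono {B : Type u} [CommRing B] {b : B} {N M : ℕ} (h : N ≤ M) :
    P ι b M ≤ P ι b N := by
  intro v hv
  obtain ⟨w, rfl⟩ := mem_P.1 hv
  obtain ⟨k, rfl⟩ := Nat.exists_eq_add_of_le h
  exact mem_P.2 ⟨b ^ k • w, by rw [smul_smul, pow_add]⟩


theorem smul_mem_P {B : Type u} [CommRing B] {b : B} {N : ℕ} (w : ι → B) :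
    b ^ N • w ∈ P ι b N := mem_P.2 ⟨w, rfl⟩

/-- `x ∈ ι → A` with `x ∈ L` modulo `a ^ N`. -/
def XN (a : A) (L : Submodule A₁ (ι → A₁)) (N : ℕ) : Submodule A (ι → A) :=
  pts (L ⊔ P ι (algebraMap A A₁ a) N)

/-- The limit module. -/
def X (a : A) (L : Submodule A₁ (ι → A₁)) : Submodule A (ι → A) := ⨅ N, XN a L N

theorem mem_X {a : A} {L : Submodule A₁ (ι → A₁)} {x : ι → A} :
    x ∈ X a L ↔ ∀ N, bc A ι x ∈ L ⊔ P ι (algebraMap A A₁ a) N := by
  simp only [X, XN, Submodule.mem_iInf, mem_pts]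


/-- The `A₁`-span of a submodule of `ι → A`. -/
def sp (A₁ : Type u) [CommRing A₁] [Algebra A A₁] (T : Submodule A (ι → A)) :
    Submodule A₁ (ι → A₁) := Submodule.span A₁ (bc A ι '' (T : Set (ι → A)))

theorem bc_mem_sp {T : Submodule A (ι → A)} {x : ι → A} (hx : x ∈ T) : bc A ι x ∈ sp A₁ T :=
  Submodule.subset_span ⟨x, hx, rfl⟩

theorem sp_le {T : Submodule A (ι → A)} {M : Submodule A₁ (ι → A₁)} :
    sp A₁ T ≤ M ↔ ∀ x ∈ T, bc A ι x ∈ M := by
  rw [sp, Submodule.span_le]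
  constructor
  · intro h x hx; exact h ⟨x, hx, rfl⟩
  · rintro h _ ⟨x, hx, rfl⟩; exact h x hx

theorem sp_mono {T T' : Submodule A (ι → A)} (h : T ≤ T') : sp A₁ T ≤ sp A₁ T' :=
  sp_le.2 fun x hx => bc_mem_sp (h hx)

theorem sp_sup (T T' : Submodule A (ι → A)) : sp A₁ (T ⊔ T') = sp A₁ T ⊔ sp A₁ T' := by
  apply le_antisymm
  · rw [sp_le]
    intro x hx
    obtain ⟨t, ht, t', ht', rfl⟩ := Submodule.mem_sup.1 hx
    rw [map_add]
    exact Submodule.add_mem_sup (bc_mem_sp ht) (bc_mem_sp ht')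
  · exact sup_le (sp_mono le_sup_left) (sp_mono le_sup_right)

theorem bc_pow_smul (a : A) (N : ℕ) (x : ι → A) :
    (bc A ι (a ^ N • x) : ι → A₁) = (algebraMap A A₁ a) ^ N • bc A ι x := by
  ext i; simp [Algebra.smul_def]

theorem bc_smul (a : A) (x : ι → A) :
    (bc A ι (a • x) : ι → A₁) = (algebraMap A A₁ a) • bc A ι x := by
  ext i; simp

theorem bc_mem_P {a : A} {N : ℕ} {x : ι → A} (hx : x ∈ P ι a N) :
    bc A ι x ∈ P ι (algebraMap A A₁ a) N := by
  obtain ⟨w, rfl⟩ := mem_P.1 hx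
  rw [bc_pow_smul]
  exact smul_mem_P _

theorem sp_P_le (a : A) (N : ℕ) : sp A₁ (P ι a N) ≤ P ι (algebraMap A A₁ a) N :=
  sp_le.2 fun _ hx => bc_mem_P hx

/-- The data for descent along the tower `A/a^N → A₁/a^N`. -/
structure Tower (a : A) (L : Submodule A₁ (ι → A₁)) (c : ℕ) : Prop where
  reg : ∀ x : A, a * x = 0 → x = 0
  reg₁ : ∀ x : A₁, algebraMap A A₁ a * x = 0 → x = 0
  ar : ∀ (N : ℕ) (w : ι → A₁), (algebraMap A A₁ a) ^ N • w ∈ L → (algebraMap A A₁ a) ^ c • w ∈ L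
  fl : ∀ N : ℕ, L ≤ sp A₁ (XN a L N) ⊔ P ι (algebraMap A A₁ a) N
  ff : ∀ (N : ℕ) (T : Submodule A (ι → A)) (x : ι → A),
    bc A ι x ∈ sp A₁ T ⊔ P ι (algebraMap A A₁ a) N → x ∈ T ⊔ P ι a N

namespace Tower

variable {a : A} {L : Submodule A₁ (ι → A₁)} {c : ℕ} (h : Tower a L c)
include h

theorem reg_pow (N : ℕ) (x : ι → A) (hx : a ^ N • x = 0) : x = 0 := by
  induction N generalizing x with
  | zero => simpa using hx
  | succ N ih =>
    apply ih
    rw [pow_succ', ← smul_smul] at hx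
    ext i
    have := congrFun hx i
    simp only [Pi.smul_apply, smul_eq_mul, Pi.zero_apply] at this
    simpa using h.reg _ this


theorem XN_le_succ (N M : ℕ) (hNM : N ≤ M) : XN a L N ≤ XN a L M ⊔ P ι a N := by
  intro x hx
  apply h.ff N
  have h1 : bc A ι x ∈ L ⊔ P ι (algebraMap A A₁ a) N := hx
  have h2 : L ⊔ P ι (algebraMap A A₁ a) N ≤ sp A₁ (XN a L M) ⊔ P ι (algebraMap A A₁ a) N :=
    sup_le ((h.fl M).trans (sup_le le_sup_left ((P_mono hNM).trans le_sup_right))) le_sup_right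
  exact h2 h1

/-- Elements of `X_N` lift to `X` modulo `a ^ N`. -/
theorem XN_le [hA : IsAdicComplete (Ideal.span {a}) A] [Fintype ι] (N : ℕ) :
    XN a L N ≤ X a L ⊔ P ι a N := by
  intro x hx
  -- sequence
  have step : ∀ (k : ℕ) (y : XN a L (N + k)), ∃ z : XN a L (N + (k + 1)),
      ∃ w : ι → A, (z : ι → A) = y + a ^ (N + k) • w := by
    intro k y
    obtain ⟨z, hz, w, hw, hzw⟩ := Submodule.mem_sup.1
      (h.XN_le_succ (N + k) (N + (k + 1)) (by omega) y.2)
    obtain ⟨w', rfl⟩ := mem_P.1 hw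
    refine ⟨⟨z, hz⟩, -w', ?_⟩
    simp only [smul_neg]
    rw [← hzw]
    abel
  choose f g hfg using step
  let s : ∀ k : ℕ, XN a L (N + k) := fun k =>
    Nat.rec (motive := fun k => XN a L (N + k)) ⟨x, hx⟩ (fun k y => f k y) k
  have hs : ∀ k, (s (k + 1) : ι → A) = s k + a ^ (N + k) • g k (s k) := fun k => hfg k (s k)
  have hdiff : ∀ (k m : ℕ), ∃ w : ι → A, (s (k + m) : ι → A) = s k + a ^ (N + k) • w := by
    intro k m
    induction m with
    | zero => exact ⟨0, by simp⟩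
    | succ m ih =>
      obtain ⟨w, hw⟩ := ih
      refine ⟨w + a ^ m • g (k + m) (s (k + m)), ?_⟩
      have := hs (k + m)
      rw [show k + (m + 1) = (k + m) + 1 from rfl, this, hw, smul_add, smul_smul, ← pow_add,
        add_assoc, ← add_assoc N k m]
  -- coordinatewise limit
  have hlim : ∀ i : ι, ∃ y : A, ∀ k, ∃ w, y = (s k : ι → A) i + a ^ (N + k) * w := by
    intro i
    have hc : ∀ {m n : ℕ}, m ≤ n → ((s m : ι → A) i) ≡ ((s n : ι → A) i)
        [SMOD (Ideal.span {a} ^ m • ⊤ : Submodule A A)] := by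
      intro m n hmn
      obtain ⟨k, rfl⟩ := Nat.exists_eq_add_of_le hmn
      obtain ⟨w, hw⟩ := hdiff m k
      rw [SModEq.sub_mem, Ideal.span_singleton_pow, smul_eq_mul, Ideal.mul_top,
        Ideal.mem_span_singleton, hw]
      refine ⟨-(a ^ N * w i), ?_⟩
      simp only [Pi.add_apply, Pi.smul_apply, smul_eq_mul]
      rw [pow_add]
      ring
    obtain ⟨y, hy⟩ := IsPrecomplete.prec (I := Ideal.span {a}) (M := A) hA.toIsPrecomplete hc
    have hy' : ∀ k, a ^ k ∣ (s k : ι → A) i - y := by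
      intro k
      have := hy k
      rw [SModEq.sub_mem, Ideal.span_singleton_pow, smul_eq_mul, Ideal.mul_top,
        Ideal.mem_span_singleton] at this
      exact this
    refine ⟨y, fun k => ?_⟩
    obtain ⟨v, hv⟩ := hy' (N + k)
    obtain ⟨w, hw⟩ := hdiff k N
    rw [show k + N = N + k from Nat.add_comm k N] at hw
    refine ⟨w i - v, ?_⟩
    have h2 := congrFun hw i
    simp only [Pi.add_apply, Pi.smul_apply, smul_eq_mul] at h2
    rw [h2] at hv
    linear_combination -hv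
  choose y hy using hlim
  choose w hw using hy
  have hy' : ∀ k, y = s k + a ^ (N + k) • (fun i => w i k) := by
    intro k
    ext i
    simp only [Pi.add_apply, Pi.smul_apply, smul_eq_mul]
    exact hw i k
  have hyX : y ∈ X a L := by
    rw [mem_X]
    intro k
    rw [hy' k, map_add]
    have h1 : bc A ι (s k : ι → A) ∈ L ⊔ P ι (algebraMap A A₁ a) (N + k) := (s k).2
    refine Submodule.add_mem _ ?_ ?_
    · have h2 : L ⊔ P ι (algebraMap A A₁ a) (N + k) ≤ L ⊔ P ι (algebraMap A A₁ a) k :=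
        sup_le_sup_left (P_mono (by omega)) _
      exact h2 h1
    · rw [bc_pow_smul]
      exact (le_sup_right : _ ≤ L ⊔ _) (P_mono (by omega) (smul_mem_P _))
  have h0 := hy' 0
  have h0' : x = y + a ^ N • (-(fun i => w i 0)) := by
    have : (s 0 : ι → A) = x := rfl
    rw [this] at h0
    rw [h0]
    simp only [smul_neg, Nat.add_zero]
    abel
  rw [h0']
  exact Submodule.add_mem_sup hyX (smul_mem_P _)

theorem L_le [hA : IsAdicComplete (Ideal.span {a}) A] [Fintype ι] (N : ℕ) :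
    L ≤ sp A₁ (X a L) ⊔ P ι (algebraMap A A₁ a) N := by
  refine (h.fl N).trans (sup_le ?_ le_sup_right)
  refine (sp_mono (h.XN_le N)).trans ?_
  rw [sp_sup]
  exact sup_le_sup_left (sp_P_le a N) _

theorem arX (N : ℕ) (x : ι → A) (hx : a ^ N • x ∈ X a L) : a ^ c • x ∈ X a L := by
  rw [mem_X] at hx ⊢
  intro M
  obtain ⟨l, hl, w, hw, hlw⟩ := Submodule.mem_sup.1 (hx (N + M))
  obtain ⟨v, rfl⟩ := mem_P.1 hw
  rw [bc_pow_smul] at hlw ⊢
  have h1 : l = (algebraMap A A₁ a) ^ N • (bc A ι x - (algebraMap A A₁ a) ^ M • v) := by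
    rw [smul_sub, smul_smul, ← pow_add, ← hlw]
    abel
  rw [h1] at hl
  have h2 := h.ar _ _ hl
  have h3 : (algebraMap A A₁ a) ^ c • bc A ι x =
      (algebraMap A A₁ a) ^ c • (bc A ι x - (algebraMap A A₁ a) ^ M • v)
        + (algebraMap A A₁ a) ^ M • ((algebraMap A A₁ a) ^ c • v) := by
    rw [smul_sub, smul_comm ((algebraMap A A₁ a) ^ M)]
    abel
  rw [h3]
  exact Submodule.add_mem_sup h2 (smul_mem_P _)

/-- The basic descent principle. -/
theorem mem_of_bc_mem {J : Submodule A (ι → A)} (hJ : J ≤ X a L) {N : ℕ}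
    (hN : ∀ x ∈ X a L, a ^ N • x ∈ J) {x : ι → A} (hx : x ∈ X a L)
    (hx' : bc A ι x ∈ sp A₁ J ⊔ P ι (algebraMap A A₁ a) (N + c)) : x ∈ J := by
  obtain ⟨j, hj, w, hw, hjw⟩ := Submodule.mem_sup.1 (h.ff _ _ _ hx')
  obtain ⟨v, rfl⟩ := mem_P.1 hw
  have h1 : a ^ (N + c) • v ∈ X a L := by
    have : a ^ (N + c) • v = x - j := by rw [← hjw]; abel
    rw [this]
    exact Submodule.sub_mem _ hx (hJ hj)
  have h2 := h.arX _ _ h1
  rw [← hjw]
  refine Submodule.add_mem _ hj ?_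
  rw [pow_add, ← smul_smul]
  exact hN _ h2

end Tower

end tower

end Crest.Agent.R183.BCM
end

-- ▼ part R183/BCM3
section

/-!
# R183 (Lech), block BCM, part 3: the hypotheses of `Tower` from (faithfully) flat maps of
quotient rings and from the tensor square
(helper523)
-/

set_option autoImplicit false

namespace Crest.Agent.R183.BCM

open TensorProduct

universe u

section level

variable {R R₁ : Type u} [CommRing R] [CommRing R₁] [Algebra R R₁] {ι : Type}

/-- `v ↦ ∑ v i ⊗ [e i]`. -/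
noncomputable def chi [Fintype ι] [DecidableEq ι] (T : Submodule R (ι → R)) :
    (ι → R₁) →ₗ[R₁] R₁ ⊗[R] ((ι → R) ⧸ T) where
  toFun v := ∑ i, v i ⊗ₜ[R] T.mkQ (Pi.single i (1 : R))
  map_add' v w := by
    simp only [Pi.add_apply, TensorProduct.add_tmul, Finset.sum_add_distrib]
  map_smul' r v := by
    simp only [Pi.smul_apply, smul_eq_mul, RingHom.id_apply, Finset.smul_sum,
      TensorProduct.smul_tmul']

theorem chi_bc [Fintype ι] [DecidableEq ι] (T : Submodule R (ι → R)) (x : ι → R) :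
    chi (R₁ := R₁) T (bc R ι x) = 1 ⊗ₜ[R] T.mkQ x := by
  change ∑ i, (algebraMap R R₁ (x i)) ⊗ₜ[R] T.mkQ (Pi.single i (1 : R)) = _
  have h1 : x = ∑ i, x i • (Pi.single i (1 : R) : ι → R) := by
    ext j
    simp [Finset.sum_apply, Pi.single_apply]
  conv_rhs => rw [h1]
  rw [map_sum, TensorProduct.tmul_sum]
  refine Finset.sum_congr rfl fun i _ => ?_
  rw [map_smul, Algebra.algebraMap_eq_smul_one, TensorProduct.smul_tmul]

/-- Faithfully flat descent of membership. -/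
theorem mem_of_bc_mem_sp [Fintype ι] [DecidableEq ι] [Module.FaithfullyFlat R R₁]
    (T : Submodule R (ι → R)) {x : ι → R} (hx : bc R ι x ∈ sp R₁ T) : x ∈ T := by
  have h1 : chi (R₁ := R₁) T (bc R ι x) = 0 := by
    have h2 : sp R₁ T ≤ LinearMap.ker (chi (R₁ := R₁) T) := by
      rw [sp_le]
      intro t ht
      rw [LinearMap.mem_ker, chi_bc, Submodule.mkQ_apply,
        (Submodule.Quotient.mk_eq_zero T).2 ht, TensorProduct.tmul_zero]
    exact h2 hx
  rw [chi_bc, Module.FaithfullyFlat.one_tmul_eq_zero_iff] at h1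
  exact (Submodule.Quotient.mk_eq_zero T).1 h1

end level

section red

variable {A A₁ : Type u} [CommRing A] [CommRing A₁] [Algebra A A₁] {ι : Type}
variable {R R₁ : Type u} [CommRing R] [CommRing R₁] [Algebra R R₁]

/-- Reduction of a submodule along a surjective ring hom. -/
def red {B S : Type u} [CommRing B] [CommRing S] (q : B →+* S) (hq : Function.Surjective q)
    (L : Submodule B (ι → B)) : Submodule S (ι → S) where
  carrier := {v | ∃ l ∈ L, v = fun i => q (l i)}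
  add_mem' := by
    rintro _ _ ⟨l, hl, rfl⟩ ⟨m, hm, rfl⟩
    exact ⟨l + m, L.add_mem hl hm, by ext i; simp⟩
  zero_mem' := ⟨0, L.zero_mem, by ext i; simp⟩
  smul_mem' := by
    rintro s _ ⟨l, hl, rfl⟩
    obtain ⟨b, rfl⟩ := hq s
    exact ⟨b • l, L.smul_mem b hl, by ext i; simp⟩


variable (a : A) (N : ℕ) (q : A →+* R) (q₁ : A₁ →+* R₁)
  (hq : Function.Surjective q) (hq₁ : Function.Surjective q₁)
  (hk : ∀ x, q x = 0 ↔ ∃ y, x = a ^ N * y)
  (hk₁ : ∀ x, q₁ x = 0 ↔ ∃ y, x = (algebraMap A A₁ a) ^ N * y)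
  (hc : ∀ x, q₁ (algebraMap A A₁ x) = algebraMap R R₁ (q x))
include hk₁

theorem mem_sup_P_iff {L : Submodule A₁ (ι → A₁)} {v : ι → A₁} :
    v ∈ L ⊔ P ι (algebraMap A A₁ a) N ↔ (fun i => q₁ (v i)) ∈ red q₁ hq₁ L := by
  constructor
  · intro hv
    obtain ⟨l, hl, w, hw, rfl⟩ := Submodule.mem_sup.1 hv
    obtain ⟨u, rfl⟩ := mem_P.1 hw
    refine ⟨l, hl, ?_⟩
    ext i
    simp only [Pi.add_apply, Pi.smul_apply, smul_eq_mul, map_add]
    rw [(hk₁ _).2 ⟨u i, rfl⟩, add_zero]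
  · rintro ⟨l, hl, h⟩
    have h1 : ∀ i, ∃ y, v i - l i = (algebraMap A A₁ a) ^ N * y := by
      intro i
      rw [← hk₁, map_sub, congrFun h i, sub_self]
    choose y hy using h1
    refine Submodule.mem_sup.2 ⟨l, hl, (algebraMap A A₁ a) ^ N • y, smul_mem_P _, ?_⟩
    ext i
    simp only [Pi.add_apply, Pi.smul_apply, smul_eq_mul, ← hy]
    ring

include hc in
theorem red_sp (T : Submodule A (ι → A)) :
    red q₁ hq₁ (sp A₁ T) = sp R₁ (red q hq T) := by
  apply le_antisymm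
  · rintro _ ⟨l, hl, rfl⟩
    induction hl using Submodule.span_induction with
    | mem x hx =>
      obtain ⟨t, ht, rfl⟩ := hx
      have : (fun i => q₁ (bc A ι t i)) = bc R (R₁ := R₁) ι (fun i => q (t i)) := by
        ext i; simp [hc]
      rw [this]
      exact bc_mem_sp ⟨t, ht, rfl⟩
    | zero =>
      have : (fun i => q₁ ((0 : ι → A₁) i)) = 0 := by ext i; simp
      rw [this]
      exact Submodule.zero_mem _
    | add x y _ _ hx hy =>
      have : (fun i => q₁ ((x + y) i)) = (fun i => q₁ (x i)) + fun i => q₁ (y i) := by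
        ext i; simp
      rw [this]
      exact Submodule.add_mem _ hx hy
    | smul r x _ hx =>
      have : (fun i => q₁ ((r • x) i)) = q₁ r • fun i => q₁ (x i) := by
        ext i; simp
      rw [this]
      exact Submodule.smul_mem _ _ hx
  · rw [sp_le]
    rintro _ ⟨t, ht, rfl⟩
    refine ⟨bc A ι t, bc_mem_sp ht, ?_⟩
    ext i; simp [hc]

include hq hq₁ hk hc in
/-- (ff) from faithful flatness. -/
theorem ff_of_faithfullyFlat [Fintype ι] [DecidableEq ι] [Module.FaithfullyFlat R R₁]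
    (T : Submodule A (ι → A)) (x : ι → A)
    (hx : bc A ι x ∈ sp A₁ T ⊔ P ι (algebraMap A A₁ a) N) : x ∈ T ⊔ P ι a N := by
  have h1 := (mem_sup_P_iff a N q₁ hq₁ hk₁).1 hx
  rw [red_sp a N q q₁ hq hq₁ hk₁ hc] at h1
  have h2 : (fun i => q₁ (bc A ι x i)) = bc R (R₁ := R₁) ι (fun i => q (x i)) := by
    ext i; simp [hc]
  rw [h2] at h1
  have h3 := mem_of_bc_mem_sp _ h1
  obtain ⟨t, ht, h4⟩ := h3
  have h5 : ∀ i, ∃ y, x i - t i = a ^ N * y := by
    intro i
    rw [← hk, map_sub, congrFun h4 i, sub_self]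
  choose y hy using h5
  refine Submodule.mem_sup.2 ⟨t, ht, a ^ N • y, smul_mem_P _, ?_⟩
  ext i
  simp only [Pi.add_apply, Pi.smul_apply, smul_eq_mul, ← hy]
  ring

include hq hc in
/-- (fl) from flatness and the descent datum. -/
theorem fl_of_flat [Fintype ι] [DecidableEq ι] [Module.Flat R R₁]
    (L : Submodule A₁ (ι → A₁))
    (hD : ∀ s ∈ red q₁ hq₁ L, incl₂ R s ∈
      Submodule.span (R₁ ⊗[R] R₁) (incl₁ R '' (red q₁ hq₁ L : Set (ι → R₁)))) :
    L ≤ sp A₁ (XN a L N) ⊔ P ι (algebraMap A A₁ a) N := by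
  intro l hl
  rw [mem_sup_P_iff a N q₁ hq₁ hk₁, red_sp a N q q₁ hq hq₁ hk₁ hc]
  have h1 : (fun i => q₁ (l i)) ∈ red q₁ hq₁ L := ⟨l, hl, rfl⟩
  rw [← span_pts_eq (red q₁ hq₁ L) hD] at h1
  have h2 : pts (R := R) (red q₁ hq₁ L) ≤ red q hq (XN a L N) := by
    intro v hv
    choose x hx using fun i => hq (v i)
    refine ⟨x, ?_, by ext i; exact (hx i).symm⟩
    change bc A ι x ∈ L ⊔ P ι (algebraMap A A₁ a) N
    rw [mem_sup_P_iff a N q₁ hq₁ hk₁]
    have h3 : (fun i => q₁ (bc A ι x i)) = bc R (R₁ := R₁) ι v := by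
      ext i; simp [hc, hx]
    rw [h3]
    exact hv
  exact sp_mono h2 h1

omit hk₁ in
/-- The descent datum from the tensor square. -/
theorem datum_of_square {A₂ R₂ : Type u} [CommRing A₂] [CommRing R₂] [Fintype ι]
    (p₁ p₂ : A₁ →+* A₂) (q₂ : A₂ →+* R₂)
    (Θ : (R₁ ⊗[R] R₁) →+* R₂) (hΘ : Function.Bijective Θ)
    (h1 : ∀ x, Θ (1 ⊗ₜ q₁ x) = q₂ (p₁ x)) (h2 : ∀ x, Θ (q₁ x ⊗ₜ 1) = q₂ (p₂ x))
    (L : Submodule A₁ (ι → A₁))
    (hL : ∀ l ∈ L, (fun i => p₂ (l i)) ∈
      Submodule.span A₂ ((fun (l : ι → A₁) (i : ι) => p₁ (l i)) '' (L : Set (ι → A₁)))) :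
    ∀ s ∈ red q₁ hq₁ L, incl₂ R s ∈
      Submodule.span (R₁ ⊗[R] R₁) (incl₁ R '' (red q₁ hq₁ L : Set (ι → R₁))) := by
  rintro _ ⟨l, hl, rfl⟩
  have key : ∀ v ∈ Submodule.span A₂ ((fun (l : ι → A₁) (i : ι) => p₁ (l i)) ''
      (L : Set (ι → A₁))), ∃ w ∈ Submodule.span (R₁ ⊗[R] R₁)
        (incl₁ R '' (red q₁ hq₁ L : Set (ι → R₁))), ∀ i, Θ (w i) = q₂ (v i) := by
    intro v hv
    induction hv using Submodule.span_induction with
    | mem x hx =>
      obtain ⟨m, hm, rfl⟩ := hx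
      refine ⟨incl₁ R (fun i => q₁ (m i)), Submodule.subset_span ⟨_, ⟨m, hm, rfl⟩, rfl⟩, ?_⟩
      intro i
      exact h1 _
    | zero => exact ⟨0, Submodule.zero_mem _, by simp⟩
    | add x y _ _ hx hy =>
      obtain ⟨w, hw, h3⟩ := hx
      obtain ⟨w', hw', h3'⟩ := hy
      exact ⟨w + w', Submodule.add_mem _ hw hw', by intro i; simp [h3, h3']⟩
    | smul r x _ hx =>
      obtain ⟨w, hw, h3⟩ := hx
      obtain ⟨s, hs⟩ := hΘ.2 (q₂ r)
      exact ⟨s • w, Submodule.smul_mem _ _ hw, by intro i; simp [h3, hs]⟩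
  obtain ⟨w, hw, h3⟩ := key _ (hL l hl)
  have : w = incl₂ R (fun i => q₁ (l i)) := by
    ext i
    apply hΘ.1
    rw [h3 i]
    exact (h2 _).symm
  rw [← this]
  exact hw

end red

end Crest.Agent.R183.BCM
end

-- ▼ part R183/BCM4
section

/-!
# R183 (Lech), block BCM, part 4: properties which descend from `L` to `X`
(helper523)
-/

set_option autoImplicit false

namespace Crest.Agent.R183.BCM

universe u

section

variable {A A₁ : Type u} [CommRing A] [CommRing A₁] [Algebra A A₁] {ι : Type}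

/-- Limits of `a`-adic Cauchy sequences in `ι → A`. -/
theorem exists_lim (a : A) [hA : IsAdicComplete (Ideal.span {a}) A] (s : ℕ → ι → A)
    (hs : ∀ k, ∃ w : ι → A, s (k + 1) = s k + a ^ k • w) :
    ∃ y : ι → A, ∀ k, ∃ w : ι → A, y = s k + a ^ k • w := by
  have hdiff : ∀ (k m : ℕ), ∃ w : ι → A, s (k + m) = s k + a ^ k • w := by
    intro k m
    induction m with
    | zero => exact ⟨0, by simp⟩
    | succ m ih =>
      obtain ⟨w, hw⟩ := ih
      obtain ⟨w', hw'⟩ := hs (k + m)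
      refine ⟨w + a ^ m • w', ?_⟩
      rw [show k + (m + 1) = (k + m) + 1 from rfl, hw', hw, smul_add, smul_smul, ← pow_add,
        add_assoc]
  have hlim : ∀ i : ι, ∃ y : A, ∀ k, ∃ w, y = s k i + a ^ k * w := by
    intro i
    have hc : ∀ {m n : ℕ}, m ≤ n → (s m i) ≡ (s n i)
        [SMOD (Ideal.span {a} ^ m • ⊤ : Submodule A A)] := by
      intro m n hmn
      obtain ⟨k, rfl⟩ := Nat.exists_eq_add_of_le hmn
      obtain ⟨w, hw⟩ := hdiff m k
      rw [SModEq.sub_mem, Ideal.span_singleton_pow, smul_eq_mul, Ideal.mul_top,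
        Ideal.mem_span_singleton, hw]
      refine ⟨-(w i), ?_⟩
      simp only [Pi.add_apply, Pi.smul_apply, smul_eq_mul]
      ring
    obtain ⟨y, hy⟩ := IsPrecomplete.prec (I := Ideal.span {a}) (M := A) hA.toIsPrecomplete hc
    refine ⟨y, fun k => ?_⟩
    have := hy k
    rw [SModEq.sub_mem, Ideal.span_singleton_pow, smul_eq_mul, Ideal.mul_top,
      Ideal.mem_span_singleton] at this
    obtain ⟨v, hv⟩ := this
    exact ⟨-v, by linear_combination -hv⟩
  choose y hy using hlim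
  choose w hw using hy
  exact ⟨y, fun k => ⟨fun i => w i k, by ext i; simpa using hw i k⟩⟩

theorem eq_zero_of_forall (a : A) [hA : IsAdicComplete (Ideal.span {a}) A] {x : ι → A}
    (hx : ∀ N, x ∈ P ι a N) : x = 0 := by
  ext i
  apply IsHausdorff.haus hA.toIsHausdorff
  intro N
  obtain ⟨w, hw⟩ := mem_P.1 (hx N)
  rw [SModEq.sub_mem, Ideal.span_singleton_pow, smul_eq_mul, Ideal.mul_top,
    Ideal.mem_span_singleton, sub_zero, ← hw]
  exact ⟨w i, by simp⟩

theorem sp_smul (I : Ideal A) (T : Submodule A (ι → A)) :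
    sp A₁ (I • T) = I.map (algebraMap A A₁) • sp A₁ T := by
  apply le_antisymm
  · rw [sp_le]
    intro x hx
    refine Submodule.smul_induction_on hx ?_ ?_
    · intro r hr n hn
      rw [bc_smul]
      exact Submodule.smul_mem_smul (Ideal.mem_map_of_mem _ hr) (bc_mem_sp hn)
    · intro x y hx hy
      rw [map_add]
      exact Submodule.add_mem _ hx hy
  · rw [Submodule.smul_le]
    intro r hr n hn
    -- induction on both
    induction hr using Submodule.span_induction with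
    | mem r hr =>
      obtain ⟨r, hr, rfl⟩ := hr
      induction hn using Submodule.span_induction with
      | mem x hx =>
        obtain ⟨t, ht, rfl⟩ := hx
        rw [← bc_smul]
        exact bc_mem_sp (Submodule.smul_mem_smul hr ht)
      | zero => rw [smul_zero]; exact Submodule.zero_mem _
      | add x y _ _ hx hy => rw [smul_add]; exact Submodule.add_mem _ hx hy
      | smul c x _ hx => rw [smul_comm]; exact Submodule.smul_mem _ _ hx
    | zero => rw [zero_smul]; exact Submodule.zero_mem _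
    | add x y _ _ hx hy => rw [add_smul]; exact Submodule.add_mem _ hx hy
    | smul c x _ hx =>
      rw [smul_eq_mul, mul_smul]
      exact Submodule.smul_mem _ _ hx

theorem smul_P_le (I : Ideal A₁) (b : A₁) (N : ℕ) : I • P ι b N ≤ P ι b N :=
  Submodule.smul_le_right

theorem smul_le_of_le_sup_P {I : Ideal A₁} {b : A₁} {N : ℕ} {M M' : Submodule A₁ (ι → A₁)}
    (h : M ≤ M' ⊔ P ι b N) : I • M ≤ I • M' ⊔ P ι b N := by
  refine (Submodule.smul_mono le_rfl h).trans ?_
  rw [Submodule.smul_sup]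
  exact sup_le_sup_left (smul_P_le _ _ _) _

namespace Tower

variable {a : A} {L : Submodule A₁ (ι → A₁)} {c : ℕ} (h : Tower a L c)
include h

theorem bc_mem (N : ℕ) {x : ι → A} (hx : x ∈ X a L) :
    ∃ l ∈ L, ∃ w, bc A ι x = l + (algebraMap A A₁ a) ^ N • w := by
  obtain ⟨l, hl, w, hw, hlw⟩ := Submodule.mem_sup.1 (mem_X.1 hx N)
  obtain ⟨v, rfl⟩ := mem_P.1 hw
  exact ⟨l, hl, v, hlw.symm⟩

/-- `l = (element of L ∩ a ^ (N + c))` is in `a ^ N • L`. -/
theorem exists_of_mem {N : ℕ} {w : ι → A₁} (hw : (algebraMap A A₁ a) ^ (N + c) • w ∈ L) :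
    ∃ l ∈ L, (algebraMap A A₁ a) ^ (N + c) • w = (algebraMap A A₁ a) ^ N • l :=
  ⟨_, h.ar _ _ hw, by rw [smul_smul, pow_add]⟩

theorem sp_X_le (N : ℕ) : sp A₁ (X a L) ≤ L ⊔ P ι (algebraMap A A₁ a) N :=
  sp_le.2 fun _ hx => mem_X.1 hx N

/-- Regularity descends. -/
theorem descend_reg [hA : IsAdicComplete (Ideal.span {a}) A] [Fintype ι] (I : Ideal A) (t : A)
    (k : ℕ) (hk : a ^ k ∈ I)
    (hL : ∀ l ∈ L, algebraMap A A₁ t • l ∈ I.map (algebraMap A A₁) • L →
      l ∈ I.map (algebraMap A A₁) • L) :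
    ∀ x ∈ X a L, t • x ∈ I • X a L → x ∈ I • X a L := by
  intro x hx htx
  have hIX : ∀ x ∈ X a L, a ^ k • x ∈ I • X a L := fun x hx => Submodule.smul_mem_smul hk hx
  refine h.mem_of_bc_mem (N := k) (Submodule.smul_le_right) hIX hx ?_
  obtain ⟨l, hl, w, hlw⟩ := h.bc_mem (k + c) hx
  have hkm : (algebraMap A A₁ a) ^ k ∈ I.map (algebraMap A A₁) := by
    rw [← map_pow]; exact Ideal.mem_map_of_mem _ hk
  -- `t • l ∈ I L`
  have h1 : algebraMap A A₁ t • l ∈ I.map (algebraMap A A₁) • L := by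
    have h2 : (bc A ι (t • x) : ι → A₁) ∈
        I.map (algebraMap A A₁) • L ⊔ P ι (algebraMap A A₁ a) (k + c) := by
      have h3 : (bc A ι (t • x) : ι → A₁) ∈ sp A₁ (I • X a L) := bc_mem_sp htx
      rw [sp_smul] at h3
      exact smul_le_of_le_sup_P (h.sp_X_le (k + c)) h3
    obtain ⟨y, hy, v, hv, hyv⟩ := Submodule.mem_sup.1 h2
    obtain ⟨v, rfl⟩ := mem_P.1 hv
    have h5 : algebraMap A A₁ t • l
        = y + (algebraMap A A₁ a) ^ (k + c) • (v - algebraMap A A₁ t • w) := by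
      rw [bc_smul, hlw] at hyv
      rw [smul_sub, ← add_sub_assoc, hyv, smul_add, smul_comm (algebraMap A A₁ t)]
      abel
    have hyL : y ∈ L := Submodule.smul_le_right hy
    have h6 : (algebraMap A A₁ a) ^ (k + c) • (v - algebraMap A A₁ t • w) ∈ L := by
      have : (algebraMap A A₁ a) ^ (k + c) • (v - algebraMap A A₁ t • w)
          = algebraMap A A₁ t • l - y := by rw [h5]; abel
      rw [this]
      exact Submodule.sub_mem _ (Submodule.smul_mem _ _ hl) hyL
    obtain ⟨l', hl', h7⟩ := h.exists_of_mem h6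
    rw [h5, h7]
    exact Submodule.add_mem _ hy (Submodule.smul_mem_smul hkm hl')
  have h8 := hL l hl h1
  rw [hlw, sp_smul]
  refine Submodule.add_mem _ ?_ ((le_sup_right : _ ≤ _ ⊔ P ι _ _) (smul_mem_P _))
  exact smul_le_of_le_sup_P (h.L_le (k + c)) h8

/-- `d • X` is closed, and membership in it can be tested on `L`. -/
theorem exists_div [hA : IsAdicComplete (Ideal.span {a}) A] [Fintype ι] (d : A) (m : ℕ)
    (hd : ∀ (N : ℕ) (z w : A), d * z = a ^ (N + m) * w → ∃ w', z = a ^ N * w')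
    (u : ι → A) (hu : ∀ N, ∃ l ∈ L, ∃ w, (bc A ι u : ι → A₁) =
      algebraMap A A₁ d • l + (algebraMap A A₁ a) ^ N • w) :
    ∃ x ∈ X a L, u = d • x := by
  -- `u ∈ d X + a ^ N`
  have h1 : ∀ N, ∃ x ∈ X a L, ∃ w, u = d • x + a ^ N • w := by
    intro N
    have h2 : u ∈ Ideal.span {d} • X a L ⊔ P ι a N := by
      apply h.ff N
      rw [sp_smul]
      obtain ⟨l, hl, w, hlw⟩ := hu N
      rw [hlw]
      refine Submodule.add_mem _ ?_ ((le_sup_right : _ ≤ _ ⊔ P ι _ _) (smul_mem_P _))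
      exact smul_le_of_le_sup_P (h.L_le N)
        (Submodule.smul_mem_smul (Ideal.mem_map_of_mem _ (Ideal.mem_span_singleton_self d)) hl)
    obtain ⟨y, hy, w, hw, hyw⟩ := Submodule.mem_sup.1 h2
    obtain ⟨w, rfl⟩ := mem_P.1 hw
    have h4 : ∃ x ∈ X a L, y = d • x := by
      refine Submodule.smul_induction_on hy ?_ ?_
      · intro r hr n hn
        obtain ⟨s, rfl⟩ := Ideal.mem_span_singleton'.1 hr
        exact ⟨s • n, Submodule.smul_mem _ _ hn, by rw [smul_smul, mul_comm]⟩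
      · rintro _ _ ⟨x, hx, rfl⟩ ⟨x', hx', rfl⟩
        exact ⟨x + x', Submodule.add_mem _ hx hx', by rw [smul_add]⟩
    obtain ⟨x, hx, rfl⟩ := h4
    exact ⟨x, hx, w, hyw.symm⟩
  choose x hx w hw using h1
  obtain ⟨y, hy⟩ := exists_lim a (fun k => x (k + m)) (by
    intro k
    have h2 : ∀ i, ∃ w', x (k + 1 + m) i - x (k + m) i = a ^ k * w' := by
      intro i
      apply hd k _ (w (k + m) i - a * w (k + 1 + m) i)
      have e1 := congrFun (hw (k + m)) i
      have e2 := congrFun (hw (k + 1 + m)) i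
      simp only [Pi.add_apply, Pi.smul_apply, smul_eq_mul] at e1 e2
      rw [show k + 1 + m = (k + m) + 1 by omega] at e2 ⊢
      rw [pow_succ] at e2
      linear_combination e1 - e2
    choose w' hw' using h2
    exact ⟨w', by ext i; simpa using (sub_eq_iff_eq_add'.1 (hw' i))⟩)
  refine ⟨y, ?_, ?_⟩
  · rw [mem_X]
    intro N
    obtain ⟨v, hv⟩ := hy N
    rw [hv, map_add, bc_pow_smul]
    exact Submodule.add_mem _ (mem_X.1 (hx _) N) ((le_sup_right : _ ≤ _ ⊔ P ι _ _) (smul_mem_P _))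
  · rw [← sub_eq_zero]
    apply eq_zero_of_forall a
    intro N
    obtain ⟨v, hv⟩ := hy N
    rw [mem_P]
    refine ⟨a ^ m • w (N + m) - d • v, ?_⟩
    have e1 := hw (N + m)
    rw [hv]
    conv_rhs => rw [e1]
    rw [smul_sub, smul_add, smul_smul, ← pow_add, smul_comm d (a ^ N) v]
    abel

end Tower

end

end Crest.Agent.R183.BCM
end

-- ▼ part R183/BCM5

/-!
# R183 (Lech), block BCM, part 5: the module `X` over a ring `C` which only acts on the lattices
up to denominators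
(helper523)
-/

set_option autoImplicit false

namespace Crest.Agent.R183.BCM

universe u

section

variable (A A₁ C : Type u) [CommRing A] [CommRing A₁] [CommRing C] [Algebra A A₁] [Algebra A C]
variable (E₀ E₁ : Type u) [AddCommGroup E₀] [Module A E₀] [Module C E₀] [IsScalarTower A C E₀]
variable [AddCommGroup E₁] [Module A E₁] [Module A₁ E₁] [IsScalarTower A A₁ E₁]
variable [Module C E₁] [IsScalarTower A C E₁] [SMulCommClass A₁ C E₁]
variable (ι : Type)

/-- Coordinates: `A ^ ι → E₀`, `A₁ ^ ι → E₁`; `C` acts on `E₀`, `E₁`, and preserves the lattices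
up to the denominator `d`. -/
structure Frame (a d : A) (m : ℕ) (L : Submodule A₁ (ι → A₁)) where
  v₀ : (ι → A) →ₗ[A] E₀
  v₁ : (ι → A₁) →ₗ[A₁] E₁
  j : E₀ →ₗ[C] E₁
  comm : ∀ x, j (v₀ x) = v₁ (bc A ι x)
  inj₀ : Function.Injective v₀
  inj₁ : Function.Injective v₁
  dinj₀ : ∀ x : E₀, d • x = 0 → x = 0
  hd₀ : ∀ (N : ℕ) (z w : A), d * z = a ^ (N + m) * w → ∃ w', z = a ^ N * w'
  hd₁ : ∀ (N : ℕ) (z w : A₁), algebraMap A A₁ d * z = (algebraMap A A₁ a) ^ (N + m) * w →
    ∃ w', z = (algebraMap A A₁ a) ^ N * w'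
  lat₀ : ∀ (c : C) x, ∃ y, d • c • v₀ x = v₀ y
  lat₁ : ∀ (c : C) x, ∃ y, d • c • v₁ x = v₁ y
  stab : ∀ (c : C), ∀ l ∈ L, ∃ l' ∈ L, c • v₁ l = v₁ l'

end

section

variable {A A₁ C : Type u} [CommRing A] [CommRing A₁] [CommRing C] [Algebra A A₁] [Algebra A C]
variable {E₀ E₁ : Type u} [AddCommGroup E₀] [Module A E₀] [Module C E₀] [IsScalarTower A C E₀]
variable [AddCommGroup E₁] [Module A E₁] [Module A₁ E₁] [IsScalarTower A A₁ E₁]
variable [Module C E₁] [IsScalarTower A C E₁] [SMulCommClass A₁ C E₁]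
variable {ι : Type}

namespace Frame

variable {a d : A} {m : ℕ} {L : Submodule A₁ (ι → A₁)}
variable (F : Frame A A₁ C E₀ E₁ ι a d m L)

theorem v₁_smul_alg (b : A) (w : ι → A₁) : F.v₁ (algebraMap A A₁ b • w) = b • F.v₁ w := by
  rw [map_smul, algebraMap_smul]

theorem v₁_pow_smul (b : A) (N : ℕ) (w : ι → A₁) :
    F.v₁ ((algebraMap A A₁ b) ^ N • w) = b ^ N • F.v₁ w := by
  rw [← map_pow, v₁_smul_alg]

theorem smul_comm_AC (b : A) (c : C) (x : E₁) : b • c • x = c • b • x := by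
  rw [← algebraMap_smul C b (c • x), ← algebraMap_smul C b x, smul_smul, smul_smul, mul_comm]

theorem smul_comm_AC₀ (b : A) (c : C) (x : E₀) : b • c • x = c • b • x := by
  rw [← algebraMap_smul C b (c • x), ← algebraMap_smul C b x, smul_smul, smul_smul, mul_comm]

theorem j_smul_A (b : A) (x : E₀) : F.j (b • x) = b • F.j x := by
  rw [← algebraMap_smul C b x, map_smul, algebraMap_smul]

/-- If `e ∈ v₁ (A₁ ^ ι)` and `d • e ∈ a ^ (N + m) • v₁ (A₁ ^ ι)` then
`e ∈ a ^ N • v₁ (A₁ ^ ι)`. -/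
theorem small {N : ℕ} {g w : ι → A₁} (hg : d • F.v₁ g = a ^ (N + m) • F.v₁ w) :
    ∃ w', g = (algebraMap A A₁ a) ^ N • w' := by
  rw [← v₁_smul_alg, ← v₁_pow_smul] at hg
  have h1 := F.inj₁ hg
  have h2 : ∀ i, ∃ w', g i = (algebraMap A A₁ a) ^ N * w' := fun i =>
    F.hd₁ N (g i) (w i) (by simpa using congrFun h1 i)
  choose w' hw' using h2
  exact ⟨w', by ext i; simpa using hw' i⟩

/-- The additive subgroup `b • L ⊆ E₁`, `b` an ideal of `C`. -/
def idL (b : Ideal C) : Submodule A₁ E₁ :=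
  Submodule.span A₁ {e | ∃ c ∈ b, ∃ l ∈ L, e = c • F.v₁ l}

variable {c₀ : ℕ} (h : Tower a L c₀)
include h

/-- `X` is stable under `C`. -/
theorem stable [IsAdicComplete (Ideal.span {a}) A] [Fintype ι] (c : C) {x : ι → A}
    (hx : x ∈ X a L) : ∃ x' ∈ X a L, c • F.v₀ x = F.v₀ x' := by
  obtain ⟨u, hu⟩ := F.lat₀ c x
  have h1 : ∀ N, ∃ l ∈ L, ∃ w, (bc A ι u : ι → A₁) =
      algebraMap A A₁ d • l + (algebraMap A A₁ a) ^ N • w := by
    intro N
    obtain ⟨l, hl, w, hlw⟩ := h.bc_mem N hx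
    obtain ⟨l', hl', hl''⟩ := F.stab c l hl
    obtain ⟨w', hw'⟩ := F.lat₁ c w
    refine ⟨l', hl', w', ?_⟩
    apply F.inj₁
    have e1 : F.v₁ (bc A ι u) = d • c • F.v₁ (bc A ι x) := by
      rw [← F.comm, ← hu, j_smul_A, map_smul, F.comm]
    have e2 : c • F.v₁ (bc A ι x) = F.v₁ l' + a ^ N • c • F.v₁ w := by
      rw [hlw, map_add, smul_add, hl'', v₁_pow_smul, smul_comm_AC (a ^ N) c]
    rw [e1, e2, smul_add, map_add, v₁_smul_alg, v₁_pow_smul, ← hw', smul_comm d (a ^ N)]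
  obtain ⟨x', hx', hux⟩ := h.exists_div d m F.hd₀ u h1
  refine ⟨x', hx', ?_⟩
  rw [← sub_eq_zero]
  apply F.dinj₀
  rw [smul_sub, hu, hux, map_smul, sub_self]

/-- The `C`-module `X`. -/
def mod [IsAdicComplete (Ideal.span {a}) A] [Fintype ι] : Submodule C E₀ where
  carrier := F.v₀ '' (X a L : Set (ι → A))
  add_mem' := by
    rintro _ _ ⟨x, hx, rfl⟩ ⟨y, hy, rfl⟩
    exact ⟨x + y, Submodule.add_mem _ hx hy, map_add _ _ _⟩
  zero_mem' := ⟨0, Submodule.zero_mem _, map_zero _⟩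
  smul_mem' := by
    rintro c _ ⟨x, hx, rfl⟩
    obtain ⟨x', hx', h2⟩ := F.stable h c hx
    exact ⟨x', hx', h2.symm⟩

theorem mem_mod [IsAdicComplete (Ideal.span {a}) A] [Fintype ι] {e : E₀} :
    e ∈ F.mod h ↔ ∃ x ∈ X a L, F.v₀ x = e := Iff.rfl

/-- Elements of `b • L` are, modulo high powers of `a`, combinations of elements of `b • X`. -/
theorem idL_le [IsAdicComplete (Ideal.span {a}) A] [Fintype ι] (b : Ideal C) (N : ℕ) {e : E₁}
    (he : e ∈ F.idL b) :
    ∃ y ∈ sp A₁ ((b • F.mod h).restrictScalars A |>.comap F.v₀), ∃ e' : E₁,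
      (∃ w, d • e' = F.v₁ w) ∧ e = F.v₁ y + a ^ N • e' := by
  unfold idL at he
  induction he using Submodule.span_induction with
  | mem e he =>
    obtain ⟨c, hc, l, hl, rfl⟩ := he
    -- approximate `l`
    have h1 := h.L_le N hl
    obtain ⟨s, hs, t, ht, hst⟩ := Submodule.mem_sup.1 h1
    obtain ⟨w, rfl⟩ := mem_P.1 ht
    obtain ⟨w', hw'⟩ := F.lat₁ c w
    have h2 : ∃ y ∈ sp A₁ ((b • F.mod h).restrictScalars A |>.comap F.v₀),
        c • F.v₁ s = F.v₁ y := by
      clear hst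
      induction hs using Submodule.span_induction with
      | mem s hs =>
        obtain ⟨x, hx, rfl⟩ := hs
        obtain ⟨x', hx', h3⟩ := F.stable h c hx
        refine ⟨bc A ι x', bc_mem_sp ?_, ?_⟩
        · change F.v₀ x' ∈ b • F.mod h
          rw [← h3]
          exact Submodule.smul_mem_smul hc ⟨x, hx, rfl⟩
        · rw [← F.comm, ← F.comm, ← h3, map_smul]
      | zero => exact ⟨0, Submodule.zero_mem _, by simp⟩
      | add s t _ _ hs ht =>
        obtain ⟨y, hy, h3⟩ := hs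
        obtain ⟨y', hy', h3'⟩ := ht
        exact ⟨y + y', Submodule.add_mem _ hy hy', by rw [map_add, map_add, smul_add, h3, h3']⟩
      | smul r s _ hs =>
        obtain ⟨y, hy, h3⟩ := hs
        exact ⟨r • y, Submodule.smul_mem _ _ hy, by
          rw [map_smul, map_smul, ← h3, smul_comm r c]⟩
    obtain ⟨y, hy, h3⟩ := h2
    refine ⟨y, hy, c • F.v₁ w, ⟨w', hw'⟩, ?_⟩
    rw [← hst, map_add, smul_add, h3, v₁_pow_smul, smul_comm_AC (a ^ N) c]
  | zero => exact ⟨0, Submodule.zero_mem _, 0, ⟨0, by simp⟩, by simp⟩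
  | add e f _ _ he hf =>
    obtain ⟨y, hy, e', ⟨w, hw⟩, h3⟩ := he
    obtain ⟨y', hy', f', ⟨w', hw'⟩, h3'⟩ := hf
    refine ⟨y + y', Submodule.add_mem _ hy hy', e' + f', ⟨w + w', ?_⟩, ?_⟩
    · rw [smul_add, hw, hw', map_add]
    · rw [h3, h3', map_add, smul_add]; abel
  | smul r e _ he =>
    obtain ⟨y, hy, e', ⟨w, hw⟩, h3⟩ := he
    refine ⟨r • y, Submodule.smul_mem _ _ hy, r • e', ⟨r • w, ?_⟩, ?_⟩
    · rw [map_smul, ← hw, smul_comm]
    · rw [h3, map_smul, smul_add, smul_comm (a ^ N) r e']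

/-- **Descent of inclusions**: if `r • L ⊆ b • L` and `a ^ k • X ⊆ b • X` then `r • X ⊆ b • X`. -/
theorem smul_mem_of_idL [IsAdicComplete (Ideal.span {a}) A] [Fintype ι] (b : Ideal C) (r : C)
    (k : ℕ) (hk : ∀ e ∈ F.mod h, a ^ k • e ∈ b • F.mod h)
    (hr : ∀ l ∈ L, r • F.v₁ l ∈ F.idL b) :
    ∀ e ∈ F.mod h, r • e ∈ b • F.mod h := by
  rintro _ ⟨x, hx, rfl⟩
  obtain ⟨x', hx', h2⟩ := F.stable h r hx
  rw [h2]
  let J : Submodule A (ι → A) := (b • F.mod h).restrictScalars A |>.comap F.v₀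
  have hJ : J ≤ X a L := by
    intro y hy
    have h3 : F.v₀ y ∈ F.mod h := Submodule.smul_le_right hy
    obtain ⟨y', hy', h4⟩ := h3
    rwa [F.inj₀ h4] at hy'
  have h5 : x' ∈ J := by
    refine h.mem_of_bc_mem hJ (N := k) ?_ hx' ?_
    · intro y hy
      change F.v₀ (a ^ k • y) ∈ b • F.mod h
      rw [map_smul]
      exact hk _ ⟨y, hy, rfl⟩
    · obtain ⟨l, hl, w, hlw⟩ := h.bc_mem (k + c₀ + m) hx
      obtain ⟨y, hy, e', ⟨w', hw'⟩, h6⟩ := F.idL_le h b (k + c₀ + m) (hr l hl)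
      obtain ⟨w'', hw''⟩ := F.lat₁ r w
      have h7 : F.v₁ (bc A ι x' - y) = a ^ (k + c₀ + m) • (e' + r • F.v₁ w) := by
        rw [map_sub, ← F.comm, ← h2, map_smul, F.comm, hlw, map_add, smul_add, h6,
          v₁_pow_smul, ← smul_comm_AC (a ^ (k + c₀ + m)) r, smul_add]
        abel
      have h8 : d • F.v₁ (bc A ι x' - y) = a ^ (k + c₀ + m) • F.v₁ (w' + w'') := by
        rw [h7, smul_comm d, smul_add, hw', hw'', map_add]
      obtain ⟨g, hg⟩ := F.small h8
      have h9 : (bc A ι x' : ι → A₁) = y + (algebraMap A A₁ a) ^ (k + c₀) • g := by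
        rw [← hg]; abel
      rw [h9]
      exact Submodule.add_mem_sup hy (smul_mem_P _)
  exact h5

end Frame

end

end Crest.Agent.R183.BCM
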