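import Crest.Agent.R183.BCM6
import Crest.Agent.R183.CoreMain

-- ▼ part R183/BCM7
section

/-!
# R183 (Lech), block BCM, part 7: the stage (`Core.Stage`) from `Frame` and `Tower`
(helper523)
-/

set_option autoImplicit false

namespace Crest.Agent.R183.BCM

open Crest.Agent.R183.Glue Crest.Agent.R183.Core

universe u

section

variable {A A₁ C : Type u} [CommRing A] [CommRing A₁] [CommRing C] [Algebra A A₁] [Algebra A C]
variable {E₀ E₁ : Type u} [AddCommGroup E₀] [Module A E₀] [Module C E₀] [IsScalarTower A C E₀]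
variable [AddCommGroup E₁] [Module A E₁] [Module A₁ E₁] [IsScalarTower A A₁ E₁]
variable [Module C E₁] [IsScalarTower A C E₁] [SMulCommClass A₁ C E₁]
variable {ι : Type}
variable {a d : A} {m : ℕ} {L : Submodule A₁ (ι → A₁)} {c₀ : ℕ}
variable {T To : Type u} [CommRing T] [CommRing To] [Algebra T To] [Algebra To C]

/-- The data which produce a stage. -/
structure StageData (F : Frame A A₁ C E₀ E₁ ι a d m L) (T To : Type u) [CommRing T] [CommRing To]
    [Algebra T To] [Algebra To C] {D : ℕ} (w t : Fin D → T) (Δ : T) (𝔞 : Ideal T) (q N : ℕ) where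
  Y : Fin D → C
  hY : ∀ i, Y i ^ q = algebraMap To C (algebraMap T To (w i))
  c : ℕ
  hc : 0 < c
  x' : Fin c → C
  span : ∀ y : C, ∃ v : Fin c → To, y = ∑ i, algebraMap To C (v i) * x' i
  indep : ∀ v : Fin c → To, ∑ i, algebraMap To C (v i) * x' i = 0 → ∀ i, v i = 0
  e₀ : E₀
  g1 : ∀ x : ι → A, ∃ y : C, F.v₀ x = y • e₀
  g2 : ∀ y : C, ∃ x : ι → A, d • y • e₀ = F.v₀ x
  δ₁ : A
  g3 : ∀ v : ι → A₁, algebraMap A A₁ δ₁ • v ∈ L
  δ₀ : A
  g4 : ∀ y : C, y • e₀ = 0 → algebraMap A C δ₀ * y = 0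
  hΔ : algebraMap To C (algebraMap T To Δ) = algebraMap A C (δ₀ * d * δ₁)
  τ : List A
  hτ : ∀ n : ℕ, 0 < n → (List.ofFn fun i => algebraMap To C (algebraMap T To (t i))).map (· ^ n)
    = (τ.map (· ^ n) ++ [a ^ n]).map (algebraMap A C)
  reg : ∀ n : ℕ, 0 < n → RegL L ((τ.map (· ^ n) ++ [a ^ n]).map (algebraMap A A₁))
  k : ℕ
  hk : (algebraMap A C a) ^ k ∈ (Ideal.span (Set.range Y)) ^ N
  amp : ∀ r ∈ 𝔞, ∀ l ∈ L, algebraMap To C (algebraMap T To r) • F.v₁ l ∈
    F.idL ((Ideal.span (Set.range Y)) ^ N)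

namespace StageData

variable {F : Frame A A₁ C E₀ E₁ ι a d m L} {D : ℕ} {w t : Fin D → T} {Δ : T} {𝔞 : Ideal T}
variable {q N : ℕ} (S : StageData F T To w t Δ 𝔞 q N) (h : Tower a L c₀)

theorem mem_X_of (v : ι → A) : S.δ₁ • v ∈ X a L := by
  rw [mem_X]
  intro n
  rw [bc_smul]
  exact (le_sup_left : L ≤ _) (S.g3 _)

theorem x_mem [IsAdicComplete (Ideal.span {a}) A] [Fintype ι] (y : C) :
    (S.δ₁ • d • y • S.e₀ : E₀) ∈ F.mod h := by
  obtain ⟨x, hx⟩ := S.g2 y
  rw [hx, ← map_smul]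
  exact ⟨_, S.mem_X_of x, rfl⟩

theorem term_eq (i : Fin S.c) (y : C) :
    (y • S.δ₁ • d • S.x' i • S.e₀ : E₀) = (S.δ₁ * d) • (y * S.x' i) • S.e₀ := by
  rw [mul_smul S.δ₁ d, mul_smul y, Frame.smul_comm_AC₀ d y, Frame.smul_comm_AC₀ S.δ₁ y]

/-- The stage. -/
noncomputable def stage [IsAdicComplete (Ideal.span {a}) A] [Fintype ι] :
    Stage T To w t Δ 𝔞 q N where
  C := C
  X := F.mod h
  Y := S.Y
  hY := S.hY
  c := S.c
  hc := S.hc
  x := fun i => ⟨S.δ₁ • d • S.x' i • S.e₀, S.x_mem h _⟩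
  hΔ := by
    rintro ⟨y, hy⟩
    obtain ⟨x, hx, hxy⟩ := (F.mem_mod h).1 hy
    obtain ⟨y', hy'⟩ := S.g1 x
    obtain ⟨v, hv⟩ := S.span (algebraMap A C S.δ₀ * y')
    refine ⟨v, ?_⟩
    apply Subtype.ext
    rw [S.hΔ]
    have e1 : ((∑ i, algebraMap To C (v i) •
        (⟨S.δ₁ • d • S.x' i • S.e₀, S.x_mem h _⟩ : F.mod h) : F.mod h) : E₀)
        = (S.δ₁ * d) • (∑ i, algebraMap To C (v i) * S.x' i) • S.e₀ := by
      rw [AddSubmonoidClass.coe_finsetSum, Finset.sum_smul, Finset.smul_sum]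
      refine Finset.sum_congr rfl fun i _ => ?_
      exact S.term_eq i _
    rw [e1, ← hv, Submodule.coe_smul]
    simp only
    rw [← hxy, hy', algebraMap_smul, mul_smul (algebraMap A C S.δ₀) y', algebraMap_smul,
      ← mul_smul]
    congr 1
    ring
  hker := by
    intro v hv
    have h1 : (S.δ₁ * d) • (∑ i, algebraMap To C (v i) * S.x' i) • S.e₀ = 0 := by
      have h2 := congrArg Subtype.val hv
      rw [AddSubmonoidClass.coe_finsetSum] at h2
      rw [Finset.sum_smul, Finset.smul_sum]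
      refine Eq.trans ?_ h2
      refine Finset.sum_congr rfl fun i _ => ?_
      exact (S.term_eq i _).symm
    have h3 : (algebraMap A C (S.δ₁ * d) * ∑ i, algebraMap To C (v i) * S.x' i) • S.e₀ = 0 := by
      rw [mul_smul, algebraMap_smul]
      exact h1
    have h4 := S.g4 _ h3
    have h5 : ∑ i, algebraMap To C (algebraMap T To Δ * v i) * S.x' i = 0 := by
      rw [← h4, ← mul_assoc, ← map_mul, show S.δ₀ * (S.δ₁ * d) = S.δ₀ * d * S.δ₁ by ring,
        ← S.hΔ, Finset.mul_sum]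
      refine Finset.sum_congr rfl fun i _ => ?_
      rw [map_mul, mul_assoc]
    exact S.indep _ h5
  reg := by
    intro n hn
    rw [S.hτ n hn]
    rw [RegL_map_iff]
    exact F.regL_mod h n _ (S.reg n hn)
  amp := by
    intro r hr y
    rw [mem_smul_top_coe]
    have hk : ∀ e ∈ F.mod h, a ^ S.k • e ∈ (Ideal.span (Set.range S.Y)) ^ N • F.mod h := by
      intro e he
      have h1 := Submodule.smul_mem_smul S.hk he
      rwa [← map_pow, algebraMap_smul] at h1
    exact F.smul_mem_of_idL h _ _ S.k hk (S.amp r hr) _ y.2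

end StageData

end

end Crest.Agent.R183.BCM
end

-- ▼ part R183/BCM8

/-!
# R183 (Lech), block BCM, part 8: the concrete frame
`E₀ = C[1/Δ]`, `E₁ = ∏_J K₁` (with `C` acting through the homs `g_J : C → K₁`).
(helper523)
-/

set_option autoImplicit false

namespace Crest.Agent.R183.BCM

universe u

section coord

variable {A C : Type u} [CommRing A] [CommRing C] [Algebra A C]
variable {ι : Type} [Fintype ι] [DecidableEq ι]

/-- `C[1/Δ]` is free over `A[1/Δ]` with basis `b`, in a denominator free form. -/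
structure Coord (Δ : A) (b : ι → C) (β : C →ₗ[A] (ι → A)) : Prop where
  sum : ∀ c : C, Δ • c = ∑ i, β c i • b i
  dual : ∀ i, β (b i) = Pi.single i Δ

variable {Δ : A} {b : ι → C} {β : C →ₗ[A] (ι → A)}

theorem Coord.β_sum (h : Coord Δ b β) (x : ι → A) : β (∑ i, x i • b i) = Δ • x := by
  rw [map_sum]
  ext j
  rw [Finset.sum_apply]
  simp only [map_smul, h.dual, Pi.smul_apply, smul_eq_mul, Pi.single_apply]
  simp [mul_comm]

/-- Base change of coordinates. -/
theorem Coord.kill (h : Coord Δ b β) (hΔ : ∀ x : A, Δ * x = 0 → x = 0) {c : C} (n : ℕ)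
    (hc : algebraMap A C Δ ^ n * c = 0) : algebraMap A C Δ * c = 0 := by
  have h1 : ∀ (n : ℕ) (x : A), Δ ^ n * x = 0 → x = 0 := by
    intro n
    induction n with
    | zero => intro x hx; simpa using hx
    | succ n ih =>
      intro x hx
      apply hΔ
      apply ih
      rw [← hx]; ring
  have h2 : β c = 0 := by
    have h3 : Δ ^ n • β c = 0 := by
      rw [← map_smul, Algebra.smul_def, map_pow, hc, map_zero]
    ext i
    have := congrFun h3 i
    exact h1 n _ this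
  rw [← Algebra.smul_def, h.sum, h2]
  simp

end coord

section EK

variable {A A₁ C K₁ : Type u} [CommRing A] [CommRing A₁] [CommRing C] [CommRing K₁]
variable [Algebra A A₁] [Algebra A C] [Algebra A₁ K₁] [Algebra A K₁] [IsScalarTower A A₁ K₁]
variable {ι 𝒥 : Type}

/-- `∏_J K₁`, with `C` acting through `g`. -/
def EK (g : 𝒥 → C →ₐ[A] K₁) : Type u := (fun _ : 𝒥 → C →ₐ[A] K₁ => (𝒥 → K₁)) g

variable (g : 𝒥 → C →ₐ[A] K₁)

instance : CommRing (EK g) := inferInstanceAs (CommRing (𝒥 → K₁))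
instance : Algebra A (EK g) := inferInstanceAs (Algebra A (𝒥 → K₁))
instance : Algebra A₁ (EK g) := inferInstanceAs (Algebra A₁ (𝒥 → K₁))
instance : IsScalarTower A A₁ (EK g) := inferInstanceAs (IsScalarTower A A₁ (𝒥 → K₁))

/-- the map `C → ∏_J K₁`. -/
def EK.hom : C →+* EK g := Pi.ringHom fun J => ((g J : C →ₐ[A] K₁) : C →+* K₁)

/-- the `C`-module structure. -/
instance EK.algC : Algebra C (EK g) := (EK.hom g).toAlgebra

theorem EK.smul_apply (c : C) (v : EK g) (J : 𝒥) : (c • v : EK g) J = g J c * v J := rfl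

theorem EK.smul_apply_A₁ (c : A₁) (v : EK g) (J : 𝒥) : (c • v : EK g) J = c • v J := rfl

theorem EK.smul_apply_A (c : A) (v : EK g) (J : 𝒥) : (c • v : EK g) J = c • v J := rfl

@[ext] theorem EK.ext {v w : EK g} (h : ∀ J, v J = w J) : v = w := funext h

instance : IsScalarTower A C (EK g) := ⟨fun a c v => by
  ext J
  rw [EK.smul_apply, EK.smul_apply_A, EK.smul_apply, map_smul, smul_mul_assoc]⟩

instance : SMulCommClass A₁ C (EK g) := ⟨fun a c v => by
  ext J
  rw [EK.smul_apply_A₁, EK.smul_apply, EK.smul_apply, EK.smul_apply_A₁, mul_smul_comm]⟩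

variable [Fintype ι] (b : ι → C)

/-- `x ↦ V x`, `V = (g_J (b_i))`. -/
def Vmap : (ι → A₁) →ₗ[A₁] EK g where
  toFun x := fun J => ∑ i, x i • g J (b i)
  map_add' x y := by
    ext J
    change ∑ i, (x i + y i) • g J (b i) = ∑ i, x i • g J (b i) + ∑ i, y i • g J (b i)
    rw [← Finset.sum_add_distrib]
    exact Finset.sum_congr rfl fun i _ => add_smul _ _ _
  map_smul' r x := by
    ext J
    change ∑ i, (r * x i) • g J (b i) = r • ∑ i, x i • g J (b i)
    rw [Finset.smul_sum]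
    exact Finset.sum_congr rfl fun i _ => mul_smul _ _ _

theorem Vmap_apply (x : ι → A₁) (J : 𝒥) : Vmap g b x J = ∑ i, x i • g J (b i) := rfl

/-- `C[1/Δ]`. -/
abbrev E0 (C : Type u) [CommRing C] {A : Type u} [CommRing A] [Algebra A C] (Δ : A) : Type u :=
  Localization.Away (algebraMap A C Δ)

variable (Δ : A)

/-- `x ↦ ∑ x_i b_i / 1`. -/
noncomputable def v0 : (ι → A) →ₗ[A] E0 C Δ where
  toFun x := algebraMap C (E0 C Δ) (∑ i, x i • b i)
  map_add' x y := by
    rw [← map_add, ← Finset.sum_add_distrib]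
    congr 1
    exact Finset.sum_congr rfl fun i _ => add_smul _ _ _
  map_smul' r x := by
    rw [RingHom.id_apply, Algebra.smul_def r (algebraMap C (E0 C Δ) _), IsScalarTower.algebraMap_apply A C (E0 C Δ),
      ← map_mul, ← Algebra.smul_def, Finset.smul_sum]
    congr 1
    exact Finset.sum_congr rfl fun i _ => mul_smul _ _ _

theorem v0_apply (x : ι → A) : v0 b Δ x = algebraMap C (E0 C Δ) (∑ i, x i • b i) := rfl

variable {Δ}

theorem isUnit_hom (hΔ : IsUnit (algebraMap A K₁ Δ)) :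
    IsUnit (EK.hom g (algebraMap A C Δ)) := by
  obtain ⟨u, hu⟩ := hΔ.exists_right_inv
  refine IsUnit.of_mul_eq_one (fun _ => u) ?_
  ext J
  change g J (algebraMap A C Δ) * u = 1
  rw [AlgHom.commutes, hu]

/-- `C[1/Δ] → ∏_J K₁`. -/
noncomputable def jmap (hΔ : IsUnit (algebraMap A K₁ Δ)) : E0 C Δ →ₗ[C] EK g where
  toFun := IsLocalization.Away.lift (algebraMap A C Δ) (isUnit_hom g hΔ)
  map_add' x y := map_add _ _ _
  map_smul' c x := by
    rw [Algebra.smul_def, map_mul, IsLocalization.Away.lift_eq, RingHom.id_apply]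
    rfl

theorem jmap_algebraMap (hΔ : IsUnit (algebraMap A K₁ Δ)) (c : C) (J : 𝒥) :
    jmap g hΔ (algebraMap C (E0 C Δ) c) J = g J c := by
  have : jmap g hΔ (algebraMap C (E0 C Δ) c) = EK.hom g c :=
    IsLocalization.Away.lift_eq (algebraMap A C Δ) (isUnit_hom g hΔ) c
  rw [this]
  rfl

variable [DecidableEq ι] {β : C →ₗ[A] (ι → A)} {b}

/-- **The concrete frame.** -/
noncomputable def frame (hco : Coord Δ b β) (hΔ : IsUnit (algebraMap A K₁ Δ))
    (hreg : ∀ x : A, Δ * x = 0 → x = 0)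
    (hV : ∀ x : ι → A₁, Vmap g b x = 0 → x = 0) (a : A) (m : ℕ) (L : Submodule A₁ (ι → A₁))
    (hd₀ : ∀ (N : ℕ) (z w : A), Δ * z = a ^ (N + m) * w → ∃ w', z = a ^ N * w')
    (hd₁ : ∀ (N : ℕ) (z w : A₁), algebraMap A A₁ Δ * z = (algebraMap A A₁ a) ^ (N + m) * w →
      ∃ w', z = (algebraMap A A₁ a) ^ N * w')
    (stab : ∀ (c : C), ∀ l ∈ L, ∃ l' ∈ L, c • Vmap g b l = Vmap g b l') :
    Frame A A₁ C (E0 C Δ) (EK g) ι a Δ m L where
  v₀ := v0 b Δ
  v₁ := Vmap g b
  j := jmap g hΔ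
  comm x := by
    ext J
    rw [v0_apply, jmap_algebraMap, Vmap_apply, map_sum]
    refine Finset.sum_congr rfl fun i _ => ?_
    rw [map_smul, bc_apply, algebraMap_smul]
  inj₀ := by
    rw [injective_iff_map_eq_zero]
    intro x hx
    rw [v0_apply, IsLocalization.map_eq_zero_iff (Submonoid.powers (algebraMap A C Δ))] at hx
    obtain ⟨⟨_, n, rfl⟩, hn⟩ := hx
    have h1 := hco.kill hreg n hn
    rw [← Algebra.smul_def] at h1
    have h2 := congrArg β h1
    rw [map_smul, hco.β_sum, map_zero] at h2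
    ext i
    have h3 := congrFun h2 i
    exact hreg _ (hreg _ h3)
  inj₁ := by
    rw [injective_iff_map_eq_zero]
    exact hV
  dinj₀ x hx := by
    have h1 : IsUnit (algebraMap C (E0 C Δ) (algebraMap A C Δ)) :=
      IsLocalization.Away.algebraMap_isUnit _
    rw [Algebra.smul_def, IsScalarTower.algebraMap_apply A C (E0 C Δ)] at hx
    exact (h1.mul_right_eq_zero).1 hx
  hd₀ := hd₀
  hd₁ := hd₁
  lat₀ c x := by
    refine ⟨β (c * ∑ i, x i • b i), ?_⟩
    rw [v0_apply, v0_apply, ← hco.sum]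
    rw [← algebraMap_smul C Δ, smul_smul, Algebra.smul_def, ← map_mul, Algebra.smul_def,
      mul_assoc]
  lat₁ c x := by
    refine ⟨fun k => ∑ i, x i * algebraMap A A₁ (β (c * b i) k), ?_⟩
    ext J
    rw [EK.smul_apply_A, EK.smul_apply, Vmap_apply, Vmap_apply, Finset.mul_sum, Finset.smul_sum]
    simp only [Finset.sum_smul]
    rw [Finset.sum_comm]
    refine Finset.sum_congr rfl fun i _ => ?_
    have h1 : ∑ k, (x i * algebraMap A A₁ (β (c * b i) k)) • g J (b k)
        = x i • g J (∑ k, β (c * b i) k • b k) := by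
      rw [map_sum, Finset.smul_sum]
      refine Finset.sum_congr rfl fun k _ => ?_
      rw [map_smul, mul_smul, algebraMap_smul]
    rw [h1, ← hco.sum, map_smul, map_mul, mul_smul_comm, smul_comm]
  stab := stab

/-- g1, g2, g4 of `StageData` for the concrete frame. -/
theorem frame_g1 (x : ι → A) : ∃ y : C, v0 b Δ x = y • (1 : E0 C Δ) :=
  ⟨∑ i, x i • b i, by rw [v0_apply, Algebra.algebraMap_eq_smul_one]⟩

theorem frame_g2 (hco : Coord Δ b β) (y : C) :
    ∃ x : ι → A, Δ • y • (1 : E0 C Δ) = v0 b Δ x := by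
  refine ⟨β y, ?_⟩
  rw [v0_apply, ← hco.sum, ← Algebra.algebraMap_eq_smul_one, ← algebraMap_smul C Δ,
    ← algebraMap_smul C Δ y, Algebra.smul_def, smul_eq_mul, map_mul]

theorem frame_g4 (hco : Coord Δ b β) (hreg : ∀ x : A, Δ * x = 0 → x = 0) (y : C)
    (hy : y • (1 : E0 C Δ) = 0) : algebraMap A C Δ * y = 0 := by
  rw [← Algebra.algebraMap_eq_smul_one,
    IsLocalization.map_eq_zero_iff (Submonoid.powers (algebraMap A C Δ))] at hy
  obtain ⟨⟨_, n, rfl⟩, hn⟩ := hy
  exact hco.kill hreg n hn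

end EK

end Crest.Agent.R183.BCM
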