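/-
R183 (Lech's conjecture), block [2]: normalised length (Faltings / Gabber-Ramero) over an
increasing union of subrings.  Author: helper529.
-/
import Mathlib.RingTheory.Length
import Mathlib.RingTheory.SimpleModule.Basic
import Mathlib.RingTheory.Noetherian.Basic
import Mathlib.RingTheory.Ideal.Maps
import Mathlib.Data.ENNReal.Inv
import Mathlib.Data.ENNReal.Lemmas
import Mathlib.Data.Real.ENatENNReal
import Mathlib.Algebra.Ring.Subring.Basic
import Mathlib.LinearAlgebra.TensorProduct.Tower

set_option autoImplicit false

namespace Crest.Agent.R183.Lam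

open scoped ENNReal
open Submodule

section Key

/-- **Scaling inequality.** If `length_{R'} (R'/m R') ≤ c` for all maximal ideals `m` of `R`, and the
`R'`-module `Q'` is generated by the image of an `R`-linear map `Q → Q'`, then
`length_{R'} Q' ≤ c * length_R Q`.  (No flatness.) -/
theorem length_le_mul {R R' : Type*} [CommRing R] [CommRing R'] [Algebra R R'] (c : ℕ∞) (hc : 1 ≤ c)
    (h : ∀ m : Ideal R, m.IsMaximal → Module.length R' (R' ⧸ m.map (algebraMap R R')) ≤ c)
    {Q : Type*} [AddCommGroup Q] [Module R Q] {Q' : Type*} [AddCommGroup Q'] [Module R Q']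
    [Module R' Q'] [IsScalarTower R R' Q'] (f : Q →ₗ[R] Q')
    (hf : Submodule.span R' (Set.range f) = ⊤) :
    Module.length R' Q' ≤ c * Module.length R Q := by
  by_cases H : IsFiniteLength R Q
  · induction H generalizing Q' with
    | of_subsingleton =>
      have : Subsingleton Q' := by
        rw [← Submodule.subsingleton_iff R', ← subsingleton_iff_bot_eq_top, ← hf, eq_comm,
          Submodule.span_eq_bot]
        rintro _ ⟨x, rfl⟩
        rw [Subsingleton.elim x 0, map_zero]
      rw [Module.length_eq_zero_iff.mpr this]
      exact bot_le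
    | @of_simple_quotient M _ _ N hs hN ih =>
      let Q1 : Submodule R' Q' := Submodule.span R' (f '' (N : Set M))
      have hmem : ∀ n : N, (f.domRestrict N) n ∈ Q1.restrictScalars R := fun n =>
        Submodule.subset_span ⟨n.1, n.2, rfl⟩
      have h1 : Module.length R' Q1 ≤ c * Module.length R N := by
        refine ih (Q' := Q1) ((f.domRestrict N).codRestrict (Q1.restrictScalars R) hmem) ?_
        rw [eq_top_iff]
        rintro ⟨y, hy⟩ -
        have : ∀ z (hz : z ∈ Q1), (⟨z, hz⟩ : Q1) ∈ Submodule.span R'
            (Set.range ((f.domRestrict N).codRestrict (Q1.restrictScalars R) hmem)) := by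
          intro z hz
          induction hz using Submodule.span_induction with
          | mem x hx =>
            obtain ⟨n, hn, rfl⟩ := hx
            exact Submodule.subset_span ⟨⟨n, hn⟩, rfl⟩
          | zero => exact Submodule.zero_mem _
          | add x y hx hy hx' hy' => exact Submodule.add_mem _ hx' hy'
          | smul a x hx hx' => exact Submodule.smul_mem _ a hx'
        exact this y hy
      have h2 : Module.length R' (Q' ⧸ Q1) ≤ c := by
        have := hs.nontrivial
        obtain ⟨x0, hx0⟩ := exists_ne (0 : M ⧸ N)
        obtain ⟨x, rfl⟩ := N.mkQ_surjective x0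
        have hmax := IsSimpleModule.ker_toSpanSingleton_isMaximal R hx0
        have hsurj := IsSimpleModule.toSpanSingleton_surjective R hx0
        set m : Ideal R := LinearMap.ker (LinearMap.toSpanSingleton R (M ⧸ N) (N.mkQ x)) with hm
        let g : R' →ₗ[R'] Q' ⧸ Q1 := LinearMap.toSpanSingleton R' (Q' ⧸ Q1) (Q1.mkQ (f x))
        have hg : m.map (algebraMap R R') ≤ LinearMap.ker g := by
          rw [Ideal.map_le_iff_le_comap]
          intro a ha
          have ha' : N.mkQ (a • x) = 0 := by
            simpa [hm, LinearMap.mem_ker, LinearMap.toSpanSingleton_apply] using ha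
          have ha'' : a • x ∈ N := by
            rwa [Submodule.mkQ_apply, Submodule.Quotient.mk_eq_zero] at ha'
          change algebraMap R R' a ∈ LinearMap.ker g
          rw [LinearMap.mem_ker]
          change algebraMap R R' a • Q1.mkQ (f x) = 0
          rw [← map_smul, algebraMap_smul, ← map_smul, Submodule.mkQ_apply,
            Submodule.Quotient.mk_eq_zero]
          exact Submodule.subset_span ⟨_, ha'', rfl⟩
        have hgs : Function.Surjective (Submodule.liftQ _ g hg) := by
          rw [← LinearMap.range_eq_top, Submodule.range_liftQ]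
          rw [eq_top_iff]
          rintro y -
          obtain ⟨y, rfl⟩ := Q1.mkQ_surjective y
          have hy : y ∈ Submodule.span R' (Set.range f) := by rw [hf]; trivial
          induction hy using Submodule.span_induction with
          | mem z hz =>
            obtain ⟨w, rfl⟩ := hz
            obtain ⟨a, ha⟩ := hsurj (N.mkQ w)
            have : w - a • x ∈ N := by
              have : N.mkQ (w - a • x) = 0 := by
                rw [map_sub, sub_eq_zero, ← ha, map_smul]; rfl
              rwa [Submodule.mkQ_apply, Submodule.Quotient.mk_eq_zero] at this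
            refine ⟨algebraMap R R' a, ?_⟩
            change algebraMap R R' a • Q1.mkQ (f x) = _
            rw [← map_smul, algebraMap_smul, ← map_smul, ← sub_eq_zero, ← map_sub, ← map_sub,
              Submodule.mkQ_apply, Submodule.Quotient.mk_eq_zero]
            refine Submodule.subset_span ⟨a • x - w, ?_, rfl⟩
            rw [← neg_sub]
            exact N.neg_mem this
          | zero => rw [map_zero]; exact Submodule.zero_mem _
          | add y z _ _ hy hz => rw [map_add]; exact Submodule.add_mem _ hy hz
          | smul a y _ hy => rw [map_smul]; exact Submodule.smul_mem _ a hy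
        exact (Module.length_le_of_surjective _ hgs).trans (h m hmax)
      have h3 : Module.length R' Q' = Module.length R' Q1 + Module.length R' (Q' ⧸ Q1) :=
        Module.length_eq_add_of_exact Q1.subtype Q1.mkQ Q1.subtype_injective Q1.mkQ_surjective
          (LinearMap.exact_subtype_mkQ Q1)
      have h4 : Module.length R M = Module.length R N + Module.length R (M ⧸ N) :=
        Module.length_eq_add_of_exact N.subtype N.mkQ N.subtype_injective N.mkQ_surjective
          (LinearMap.exact_subtype_mkQ N)
      have h5 : Module.length R (M ⧸ N) = 1 := Module.length_eq_one_iff.mpr hs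
      rw [h3, h4, h5, mul_add, mul_one]
      exact add_le_add h1 h2
  · rw [← Module.length_ne_top_iff, not_not] at H
    rw [H, ENat.mul_top (by rintro rfl; simp at hc)]
    exact le_top

end Key

universe u

/-- An increasing sequence of Noetherian subrings `S e` of `A`, with the scaling condition
`length_{S (e+1)} (S (e+1) / m S (e+1)) ≤ c` for all maximal ideals `m` of `S e`. -/
structure Tower (A : Type u) [CommRing A] where
  /-- the subrings -/
  S : ℕ → Subring A
  mono : Monotone S
  /-- the scaling constant, e.g. `p ^ d` -/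
  c : ℕ
  one_le_c : 1 ≤ c
  noeth : ∀ e, IsNoetherianRing (S e)
  scale : ∀ (e : ℕ) (m : Ideal (S e)), m.IsMaximal →
    Module.length (S (e + 1)) (S (e + 1) ⧸
      m.map (Subring.inclusion (mono (Nat.le_succ e)))) ≤ c

namespace Tower

variable {A : Type u} [CommRing A] (T : Tower A)

theorem cE_ne_zero (e : ℕ) : ((T.c : ℝ≥0∞) ^ e) ≠ 0 :=
  pow_ne_zero _ (by have := T.one_le_c; exact_mod_cast (by omega : T.c ≠ 0))

theorem cE_ne_top (e : ℕ) : ((T.c : ℝ≥0∞) ^ e) ≠ ⊤ :=
  ENNReal.pow_ne_top (ENNReal.natCast_ne_top _)

section Module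

variable {M : Type*} [AddCommGroup M] [Module A M]

/-- one step of the scaling inequality for a pair of submodules -/
theorem length_step (e : ℕ) (N' N : Submodule (T.S e) M) :
    Module.length (T.S (e + 1)) ((Submodule.span (T.S (e + 1)) (N : Set M)) ⧸
        (Submodule.span (T.S (e + 1)) (N' : Set M)).submoduleOf
          (Submodule.span (T.S (e + 1)) (N : Set M))) ≤
      (T.c : ℕ∞) * Module.length (T.S e) (N ⧸ N'.submoduleOf N) := by
  let _ : Algebra (T.S e) (T.S (e + 1)) := (Subring.inclusion (T.mono (Nat.le_succ e))).toAlgebra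
  have : IsScalarTower (T.S e) (T.S (e + 1)) M := ⟨fun a b x => by
    change ((a : A) * (b : A)) • x = (a : A) • ((b : A) • x)
    rw [mul_smul]⟩
  set N1 := Submodule.span (T.S (e + 1)) (N : Set M) with hN1
  set N1' := Submodule.span (T.S (e + 1)) (N' : Set M) with hN1'
  have : IsScalarTower (T.S e) (T.S (e + 1)) (N1 ⧸ N1'.submoduleOf N1) := inferInstance
  let i : N →ₗ[T.S e] N1 :=
    (N.subtype).codRestrict (N1.restrictScalars (T.S e)) (fun x => Submodule.subset_span x.2)
  let g : N →ₗ[T.S e] (N1 ⧸ N1'.submoduleOf N1) :=
    ((N1'.submoduleOf N1).mkQ.restrictScalars (T.S e)) ∘ₗ i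
  have hg : N'.submoduleOf N ≤ LinearMap.ker g := by
    intro x hx
    rw [LinearMap.mem_ker]
    change (N1'.submoduleOf N1).mkQ (i x) = 0
    rw [Submodule.mkQ_apply, Submodule.Quotient.mk_eq_zero]
    exact Submodule.subset_span (Submodule.mem_comap.mp hx)
  have hspan : ∀ z (hz : z ∈ N1), (N1'.submoduleOf N1).mkQ ⟨z, hz⟩ ∈
      Submodule.span (T.S (e + 1)) (Set.range (Submodule.liftQ _ g hg)) := by
    intro z hz
    induction hz using Submodule.span_induction with
    | mem x hx => exact Submodule.subset_span ⟨Submodule.Quotient.mk ⟨x, hx⟩, rfl⟩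
    | zero => exact Submodule.zero_mem _
    | add x y hx hy hx' hy' =>
      have : (N1'.submoduleOf N1).mkQ ⟨x + y, N1.add_mem hx hy⟩ =
        (N1'.submoduleOf N1).mkQ ⟨x, hx⟩ + (N1'.submoduleOf N1).mkQ ⟨y, hy⟩ := rfl
      rw [this]
      exact Submodule.add_mem _ hx' hy'
    | smul a x hx hx' =>
      have : (N1'.submoduleOf N1).mkQ ⟨a • x, N1.smul_mem a hx⟩ =
        a • (N1'.submoduleOf N1).mkQ ⟨x, hx⟩ := rfl
      rw [this]
      exact Submodule.smul_mem _ a hx'
  refine length_le_mul (T.c : ℕ∞) (by exact_mod_cast T.one_le_c) (fun m hm => T.scale e m hm)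
    (Submodule.liftQ _ g hg) ?_
  rw [eq_top_iff]
  rintro y -
  obtain ⟨y, rfl⟩ := (N1'.submoduleOf N1).mkQ_surjective y
  exact hspan y.1 y.2

theorem span_span_set {e e' : ℕ} (h : e ≤ e') (E : Set M) :
    Submodule.span (T.S e') ((Submodule.span (T.S e) E : Submodule (T.S e) M) : Set M) =
      Submodule.span (T.S e') E := by
  apply le_antisymm
  · rw [Submodule.span_le]
    have key : ∀ x ∈ Submodule.span (T.S e) E, x ∈ Submodule.span (T.S e') E := by
      intro x hx
      induction hx using Submodule.span_induction with
      | mem x hx => exact Submodule.subset_span hx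
      | zero => exact Submodule.zero_mem _
      | add x y _ _ hx' hy' => exact Submodule.add_mem _ hx' hy'
      | smul a x _ hx' =>
        exact Submodule.smul_mem _ (⟨(a : A), T.mono h a.2⟩ : T.S e') hx'
    exact fun x hx => key x hx
  · exact Submodule.span_mono Submodule.subset_span

theorem span_le_span {e e' : ℕ} (h : e ≤ e') (E : Set M) :
    ((Submodule.span (T.S e) E : Submodule (T.S e) M) : Set M) ⊆
      (Submodule.span (T.S e') E : Submodule (T.S e') M) := by
  rw [← T.span_span_set h]
  exact Submodule.subset_span

/-- relative length at level `e`, divided by `c ^ e` -/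
noncomputable def q (e : ℕ) (E' E : Set M) : ℝ≥0∞ :=
  ((Module.length (T.S e) ((Submodule.span (T.S e) E) ⧸
    (Submodule.span (T.S e) E').submoduleOf (Submodule.span (T.S e) E)) : ℕ∞) : ℝ≥0∞) /
    (T.c : ℝ≥0∞) ^ e

/-- length at level `e`, divided by `c ^ e` -/
noncomputable def a (e : ℕ) (E : Set M) : ℝ≥0∞ :=
  ((Module.length (T.S e) (Submodule.span (T.S e) E) : ℕ∞) : ℝ≥0∞) / (T.c : ℝ≥0∞) ^ e

theorem q_succ_le (e : ℕ) (E' E : Set M) : T.q (e + 1) E' E ≤ T.q e E' E := by
  have h := T.length_step e (Submodule.span (T.S e) E') (Submodule.span (T.S e) E)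
  rw [T.span_span_set (Nat.le_succ e), T.span_span_set (Nat.le_succ e)] at h
  unfold q
  have h' := ENat.toENNReal_mono h
  refine (ENNReal.div_le_div_right h' _).trans ?_
  rw [ENat.toENNReal_mul, ENat.toENNReal_coe, pow_succ', ENNReal.mul_div_mul_left]
  · have := T.one_le_c
    exact_mod_cast (by omega : T.c ≠ 0)
  · exact ENNReal.natCast_ne_top _

theorem q_antitone (E' E : Set M) : Antitone (fun e => T.q e E' E) :=
  antitone_nat_of_succ_le (fun e => T.q_succ_le e E' E)

theorem q_empty (e : ℕ) (E : Set M) : T.q e ∅ E = T.a e E := by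
  unfold q a
  congr 2
  refine (LinearEquiv.length_eq (Submodule.quotEquivOfEqBot _ ?_))
  rw [Submodule.span_empty, Submodule.submoduleOf, Submodule.comap_bot, Submodule.ker_subtype]

theorem a_antitone (E : Set M) : Antitone (fun e => T.a e E) := by
  have := T.q_antitone ∅ E
  simpa only [T.q_empty] using this

theorem a_mono (e : ℕ) {E E' : Set M}
    (h : E ⊆ (Submodule.span (T.S e) E' : Submodule (T.S e) M)) : T.a e E ≤ T.a e E' := by
  unfold a
  refine ENNReal.div_le_div_right (ENat.toENNReal_mono ?_) _
  have h' : Submodule.span (T.S e) E ≤ Submodule.span (T.S e) E' := Submodule.span_le.mpr h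
  exact Module.length_le_of_injective (Submodule.inclusion h') (Submodule.inclusion_injective h')

theorem a_le_add (e : ℕ) (E' E : Set M)
    (h : E' ⊆ (Submodule.span (T.S e) E : Submodule (T.S e) M)) :
    T.a e E = T.a e E' + T.q e E' E := by
  unfold a q
  rw [← ENNReal.add_div, ← ENat.toENNReal_add]
  congr 2
  have h' : Submodule.span (T.S e) E' ≤ Submodule.span (T.S e) E := Submodule.span_le.mpr h
  refine Module.length_eq_add_of_exact (Submodule.inclusion h') (Submodule.mkQ _)
    (Submodule.inclusion_injective h') (Submodule.mkQ_surjective _) ?_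
  rw [LinearMap.exact_iff, Submodule.ker_mkQ, Submodule.range_inclusion]
  rfl

/-- the normalised length of (the `A`-module generated by) a finite set -/
noncomputable def lamSet (E : Set M) : ℝ≥0∞ := ⨅ e, T.a e E

theorem lamSet_le (e : ℕ) (E : Set M) : T.lamSet E ≤ T.a e E := iInf_le _ e

theorem lamSet_eq_iInf_add (k : ℕ) (E : Set M) : T.lamSet E = ⨅ e, T.a (e + k) E := by
  apply le_antisymm
  · exact le_iInf fun e => T.lamSet_le _ E
  · exact le_iInf fun e => (iInf_le _ e).trans (T.a_antitone E (Nat.le_add_right e k))

theorem lamSet_mono_of_subset_span {E E' : Set M} (k : ℕ)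
    (h : E ⊆ (Submodule.span (T.S k) E' : Submodule (T.S k) M)) :
    T.lamSet E ≤ T.lamSet E' := by
  rw [T.lamSet_eq_iInf_add k E']
  refine le_iInf fun e => (T.lamSet_le (e + k) E).trans (T.a_mono _ ?_)
  exact h.trans (T.span_le_span (Nat.le_add_left k e) E')


theorem lamSet_le_add_q (k : ℕ) (F E : Set M)
    (h : F ⊆ (Submodule.span (T.S k) E : Submodule (T.S k) M)) :
    T.lamSet E ≤ T.lamSet F + T.q k F E := by
  rw [T.lamSet_eq_iInf_add k F, ENNReal.iInf_add]
  refine le_iInf fun e => ?_
  refine (T.lamSet_le (e + k) E).trans ?_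
  rw [T.a_le_add (e + k) F E (h.trans (T.span_le_span (Nat.le_add_left k e) E))]
  gcongr
  exact T.q_antitone F E (Nat.le_add_left k e)

/-- **normalised length** of an `A`-module -/
noncomputable def lam (T : Tower A) (M : Type*) [AddCommGroup M] [Module A M] : ℝ≥0∞ :=
  ⨆ E : Finset M, T.lamSet (E : Set M)

theorem lamSet_le_lam (E : Finset M) : T.lamSet (E : Set M) ≤ T.lam M :=
  le_iSup (fun E : Finset M => T.lamSet (E : Set M)) E

end Module

section Maps

variable {M N : Type*} [AddCommGroup M] [Module A M] [AddCommGroup N] [Module A N]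

theorem coe_map_span (f : M →ₗ[A] N) (e : ℕ) (E : Set M) :
    (Submodule.span (T.S e) E).map (f.restrictScalars (T.S e)) =
      Submodule.span (T.S e) (f '' E) := by
  rw [Submodule.map_span]; rfl

theorem a_image_le (f : M →ₗ[A] N) (e : ℕ) (E : Set M) : T.a e (f '' E) ≤ T.a e E := by
  unfold a
  refine ENNReal.div_le_div_right (ENat.toENNReal_mono ?_) _
  rw [← T.coe_map_span f e E]
  exact Module.length_le_of_surjective
    ((f.restrictScalars (T.S e)).submoduleMap (Submodule.span (T.S e) E))
    (LinearMap.submoduleMap_surjective _ _)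

theorem a_image_of_injective (f : M →ₗ[A] N) (hf : Function.Injective f) (e : ℕ) (E : Set M) :
    T.a e (f '' E) = T.a e E := by
  unfold a
  congr 2
  rw [← T.coe_map_span f e E]
  exact (LinearEquiv.length_eq (Submodule.equivMapOfInjective (f.restrictScalars (T.S e)) hf
    (Submodule.span (T.S e) E))).symm

theorem lamSet_image_le (f : M →ₗ[A] N) (E : Set M) : T.lamSet (f '' E) ≤ T.lamSet E :=
  iInf_mono fun e => T.a_image_le f e E

theorem lamSet_image_of_injective (f : M →ₗ[A] N) (hf : Function.Injective f) (E : Set M) :
    T.lamSet (f '' E) = T.lamSet E := by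
  unfold lamSet
  simp only [T.a_image_of_injective f hf]

theorem lam_le_of_injective (f : M →ₗ[A] N) (hf : Function.Injective f) : T.lam M ≤ T.lam N := by
  classical
  refine iSup_le fun E => ?_
  rw [← T.lamSet_image_of_injective f hf, ← Finset.coe_image]
  exact T.lamSet_le_lam _

theorem lam_le_of_surjective (f : M →ₗ[A] N) (hf : Function.Surjective f) :
    T.lam N ≤ T.lam M := by
  classical
  refine iSup_le fun E => ?_
  obtain ⟨s, hs⟩ := hf.hasRightInverse
  have hE : (E : Set N) = f '' ((E.image s : Finset M) : Set M) := by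
    rw [Finset.coe_image, ← Set.image_comp]
    have : (f ∘ s) = id := funext hs
    rw [this, Set.image_id]
  rw [hE]
  exact (T.lamSet_image_le f _).trans (T.lamSet_le_lam _)

theorem lam_congr (f : M ≃ₗ[A] N) : T.lam M = T.lam N :=
  le_antisymm (T.lam_le_of_injective f.toLinearMap f.injective)
    (T.lam_le_of_injective f.symm.toLinearMap f.symm.injective)

end Maps

section Exact

variable {M' M M'' : Type*} [AddCommGroup M'] [Module A M'] [AddCommGroup M] [Module A M]
  [AddCommGroup M''] [Module A M'']

theorem lam_add_le_of_exact (f : M' →ₗ[A] M) (g : M →ₗ[A] M'') (hf : Function.Injective f)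
    (hg : Function.Surjective g) (H : Function.Exact f g) :
    T.lam M' + T.lam M'' ≤ T.lam M := by
  classical
  refine ENNReal.iSup_add_iSup_le fun E' E'' => ?_
  obtain ⟨s, hs⟩ := hg.hasRightInverse
  let E : Finset M := E'.image f ∪ E''.image s
  refine le_trans ?_ (T.lamSet_le_lam E)
  refine le_iInf fun e => ?_
  refine (add_le_add (T.lamSet_le e _) (T.lamSet_le e _)).trans ?_
  rw [T.a_le_add e (f '' (E' : Set M')) (E : Set M)
    (Submodule.subset_span.trans' (by simp [E])), T.a_image_of_injective f hf]
  gcongr
  unfold a q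
  refine ENNReal.div_le_div_right (ENat.toENNReal_mono ?_) _
  -- the map `span E → span E''` factors through the quotient by `span (f '' E')`
  let gE : Submodule.span (T.S e) (E : Set M) →ₗ[T.S e] M'' :=
    (g.restrictScalars (T.S e)) ∘ₗ (Submodule.span (T.S e) (E : Set M)).subtype
  have hk : (Submodule.span (T.S e) (f '' (E' : Set M'))).submoduleOf
      (Submodule.span (T.S e) (E : Set M)) ≤ LinearMap.ker gE := by
    intro x hx
    rw [LinearMap.mem_ker]
    have hx' : (x : M) ∈ Submodule.span (T.S e) (f '' (E' : Set M')) := hx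
    rw [← T.coe_map_span f e] at hx'
    obtain ⟨y, _, hy⟩ := hx'
    change g (x : M) = 0
    rw [← hy]
    exact (H (f y)).mpr ⟨y, rfl⟩
  let G := Submodule.liftQ _ gE hk
  have hr : Submodule.span (T.S e) (E'' : Set M'') ≤ LinearMap.range G := by
    rw [Submodule.span_le]
    intro y hy
    refine ⟨Submodule.Quotient.mk ⟨s y, Submodule.subset_span ?_⟩, ?_⟩
    · simp only [E, Finset.coe_union, Finset.coe_image]
      exact Or.inr ⟨y, hy, rfl⟩
    · change g (s y) = y
      exact hs y
  exact (Module.length_le_of_injective (Submodule.inclusion hr)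
    (Submodule.inclusion_injective hr)).trans
    (Module.length_le_of_surjective G.rangeRestrict G.surjective_rangeRestrict)

theorem lam_le_add_of_exact (f : M' →ₗ[A] M) (g : M →ₗ[A] M'') (hf : Function.Injective f)
    (H : Function.Exact f g) :
    T.lam M ≤ T.lam M' + T.lam M'' := by
  classical
  refine iSup_le fun E => ?_
  have key : ∀ k, T.lamSet (E : Set M) ≤ T.lam M' + T.a k (g '' (E : Set M)) := by
    intro k
    have := T.noeth k
    let sp := Submodule.span (T.S k) (E : Set M)
    have hspN : IsNoetherian (T.S k) sp :=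
      isNoetherian_of_fg_of_noetherian sp (Submodule.fg_span E.finite_toSet)
    -- the kernel `K` of `g` on the span
    let K : Submodule (T.S k) M := sp ⊓ LinearMap.ker (g.restrictScalars (T.S k))
    have hKfg : K.FG := by
      have h1 : (K.submoduleOf sp).FG := hspN.noetherian _
      have h2 : K = (K.submoduleOf sp).map sp.subtype := by
        rw [Submodule.submoduleOf, Submodule.map_comap_subtype]
        exact (inf_eq_right.mpr inf_le_left).symm
      rw [h2]
      exact h1.map _
    obtain ⟨F, hF⟩ := hKfg
    -- pull back to `M'`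
    have hFK : ∀ x ∈ F, ∃ y, f y = x := by
      intro x hx
      have : x ∈ K := by rw [← hF]; exact Submodule.subset_span hx
      exact (H x).mp this.2
    let F' : Finset M' := F.preimage f (hf.injOn)
    have hF' : f '' (F' : Set M') = (F : Set M) := by
      ext x
      constructor
      · rintro ⟨y, hy, rfl⟩
        simpa [F'] using hy
      · intro hx
        obtain ⟨y, rfl⟩ := hFK x hx
        exact ⟨y, by simpa [F'] using hx, rfl⟩
    have hsub : (F : Set M) ⊆ (sp : Set M) := by
      intro x hx
      have : x ∈ K := by rw [← hF]; exact Submodule.subset_span hx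
      exact this.1
    refine (T.lamSet_le_add_q k (F : Set M) (E : Set M) hsub).trans ?_
    gcongr
    · rw [← hF', T.lamSet_image_of_injective f hf]
      exact T.lamSet_le_lam _
    · unfold q a
      refine ENNReal.div_le_div_right (ENat.toENNReal_mono ?_) _
      -- `sp / K` embeds in the span of the image
      let g' : sp →ₗ[T.S k] Submodule.span (T.S k) (g '' (E : Set M)) :=
        ((g.restrictScalars (T.S k)) ∘ₗ sp.subtype).codRestrict _ (fun x => by
          rw [← T.coe_map_span g k]
          exact ⟨x.1, x.2, rfl⟩)
      have hk : (Submodule.span (T.S k) (F : Set M)).submoduleOf sp = LinearMap.ker g' := by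
        rw [hF]
        ext x
        rw [LinearMap.mem_ker, Submodule.submoduleOf, Submodule.mem_comap]
        constructor
        · intro hx
          exact Subtype.ext hx.2
        · intro hx
          exact ⟨x.2, congrArg Subtype.val hx⟩
      exact Module.length_le_of_injective (Submodule.liftQ _ g' hk.le) (by
        rw [← LinearMap.ker_eq_bot]
        exact Submodule.ker_liftQ_eq_bot _ _ _ hk.ge)
  calc T.lamSet (E : Set M) ≤ ⨅ k, (T.lam M' + T.a k (g '' (E : Set M))) := le_iInf key
    _ = T.lam M' + T.lamSet (g '' (E : Set M)) := by rw [lamSet, ENNReal.add_iInf]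
    _ ≤ T.lam M' + T.lam M'' := by
      gcongr
      rw [← Finset.coe_image]
      exact T.lamSet_le_lam _

/-- **Additivity of the normalised length.** -/
theorem lam_eq_add_of_exact (f : M' →ₗ[A] M) (g : M →ₗ[A] M'') (hf : Function.Injective f)
    (hg : Function.Surjective g) (H : Function.Exact f g) :
    T.lam M = T.lam M' + T.lam M'' :=
  le_antisymm (T.lam_le_add_of_exact f g hf H) (T.lam_add_le_of_exact f g hf hg H)


end Exact

end Tower

end Crest.Agent.R183.Lam
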