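/-
R183 (Lech's conjecture), block [2]: normalised length, further properties.  Author: helper529.
-/
import Crest.Agent.R183.Lam
import Mathlib.LinearAlgebra.Isomorphisms
import Mathlib.RingTheory.Flat.Basic
import Mathlib.RingTheory.LocalRing.ResidueField.Defs
import Mathlib.RingTheory.LocalRing.MaximalIdeal.Basic

set_option autoImplicit false

namespace Crest.Agent.R183.Lam

open scoped ENNReal TensorProduct
open Submodule

namespace Tower

universe u
variable {A : Type u} [CommRing A] (T : Tower A)

section Basic

variable {M : Type*} [AddCommGroup M] [Module A M] {N : Type*} [AddCommGroup N] [Module A N]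

theorem lam_of_subsingleton [Subsingleton M] : T.lam M = 0 := by
  rw [← le_zero_iff]
  refine iSup_le fun E => ?_
  refine (T.lamSet_le 0 _).trans ?_
  unfold a
  have : Subsingleton (Submodule.span (T.S 0) (E : Set M)) := inferInstance
  rw [Module.length_eq_zero_iff.mpr this]
  simp


theorem lam_submodule_le (N : Submodule A M) : T.lam N ≤ T.lam M :=
  T.lam_le_of_injective N.subtype N.subtype_injective


@[simp] theorem lam_top : T.lam (⊤ : Submodule A M) = T.lam M :=
  T.lam_congr Submodule.topEquiv

@[simp] theorem lam_bot : T.lam (⊥ : Submodule A M) = 0 := T.lam_of_subsingleton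






theorem lamSet_le_lam_span (E : Finset M) :
    T.lamSet (E : Set M) ≤ T.lam (Submodule.span A (E : Set M)) := by
  classical
  let E' : Finset (Submodule.span A (E : Set M)) :=
    E.attach.image (fun x => ⟨x.1, Submodule.subset_span x.2⟩)
  have : (E : Set M) = (Submodule.span A (E : Set M)).subtype '' (E' : Set _) := by
    ext x
    constructor
    · intro hx
      exact ⟨⟨x, Submodule.subset_span hx⟩, by simpa [E'] using hx, rfl⟩
    · rintro ⟨y, hy, rfl⟩
      simp only [E', Finset.coe_image, Set.mem_image, Finset.mem_coe, Finset.mem_attach,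
        true_and, Subtype.exists] at hy
      obtain ⟨z, hz, rfl⟩ := hy
      exact hz
  conv_lhs => rw [this]
  rw [T.lamSet_image_of_injective _ (Submodule.subtype_injective _)]
  exact T.lamSet_le_lam _

theorem lam_eq_iSup_span : T.lam M = ⨆ E : Finset M, T.lam (Submodule.span A (E : Set M)) :=
  le_antisymm (iSup_mono fun E => T.lamSet_le_lam_span E)
    (iSup_le fun E => T.lam_submodule_le _)







end Basic

end Tower

end Crest.Agent.R183.Lam
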