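/-
R183 (Lech's conjecture), block [2]: normalised length: generators, quotients `A/I`, flat base
change, Frobenius scaling.  Author: helper529.
-/
import Crest.Agent.R183.Lam2
import Mathlib.RingTheory.Flat.Basic
import Mathlib.LinearAlgebra.TensorProduct.RightExactness
import Mathlib.RingTheory.LocalRing.ResidueField.Basic
import Mathlib.RingTheory.SimpleModule.Basic

set_option autoImplicit false

namespace Crest.Agent.R183.Lam

open scoped ENNReal TensorProduct
open Submodule

namespace Tower

universe u
variable {A : Type u} [CommRing A] (T : Tower A)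

section Generators

variable {M : Type*} [AddCommGroup M] [Module A M]

/-- if `A` is the union of the `S e`, every finite set in the `A`-span of `E` is in some
`S e`-span of `E` -/
theorem exists_subset_span (hU : ∀ x : A, ∃ e, x ∈ T.S e) (E : Set M) (F : Finset M)
    (hF : (F : Set M) ⊆ (Submodule.span A E : Submodule A M)) :
    ∃ k, (F : Set M) ⊆ (Submodule.span (T.S k) E : Submodule (T.S k) M) := by
  classical
  have h1 : ∀ x ∈ Submodule.span A E, ∃ k, x ∈ Submodule.span (T.S k) E := by
    intro x hx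
    induction hx using Submodule.span_induction with
    | mem x hx => exact ⟨0, Submodule.subset_span hx⟩
    | zero => exact ⟨0, Submodule.zero_mem _⟩
    | add x y _ _ hx hy =>
      obtain ⟨k, hk⟩ := hx
      obtain ⟨l, hl⟩ := hy
      exact ⟨max k l, Submodule.add_mem _ (T.span_le_span (le_max_left k l) E hk)
        (T.span_le_span (le_max_right k l) E hl)⟩
    | smul a x _ hx =>
      obtain ⟨k, hk⟩ := hx
      obtain ⟨l, hl⟩ := hU a
      exact ⟨max k l, Submodule.smul_mem _ (⟨a, T.mono (le_max_right k l) hl⟩ : T.S (max k l))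
        (T.span_le_span (le_max_left k l) E hk)⟩
  induction F using Finset.induction_on with
  | empty => exact ⟨0, by simp⟩
  | insert x F hx ih =>
    obtain ⟨k, hk⟩ := ih (fun y hy => hF (Finset.mem_insert_of_mem hy))
    obtain ⟨l, hl⟩ := h1 x (hF (Finset.mem_insert_self x F))
    refine ⟨max k l, ?_⟩
    intro y hy
    rcases Finset.mem_insert.mp hy with rfl | hy
    · exact T.span_le_span (le_max_right k l) E hl
    · exact T.span_le_span (le_max_left k l) E (hk hy)

/-- the normalised length of a finitely generated module, computed from generators -/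
theorem lam_eq_lamSet (hU : ∀ x : A, ∃ e, x ∈ T.S e) (E : Finset M)
    (hE : Submodule.span A (E : Set M) = ⊤) : T.lam M = T.lamSet (E : Set M) := by
  apply le_antisymm
  · refine iSup_le fun F => ?_
    obtain ⟨k, hk⟩ := T.exists_subset_span hU (E : Set M) F (by rw [hE]; exact fun _ _ => trivial)
    exact T.lamSet_mono_of_subset_span k hk
  · exact T.lamSet_le_lam E

/-- length of `A / I` at level `e` -/
theorem a_quotient (I : Ideal A) (e : ℕ) :
    T.a (M := A ⧸ I) e {(1 : A ⧸ I)} =
      ((Module.length (T.S e) (T.S e ⧸ I.comap (T.S e).subtype) : ℕ∞) : ℝ≥0∞) /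
        (T.c : ℝ≥0∞) ^ e := by
  unfold a
  congr 2
  let g : T.S e →ₗ[T.S e] A ⧸ I := LinearMap.toSpanSingleton (T.S e) (A ⧸ I) 1
  have hg : ∀ x : T.S e, g x = Ideal.Quotient.mk I (x : A) := by
    intro x
    change (x : A) • (Ideal.Quotient.mk I (1 : A)) = _
    rw [← Ideal.Quotient.mk_eq_mk, ← Ideal.Quotient.mk_eq_mk, ← Submodule.Quotient.mk_smul,
      smul_eq_mul, mul_one]
  have hk : (I.comap (T.S e).subtype : Submodule (T.S e) (T.S e)) = LinearMap.ker g := by
    ext x
    rw [LinearMap.mem_ker, hg, Ideal.Quotient.eq_zero_iff_mem]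
    rfl
  have hr : Submodule.span (T.S e) {(1 : A ⧸ I)} = LinearMap.range g := by
    rw [LinearMap.range_toSpanSingleton]
  rw [hr]
  exact ((Submodule.quotEquivOfEq _ _ hk).trans g.quotKerEquivRange).symm.length_eq



/-- exact value of `λ(A/I)` if the levels are constant (eventually) -/
theorem lam_quotient_of_eq (hU : ∀ x : A, ∃ e, x ∈ T.S e) (I : Ideal A) (r : ℝ≥0∞)
    (k : ℕ) (h : ∀ e, k ≤ e →
      ((Module.length (T.S e) (T.S e ⧸ I.comap (T.S e).subtype) : ℕ∞) : ℝ≥0∞) =
        r * (T.c : ℝ≥0∞) ^ e) : T.lam (A ⧸ I) = r := by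
  rw [T.lam_eq_lamSet hU {(1 : A ⧸ I)} ?_]
  · rw [Finset.coe_singleton, T.lamSet_eq_iInf_add k]
    have : ∀ e, T.a (M := A ⧸ I) (e + k) {(1 : A ⧸ I)} = r := by
      intro e
      rw [T.a_quotient, h (e + k) (Nat.le_add_left k e)]
      exact ENNReal.mul_div_cancel_right (T.cE_ne_zero _) (T.cE_ne_top _)
    simp only [this, ciInf_const]
  · rw [Finset.coe_singleton, eq_top_iff]
    rintro x -
    obtain ⟨x, rfl⟩ := Ideal.Quotient.mk_surjective x
    rw [Submodule.mem_span_singleton]
    exact ⟨x, by rw [← Ideal.Quotient.mk_eq_mk, ← map_one (Ideal.Quotient.mk I),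
      ← Ideal.Quotient.mk_eq_mk, ← Submodule.Quotient.mk_smul, smul_eq_mul, mul_one]⟩

end Generators

section FlatBaseChange

variable {R : Type*} [CommRing R] [IsLocalRing R] [Algebra R A]
variable {F : Type*} [AddCommGroup F] [Module A F] [Module R F] [IsScalarTower R A F]

/-- **flat base change**: for an `A`-module `F` flat over a local ring `R` and an `R`-module `N` of
finite length, `λ(F ⊗_R N) = length_R N · λ(F ⊗_R k)`. -/
theorem lam_tensor (hflat : Module.Flat R F) {N : Type*} [AddCommGroup N] [Module R N]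
    (hN : IsFiniteLength R N) :
    T.lam (F ⊗[R] N) =
      ((Module.length R N : ℕ∞) : ℝ≥0∞) * T.lam (F ⊗[R] (R ⧸ IsLocalRing.maximalIdeal R)) := by
  induction hN with
  | of_subsingleton =>
    rw [Module.length_eq_zero, T.lam_of_subsingleton]
    simp
  | @of_simple_quotient M _ _ N hs hN ih =>
    have hex : T.lam (F ⊗[R] M) = T.lam (F ⊗[R] N) + T.lam (F ⊗[R] (M ⧸ N)) := by
      refine T.lam_eq_add_of_exact
        (TensorProduct.AlgebraTensorModule.lTensor A F N.subtype)
        (TensorProduct.AlgebraTensorModule.lTensor A F N.mkQ) ?_ ?_ ?_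
      · exact Module.Flat.lTensor_preserves_injective_linearMap N.subtype N.subtype_injective
      · exact LinearMap.lTensor_surjective F N.mkQ_surjective
      · exact lTensor_exact F (LinearMap.exact_subtype_mkQ N) N.mkQ_surjective
    have hsimp : Nonempty ((M ⧸ N) ≃ₗ[R] (R ⧸ IsLocalRing.maximalIdeal R)) := by
      obtain ⟨m, hm, ⟨e⟩⟩ := isSimpleModule_iff_quot_maximal.mp hs
      rw [IsLocalRing.eq_maximalIdeal hm] at e
      exact ⟨e⟩
    obtain ⟨e⟩ := hsimp
    have h2 : T.lam (F ⊗[R] (M ⧸ N)) = T.lam (F ⊗[R] (R ⧸ IsLocalRing.maximalIdeal R)) :=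
      T.lam_congr (TensorProduct.AlgebraTensorModule.congr (LinearEquiv.refl A F) e)
    have h4 : Module.length R M = Module.length R N + Module.length R (M ⧸ N) :=
      Module.length_eq_add_of_exact N.subtype N.mkQ N.subtype_injective N.mkQ_surjective
        (LinearMap.exact_subtype_mkQ N)
    have h5 : Module.length R (M ⧸ N) = 1 := Module.length_eq_one_iff.mpr hs
    rw [hex, ih, h2, h4, h5]
    push_cast
    rw [add_mul, one_mul]

end FlatBaseChange

section Scaling

variable {M M' : Type*} [AddCommGroup M] [Module A M] [AddCommGroup M'] [Module A M']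

/-- **Frobenius scaling.** If `φ : M ≃+ M'` identifies the `S (e+1)`-action on `M` with the
`S e`-action on `M'` for every `e`, then `λ(M') = c · λ(M)`. -/
theorem lam_scaling (φ : M ≃+ M')
    (h1 : ∀ e, ∀ a ∈ T.S (e + 1), ∃ b ∈ T.S e, ∀ x, φ (a • x) = b • φ x)
    (h2 : ∀ e, ∀ b ∈ T.S e, ∃ a ∈ T.S (e + 1), ∀ x, φ (a • x) = b • φ x) :
    T.lam M' = (T.c : ℝ≥0∞) * T.lam M := by
  classical
  -- the lattice isomorphism at level `e`
  let up : ∀ e, Submodule (T.S (e + 1)) M → Submodule (T.S e) M' := fun e N =>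
    { carrier := φ '' (N : Set M)
      add_mem' := by
        rintro _ _ ⟨x, hx, rfl⟩ ⟨y, hy, rfl⟩
        exact ⟨x + y, N.add_mem hx hy, map_add φ x y⟩
      zero_mem' := ⟨0, N.zero_mem, map_zero φ⟩
      smul_mem' := by
        rintro ⟨b, hb⟩ _ ⟨x, hx, rfl⟩
        obtain ⟨a, ha, h⟩ := h2 e b hb
        exact ⟨a • x, N.smul_mem (⟨a, ha⟩ : T.S (e + 1)) hx, h x⟩ }
  let down : ∀ e, Submodule (T.S e) M' → Submodule (T.S (e + 1)) M := fun e N =>
    { carrier := φ ⁻¹' (N : Set M')
      add_mem' := by
        intro x y hx hy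
        change φ (x + y) ∈ N
        rw [map_add]; exact N.add_mem hx hy
      zero_mem' := by change φ 0 ∈ N; rw [map_zero]; exact N.zero_mem
      smul_mem' := by
        rintro ⟨a, ha⟩ x hx
        obtain ⟨b, hb, h⟩ := h1 e a ha
        change φ (a • x) ∈ N
        rw [h x]; exact N.smul_mem (⟨b, hb⟩ : T.S e) hx }
  have iso : ∀ e (N : Submodule (T.S (e + 1)) M),
      Module.length (T.S (e + 1)) N = Module.length (T.S e) (up e N) := by
    intro e N
    rw [Module.length_submodule, Module.length_submodule]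
    let F : Submodule (T.S (e + 1)) M ≃o Submodule (T.S e) M' :=
      { toFun := up e
        invFun := down e
        left_inv := fun N => by
          ext x
          change φ x ∈ φ '' (N : Set M) ↔ x ∈ N
          exact φ.injective.mem_set_image
        right_inv := fun N => by
          ext x
          change x ∈ φ '' (φ ⁻¹' (N : Set M')) ↔ x ∈ N
          rw [Set.image_preimage_eq _ φ.surjective]; rfl
        map_rel_iff' := fun {N N'} => by
          change φ '' (N : Set M) ⊆ φ '' (N' : Set M) ↔ N ≤ N'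
          rw [Set.image_subset_image_iff φ.injective]; rfl }
    exact (Order.height_orderIso F N).symm
  have hspan : ∀ e (E : Set M), up e (Submodule.span (T.S (e + 1)) E) =
      Submodule.span (T.S e) (φ '' E) := by
    intro e E
    apply le_antisymm
    · have : Submodule.span (T.S (e + 1)) E ≤ down e (Submodule.span (T.S e) (φ '' E)) := by
        rw [Submodule.span_le]
        intro x hx
        exact Submodule.subset_span ⟨x, hx, rfl⟩
      rintro _ ⟨x, hx, rfl⟩
      exact this hx
    · rw [Submodule.span_le]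
      rintro _ ⟨x, hx, rfl⟩
      exact ⟨x, Submodule.subset_span hx, rfl⟩
  have ha : ∀ e (E : Set M), T.a e (φ '' E) = (T.c : ℝ≥0∞) * T.a (e + 1) E := by
    intro e E
    unfold a
    rw [iso e, hspan e, pow_succ', ← mul_div_assoc, ENNReal.mul_div_mul_left]
    · have := T.one_le_c
      exact_mod_cast (by omega : T.c ≠ 0)
    · exact ENNReal.natCast_ne_top _
  have hset : ∀ E : Set M, T.lamSet (φ '' E) = (T.c : ℝ≥0∞) * T.lamSet E := by
    intro E
    have hc0 : (T.c : ℝ≥0∞) ≠ 0 := by
      have := T.one_le_c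
      exact_mod_cast (by omega : T.c ≠ 0)
    rw [T.lamSet_eq_iInf_add 1 E, lamSet, ENNReal.mul_iInf_of_ne hc0 (ENNReal.natCast_ne_top _)]
    simp only [ha]
  unfold lam
  rw [ENNReal.mul_iSup]
  apply le_antisymm
  · refine iSup_le fun E => ?_
    refine le_trans ?_ (le_iSup _ (E.image φ.symm))
    rw [← hset, Finset.coe_image, ← Set.image_comp]
    have : (⇑φ ∘ ⇑φ.symm) = id := funext fun x => φ.apply_symm_apply x
    rw [this, Set.image_id]
  · refine iSup_le fun E => ?_
    rw [← hset, ← Finset.coe_image]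
    exact le_iSup (fun E : Finset M' => T.lamSet (E : Set M')) (E.image φ)

end Scaling

end Tower

end Crest.Agent.R183.Lam
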