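/-
R183 (Lech's conjecture), block [2b]: finite levels `S e = B[t^{1/p^e}]` of `B_∞` and the `Tower`
instance.  Author: helper529.
-/
import Crest.Agent.R183.BInf
import Mathlib.RingTheory.Polynomial.Basic
import Mathlib.Algebra.MvPolynomial.Eval
import Mathlib.RingTheory.SimpleModule.Basic

set_option autoImplicit false
set_option linter.dupNamespace false

namespace Crest.Agent.R183.BInf

open scoped NNRat
open AddMonoidAlgebra (single)

section Generic

/-- if `R' = Σ_j R w_j` (finite sum), then `length_{R'}(R'/mR') ≤ #j` for every maximal `m ⊂ R` -/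
theorem length_quot_map_le {R R' : Type*} [CommRing R] [CommRing R'] (f : R →+* R')
    {ι : Type*} [Fintype ι] (w : ι → R')
    (h : ∀ x : R', ∃ c : ι → R, x = ∑ j, f (c j) * w j) (m : Ideal R) (hm : m.IsMaximal) :
    Module.length R' (R' ⧸ m.map f) ≤ Fintype.card ι := by
  let _ : Algebra R R' := f.toAlgebra
  have hle : Module.length R' (R' ⧸ m.map f) ≤ Module.length R (R' ⧸ m.map f) := by
    rw [← WithBot.coe_le_coe, Module.coe_length, Module.coe_length]
    exact Order.krullDim_le_of_orderEmbedding (Submodule.restrictScalarsEmbedding R R' _)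
  refine hle.trans ?_
  have : IsSimpleModule R (R ⧸ m) :=
    (isSimpleModule_iff_quot_maximal).mpr ⟨m, hm, ⟨LinearEquiv.refl _ _⟩⟩
  have hj : ∀ j, m ≤ LinearMap.ker
      (LinearMap.toSpanSingleton R (R' ⧸ m.map f) (Ideal.Quotient.mk _ (w j))) := by
    intro j a ha
    rw [LinearMap.mem_ker, LinearMap.toSpanSingleton_apply]
    have h1 : a • (Ideal.Quotient.mk (m.map f) (w j)) = Ideal.Quotient.mk (m.map f) (f a * w j) :=
      rfl
    rw [h1, Ideal.Quotient.eq_zero_iff_mem]
    exact Ideal.mul_mem_right _ _ (Ideal.mem_map_of_mem f ha)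
  classical
  let g : (ι → R ⧸ m) →ₗ[R] (R' ⧸ m.map f) :=
    LinearMap.lsum R (fun _ => R ⧸ m) R (fun j => Submodule.liftQ m _ (hj j))
  have hg : Function.Surjective g := by
    intro y
    obtain ⟨x, rfl⟩ := Ideal.Quotient.mk_surjective y
    obtain ⟨c, rfl⟩ := h x
    refine ⟨fun j => Ideal.Quotient.mk m (c j), ?_⟩
    change (LinearMap.lsum R (fun _ => R ⧸ m) R (fun j => Submodule.liftQ m _ (hj j)))
      (fun j => Ideal.Quotient.mk m (c j)) = _
    rw [LinearMap.lsum_apply, LinearMap.sum_apply, map_sum]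
    rfl
  refine (Module.length_le_of_surjective g hg).trans ?_
  rw [Module.length_pi, Module.length_eq_one, mul_one, ENat.card_eq_coe_fintype_card]

/-- the same for two subrings of a commutative ring -/
theorem length_subring_le {A : Type*} [CommRing A] {S S' : Subring A} (hS : S ≤ S')
    {ι : Type*} [Fintype ι] (w : ι → A) (hw : ∀ j, w j ∈ S')
    (h : ∀ x ∈ S', ∃ c : ι → A, (∀ j, c j ∈ S) ∧ x = ∑ j, c j * w j)
    (m : Ideal S) (hm : m.IsMaximal) :
    Module.length S' (S' ⧸ m.map (Subring.inclusion hS)) ≤ Fintype.card ι := by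
  refine length_quot_map_le (Subring.inclusion hS) (fun j => (⟨w j, hw j⟩ : S')) ?_ m hm
  intro x
  obtain ⟨c, hc, hx⟩ := h x.1 x.2
  refine ⟨fun j => ⟨c j, hc j⟩, Subtype.ext ?_⟩
  rw [hx, AddSubmonoidClass.coe_finsetSum]
  rfl

end Generic

variable {d : ℕ} (p : ℕ) {B : Type*} [CommRing B] (t : Fin d → B)

/-- `1/p^e` as an exponent in direction `i`, times `n` -/
noncomputable def ex (hp : 0 < p) (e : ℕ) (n : Fin d → ℕ) : Gam d p := fun i =>
  ⟨(n i : ℚ≥0) / (p : ℚ≥0) ^ e, ⟨e, n i, by
    have : ((p : ℚ≥0) ^ e) ≠ 0 := pow_ne_zero _ (by exact_mod_cast hp.ne')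
    rw [div_mul_cancel₀ _ this]⟩⟩

variable (hp : 0 < p)

theorem pe_ne (hp : 0 < p) (e : ℕ) : ((p : ℚ≥0) ^ e) ≠ 0 :=
  pow_ne_zero _ (by exact_mod_cast hp.ne')

theorem ex_add (e : ℕ) (m n : Fin d → ℕ) : ex p hp e (m + n) = ex p hp e m + ex p hp e n := by
  funext i
  apply Subtype.ext
  change (((m + n) i : ℕ) : ℚ≥0) / _ = (m i : ℚ≥0) / _ + (n i : ℚ≥0) / _
  rw [← add_div]; simp

theorem ex_zero (e : ℕ) : ex (d := d) p hp e 0 = 0 := by
  funext i
  apply Subtype.ext
  change (((0 : Fin d → ℕ) i : ℕ) : ℚ≥0) / _ = 0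
  simp

theorem ex_succ (e : ℕ) (n : Fin d → ℕ) :
    ex p hp (e + 1) (fun i => p * n i) = ex p hp e n := by
  funext i
  apply Subtype.ext
  change ((p * n i : ℕ) : ℚ≥0) / (p : ℚ≥0) ^ (e + 1) = (n i : ℚ≥0) / (p : ℚ≥0) ^ e
  rw [pow_succ']
  push_cast
  rw [mul_div_mul_left _ _ (by exact_mod_cast hp.ne')]

theorem ex_level_zero (n : Fin d → ℕ) : ex p hp 0 n = natG n := by
  funext i
  apply Subtype.ext
  change (n i : ℚ≥0) / (p : ℚ≥0) ^ 0 = n i
  simp

theorem ex_add_level (e k : ℕ) (n : Fin d → ℕ) :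
    ex p hp (e + k) (fun i => p ^ k * n i) = ex p hp e n := by
  induction k with
  | zero => simp
  | succ k ih =>
    have h1 : (fun i => p ^ (k + 1) * n i) = fun i => p * (p ^ k * n i) := by
      funext i; ring
    rw [h1, ← add_assoc, ex_succ p hp (e + k) (fun i => p ^ k * n i), ih]

/-- every exponent is at some level -/
theorem exists_ex (α : Gam d p) : ∃ e n, α = ex p hp e n := by
  choose e n h using fun i => (α i).2
  refine ⟨∑ i, e i, fun i => p ^ (∑ i, e i - e i) * n i, ?_⟩
  funext i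
  apply Subtype.ext
  change ((α i : NP p) : ℚ≥0) = ((p ^ (∑ i, e i - e i) * n i : ℕ) : ℚ≥0) / (p : ℚ≥0) ^ (∑ i, e i)
  have h1 : e i ≤ ∑ i, e i := Finset.single_le_sum (fun _ _ => Nat.zero_le _) (Finset.mem_univ i)
  rw [eq_div_iff (pe_ne p hp _)]
  push_cast
  rw [← h i, ← mul_assoc, mul_comm _ ((α i : NP p) : ℚ≥0), mul_assoc, ← pow_add,
    Nat.sub_add_cancel h1]

/-- the `p^e`-th root of `t_i` in `B_∞` -/
noncomputable def rt (e : ℕ) (i : Fin d) : BInf p t := mon p t (ex p hp e (Pi.single i 1))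

theorem mon_ex (e : ℕ) (n : Fin d → ℕ) : mon p t (ex p hp e n) = ∏ i, rt p t hp e i ^ n i := by
  have h : ex p hp e n = ∑ i, n i • ex p hp e (Pi.single i 1) := by
    have h1 : n = ∑ i, n i • (Pi.single i 1 : Fin d → ℕ) := by
      funext j
      rw [Finset.sum_apply]
      simp [Pi.single_apply]
    have h2 : ∀ s : Finset (Fin d), ex p hp e (∑ i ∈ s, n i • (Pi.single i 1 : Fin d → ℕ)) =
        ∑ i ∈ s, n i • ex p hp e (Pi.single i 1) := by
      classical
      intro s
      induction s using Finset.induction_on with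
      | empty => rw [Finset.sum_empty, Finset.sum_empty, ex_zero]
      | insert a s ha ih =>
        rw [Finset.sum_insert ha, Finset.sum_insert ha, ex_add, ih]
        congr 1
        induction n a with
        | zero => rw [zero_smul, zero_smul, ex_zero]
        | succ k ihk => rw [succ_nsmul, succ_nsmul, ex_add, ihk]
    conv_lhs => rw [h1]
    exact h2 Finset.univ
  rw [h, mon_sum]
  refine Finset.prod_congr rfl fun i _ => ?_
  rw [mon_nsmul]
  rfl

theorem rt_zero (i : Fin d) : rt p t hp 0 i = algebraMap B _ (t i) := by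
  unfold rt
  rw [ex_level_zero, mon_e]

theorem rt_succ_pow (e : ℕ) (i : Fin d) : rt p t hp (e + 1) i ^ p = rt p t hp e i := by
  unfold rt
  rw [← mon_nsmul, ← ex_succ p hp e (Pi.single i 1)]
  congr 1
  funext j
  apply Subtype.ext
  rw [Pi.smul_apply, AddSubmonoidClass.coe_nsmul]
  change p • (((Pi.single i 1 : Fin d → ℕ) j : ℚ≥0) / (p : ℚ≥0) ^ (e + 1)) =
    ((p * (Pi.single i 1 : Fin d → ℕ) j : ℕ) : ℚ≥0) / (p : ℚ≥0) ^ (e + 1)
  rw [nsmul_eq_mul]
  push_cast
  rw [mul_div_assoc]

/-- level `e` of `B_∞` -/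
noncomputable def SA (e : ℕ) : Subalgebra B (BInf p t) :=
  (MvPolynomial.aeval (fun i => rt p t hp e i) : MvPolynomial (Fin d) B →ₐ[B] BInf p t).range

theorem mon_ex_mem (e : ℕ) (n : Fin d → ℕ) : mon p t (ex p hp e n) ∈ SA p t hp e := by
  rw [mon_ex]
  have h1 : ∀ i, rt p t hp e i ∈ SA p t hp e := fun i =>
    ⟨MvPolynomial.X i, MvPolynomial.aeval_X _ i⟩
  exact Subalgebra.prod_mem _ fun i _ => Subalgebra.pow_mem _ (h1 i) _

theorem SA_eq_span (e : ℕ) : Subalgebra.toSubmodule (SA p t hp e) =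
    Submodule.span B (Set.range fun n : Fin d → ℕ => mon p t (ex p hp e n)) := by
  apply le_antisymm
  · rintro _ ⟨f, rfl⟩
    change (MvPolynomial.aeval (fun i => rt p t hp e i)) f ∈ _
    induction f using MvPolynomial.induction_on' with
    | monomial u a =>
      rw [MvPolynomial.aeval_monomial, Finsupp.prod_fintype _ _ (fun i => pow_zero _),
        ← mon_ex p t hp e (fun i => u i), ← Algebra.smul_def]
      exact Submodule.smul_mem _ _ (Submodule.subset_span ⟨_, rfl⟩)
    | add f g hf hg => rw [map_add]; exact Submodule.add_mem _ hf hg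
  · rw [Submodule.span_le]
    rintro _ ⟨n, rfl⟩
    exact mon_ex_mem p t hp e n

theorem SA_mono : Monotone (SA p t hp) := by
  refine monotone_nat_of_le_succ fun e => ?_
  rintro _ ⟨f, rfl⟩
  change (MvPolynomial.aeval (fun i => rt p t hp e i)) f ∈ _
  induction f using MvPolynomial.induction_on with
  | C a => rw [MvPolynomial.aeval_C]; exact Subalgebra.algebraMap_mem _ a
  | add f g hf hg => rw [map_add]; exact Subalgebra.add_mem _ hf hg
  | mul_X f i hf =>
    rw [map_mul, MvPolynomial.aeval_X]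
    refine Subalgebra.mul_mem _ hf ?_
    rw [← rt_succ_pow]
    have h1 : rt p t hp (e + 1) i ∈ SA p t hp (e + 1) :=
      ⟨MvPolynomial.X i, MvPolynomial.aeval_X _ i⟩
    exact Subalgebra.pow_mem _ h1 _

theorem exists_mem_SA (x : BInf p t) : ∃ e, x ∈ SA p t hp e := by
  obtain ⟨x, rfl⟩ := Ideal.Quotient.mk_surjective x
  induction x using AddMonoidAlgebra.induction_linear with
  | zero => exact ⟨0, by rw [map_zero]; exact Subalgebra.zero_mem _⟩
  | add x y hx hy =>
    obtain ⟨e, he⟩ := hx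
    obtain ⟨k, hk⟩ := hy
    exact ⟨max e k, by
      rw [map_add]
      exact Subalgebra.add_mem _ (SA_mono p t hp (le_max_left e k) he)
        (SA_mono p t hp (le_max_right e k) hk)⟩
  | single α b =>
    obtain ⟨e, n, rfl⟩ := exists_ex p hp α
    refine ⟨e, ?_⟩
    have : (Ideal.Quotient.mk (relI p t)) (single (ex p hp e n) b) =
        b • mon p t (ex p hp e n) := by
      have h : single (ex p hp e n) b = b • (single (ex p hp e n) 1 : AddMonoidAlgebra B (Gam d p)) := by
        rw [AddMonoidAlgebra.smul_single, smul_eq_mul, mul_one]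
      rw [h]; rfl
    rw [this]
    exact Subalgebra.smul_mem _ (mon_ex_mem p t hp e n) b

theorem SA_noeth [IsNoetherianRing B] (e : ℕ) : IsNoetherianRing (SA p t hp e) := by
  unfold SA
  exact isNoetherianRing_of_surjective (MvPolynomial (Fin d) B) _
    (MvPolynomial.aeval (fun i => rt p t hp e i) :
      MvPolynomial (Fin d) B →ₐ[B] BInf p t).rangeRestrict.toRingHom
    (AlgHom.rangeRestrict_surjective _)

/-- generation of level `e+1` over level `e` by `p^d` monomials -/
theorem exists_sum (e : ℕ) (x : BInf p t) (hx0 : x ∈ SA p t hp (e + 1)) :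
 ∃ c : (Fin d → Fin p) → BInf p t, (∀ j, c j ∈ SA p t hp e) ∧
      x = ∑ j, c j * mon p t (ex p hp (e + 1) (fun i => (j i : ℕ))) := by
  have hx' : x ∈ Submodule.span B (Set.range fun n : Fin d → ℕ => mon p t (ex p hp (e + 1) n)) := by
    rw [← SA_eq_span]; exact hx0
  clear hx0
  induction hx' using Submodule.span_induction with
  | mem x hx =>
    obtain ⟨n, rfl⟩ := hx
    classical
    let j0 : Fin d → Fin p := fun i => ⟨n i % p, Nat.mod_lt _ hp⟩
    refine ⟨fun j => if j = j0 then mon p t (ex p hp e (fun i => n i / p)) else 0, ?_, ?_⟩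
    · intro j
      dsimp only
      split_ifs
      · exact mon_ex_mem p t hp e _
      · exact Subalgebra.zero_mem _
    · rw [Finset.sum_eq_single j0]
      · dsimp only
        rw [if_pos rfl]
        change _ = mon p t (ex p hp e fun i => n i / p) *
          mon p t (ex p hp (e + 1) fun i => n i % p)
        rw [← mon_add, ← ex_succ p hp e (fun i => n i / p), ← ex_add]
        congr 2
        funext i
        exact (Nat.div_add_mod (n i) p).symm
      · intro j _ hj
        dsimp only
        rw [if_neg hj, zero_mul]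
      · intro h; exact absurd (Finset.mem_univ _) h
  | zero => exact ⟨0, fun _ => Subalgebra.zero_mem _, by simp⟩
  | add x y hx hy hx' hy' =>
    obtain ⟨c, hm, hc⟩ := hx'
    obtain ⟨c', hm', hc'⟩ := hy'
    refine ⟨fun j => c j + c' j, fun j => Subalgebra.add_mem _ (hm j) (hm' j), ?_⟩
    conv_lhs => rw [hc, hc']
    rw [← Finset.sum_add_distrib]
    refine Finset.sum_congr rfl fun j _ => ?_
    rw [add_mul]
  | smul b x hx hx' =>
    obtain ⟨c, hm, hc⟩ := hx'
    refine ⟨fun j => b • c j, fun j => Subalgebra.smul_mem _ (hm j) b, ?_⟩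
    conv_lhs => rw [hc, Finset.smul_sum]
    refine Finset.sum_congr rfl fun j _ => ?_
    rw [smul_mul_assoc]

/-- the level `e` as a subring -/
noncomputable def Sub (e : ℕ) : Subring (BInf p t) := (SA p t hp e).toSubring


theorem Sub_mono : Monotone (Sub p t hp) := fun _ _ h => SA_mono p t hp h

theorem Sub_noeth [IsNoetherianRing B] (e : ℕ) : IsNoetherianRing (Sub p t hp e) :=
  SA_noeth p t hp e

theorem mon_mem_Sub (e : ℕ) (n : Fin d → ℕ) : mon p t (ex p hp e n) ∈ Sub p t hp e :=
  mon_ex_mem p t hp e n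

theorem scale_Sub (e : ℕ) (m : Ideal (Sub p t hp e)) (hm : m.IsMaximal) :
    Module.length (Sub p t hp (e + 1)) (Sub p t hp (e + 1) ⧸
      m.map (Subring.inclusion (Sub_mono p t hp (Nat.le_succ e)))) ≤ (p ^ d : ℕ) := by
  refine (length_subring_le (Sub_mono p t hp (Nat.le_succ e))
    (fun j : Fin d → Fin p => mon p t (ex p hp (e + 1) (fun i => (j i : ℕ))))
    (fun j => mon_mem_Sub p t hp (e + 1) _) (exists_sum p t hp e) m hm).trans ?_
  rw [Fintype.card_fun, Fintype.card_fin, Fintype.card_fin]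

/-- **the tower** on `B_∞` -/
noncomputable def tower [IsNoetherianRing B] : Lam.Tower (BInf p t) where
  S := Sub p t hp
  mono := Sub_mono p t hp
  c := p ^ d
  one_le_c := Nat.one_le_pow _ _ hp
  noeth := Sub_noeth p t hp
  scale := scale_Sub p t hp

theorem tower_union [IsNoetherianRing B] (x : BInf p t) : ∃ e, x ∈ (tower p t hp).S e :=
  exists_mem_SA p t hp x

end Crest.Agent.R183.BInf
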