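import Crest.Agent.R183.CohenNoether

/-!
# R183 (Lech), Cohen structure, part 13: Witt vectors of a perfect field form a Cohen ring, and
every Cohen ring with perfect residue field is of this form
-/

set_option autoImplicit false

namespace Crest.Agent.R183.Cohen

open Ideal IsLocalRing

section Witt

variable (p : ℕ) [hp : Fact p.Prime] (K : Type*) [Field K] [CharP K p] [PerfectRing K p]

instance isLocalRing_witt : IsLocalRing (WittVector p K) := inferInstance

theorem maximalIdeal_witt :
    maximalIdeal (WittVector p K) = span {(p : WittVector p K)} := by
  have h : Irreducible (p : WittVector p K) := WittVector.irreducible p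
  exact h.maximalIdeal_eq

theorem isCohen_witt : IsCohen p (WittVector p K) where
  isDVR_dom := inferInstance
  isDVR := inferInstance
  complete := by
    rw [maximalIdeal_witt]
    infer_instance
  maximalIdeal_eq := maximalIdeal_witt p K

/-- the residue field of `W(K)` is `K` -/
noncomputable def residueWitt : ResidueField (WittVector p K) ≃+* K :=
  (Ideal.quotEquivOfEq (maximalIdeal_witt p K)).trans WittVector.quotientPEquiv


end Witt

section Compare

variable {p : ℕ} [hp : Fact p.Prime] {C D : Type*} [CommRing C] [IsLocalRing C] [CommRing D]
  [IsLocalRing D]



end Compare

end Crest.Agent.R183.Cohen
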