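import Crest.Agent.R183.BInf3b
import Crest.Agent.R183.BInf5
import Crest.Agent.R183.Om5
import Crest.Agent.R183.CohenDim
import Crest.Agent.R183.CohenWitt

-- ▼ part R183/BInf6
section

set_option autoImplicit false
set_option linter.dupNamespace false

open scoped ENNReal TensorProduct

namespace Crest.Agent.R183.Lam

section Compl

variable {B M₁ M₂ N : Type*} [CommRing B] [AddCommGroup M₁] [Module B M₁] [AddCommGroup M₂]
  [Module B M₂] [AddCommGroup N] [Module B N]

theorem rTensor_mkQ_injective (M : Type*) [AddCommGroup M] [Module B M] (a : B)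
    (hN : ∀ n : N, a • n = 0) :
    Function.Injective ((LinearMap.range (LinearMap.lsmul B M a)).mkQ.rTensor N) := by
  have hex := rTensor_exact N (LinearMap.exact_map_mkQ_range (LinearMap.lsmul B M a))
    (Submodule.mkQ_surjective _)
  have h0 : (LinearMap.lsmul B M a).rTensor N = 0 := by
    apply TensorProduct.ext'
    intro m n
    rw [LinearMap.rTensor_tmul, LinearMap.lsmul_apply, TensorProduct.smul_tmul, hN,
      TensorProduct.tmul_zero, LinearMap.zero_apply]
  rw [h0] at hex
  rw [← LinearMap.ker_eq_bot, hex.linearMap_ker_eq, LinearMap.range_zero]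

/-- `f : M₁ → M₂` an isomorphism modulo `a`, `a N = 0` ⇒ `M₁ ⊗ N ≃ M₂ ⊗ N` -/
theorem rTensor_bijective (f : M₁ →ₗ[B] M₂) (a : B)
    (sat : ∀ (x : M₁) (y : M₂), f x = a • y → ∃ x', x = a • x')
    (dense : ∀ y : M₂, ∃ (x : M₁) (y' : M₂), y - f x = a • y') (hN : ∀ n : N, a • n = 0) :
    Function.Bijective (f.rTensor N) := by
  set R₁ := LinearMap.range (LinearMap.lsmul B M₁ a) with hR₁
  set R₂ := LinearMap.range (LinearMap.lsmul B M₂ a) with hR₂
  have hle : R₁ ≤ R₂.comap f := by
    rintro _ ⟨x, rfl⟩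
    exact ⟨f x, by rw [LinearMap.lsmul_apply, LinearMap.lsmul_apply, map_smul]⟩
  let g : M₁ ⧸ R₁ →ₗ[B] M₂ ⧸ R₂ := Submodule.mapQ R₁ R₂ f hle
  have hg : Function.Bijective g := by
    constructor
    · rw [← LinearMap.ker_eq_bot, eq_bot_iff]
      intro x hx
      obtain ⟨x, rfl⟩ := Submodule.mkQ_surjective _ x
      rw [LinearMap.mem_ker] at hx
      change R₂.mkQ (f x) = 0 at hx
      rw [Submodule.mkQ_apply, Submodule.Quotient.mk_eq_zero] at hx
      obtain ⟨y, hy⟩ := hx
      obtain ⟨x', hx'⟩ := sat x y hy.symm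
      rw [Submodule.mem_bot, Submodule.mkQ_apply, Submodule.Quotient.mk_eq_zero]
      exact ⟨x', hx'.symm⟩
    · intro y
      obtain ⟨y, rfl⟩ := Submodule.mkQ_surjective _ y
      obtain ⟨x, y', h⟩ := dense y
      refine ⟨R₁.mkQ x, ?_⟩
      change R₂.mkQ (f x) = R₂.mkQ y
      rw [eq_comm, ← sub_eq_zero, ← map_sub, Submodule.mkQ_apply, Submodule.Quotient.mk_eq_zero]
      exact ⟨y', h.symm⟩
  have hgt : Function.Bijective (g.rTensor N) := by
    exact (LinearEquiv.rTensor N (LinearEquiv.ofBijective g hg)).bijective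
  have hcomm : (g.rTensor N) ∘ₗ (R₁.mkQ.rTensor N) = (R₂.mkQ.rTensor N) ∘ₗ (f.rTensor N) := by
    rw [← LinearMap.rTensor_comp, ← LinearMap.rTensor_comp]
    congr 1
  have hc : ∀ x, (g.rTensor N) (R₁.mkQ.rTensor N x) = (R₂.mkQ.rTensor N) (f.rTensor N x) :=
    fun x => LinearMap.congr_fun hcomm x
  constructor
  · rw [injective_iff_map_eq_zero]
    intro x hx
    have h1 := hc x
    rw [hx, map_zero] at h1
    have h2 := hgt.1 (h1.trans (map_zero _).symm)
    exact (rTensor_mkQ_injective M₁ a hN) (h2.trans (map_zero _).symm)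
  · intro y
    obtain ⟨z, hz⟩ := hgt.2 (R₂.mkQ.rTensor N y)
    obtain ⟨x, rfl⟩ := LinearMap.rTensor_surjective N (Submodule.mkQ_surjective R₁) z
    refine ⟨x, ?_⟩
    rw [hc] at hz
    exact (rTensor_mkQ_injective M₂ a hN) hz

end Compl

namespace Tower

universe u
variable {A : Type u} [CommRing A] (T : Tower A)

/-- replacing `A` by an algebra `A'` which is isomorphic to `A` modulo `a` -/
theorem lam_tensor_compl {B A' : Type*} [CommRing B] [CommRing A'] [Algebra B A] [Algebra B A']
    [Algebra A A'] [IsScalarTower B A A'] (a : B)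
    (sat : ∀ (x : A) (y : A'), algebraMap A A' x = algebraMap B A' a * y →
      ∃ x', x = algebraMap B A a * x')
    (dense : ∀ y : A', ∃ (x : A) (y' : A'), y - algebraMap A A' x = algebraMap B A' a * y')
    (N : Type*) [AddCommGroup N] [Module B N] (hN : ∀ n : N, a • n = 0) :
    T.lam (A' ⊗[B] N) = T.lam (A ⊗[B] N) := by
  let f : A →ₗ[B] A' := (Algebra.linearMap A A').restrictScalars B
  have hf : Function.Bijective (f.rTensor N) := by
    refine rTensor_bijective f a ?_ ?_ hN
    · intro x y h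
      rw [Algebra.smul_def] at h
      obtain ⟨x', hx'⟩ := sat x y h
      exact ⟨x', by rw [Algebra.smul_def]; exact hx'⟩
    · intro y
      obtain ⟨x, y', h⟩ := dense y
      exact ⟨x, y', by rw [Algebra.smul_def]; exact h⟩
  let F : A ⊗[B] N →ₗ[A] A' ⊗[B] N :=
    TensorProduct.AlgebraTensorModule.map (Algebra.linearMap A A') LinearMap.id
  have hF : ⇑F = ⇑(f.rTensor N) := by
    funext x
    induction x using TensorProduct.induction_on with
    | zero => rw [map_zero, map_zero]
    | tmul x y => rfl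
    | add x y hx hy => rw [map_add, map_add, hx, hy]
  exact (T.lam_congr (LinearEquiv.ofBijective F (by rw [hF]; exact hf))).symm


end Tower


end Crest.Agent.R183.Lam

namespace Crest.Agent.R183.BInf

open Crest.Agent.R183 Crest.Agent.R183.Om IsLocalRing

section

variable {d : ℕ} (p : ℕ) {B : Type*} [CommRing B] (t : Fin d → B) (hp : 0 < p)
variable [IsNoetherianRing B] [IsLocalRing B]
variable {Ω : Type*} [CommRing Ω] [Algebra B Ω] [Algebra (BInf p t) Ω]
  [IsScalarTower B (BInf p t) Ω]

/-- `λ(Ω₀ ⊗_B N) = ℓ_B(N)` for `N` killed by `p^k` -/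
theorem lam_tensor_compl (hc : IsCompl (p : BInf p t) (algebraMap (BInf p t) Ω))
    (ht : ∀ i, t i ∈ maximalIdeal B) (N : Type*) [AddCommGroup N] [Module B N] (k : ℕ)
    (hN : ∀ n : N, ((p : B) ^ k) • n = 0) :
    (tower p t hp).lam (Ω ⊗[B] N) = ((Module.length B N : ℕ∞) : ℝ≥0∞) := by
  rw [(tower p t hp).lam_tensor_compl ((p : B) ^ k) ?_ ?_ N hN, lam_tensor p t hp ht N]
  · intro x y h
    rw [map_pow, map_natCast] at h
    obtain ⟨z, hz⟩ := hc.sat k x ⟨y, by rw [map_natCast, h]⟩
    exact ⟨z, by rw [map_pow, map_natCast, hz]⟩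
  · intro y
    obtain ⟨x, z, hz⟩ := hc.dense k y
    exact ⟨x, z, by rw [hz, map_natCast, map_pow, map_natCast]⟩

variable {T : Type*} [CommRing T] [IsLocalRing T] [Algebra B T]
variable {To : Type*} [CommRing To] [Algebra T To] [Algebra B To] [Algebra Ω To]
  [Algebra (BInf p t) To] [IsScalarTower (BInf p t) Ω To] [IsScalarTower B T To]
  [IsScalarTower B Ω To] [Algebra.IsPushout B Ω T To]


end

end Crest.Agent.R183.BInf
end

-- ▼ part R183/BInf7

set_option autoImplicit false
set_option linter.dupNamespace false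

open scoped TensorProduct

namespace Crest.Agent.R183.BInf

open Crest.Agent.R183 Crest.Agent.R183.Om IsLocalRing

section

variable {d : ℕ} {p : ℕ} {B : Type*} [CommRing B] {t : Fin d → B}

theorem repr_algebraMap_mul (D : B) (z : BInf p t) (γ : Gam1 d p) :
    (basis p t).repr (algebraMap B (BInf p t) D * z) γ = D * (basis p t).repr z γ := by
  have h : algebraMap B (BInf p t) D * z = D • z := (Algebra.smul_def D z).symm
  rw [h, map_smul, Finsupp.smul_apply, smul_eq_mul]

/-- `D` regular modulo `p` on `B` ⇒ on `B_∞` -/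
theorem regMod_algebraMap {D : B} (hD : RegMod D (p : B)) :
    RegMod (algebraMap B (BInf p t) D) (p : BInf p t) := by
  intro x hx
  rw [natCast_dvd_iff] at hx ⊢
  intro γ
  have h := hx γ
  rw [repr_algebraMap_mul] at h
  exact hD _ h




end

section Witt

variable (n p : ℕ) [hp : Fact p.Prime] (K : Type*) [Field K] [CharP K p] [PerfectRing K p]

theorem maximalIdeal_tb : maximalIdeal (MvPowerSeries (Fin n) (WittVector p K)) =
    Ideal.span (Set.range (tb n p (WittVector p K))) := by
  rw [Cohen.maximalIdeal_mvPowerSeries, Cohen.maximalIdeal_witt, Ideal.map_span,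
    Set.image_singleton, map_natCast]
  unfold tb
  rw [Fin.range_cons, Ideal.span_insert]

theorem tb_mem_maximalIdeal (i : Fin (n + 1)) :
    tb n p (WittVector p K) i ∈ maximalIdeal (MvPowerSeries (Fin n) (WittVector p K)) := by
  rw [maximalIdeal_tb]
  exact Ideal.subset_span ⟨i, rfl⟩

variable {n p K}

/-- power series over `W(K)` not divisible by `p` are regular modulo `p` -/
theorem regMod_witt {D : MvPowerSeries (Fin n) (WittVector p K)}
    (hD : ¬ (p : MvPowerSeries (Fin n) (WittVector p K)) ∣ D) :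
    RegMod D (p : MvPowerSeries (Fin n) (WittVector p K)) := by
  have hk : ∀ x : WittVector p K, WittVector.constantCoeff x = 0 ↔ (p : WittVector p K) ∣ x :=
    fun x => Om.W_dvd_p_iff.symm
  intro x hx
  rw [natCast_dvd_iff_map _ hk] at hx hD ⊢
  rw [map_mul] at hx
  exact (mul_eq_zero.mp hx).resolve_left hD

end Witt

end Crest.Agent.R183.BInf
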