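import Mathlib
import Crest.Agent.R183.CohenEval

-- ▼ part R183/CohenField
section

/-!
# R183 (Lech), Cohen structure, part 1: fields of characteristic `p` are formally smooth over `F_p`
-/

set_option autoImplicit false

namespace Crest.Agent.R183.Cohen

open Polynomial

section ZornLift

variable {k B Q : Type*} [Field k] [CommRing B] [CommRing Q] {p : ℕ} [hp : Fact p.Prime]
  [CharP k p] [CharP B p]

/-- the subring of compatible pairs -/
def pairs (f : k →+* Q) (π : B →+* Q) : Subring (k × B) :=
  RingHom.eqLocus (f.comp (RingHom.fst k B)) (π.comp (RingHom.snd k B))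

lemma mem_pairs (f : k →+* Q) (π : B →+* Q) (z : k × B) :
    z ∈ pairs f π ↔ f z.1 = π z.2 := Iff.rfl

/-- Lifting a homomorphism out of a field of characteristic `p` through a square-zero (or just
`x ∈ ker → x ^ p = 0`) surjection of rings of characteristic `p`. -/
theorem exists_lift_of_ker_pow_eq_zero (f : k →+* Q) (π : B →+* Q)
    (hπ : Function.Surjective π) (hker : ∀ b : B, π b = 0 → b ^ p = 0) :
    ∃ g : k →+* B, π.comp g = f := by
  classical
  -- Frobenius image of the compatible pairs
  have : CharP (k × B) p := Prod.charP k B p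
  set S : Subring (k × B) := pairs f π with hS
  set G₀ : Subring (k × B) := S.map (frobenius (k × B) p) with hG₀
  have hG₀S : G₀ ≤ S := by
    rintro _ ⟨z, hz, rfl⟩
    have hz' : z ∈ S := hz
    rw [frobenius_def]
    exact S.pow_mem hz' p
  -- the poset
  let 𝒮 : Set (Subring (k × B)) := {G | G₀ ≤ G ∧ G ≤ S ∧ ∀ z ∈ G, z.1 = 0 → z = 0}
  have h₀ : G₀ ∈ 𝒮 := by
    refine ⟨le_rfl, hG₀S, ?_⟩
    rintro _ ⟨z, hz, rfl⟩ h1
    have hz' : f z.1 = π z.2 := hz
    have h2 : z.1 ^ p = 0 := by simpa [frobenius_def] using h1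
    have h3 : z.1 = 0 := pow_eq_zero_iff hp.out.ne_zero |>.1 h2
    have h4 : π z.2 = 0 := by rw [← hz', h3, map_zero]
    have h5 := hker _ h4
    rw [frobenius_def]
    exact Prod.ext (by simpa using h2) (by simpa using h5)
  obtain ⟨G, hG, hGmax⟩ := zorn_le_nonempty₀ 𝒮 (by
    intro c hc hchain y hy
    refine ⟨sSup c, ⟨?_, ?_, ?_⟩, fun z hz => le_sSup hz⟩
    · exact (hc hy).1.trans (le_sSup hy)
    · exact sSup_le fun z hz => (hc hz).2.1
    · intro z hz hz1
      rw [Subring.mem_sSup_of_directedOn ⟨y, hy⟩ hchain.directedOn] at hz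
      obtain ⟨s, hs, hzs⟩ := hz
      exact (hc hs).2.2 z hzs hz1) G₀ h₀
  obtain ⟨hG₀G, hGS, hGinj⟩ := hGmax.1
  -- the first projection is surjective on `G`
  have key : ∀ x : k, ∃ z ∈ G, z.1 = x := by
    by_contra hcon
    push Not at hcon
    obtain ⟨x, hx⟩ := hcon
    obtain ⟨β, hβ⟩ := hπ (f x)
    set z : k × B := (x, β) with hz
    have hzS : z ∈ S := by
      change f x = π β
      exact hβ.symm
    have hzp : z ^ p ∈ G := hG₀G ⟨z, hzS, by rw [frobenius_def]⟩
    -- `G` is a field
    have hfield : IsField G := by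
      refine ⟨⟨0, 1, zero_ne_one⟩, mul_comm, ?_⟩
      intro a ha
      have ha1 : (a : k × B).1 ≠ 0 := by
        intro h
        exact ha (Subtype.ext (hGinj _ a.2 h))
      obtain ⟨b, hb⟩ := hπ (f ((a : k × B).1)⁻¹)
      have hbS : (((a : k × B).1)⁻¹, b) ∈ S := hb.symm
      have hbG : ((((a : k × B).1)⁻¹, b) : k × B) ^ p ∈ G := hG₀G ⟨_, hbS, by rw [frobenius_def]⟩
      refine ⟨a ^ (p - 1) * ⟨_, hbG⟩, ?_⟩
      have : (a * (a ^ (p - 1) * ⟨_, hbG⟩) - 1 : G) = 0 := by
        apply Subtype.ext
        apply hGinj _ (Subtype.property _)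
        have hp1 : (a : k × B).1 * (a : k × B).1 ^ (p - 1) = (a : k × B).1 ^ p := by
          rw [← pow_succ', Nat.sub_add_cancel hp.out.one_le]
        simp only [AddSubgroupClass.coe_sub, Subring.coe_mul, Subring.coe_pow, Subring.coe_one,
          Prod.fst_sub, Prod.fst_mul, Prod.pow_fst, Prod.fst_one]
        rw [← mul_assoc, hp1, inv_pow, mul_inv_cancel₀ (pow_ne_zero _ ha1), sub_self]
      exact sub_eq_zero.1 this
    let _ : Field G := hfield.toField
    let _ : Algebra G k := ((RingHom.fst k B).comp G.subtype).toAlgebra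
    have halg : ∀ g : G, algebraMap G k g = (g : k × B).1 := fun g => rfl
    set a : G := ⟨z ^ p, hzp⟩ with ha
    have hirr : Irreducible (X ^ p - C a : G[X]) := by
      apply X_pow_sub_C_irreducible_of_prime hp.out
      intro b hb
      have h1 : ((b : k × B).1) ^ p = x ^ p := by
        have := congrArg (fun w : G => (w : k × B).1) hb
        simpa [ha, hz] using this
      have h2 : ((b : k × B).1) = x := by
        have := frobenius_inj k p
        exact this (by simpa [frobenius_def] using h1)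
      exact hx _ b.2 h2
    have hmonic : (X ^ p - C a : G[X]).Monic := monic_X_pow_sub_C a hp.out.ne_zero
    have hmin : minpoly G x = X ^ p - C a := by
      refine (minpoly.eq_of_irreducible_of_monic hirr ?_ hmonic).symm
      simp [halg, ha, hz]
    -- the bigger subring
    have hzG' : ∃ G' : Subring (k × B), G ≤ G' ∧ z ∈ G' ∧ G' ≤ S ∧ ∀ w ∈ G', w.1 = 0 → w = 0 := by
      refine ⟨(aeval (R := G) z : G[X] →ₐ[G] k × B).toRingHom.range, ?_, ?_, ?_, ?_⟩
      · intro w hw
        exact ⟨C ⟨w, hw⟩, by simp [Algebra.algebraMap_eq_smul_one, Subring.smul_def]⟩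
      · exact ⟨X, by simp⟩
      · rintro _ ⟨P, rfl⟩
        change aeval z P ∈ S
        rw [aeval_eq_sum_range]
        refine sum_mem fun i _ => ?_
        rw [Subring.smul_def, smul_eq_mul]
        exact S.mul_mem (hGS (P.coeff i).2) (S.pow_mem hzS i)
      · rintro _ ⟨P, rfl⟩ h1
        change (aeval z P).1 = 0 at h1
        change aeval z P = 0
        have h2 : aeval x P = 0 := by
          rw [← h1, aeval_eq_sum_range, aeval_eq_sum_range, Prod.fst_sum]
          refine Finset.sum_congr rfl fun i _ => ?_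
          rw [Subring.smul_def, smul_eq_mul, Prod.fst_mul, Prod.pow_fst, Algebra.smul_def, halg]
        have h3 : (X ^ p - C a : G[X]) ∣ P := by
          rw [← hmin]; exact minpoly.dvd G x h2
        obtain ⟨R, rfl⟩ := h3
        have h4 : aeval z (X ^ p - C a : G[X]) = 0 := by
          simp [ha, Algebra.algebraMap_eq_smul_one, Subring.smul_def]
        rw [map_mul, h4, zero_mul]
    obtain ⟨G', hGG', hzG', hG'S, hG'inj⟩ := hzG'
    have : G' ≤ G := hGmax.2 ⟨hG₀G.trans hGG', hG'S, hG'inj⟩ hGG'
    exact hx z (this hzG') rfl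
  -- conclude
  have hinj : Function.Injective ((RingHom.fst k B).comp G.subtype) := by
    rw [injective_iff_map_eq_zero]
    intro a ha
    exact Subtype.ext (hGinj _ a.2 ha)
  have hsurj : Function.Surjective ((RingHom.fst k B).comp G.subtype) := by
    intro x
    obtain ⟨z, hz, rfl⟩ := key x
    exact ⟨⟨z, hz⟩, rfl⟩
  let e : G ≃+* k := RingEquiv.ofBijective _ ⟨hinj, hsurj⟩
  refine ⟨((RingHom.snd k B).comp G.subtype).comp e.symm.toRingHom, ?_⟩
  ext x
  obtain ⟨w, rfl⟩ := e.surjective x
  have hw := hGS w.2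
  rw [hS, mem_pairs] at hw
  simp only [RingEquiv.toRingHom_eq_coe, RingHom.coe_comp, Function.comp_apply,
    RingHom.coe_coe, RingEquiv.symm_apply_apply]
  exact hw.symm

end ZornLift

section Smooth

variable {k : Type*} [Field k] {p : ℕ} [hp : Fact p.Prime] [CharP k p]

/-- Lifting a homomorphism out of a field of characteristic `p` through a surjection with
nilpotent-of-exponent-`p` kernel, target ring killed by `p` (possibly zero). -/
theorem exists_lift_of_ker_pow_eq_zero' {B Q : Type*} [CommRing B] [CommRing Q]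
    (hpB : (p : B) = 0) (f : k →+* Q) (π : B →+* Q)
    (hπ : Function.Surjective π) (hker : ∀ b : B, π b = 0 → b ^ p = 0) :
    ∃ g : k →+* B, π.comp g = f := by
  rcases subsingleton_or_nontrivial B with h | h
  · have hQ : Subsingleton Q := hπ.subsingleton
    refine ⟨⟨⟨⟨fun _ => 0, Subsingleton.elim _ _⟩, fun _ _ => Subsingleton.elim _ _⟩,
      Subsingleton.elim _ _, fun _ _ => Subsingleton.elim _ _⟩, ?_⟩
    ext x
    exact Subsingleton.elim _ _
  · have : CharP B p := by
      obtain ⟨q, hq⟩ := CharP.exists B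
      have h1 : q ∣ p := (CharP.cast_eq_zero_iff B q p).1 hpB
      have h2 : q ≠ 1 := CharP.char_ne_one B q
      have h3 : q = p := ((Nat.dvd_prime hp.out).1 h1).resolve_left h2
      exact h3 ▸ hq
    exact exists_lift_of_ker_pow_eq_zero f π hπ hker

variable (k p) in
/-- Every field of characteristic `p` is formally smooth over `F_p`. -/
theorem formallySmooth_zmod [Algebra (ZMod p) k] : Algebra.FormallySmooth (ZMod p) k := by
  apply Algebra.FormallySmooth.of_comp_surjective
  intro B _ _ I hI f
  have hpB : (p : B) = 0 := by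
    rw [← map_natCast (algebraMap (ZMod p) B), ZMod.natCast_self, map_zero]
  obtain ⟨g, hg⟩ := exists_lift_of_ker_pow_eq_zero' hpB f.toRingHom (Ideal.Quotient.mk I)
    Ideal.Quotient.mk_surjective (fun b hb => by
      have hb' : b ∈ I := Ideal.Quotient.eq_zero_iff_mem.1 hb
      have : b ^ 2 ∈ I ^ 2 := Ideal.pow_mem_pow hb' 2
      rw [hI] at this
      have h2 : b ^ 2 = 0 := by simpa using this
      calc b ^ p = b ^ 2 * b ^ (p - 2) := by
            rw [← pow_add, Nat.add_sub_cancel' hp.out.two_le]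
        _ = 0 := by rw [h2, zero_mul])
  refine ⟨⟨g, fun r => ?_⟩, ?_⟩
  · have : g.comp (algebraMap (ZMod p) k) = algebraMap (ZMod p) B :=
      RingHom.ext_zmod _ _
    exact RingHom.congr_fun this r
  · ext x
    exact RingHom.congr_fun hg x

end Smooth

end Crest.Agent.R183.Cohen
end

-- ▼ part R183/CohenLift
section

/-!
# R183 (Lech), Cohen structure, part 2: lifting along complete surjections

`C` flat over `R`, `C/IC` formally smooth over `R/I`.
-/

set_option autoImplicit false

namespace Crest.Agent.R183.Cohen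

open Ideal

section Base

variable {R C : Type*} [CommRing R] [CommRing C] [Algebra R C] (I : Ideal R)

instance flat_quotient [Module.Flat R C] :
    Module.Flat (R ⧸ I) (C ⧸ I.map (algebraMap R C)) :=
  Module.Flat.of_linearEquiv
    (Algebra.TensorProduct.quotIdealMapEquivQuotTensor C I).toLinearEquiv

/-- Formal smoothness mod `I` gives formal smoothness mod `I ^ (n+1)`, for flat algebras. -/
theorem formallySmooth_pow [Module.Flat R C]
    (h : Algebra.FormallySmooth (R ⧸ I) (C ⧸ I.map (algebraMap R C))) (n : ℕ) :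
    Algebra.FormallySmooth (R ⧸ I ^ (n + 1)) (C ⧸ (I ^ (n + 1)).map (algebraMap R C)) := by
  have key : (algebraMap (R ⧸ I ^ (n + 1)) (C ⧸ (I ^ (n + 1)).map (algebraMap R C))).FormallySmooth := by
    induction n with
    | zero =>
      have e1 : I ^ (0 + 1) = I := by simp
      rw [e1]
      exact (RingHom.formallySmooth_algebraMap).2 h
    | succ n ih =>
      have hle : I ^ (n + 1 + 1) ≤ I ^ (n + 1) := Ideal.pow_le_pow_right (Nat.le_succ _)
      refine RingHom.FormallySmooth.of_flat_of_ker_eq_map_of_square_zero _ ?_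
        (Ideal.Quotient.factor hle) (Ideal.Quotient.factor (Ideal.map_mono hle)) _
        (Ideal.Quotient.factor_surjective hle) (Ideal.Quotient.factor_surjective _) ?_ ?_ ?_ ih
      · rw [RingHom.flat_algebraMap_iff]
        infer_instance
      · ext x
        rfl
      · rw [Ideal.Quotient.factor_ker, ← Ideal.map_pow, ← pow_mul]
        rw [eq_bot_iff, Ideal.map_le_iff_le_comap]
        intro x hx
        have : x ∈ I ^ (n + 1 + 1) := Ideal.pow_le_pow_right (by nlinarith) hx
        simpa [Ideal.Quotient.eq_zero_iff_mem] using this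
      · rw [Ideal.Quotient.factor_ker, Ideal.Quotient.factor_ker, Ideal.map_map, Ideal.map_map]
        rfl
  exact (RingHom.formallySmooth_algebraMap).1 key

/-- Lifting through nilpotent surjections of `R`-algebras killed by a power of `I`. -/
theorem exists_lift_nilp [Module.Flat R C]
    (h : Algebra.FormallySmooth (R ⧸ I) (C ⧸ I.map (algebraMap R C)))
    {B B' : Type*} [CommRing B] [Algebra R B] [CommRing B'] [Algebra R B'] (n : ℕ)
    (hn : (I ^ n).map (algebraMap R B) = ⊥) (π : B →ₐ[R] B') (hπ : Function.Surjective π)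
    (hker : IsNilpotent (RingHom.ker π)) (f : C →ₐ[R] B') :
    ∃ g : C →ₐ[R] B, π.comp g = f := by
  have hn1 : (I ^ (n + 1)).map (algebraMap R B) = ⊥ := by
    rw [eq_bot_iff, ← hn]
    exact Ideal.map_mono (Ideal.pow_le_pow_right (Nat.le_succ _))
  have hB : ∀ a ∈ I ^ (n + 1), algebraMap R B a = 0 := fun a ha => by
    have := Ideal.mem_map_of_mem (algebraMap R B) ha
    rwa [hn1, Ideal.mem_bot] at this
  have hB' : ∀ a ∈ I ^ (n + 1), algebraMap R B' a = 0 := fun a ha => by
    rw [← π.commutes, hB a ha, map_zero]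
  let _ : Algebra (R ⧸ I ^ (n + 1)) B := (Ideal.Quotient.lift _ (algebraMap R B) hB).toAlgebra
  let _ : Algebra (R ⧸ I ^ (n + 1)) B' := (Ideal.Quotient.lift _ (algebraMap R B') hB').toAlgebra
  have hsm := formallySmooth_pow I h n
  let π' : B →ₐ[R ⧸ I ^ (n + 1)] B' :=
    { π.toRingHom with
      commutes' := fun r => by
        obtain ⟨r, rfl⟩ := Ideal.Quotient.mk_surjective r
        exact π.commutes r }
  have hf : ∀ a ∈ (I ^ (n + 1)).map (algebraMap R C), f a = 0 := by
    intro a ha
    have : (I ^ (n + 1)).map (algebraMap R C) ≤ RingHom.ker f := by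
      rw [Ideal.map_le_iff_le_comap]
      intro x hx
      rw [Ideal.mem_comap, RingHom.mem_ker, f.commutes]
      exact hB' x hx
    exact this ha
  let f' : (C ⧸ (I ^ (n + 1)).map (algebraMap R C)) →ₐ[R ⧸ I ^ (n + 1)] B' :=
    { Ideal.Quotient.lift _ f.toRingHom hf with
      commutes' := fun r => by
        obtain ⟨r, rfl⟩ := Ideal.Quotient.mk_surjective r
        exact f.commutes r }
  let g' := Algebra.FormallySmooth.liftOfSurjective f' π' hπ hker
  have hg' : π'.comp g' = f' := Algebra.FormallySmooth.comp_liftOfSurjective f' π' hπ hker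
  refine ⟨{ g'.toRingHom.comp (Ideal.Quotient.mk _) with
      commutes' := fun r => g'.commutes (Ideal.Quotient.mk _ r) }, ?_⟩
  ext x
  exact AlgHom.congr_fun hg' (Ideal.Quotient.mk _ x)

end Base

section Complete

variable {R C : Type*} [CommRing R] [CommRing C] [Algebra R C] (I : Ideal R)

/-- One lifting step. -/
theorem exists_lift_step [Module.Flat R C]
    (h : Algebra.FormallySmooth (R ⧸ I) (C ⧸ I.map (algebraMap R C)))
    {S : Type*} [CommRing S] [Algebra R S] (J K : Ideal S) (hIJ : I.map (algebraMap R S) ≤ J)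
    (c : C →ₐ[R] S ⧸ K) (m : ℕ) (hm : m ≠ 0) (g : C →ₐ[R] S ⧸ J ^ m)
    (hg : (Ideal.Quotient.factorₐ R (le_sup_left : J ^ m ≤ J ^ m ⊔ K)).comp g =
      (Ideal.Quotient.factorₐ R (le_sup_right : K ≤ J ^ m ⊔ K)).comp c) :
    ∃ g' : C →ₐ[R] S ⧸ J ^ (m + 1),
      (Ideal.Quotient.factorₐ R (Ideal.pow_le_pow_right (Nat.le_succ m))).comp g' = g ∧
      (Ideal.Quotient.factorₐ R (le_sup_left : J ^ (m + 1) ≤ J ^ (m + 1) ⊔ K)).comp g' =
      (Ideal.Quotient.factorₐ R (le_sup_right : K ≤ J ^ (m + 1) ⊔ K)).comp c := by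
  -- the map to the product
  let π : S ⧸ J ^ (m + 1) →ₐ[R] (S ⧸ J ^ m) × (S ⧸ J ^ (m + 1) ⊔ K) :=
    (Ideal.Quotient.factorₐ R (Ideal.pow_le_pow_right (Nat.le_succ m))).prod
      (Ideal.Quotient.factorₐ R le_sup_left)
  let F : C →ₐ[R] (S ⧸ J ^ m) × (S ⧸ J ^ (m + 1) ⊔ K) :=
    g.prod ((Ideal.Quotient.factorₐ R (le_sup_right : K ≤ J ^ (m + 1) ⊔ K)).comp c)
  have hF : ∀ x, F x ∈ π.range := by
    intro x
    obtain ⟨a, ha⟩ := Ideal.Quotient.mk_surjective (g x)
    obtain ⟨b, hb⟩ := Ideal.Quotient.mk_surjective (c x)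
    have h1 : a - b ∈ J ^ m ⊔ K := by
      have := AlgHom.congr_fun hg x
      rw [AlgHom.comp_apply, AlgHom.comp_apply, ← ha, ← hb] at this
      exact Ideal.Quotient.eq.1 this
    obtain ⟨j, hj, k, hk, hjk⟩ := Submodule.mem_sup.1 h1
    refine ⟨Ideal.Quotient.mk _ (b + k), ?_⟩
    refine Prod.ext ?_ ?_
    · change Ideal.Quotient.mk _ (b + k) = g x
      rw [← ha, Ideal.Quotient.eq]
      have : b + k - a = - j := by linear_combination hjk
      rw [this]
      exact neg_mem hj
    · change Ideal.Quotient.mk _ (b + k) =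
        (Ideal.Quotient.factorₐ R (le_sup_right : K ≤ J ^ (m + 1) ⊔ K)) (c x)
      rw [← hb]
      change Ideal.Quotient.mk _ (b + k) = Ideal.Quotient.mk _ b
      rw [Ideal.Quotient.eq]
      have : b + k - b = k := by ring
      rw [this]
      exact Ideal.mem_sup_right hk
  let F' : C →ₐ[R] π.range := F.codRestrict π.range hF
  have hnil : IsNilpotent (RingHom.ker π.rangeRestrict) := by
    refine ⟨2, ?_⟩
    rw [Submodule.zero_eq_bot, eq_bot_iff]
    have hle : RingHom.ker π.rangeRestrict ≤ (J ^ m).map (Ideal.Quotient.mk (J ^ (m + 1))) := by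
      intro x hx
      obtain ⟨x, rfl⟩ := Ideal.Quotient.mk_surjective x
      have hx1 : π (Ideal.Quotient.mk _ x) = 0 := congrArg Subtype.val hx
      have hx2 : Ideal.Quotient.mk (J ^ m) x = 0 := congrArg Prod.fst hx1
      exact Ideal.mem_map_of_mem _ (Ideal.Quotient.eq_zero_iff_mem.1 hx2)
    refine (Ideal.pow_right_mono hle 2).trans ?_
    rw [← Ideal.map_pow, Ideal.map_le_iff_le_comap, ← pow_mul]
    intro x hx
    have : x ∈ J ^ (m + 1) := Ideal.pow_le_pow_right (by omega) hx
    simpa [Ideal.Quotient.eq_zero_iff_mem] using this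
  have hkill : (I ^ (m + 1)).map (algebraMap R (S ⧸ J ^ (m + 1))) = ⊥ := by
    rw [eq_bot_iff, Ideal.map_le_iff_le_comap]
    intro x hx
    have : algebraMap R S x ∈ J ^ (m + 1) := by
      have h1 := Ideal.mem_map_of_mem (algebraMap R S) hx
      rw [Ideal.map_pow] at h1
      exact Ideal.pow_right_mono hIJ _ h1
    exact Ideal.Quotient.eq_zero_iff_mem.2 this
  obtain ⟨g', hg'⟩ := exists_lift_nilp I h (m + 1) hkill π.rangeRestrict
    π.rangeRestrict_surjective hnil F'
  have hg2 : π.comp g' = F := by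
    ext1 x
    exact congrArg Subtype.val (AlgHom.congr_fun hg' x)
  refine ⟨g', ?_, ?_⟩
  · ext1 x
    exact congrArg Prod.fst (AlgHom.congr_fun hg2 x)
  · ext1 x
    exact congrArg Prod.snd (AlgHom.congr_fun hg2 x)

/-- **Lifting along complete surjections.**  `C` flat over `R` with `C/IC` formally smooth over
`R/I`; `S` an `R`-algebra, `J`-adically complete with `IS ≤ J`; `K ≤ J` a `J`-adically closed
ideal. Every `R`-algebra map `C → S/K` lifts to `C → S`. -/
theorem exists_lift_complete [Module.Flat R C]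
    (h : Algebra.FormallySmooth (R ⧸ I) (C ⧸ I.map (algebraMap R C)))
    {S : Type*} [CommRing S] [Algebra R S] (J K : Ideal S) [IsAdicComplete J S]
    (hIJ : I.map (algebraMap R S) ≤ J) (hKJ : K ≤ J)
    (hK : ∀ x : S, (∀ m : ℕ, x ∈ J ^ m ⊔ K) → x ∈ K) (c : C →ₐ[R] S ⧸ K) :
    ∃ g : C →ₐ[R] S, (Ideal.Quotient.mkₐ R K).comp g = c := by
  classical
  let T : ℕ → Type _ := fun m => {g : C →ₐ[R] S ⧸ J ^ (m + 1) //
    (Ideal.Quotient.factorₐ R (le_sup_left : J ^ (m + 1) ≤ J ^ (m + 1) ⊔ K)).comp g =
      (Ideal.Quotient.factorₐ R (le_sup_right : K ≤ J ^ (m + 1) ⊔ K)).comp c}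
  have hK1 : K ≤ J ^ (0 + 1) := by simpa using hKJ
  let t0 : T 0 := ⟨(Ideal.Quotient.factorₐ R hK1).comp c, by
    ext1 x
    obtain ⟨y, hy⟩ := Ideal.Quotient.mk_surjective (c x)
    simp only [AlgHom.comp_apply]
    rw [← hy]
    rfl⟩
  have step : ∀ (m : ℕ) (t : T m), ∃ t' : T (m + 1),
      (Ideal.Quotient.factorₐ R (Ideal.pow_le_pow_right (Nat.le_succ (m + 1)))).comp t'.1 = t.1 := by
    intro m t
    obtain ⟨g', hg1, hg2⟩ := exists_lift_step I h J K hIJ c (m + 1) (Nat.succ_ne_zero m) t.1 t.2
    exact ⟨⟨g', hg2⟩, hg1⟩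
  choose next hnext using step
  let t : ∀ m, T m := fun m => Nat.rec t0 next m
  have ht : ∀ m, (Ideal.Quotient.factorₐ R (Ideal.pow_le_pow_right (Nat.le_succ (m + 1)))).comp
      (t (m + 1)).1 = (t m).1 := fun m => hnext m (t m)
  -- the compatible family
  let f : (n : ℕ) → C →ₐ[R] S ⧸ J ^ n := fun n =>
    (Ideal.Quotient.factorₐ R (Ideal.pow_le_pow_right (Nat.le_succ n))).comp (t n).1
  have hf1 : ∀ n, (Ideal.Quotient.factorₐ R (Ideal.pow_le_pow_right (Nat.le_succ n))).comp
      (f (n + 1)) = f n := by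
    intro n
    ext1 x
    have h1 := AlgHom.congr_fun (ht n) x
    simp only [f, AlgHom.comp_apply] at h1 ⊢
    rw [h1]
  have hf : ∀ {m n : ℕ} (hle : m ≤ n),
      (Ideal.Quotient.factorₐ R (Ideal.pow_le_pow_right hle)).comp (f n) = f m := by
    intro m n hle
    induction n, hle using Nat.le_induction with
    | base =>
      ext1 x
      obtain ⟨y, hy⟩ := Ideal.Quotient.mk_surjective (f m x)
      rw [AlgHom.comp_apply, ← hy]
      rfl
    | succ n hmn ih =>
      rw [← ih, ← hf1 n]
      ext1 x
      obtain ⟨y, hy⟩ := Ideal.Quotient.mk_surjective (f (n + 1) x)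
      simp only [AlgHom.comp_apply]
      rw [← hy]
      rfl
  let g := IsAdicComplete.liftAlgHom J f hf
  refine ⟨g, ?_⟩
  ext1 x
  obtain ⟨y, hy⟩ := Ideal.Quotient.mk_surjective (c x)
  rw [← hy]
  change Ideal.Quotient.mk K (g x) = Ideal.Quotient.mk K y
  rw [Ideal.Quotient.eq]
  refine hK _ fun m => ?_
  have h1 : Ideal.Quotient.mk (J ^ (m + 1)) (g x) = f (m + 1) x :=
    IsAdicComplete.mk_liftAlgHom J f hf (m + 1) x
  have h2 : f (m + 1) x = (t m).1 x := AlgHom.congr_fun (ht m) x
  have h3 := AlgHom.congr_fun (t m).2 x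
  rw [AlgHom.comp_apply, AlgHom.comp_apply, ← h2, ← h1, ← hy] at h3
  have h4 : g x - y ∈ J ^ (m + 1) ⊔ K := Ideal.Quotient.eq.1 h3
  exact sup_le_sup_right (Ideal.pow_le_pow_right (Nat.le_succ m)) K h4

end Complete

end Crest.Agent.R183.Cohen
end

-- ▼ part R183/CohenExist
section

/-!
# R183 (Lech), Cohen structure, part 3: existence of Cohen rings

For every field `k` of characteristic `p` there is a local domain `A` of characteristic zero with
maximal ideal `(p)` and residue field `k`: take a maximal `p`-saturated subring (with residues in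
`k`) of a valuation ring of an algebraically closed field of characteristic zero whose residue
field contains `k`.
-/

set_option autoImplicit false

namespace Crest.Agent.R183.Cohen

open Ideal IsLocalRing Polynomial

section Zorn

variable {L : Type*} [Field L] (O : ValuationSubring L) (π : O)
  {k : Type*} [Field k] (j : k →+* ResidueField O)

/-- the poset of admissible subrings -/
def Adm : Set (Subring O) :=
  {A | (∀ a ∈ A, residue O a = 0 → ∃ b ∈ A, a = π * b) ∧ ∀ a ∈ A, residue O a ∈ j.range}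

variable {O π j}

theorem adm_sSup {c : Set (Subring O)} (hc : c ⊆ Adm O π j) (hch : IsChain (· ≤ ·) c)
    {y : Subring O} (hy : y ∈ c) : sSup c ∈ Adm O π j := by
  refine ⟨fun a ha h0 => ?_, fun a ha => ?_⟩
  · rw [Subring.mem_sSup_of_directedOn ⟨y, hy⟩ hch.directedOn] at ha
    obtain ⟨s, hs, has⟩ := ha
    obtain ⟨b, hb, rfl⟩ := (hc hs).1 a has h0
    exact ⟨b, (le_sSup hs : s ≤ sSup c) hb, rfl⟩
  · rw [Subring.mem_sSup_of_directedOn ⟨y, hy⟩ hch.directedOn] at ha
    obtain ⟨s, hs, has⟩ := ha
    exact (hc hs).2 a has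

/-- extension by an element: abstract criterion -/
theorem adm_adjoin {A : Subring O} (hA : A ∈ Adm O π j) (α : O) (hα : residue O α ∈ j.range)
    (h : ∀ P : A[X], residue O (aeval α P) = 0 → ∃ Q : A[X], aeval α P = π * aeval α Q) :
    ∃ A' ∈ Adm O π j, A ≤ A' ∧ α ∈ A' := by
  refine ⟨(aeval (R := A) α : A[X] →ₐ[A] O).toRingHom.range, ⟨?_, ?_⟩, ?_, ?_⟩
  · rintro _ ⟨P, rfl⟩ h0
    obtain ⟨Q, hQ⟩ := h P h0
    exact ⟨_, ⟨Q, rfl⟩, hQ⟩
  · rintro _ ⟨P, rfl⟩
    change residue O (aeval α P) ∈ j.range
    rw [aeval_eq_sum_range, map_sum]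
    refine sum_mem fun i _ => ?_
    rw [Subring.smul_def, smul_eq_mul, map_mul, map_pow]
    exact mul_mem (hA.2 _ (P.coeff i).2) (pow_mem hα i)
  · intro w hw
    exact ⟨C ⟨w, hw⟩, by simp [Algebra.algebraMap_eq_smul_one, Subring.smul_def]⟩
  · exact ⟨X, by simp⟩

theorem adm_inv {A : Subring O} (hA : A ∈ Adm O π j) {s : O} (hs : s ∈ A)
    (hs0 : residue O s ≠ 0) : ∃ A' ∈ Adm O π j, A ≤ A' ∧ ∃ t ∈ A', s * t = 1 := by
  have hu : IsUnit s := by
    by_contra hcon
    exact hs0 ((residue_eq_zero_iff s).2 ((mem_maximalIdeal _).2 hcon))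
  obtain ⟨u, rfl⟩ := hu
  have hmul : ∀ n : ℕ, ((u : O) ^ n) ∈ A := fun n => pow_mem hs n
  have hinv : ∀ n : ℕ, ((↑u⁻¹ : O) ^ n) * (u : O) ^ n = 1 := fun n => by
    rw [← mul_pow, Units.inv_mul, one_pow]
  refine ⟨{ carrier := {y | ∃ n : ℕ, y * (u : O) ^ n ∈ A}
            mul_mem' := ?_, one_mem' := ⟨0, by simp [A.one_mem]⟩,
            add_mem' := ?_, zero_mem' := ⟨0, by simp [A.zero_mem]⟩, neg_mem' := ?_ },
    ⟨?_, ?_⟩, ?_, ?_⟩
  · rintro a b ⟨n, hn⟩ ⟨m, hm⟩
    refine ⟨n + m, ?_⟩
    have : a * b * (u : O) ^ (n + m) = (a * (u : O) ^ n) * (b * (u : O) ^ m) := by ring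
    rw [this]
    exact mul_mem hn hm
  · rintro a b ⟨n, hn⟩ ⟨m, hm⟩
    refine ⟨n + m, ?_⟩
    have : (a + b) * (u : O) ^ (n + m) = (a * (u : O) ^ n) * (u : O) ^ m +
        (b * (u : O) ^ m) * (u : O) ^ n := by ring
    rw [this]
    exact add_mem (mul_mem hn (hmul m)) (mul_mem hm (hmul n))
  · rintro a ⟨n, hn⟩
    exact ⟨n, by rw [neg_mul]; exact neg_mem hn⟩
  · rintro a ⟨n, hn⟩ h0
    obtain ⟨b, hb, hab⟩ := hA.1 _ hn (by rw [map_mul, h0, zero_mul])
    refine ⟨b * (↑u⁻¹ : O) ^ n, ⟨n, ?_⟩, ?_⟩
    · rw [mul_assoc, hinv, mul_one]; exact hb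
    · have : a = (a * (u : O) ^ n) * (↑u⁻¹ : O) ^ n := by
        rw [mul_assoc, mul_comm ((u : O) ^ n), hinv, mul_one]
      rw [this, hab]; ring
  · rintro a ⟨n, hn⟩
    have h1 := hA.2 _ hn
    have h2 := hA.2 _ (hmul n)
    have h3 : residue O a = residue O (a * (u : O) ^ n) * (residue O ((u : O) ^ n))⁻¹ := by
      rw [map_mul, mul_assoc, mul_inv_cancel₀, mul_one]
      rw [map_pow]
      exact pow_ne_zero _ hs0
    rw [h3]
    obtain ⟨x, hx⟩ := h1
    obtain ⟨y, hy⟩ := h2
    exact ⟨x * y⁻¹, by rw [map_mul, map_inv₀, hx, hy]⟩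
  · intro a ha
    exact ⟨0, by simpa using ha⟩
  · exact ⟨(↑u⁻¹ : O), ⟨1, by simp [A.one_mem]⟩, Units.mul_inv u⟩

theorem exists_div_pi {A : Subring O} (hA : A ∈ Adm O π j) (R : A[X])
    (h : ∀ i, residue O (R.coeff i : O) = 0) (α : O) :
    ∃ Q : A[X], aeval α R = π * aeval α Q := by
  have h1 : ∀ i, ∃ b : A, (R.coeff i : O) = π * b := fun i => by
    obtain ⟨b, hb, hab⟩ := hA.1 _ (R.coeff i).2 (h i)
    exact ⟨⟨b, hb⟩, hab⟩
  choose b hb using h1
  refine ⟨∑ i ∈ Finset.range (R.natDegree + 1), monomial i (b i), ?_⟩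
  rw [aeval_eq_sum_range, map_sum, Finset.mul_sum]
  refine Finset.sum_congr rfl fun i _ => ?_
  rw [aeval_monomial, Subring.smul_def, smul_eq_mul, hb i]
  change π * (b i : O) * α ^ i = π * ((b i : O) * α ^ i)
  ring

/-- A monic polynomial over `O` with a root mod `𝔪` has a root in `O` above it, when the fraction
field is algebraically closed. -/
theorem exists_root [IsAlgClosed L] {A : Subring O} (f : A[X]) (hf : f.Monic) (y : O)
    (hy : residue O (aeval y f) = 0) : ∃ α : O, aeval α f = 0 ∧ residue O α = residue O y := by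
  let g : L[X] := f.map (O.subtype.comp A.subtype)
  have hg : g.Monic := hf.map _
  have hev : ∀ z : O, g.eval (z : L) = ((aeval z f : O) : L) := by
    intro z
    have h1 : (aeval z f : O) = f.eval₂ A.subtype z := rfl
    rw [h1, eval_map]
    change _ = O.subtype (f.eval₂ A.subtype z)
    rw [hom_eval₂]
    rfl
  have hsp : g.Splits := IsAlgClosed.splits g
  have hprod := hsp.eval_eq_prod_roots_of_monic hg (y : L)
  have hlt : O.valuation (g.eval (y : L)) < 1 := by
    rw [hev]
    exact (O.valuation_lt_one_iff _).1 ((residue_eq_zero_iff _).1 hy)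
  obtain ⟨α, hα, hlt'⟩ : ∃ α ∈ g.roots, O.valuation ((y : L) - α) < 1 := by
    by_contra hcon
    push Not at hcon
    rw [hprod, map_multiset_prod] at hlt
    refine absurd hlt (not_lt.2 ?_)
    apply Multiset.one_le_prod_of_one_le
    intro x hx
    rw [Multiset.mem_map] at hx
    obtain ⟨w, hw, rfl⟩ := hx
    rw [Multiset.mem_map] at hw
    obtain ⟨α, hα, rfl⟩ := hw
    exact hcon α hα
  have hmem : (y : L) - α ∈ O := (O.valuation_le_one_iff _).1 hlt'.le
  have hmem2 : α ∈ O := by
    have := sub_mem y.2 hmem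
    simpa using this
  refine ⟨⟨α, hmem2⟩, ?_, ?_⟩
  · apply Subtype.ext
    rw [← hev]
    exact isRoot_of_mem_roots hα
  · have h1 : (y - ⟨α, hmem2⟩ : O) ∈ maximalIdeal O := (O.valuation_lt_one_iff _).2 hlt'
    have h2 := (residue_eq_zero_iff _).2 h1
    rw [map_sub, sub_eq_zero] at h2
    exact h2.symm

theorem exists_max [IsAlgClosed L] {A₀ : Subring O} (h₀ : A₀ ∈ Adm O π j) :
    ∃ A ∈ Adm O π j, (∀ s ∈ A, residue O s ≠ 0 → ∃ t ∈ A, s * t = 1) ∧
      ∀ x : k, ∃ a ∈ A, residue O a = j x := by
  classical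
  obtain ⟨A, -, hAmax⟩ := zorn_le_nonempty₀ (Adm O π j)
    (fun c hc hchain y hy => ⟨sSup c, adm_sSup hc hchain hy, fun z hz => le_sSup hz⟩) A₀ h₀
  have hA := hAmax.1
  have hinv : ∀ s ∈ A, residue O s ≠ 0 → ∃ t ∈ A, s * t = 1 := by
    intro s hs hs0
    obtain ⟨A', hA', hAA', t, ht, hst⟩ := adm_inv hA hs hs0
    exact ⟨t, hAmax.2 hA' hAA' ht, hst⟩
  refine ⟨A, hA, hinv, ?_⟩
  by_contra hcon
  push Not at hcon
  obtain ⟨x, hx⟩ := hcon
  -- the residue field of `A`
  let ρ : A →+* ResidueField O := (residue O).comp A.subtype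
  let F : Subfield (ResidueField O) :=
    { ρ.range with
      inv_mem' := by
        rintro _ ⟨s, rfl⟩
        by_cases h0 : residue O (s : O) = 0
        · refine ⟨0, ?_⟩
          change ρ 0 = (residue O (s : O))⁻¹
          rw [h0, map_zero, inv_zero]
        · obtain ⟨t, ht, hst⟩ := hinv _ s.2 h0
          refine ⟨⟨t, ht⟩, ?_⟩
          change residue O t = (residue O (s : O))⁻¹
          refine eq_inv_of_mul_eq_one_left ?_
          rw [← map_mul, mul_comm, hst, map_one] }
  let ρ' : A →+* F := ρ.codRestrict F (fun a => ⟨a, rfl⟩)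
  have hρ' : Function.Surjective ρ' := by
    rintro ⟨_, a, rfl⟩
    exact ⟨a, rfl⟩
  have hρ'0 : ∀ a : A, ρ' a = 0 ↔ residue O (a : O) = 0 := fun a => by
    rw [Subtype.ext_iff]
    rfl
  have hres : ∀ (P : A[X]) (z : O), residue O (aeval z P) = aeval (residue O z) (P.map ρ') := by
    intro P z
    have h1 : (aeval z P : O) = P.eval₂ A.subtype z := rfl
    rw [h1, hom_eval₂, aeval_def, eval₂_map]
    rfl
  obtain ⟨y, hy⟩ := residue_surjective (R := O) (j x)
  have key : ∃ α : O, residue O α = j x ∧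
      ∀ P : A[X], residue O (aeval α P) = 0 → ∃ Q : A[X], aeval α P = π * aeval α Q := by
    by_cases halg : IsAlgebraic F (j x)
    · -- algebraic case
      have hint : IsIntegral F (j x) := halg.isIntegral
      obtain ⟨f, hf1, hf2, hf3⟩ := lifts_and_natDegree_eq_and_monic
        (f := ρ') (p := minpoly F (j x))
        ((mem_lifts _).2 (map_surjective ρ' hρ' _)) (minpoly.monic hint)
      have hy0 : residue O (aeval y f) = 0 := by
        rw [hres, hf1, hy, minpoly.aeval]
      obtain ⟨α, hα0, hα⟩ := exists_root f hf3 y hy0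
      refine ⟨α, hα.trans hy, fun P hP => ?_⟩
      have hmod : aeval α (P %ₘ f) = aeval α P := aeval_modByMonic_eq_self_of_root hα0
      rw [← hmod]
      apply exists_div_pi hA
      have h1 : aeval (j x) ((P %ₘ f).map ρ') = 0 := by
        rw [← hy, ← hα, ← hres, hmod, hP]
      have h2 : (P %ₘ f).map ρ' = 0 := by
        by_contra hne
        have h3 := minpoly.degree_le_of_ne_zero F (j x) hne h1
        have h4 : ((P %ₘ f).map ρ').degree < (minpoly F (j x)).degree := by
          refine lt_of_le_of_lt degree_map_le ?_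
          refine lt_of_lt_of_le (degree_modByMonic_lt P hf3) ?_
          rw [degree_eq_natDegree hf3.ne_zero, hf2,
            degree_eq_natDegree (minpoly.ne_zero hint)]
        exact absurd h3 (not_le.2 h4)
      intro i
      rw [← hρ'0, ← coeff_map, h2, coeff_zero]
    · -- transcendental case
      refine ⟨y, hy, fun P hP => ?_⟩
      apply exists_div_pi hA
      have h1 : aeval (j x) (P.map ρ') = 0 := by rw [← hy, ← hres, hP]
      have h2 : P.map ρ' = 0 := by
        by_contra hne
        exact halg ⟨_, hne, h1⟩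
      intro i
      rw [← hρ'0, ← coeff_map, h2, coeff_zero]
  obtain ⟨α, hα, hα'⟩ := key
  obtain ⟨A', hA', hAA', hαA'⟩ := adm_adjoin hA α ⟨x, hα.symm⟩ hα'
  exact hx α (hAmax.2 hA' hAA' hαA') hα

end Zorn

end Crest.Agent.R183.Cohen
end

-- ▼ part R183/CohenExist2
section

/-!
# R183 (Lech), Cohen structure, part 4: existence of Cohen rings, conclusion
-/

set_option autoImplicit false

namespace Crest.Agent.R183.Cohen

open Ideal IsLocalRing

universe u

/-- A valuation ring of an algebraically closed field of characteristic zero whose residue field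
contains a given field. -/
theorem exists_valuationSubring (k : Type u) [Field k] :
    ∃ (L : Type u) (_ : Field L) (_ : IsAlgClosed L) (_ : CharZero L) (O : ValuationSubring L),
      Nonempty (k →+* ResidueField O) := by
  classical
  let R₀ := MvPolynomial k ℤ
  let ev : R₀ →+* k := MvPolynomial.eval₂Hom (Int.castRingHom k) id
  have hev : Function.Surjective ev := fun x => ⟨MvPolynomial.X x, MvPolynomial.eval₂_X _ _ _⟩
  have hprime : (RingHom.ker ev).IsPrime := RingHom.ker_isPrime ev
  let n := RingHom.ker ev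
  let R₁ := Localization.AtPrime n
  let L := AlgebraicClosure (FractionRing R₀)
  have hinj : Function.Injective (algebraMap R₀ L) := by
    rw [IsScalarTower.algebraMap_eq R₀ (FractionRing R₀) L]
    exact (algebraMap (FractionRing R₀) L).injective.comp (IsFractionRing.injective R₀ _)
  have hz : CharZero L := by
    refine ⟨fun a b hab => ?_⟩
    have h1 : algebraMap R₀ L (a : R₀) = algebraMap R₀ L (b : R₀) := by
      simpa using hab
    exact Nat.cast_injective (hinj h1)
  let f : R₁ →+* L := IsLocalization.lift (M := n.primeCompl) (g := algebraMap R₀ L) (by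
    intro y
    rw [isUnit_iff_ne_zero]
    intro h0
    have h1 : (y : R₀) = 0 := hinj (by rw [h0, map_zero])
    exact y.2 (by rw [h1]; exact n.zero_mem))
  obtain ⟨O, hO, hloc⟩ := IsLocalRing.exists_factor_valuationRing f
  refine ⟨L, inferInstance, inferInstance, hz, O, ?_⟩
  let φ : R₁ →+* O := f.codRestrict O.toSubring hO
  have hφ : IsLocalHom φ := hloc
  let ψ : R₀ →+* ResidueField O := (residue O).comp (φ.comp (algebraMap R₀ R₁))
  have hker : RingHom.ker ev ≤ RingHom.ker ψ := by
    intro x hx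
    rw [RingHom.mem_ker]
    change residue O (φ (algebraMap R₀ R₁ x)) = 0
    rw [residue_eq_zero_iff, mem_maximalIdeal, mem_nonunits_iff]
    intro hu
    have hu' : IsUnit (algebraMap R₀ R₁ x) := hφ.map_nonunit _ hu
    rw [IsLocalization.AtPrime.isUnit_to_map_iff R₁ n x] at hu'
    exact hu' hx
  exact ⟨ev.liftOfSurjective hev ⟨ψ, hker⟩⟩

/-- **Existence of (non complete) Cohen rings.** -/
theorem exists_cohen_local (p : ℕ) [Fact p.Prime] (k : Type u) [Field k] [CharP k p] :
    ∃ (A : Type u) (_ : CommRing A) (_ : IsDomain A) (_ : IsLocalRing A) (_ : CharZero A),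
      maximalIdeal A = span {(p : A)} ∧ Nonempty (ResidueField A ≃+* k) := by
  classical
  obtain ⟨L, _, _, _, O, ⟨j⟩⟩ := exists_valuationSubring k
  have hchar : CharP (ResidueField O) p := charP_of_injective_ringHom j.injective p
  have hp0 : residue O ((p : ℕ) : O) = 0 := by
    rw [map_natCast, CharP.cast_eq_zero]
  have hbot : (⊥ : Subring O) ∈ Adm O ((p : ℕ) : O) j := by
    refine ⟨?_, ?_⟩
    · intro a ha h0
      rw [Subring.mem_bot] at ha
      obtain ⟨n, rfl⟩ := ha
      rw [map_intCast, CharP.intCast_eq_zero_iff _ p] at h0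
      obtain ⟨m, rfl⟩ := h0
      exact ⟨(m : O), Subring.mem_bot.2 ⟨m, rfl⟩, by push_cast; ring⟩
    · intro a ha
      rw [Subring.mem_bot] at ha
      obtain ⟨n, rfl⟩ := ha
      exact ⟨n, by simp⟩
  obtain ⟨A, hA, hinv, hsurj⟩ := exists_max hbot
  have hunit : ∀ a : A, IsUnit a ↔ residue O (a : O) ≠ 0 := by
    intro a
    constructor
    · intro hu
      have : IsUnit (residue O (a : O)) := (hu.map A.subtype).map (residue O)
      exact this.ne_zero
    · intro h
      obtain ⟨t, ht, hst⟩ := hinv _ a.2 h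
      exact IsUnit.of_mul_eq_one ⟨t, ht⟩ (Subtype.ext hst)
  have hlocal : IsLocalRing A := by
    refine IsLocalRing.of_nonunits_add ?_
    intro a b ha hb
    rw [mem_nonunits_iff, hunit, not_not] at ha hb ⊢
    rw [Subring.coe_add, map_add, ha, hb, add_zero]
  have hcz : CharZero A := by
    refine ⟨fun a b hab => ?_⟩
    have h1 : ((a : A) : L) = ((b : A) : L) := by
      have := congrArg (fun z : A => ((z : O) : L)) hab
      simpa using this
    have h2 : ((a : ℕ) : L) = ((b : ℕ) : L) := by simpa using h1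
    exact Nat.cast_injective h2
  have hmem : ∀ a : A, a ∈ maximalIdeal A ↔ residue O (a : O) = 0 := by
    intro a
    rw [mem_maximalIdeal, mem_nonunits_iff, hunit, not_not]
  refine ⟨A, inferInstance, inferInstance, hlocal, hcz, ?_, ?_⟩
  · ext a
    rw [hmem, Ideal.mem_span_singleton']
    constructor
    · intro h
      obtain ⟨b, hb, hab⟩ := hA.1 _ a.2 h
      refine ⟨⟨b, hb⟩, Subtype.ext ?_⟩
      rw [hab, Subring.coe_mul, Subring.coe_natCast, mul_comm]
    · rintro ⟨b, rfl⟩
      rw [Subring.coe_mul, map_mul, Subring.coe_natCast, hp0, mul_zero]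
  · -- residue field
    have hrange : ∀ a : A, residue O (a : O) ∈ j.range := fun a => hA.2 _ a.2
    let e : k ≃+* j.range := RingEquiv.ofBijective j.rangeRestrict
      ⟨fun a b hab => j.injective (congrArg Subtype.val hab), j.rangeRestrict_surjective⟩
    let θ : A →+* k := e.symm.toRingHom.comp
      (((residue O).comp A.subtype).codRestrict j.range hrange)
    have hθ : ∀ a : A, j (θ a) = residue O (a : O) := by
      intro a
      have h1 : e (θ a) = ⟨residue O (a : O), hrange a⟩ := e.apply_symm_apply _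
      exact congrArg Subtype.val h1
    have hθs : Function.Surjective θ := by
      intro x
      obtain ⟨a, ha, hax⟩ := hsurj x
      exact ⟨⟨a, ha⟩, j.injective (by rw [hθ]; exact hax)⟩
    have hker : maximalIdeal A = RingHom.ker θ := by
      ext a
      rw [hmem, RingHom.mem_ker, ← hθ, map_eq_zero]
    exact ⟨(Ideal.quotEquivOfEq hker).trans (RingHom.quotientKerEquivOfSurjective hθs)⟩

end Crest.Agent.R183.Cohen
end

-- ▼ part R183/CohenRing
section

/-!
# R183 (Lech), Cohen structure, part 5: Cohen rings (complete discrete valuation rings with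
uniformizer `p` and given residue field)
-/

set_option autoImplicit false

namespace Crest.Agent.R183.Cohen

open Ideal IsLocalRing

universe u

section DVR

variable {C : Type*} [CommRing C] [IsLocalRing C] {π : C}

theorem exists_unit_mul_pow (hm : maximalIdeal C = span {π})
    [hH : IsHausdorff (maximalIdeal C) C] {x : C} (hx : x ≠ 0) :
    ∃ n : ℕ, ∃ u : Cˣ, x = π ^ n * u := by
  classical
  have h1 : ∃ n : ℕ, x ∉ maximalIdeal C ^ n := by
    by_contra hcon
    push Not at hcon
    refine hx (hH.haus' x fun n => ?_)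
    rw [SModEq.zero, smul_eq_mul, Ideal.mul_top]
    exact hcon n
  obtain ⟨N, h2, hmin⟩ : ∃ N, x ∉ maximalIdeal C ^ N ∧ ∀ M, x ∉ maximalIdeal C ^ M → N ≤ M :=
    ⟨Nat.find h1, Nat.find_spec h1, fun M hM => Nat.find_min' h1 hM⟩
  have hN0 : N ≠ 0 := by
    rintro rfl
    exact h2 (by simp)
  have h3 : x ∈ maximalIdeal C ^ (N - 1) := by
    by_contra h
    have := hmin _ h
    omega
  rw [hm, Ideal.span_singleton_pow, Ideal.mem_span_singleton] at h3
  obtain ⟨y, rfl⟩ := h3
  have hy : IsUnit y := by
    by_contra hcon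
    have hy' : y ∈ maximalIdeal C := (mem_maximalIdeal _).2 hcon
    rw [hm, Ideal.mem_span_singleton] at hy'
    obtain ⟨z, rfl⟩ := hy'
    apply h2
    rw [hm, Ideal.span_singleton_pow, Ideal.mem_span_singleton]
    refine ⟨z, ?_⟩
    obtain ⟨M, hM⟩ := Nat.exists_eq_succ_of_ne_zero hN0
    rw [hM, Nat.succ_sub_one, pow_succ]
    ring
  obtain ⟨u, rfl⟩ := hy
  exact ⟨N - 1, u, rfl⟩

theorem isDomain_of_principal (hm : maximalIdeal C = span {π}) (hπ : ∀ x : C, π * x = 0 → x = 0)
    [hH : IsHausdorff (maximalIdeal C) C] : IsDomain C := by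
  have hpow : ∀ (n : ℕ) (x : C), π ^ n * x = 0 → x = 0 := by
    intro n
    induction n with
    | zero => intro x hx; simpa using hx
    | succ n ih =>
      intro x hx
      rw [pow_succ', mul_assoc] at hx
      exact ih x (hπ _ hx)
  have hnt : NoZeroDivisors C := by
    refine ⟨fun {a b} hab => ?_⟩
    by_contra hcon
    push Not at hcon
    obtain ⟨n, u, rfl⟩ := exists_unit_mul_pow hm hcon.1
    obtain ⟨m, v, rfl⟩ := exists_unit_mul_pow hm hcon.2
    have h1 : π ^ (n + m) * ((u * v : Cˣ) : C) = 0 := by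
      rw [Units.val_mul, pow_add, ← hab]; ring
    have h2 := hpow _ _ h1
    exact (u * v).ne_zero h2
  exact NoZeroDivisors.to_isDomain C

theorem isDVR_of_principal [IsDomain C] (hm : maximalIdeal C = span {π}) (hπ0 : π ≠ 0)
    [hH : IsHausdorff (maximalIdeal C) C] : IsDiscreteValuationRing C := by
  apply IsDiscreteValuationRing.ofHasUnitMulPowIrreducibleFactorization
  have hprime : Prime π := by
    rw [← Ideal.span_singleton_prime hπ0, ← hm]
    infer_instance
  refine ⟨π, hprime.irreducible, fun {x} hx => ?_⟩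
  obtain ⟨n, u, rfl⟩ := exists_unit_mul_pow hm hx
  exact ⟨n, u, rfl⟩

end DVR

section Completion

variable {A : Type u} [CommRing A] [IsDomain A] [IsLocalRing A] {π : A}

theorem completion_torsionFree (hm : maximalIdeal A = span {π}) (hπ0 : π ≠ 0)
    (x : AdicCompletion (maximalIdeal A) A)
    (hx : algebraMap A (AdicCompletion (maximalIdeal A) A) π * x = 0) : x = 0 := by
  rw [← Algebra.smul_def] at hx
  apply AdicCompletion.ext
  intro n
  obtain ⟨a, ha⟩ := Submodule.Quotient.mk_surjective _ (x.val (n + 1))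
  have h1 : (π • x).val (n + 1) = 0 := by rw [hx]; rfl
  rw [AdicCompletion.val_smul_apply, ← ha, ← Submodule.Quotient.mk_smul,
    Submodule.Quotient.mk_eq_zero, smul_eq_mul, smul_eq_mul, Ideal.mul_top, hm,
    Ideal.span_singleton_pow, Ideal.mem_span_singleton] at h1
  obtain ⟨b, hb⟩ := h1
  have h2 : a = π ^ n * b := by
    apply mul_left_cancel₀ hπ0
    rw [hb, pow_succ']; ring
  have h3 : x.val n = Submodule.Quotient.mk a := by
    have := AdicCompletion.transitionMap_comp_eval_apply (I := maximalIdeal A) (M := A)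
      (Nat.le_succ n) x
    rw [← this, ← ha]
    rfl
  rw [h3, AdicCompletion.val_zero_apply, Submodule.Quotient.mk_eq_zero, smul_eq_mul,
    Ideal.mul_top, hm, Ideal.span_singleton_pow, Ideal.mem_span_singleton]
  exact ⟨b, h2⟩

end Completion

/-- `C` is a Cohen ring of residue characteristic `p`. -/
structure IsCohen (p : ℕ) (C : Type*) [CommRing C] [IsLocalRing C] : Prop where
  isDVR_dom : IsDomain C
  isDVR : IsDiscreteValuationRing C
  complete : IsAdicComplete (maximalIdeal C) C
  maximalIdeal_eq : maximalIdeal C = span {(p : C)}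

/-- **Existence of Cohen rings** for every field of characteristic `p`. -/
theorem exists_cohen (p : ℕ) [Fact p.Prime] (k : Type u) [Field k] [CharP k p] :
    ∃ (C : Type u) (_ : CommRing C) (_ : IsLocalRing C),
      IsCohen p C ∧ Nonempty (ResidueField C ≃+* k) := by
  obtain ⟨A, _, _, _, _, hm, ⟨e⟩⟩ := exists_cohen_local p k
  have hp0 : (p : A) ≠ 0 := Nat.cast_ne_zero.2 (Fact.out (p := p.Prime)).ne_zero
  have hfg : (maximalIdeal A).FG := hm ▸ ⟨{(p : A)}, by simp⟩
  let C := AdicCompletion (maximalIdeal A) A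
  have hC : IsLocalRing C := AdicCompletion.isLocalRing_of_fg hfg
  have hloc : IsLocalHom (algebraMap A C) := AdicCompletion.algebraMap_isLocalHom_of_fg hfg
  have hcomp : IsAdicComplete (maximalIdeal C) C := AdicCompletion.isAdicComplete_of_fg hfg
  have hbij := AdicCompletion.residueField_map_bijective_of_fg hfg
  have hmC : maximalIdeal C = span {(p : C)} := by
    have h1 : maximalIdeal C = (maximalIdeal A).map (algebraMap A C) :=
      AdicCompletion.maximalIdeal_eq_map_of_fg hfg
    have h2 : ∀ J : Ideal A, J = span {(p : A)} → J.map (algebraMap A C) = span {(p : C)} := by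
      rintro J rfl
      rw [Ideal.map_span, Set.image_singleton, map_natCast]
    rw [h1, h2 _ hm]
  have htf : ∀ x : C, (p : C) * x = 0 → x = 0 := by
    intro x hx
    apply completion_torsionFree hm hp0
    rw [map_natCast]
    exact hx
  have hdom : IsDomain C := isDomain_of_principal hmC htf
  have hpC : (p : C) ≠ 0 := by
    intro h0
    exact one_ne_zero (htf 1 (by rw [h0, zero_mul]))
  have hdvr : IsDiscreteValuationRing C := isDVR_of_principal hmC hpC
  exact ⟨C, inferInstance, hC, ⟨hdom, hdvr, hcomp, hmC⟩,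
    ⟨(RingEquiv.ofBijective _ hbij).symm.trans e⟩⟩

end Crest.Agent.R183.Cohen
end

-- ▼ part R183/CohenRingLift
section

/-!
# R183 (Lech), Cohen structure, part 6: lifting homomorphisms out of Cohen rings,
existence of coefficient rings and coefficient fields
-/

set_option autoImplicit false

namespace Crest.Agent.R183.Cohen

open Ideal IsLocalRing

universe u

/-- version of `formallySmooth_zmod` over any quotient ring `R` of `ℤ` killed by `p`. -/
theorem formallySmooth_of_isField {R k : Type*} [CommRing R] [CommRing k] [Algebra R k]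
    {p : ℕ} [hp : Fact p.Prime] (hk : IsField k) (hpR : (p : R) = 0)
    (hs : Function.Surjective (Int.castRingHom R)) : Algebra.FormallySmooth R k := by
  let _ : Field k := hk.toField
  have hpk : (p : k) = 0 := by rw [← map_natCast (algebraMap R k), hpR, map_zero]
  have : CharP k p := by
    obtain ⟨q, hq⟩ := CharP.exists k
    have h1 : q ∣ p := (CharP.cast_eq_zero_iff k q p).1 hpk
    have h2 : q ≠ 1 := CharP.char_ne_one k q
    have h3 : q = p := ((Nat.dvd_prime hp.out).1 h1).resolve_left h2
    exact h3 ▸ hq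
  apply Algebra.FormallySmooth.of_comp_surjective
  intro B _ _ I hI f
  have hpB : (p : B) = 0 := by
    rw [← map_natCast (algebraMap R B), hpR, map_zero]
  obtain ⟨g, hg⟩ := exists_lift_of_ker_pow_eq_zero' hpB f.toRingHom (Ideal.Quotient.mk I)
    Ideal.Quotient.mk_surjective (fun b hb => by
      have hb' : b ∈ I := Ideal.Quotient.eq_zero_iff_mem.1 hb
      have : b ^ 2 ∈ I ^ 2 := Ideal.pow_mem_pow hb' 2
      rw [hI] at this
      have h2 : b ^ 2 = 0 := by simpa using this
      calc b ^ p = b ^ 2 * b ^ (p - 2) := by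
            rw [← pow_add, Nat.add_sub_cancel' hp.out.two_le]
        _ = 0 := by rw [h2, zero_mul])
  refine ⟨⟨g, fun r => ?_⟩, ?_⟩
  · obtain ⟨n, rfl⟩ := hs r
    change g (algebraMap R k (n : R)) = algebraMap R B (n : R)
    rw [map_intCast, map_intCast, map_intCast]
  · ext x
    exact RingHom.congr_fun hg x

namespace IsCohen

variable {p : ℕ} [hp : Fact p.Prime] {C : Type*} [CommRing C] [IsLocalRing C]

omit hp in
theorem natCast_ne_zero (hC : IsCohen p C) : (p : C) ≠ 0 := by
  have := hC.isDVR_dom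
  have := hC.isDVR
  intro h0
  have h1 := hC.maximalIdeal_eq
  rw [h0, Ideal.span_singleton_eq_bot.2 rfl] at h1
  exact IsDiscreteValuationRing.not_a_field C h1

theorem isUnit_natCast (hC : IsCohen p C) {n : ℕ} (hn : ¬ p ∣ n) : IsUnit (n : C) := by
  by_contra hcon
  have h1 : (n : C) ∈ maximalIdeal C := (mem_maximalIdeal _).2 hcon
  have h2 : (p : C) ∈ maximalIdeal C := by
    rw [hC.maximalIdeal_eq]; exact Ideal.mem_span_singleton_self _
  have h3 : IsCoprime (n : ℤ) (p : ℤ) := by
    rw [Nat.isCoprime_iff_coprime]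
    exact ((Nat.Prime.coprime_iff_not_dvd hp.out).2 hn).symm
  obtain ⟨a, b, hab⟩ := h3
  have h4 : (a : C) * (n : C) + (b : C) * (p : C) = 1 := by
    have := congrArg (Int.cast : ℤ → C) hab
    push_cast at this
    exact this
  have h5 : (1 : C) ∈ maximalIdeal C := by
    rw [← h4]
    exact add_mem (Ideal.mul_mem_left _ _ h1) (Ideal.mul_mem_left _ _ h2)
  exact (Ideal.ne_top_iff_one _).1 (maximalIdeal.isMaximal C).ne_top h5

theorem charZero (hC : IsCohen p C) : CharZero C := by
  have := hC.isDVR_dom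
  refine charZero_of_inj_zero fun n hn => ?_
  by_contra hn0
  obtain ⟨a, m, hm, rfl⟩ := Nat.exists_eq_pow_mul_and_not_dvd hn0 p hp.out.ne_one
  have hu := hC.isUnit_natCast hm
  rw [Nat.cast_mul, Nat.cast_pow] at hn
  rcases mul_eq_zero.1 hn with h | h
  · exact hC.natCast_ne_zero (eq_zero_of_pow_eq_zero h)
  · exact hu.ne_zero h

theorem flat_int (hC : IsCohen p C) : Module.Flat ℤ C := by
  have := hC.isDVR_dom
  have := hC.charZero
  infer_instance

theorem map_span (C : Type*) [CommRing C] (p : ℕ) :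
    (span {(p : ℤ)}).map (algebraMap ℤ C) = span {(p : C)} := by
  rw [Ideal.map_span, Set.image_singleton, map_natCast]

theorem formallySmooth (hC : IsCohen p C) :
    Algebra.FormallySmooth (ℤ ⧸ span {(p : ℤ)}) (C ⧸ (span {(p : ℤ)}).map (algebraMap ℤ C)) := by
  refine formallySmooth_of_isField (p := p) ?_ ?_ ?_
  · rw [← Ideal.Quotient.maximal_ideal_iff_isField_quotient, map_span, ← hC.maximalIdeal_eq]
    exact maximalIdeal.isMaximal C
  · have h1 : Ideal.Quotient.mk (span {(p : ℤ)}) (p : ℤ) = 0 :=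
      Ideal.Quotient.eq_zero_iff_mem.2 (Ideal.mem_span_singleton_self _)
    simpa using h1
  · have h1 : Int.castRingHom (ℤ ⧸ span {(p : ℤ)}) = Ideal.Quotient.mk _ := RingHom.ext_int _ _
    rw [h1]
    exact Ideal.Quotient.mk_surjective

/-- **Lifting homomorphisms out of a Cohen ring** along `S → S/K`, `S` complete for `J ⊇ K`,
`p ∈ J`, `K` closed. -/
theorem exists_lift (hC : IsCohen p C) {S : Type*} [CommRing S] (J K : Ideal S)
    [IsAdicComplete J S] (hpJ : (p : S) ∈ J) (hKJ : K ≤ J)
    (hK : ∀ x : S, (∀ m : ℕ, x ∈ J ^ m ⊔ K) → x ∈ K) (c : C →+* S ⧸ K) :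
    ∃ g : C →+* S, (Ideal.Quotient.mk K).comp g = c := by
  have := hC.flat_int
  have hle : (span {(p : ℤ)}).map (algebraMap ℤ S) ≤ J := by
    rw [map_span, Ideal.span_singleton_le_iff_mem]
    exact hpJ
  obtain ⟨g, hg⟩ := exists_lift_complete (span {(p : ℤ)}) hC.formallySmooth J K hle hKJ hK
    c.toIntAlgHom
  refine ⟨g.toRingHom, ?_⟩
  ext x
  exact AlgHom.congr_fun hg x

/-- Lifting along a surjection of rings, source complete Noetherian local. -/
theorem exists_lift_of_surjective (hC : IsCohen p C) {S T : Type*} [CommRing S] [CommRing T]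
    [IsLocalRing S] [IsNoetherianRing S] [IsAdicComplete (maximalIdeal S) S] [Nontrivial T]
    (hpS : (p : S) ∈ maximalIdeal S) (π : S →+* T) (hπ : Function.Surjective π) (c : C →+* T) :
    ∃ g : C →+* S, π.comp g = c := by
  have hKJ : RingHom.ker π ≤ maximalIdeal S := le_maximalIdeal (RingHom.ker_ne_top π)
  have hK : ∀ x : S, (∀ m : ℕ, x ∈ maximalIdeal S ^ m ⊔ RingHom.ker π) → x ∈ RingHom.ker π := by
    intro x hx
    have hH : IsHausdorff (maximalIdeal S) (S ⧸ RingHom.ker π) := inferInstance
    rw [← Ideal.Quotient.eq_zero_iff_mem]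
    refine hH.haus' _ fun n => ?_
    rw [SModEq.zero]
    have h1 := hx n
    obtain ⟨a, ha, b, hb, rfl⟩ := Submodule.mem_sup.1 h1
    rw [map_add, Ideal.Quotient.eq_zero_iff_mem.2 hb, add_zero]
    have h2 : Ideal.Quotient.mk (RingHom.ker π) a = a • (1 : S ⧸ RingHom.ker π) := by
      rw [Algebra.smul_def, mul_one]; rfl
    rw [h2]
    exact Submodule.smul_mem_smul ha Submodule.mem_top
  let e := RingHom.quotientKerEquivOfSurjective hπ
  obtain ⟨g, hg⟩ := hC.exists_lift (maximalIdeal S) (RingHom.ker π) hpS hKJ hK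
    (e.symm.toRingHom.comp c)
  refine ⟨g, ?_⟩
  ext x
  have h1 := RingHom.congr_fun hg x
  have h2 : e (Ideal.Quotient.mk _ (g x)) = e (e.symm (c x)) := congrArg e h1
  rw [RingEquiv.apply_symm_apply] at h2
  exact h2

/-- Lifting of the residue map: every homomorphism from a Cohen ring to the residue field of a
complete local ring (Noetherian or not) lifts. -/
theorem exists_lift_residue (hC : IsCohen p C) {S : Type*} [CommRing S]
    [IsLocalRing S] [IsAdicComplete (maximalIdeal S) S]
    (hpS : (p : S) ∈ maximalIdeal S) (c : C →+* ResidueField S) :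
    ∃ g : C →+* S, (residue S).comp g = c :=
  hC.exists_lift (maximalIdeal S) (maximalIdeal S) hpS le_rfl
    (fun x hx => by simpa using hx 1) c

end IsCohen

/-- **Existence of coefficient rings**: residue characteristic `p`. -/
theorem exists_coefficientRing (p : ℕ) [Fact p.Prime] (S : Type u) [CommRing S] [IsLocalRing S]
    [IsAdicComplete (maximalIdeal S) S] (hpS : (p : S) ∈ maximalIdeal S) :
    ∃ (C : Type u) (_ : CommRing C) (_ : IsLocalRing C) (_ : IsCohen p C) (g : C →+* S)
      (_ : IsLocalHom g), Function.Bijective (ResidueField.map g) := by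
  have hchar : CharP (ResidueField S) p := by
    have h0 : (p : ResidueField S) = 0 := by
      rw [← map_natCast (residue S), residue_eq_zero_iff]
      exact hpS
    obtain ⟨q, hq⟩ := CharP.exists (ResidueField S)
    have h1 : q ∣ p := (CharP.cast_eq_zero_iff (ResidueField S) q p).1 h0
    have h2 : q ≠ 1 := CharP.char_ne_one (ResidueField S) q
    have h3 : q = p := ((Nat.dvd_prime Fact.out).1 h1).resolve_left h2
    exact h3 ▸ hq
  obtain ⟨C, _, _, hC, ⟨e⟩⟩ := exists_cohen p (ResidueField S)
  obtain ⟨g, hg⟩ := hC.exists_lift_residue hpS (e.toRingHom.comp (residue C))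
  have hloc : IsLocalHom g := by
    refine ⟨fun a ha => ?_⟩
    have h1 : IsUnit (residue S (g a)) := ha.map _
    have h2 : residue S (g a) = e (residue C a) := RingHom.congr_fun hg a
    rw [h2] at h1
    have h3 : residue C a ≠ 0 := by
      intro h
      rw [h, map_zero] at h1
      exact not_isUnit_zero h1
    by_contra hcon
    exact h3 ((residue_eq_zero_iff a).2 ((mem_maximalIdeal _).2 hcon))
  refine ⟨C, inferInstance, inferInstance, hC, g, hloc, ?_⟩
  have h1 : ResidueField.map g = e.toRingHom := by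
    ext x
    obtain ⟨y, rfl⟩ := residue_surjective x
    exact RingHom.congr_fun hg y
  rw [h1]
  exact e.bijective

end Crest.Agent.R183.Cohen
end

-- ▼ part R183/CohenFieldZero
section

/-!
# R183 (Lech), Cohen structure, part 7: coefficient fields in equal characteristic
-/

set_option autoImplicit false

namespace Crest.Agent.R183.Cohen

open Ideal IsLocalRing

universe u

/-- Field extensions in characteristic zero are formally smooth. -/
theorem formallySmooth_charZero (k K : Type*) [Field k] [Field K] [Algebra k K] [CharZero k] :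
    Algebra.FormallySmooth k K := by
  obtain ⟨ι, v, hv⟩ := exists_isTranscendenceBasis' k K
  have halg : Algebra.IsAlgebraic (IntermediateField.adjoin k (Set.range v)) K :=
    hv.isAlgebraic_field
  have hcz : CharZero (IntermediateField.adjoin k (Set.range v)) :=
    charZero_of_injective_algebraMap (algebraMap k _).injective
  have : Algebra.IsSeparable (IntermediateField.adjoin k (Set.range v)) K := inferInstance
  exact Algebra.FormallySmooth.of_algebraicIndependent_of_isSeparable hv.1

/-- Lifting for formally smooth algebras (discrete version) along complete surjections. -/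
theorem exists_lift_complete_of_formallySmooth {R C : Type*} [Field R] [CommRing C] [Algebra R C]
    (h : Algebra.FormallySmooth R C) {S : Type*} [CommRing S] [Algebra R S] (J K : Ideal S)
    [IsAdicComplete J S] (hKJ : K ≤ J)
    (hK : ∀ x : S, (∀ m : ℕ, x ∈ J ^ m ⊔ K) → x ∈ K) (c : C →ₐ[R] S ⧸ K) :
    ∃ g : C →ₐ[R] S, (Ideal.Quotient.mkₐ R K).comp g = c := by
  refine exists_lift_complete (⊥ : Ideal R) ?_ J K (by rw [Ideal.map_bot]; exact bot_le) hKJ hK c
  exact .of_equiv (Algebra.TensorProduct.quotIdealMapEquivQuotTensor C (⊥ : Ideal R)).symm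

/-- Coefficient fields, residue characteristic zero, relative to a subfield `k`. -/
theorem exists_coefficientField_charZero {k : Type*} [Field k] [CharZero k] (S : Type*)
    [CommRing S] [IsLocalRing S] [IsAdicComplete (maximalIdeal S) S] [Algebra k S] :
    ∃ σ : ResidueField S →+* S, (∀ x, residue S (σ x) = x) ∧
      ∀ a : k, σ (residue S (algebraMap k S a)) = algebraMap k S a := by
  have h := formallySmooth_charZero k (ResidueField S)
  obtain ⟨σ, hσ⟩ := exists_lift_complete_of_formallySmooth h (maximalIdeal S) (maximalIdeal S)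
    le_rfl (fun x hx => by simpa using hx 1) (AlgHom.id k (ResidueField S))
  exact ⟨σ.toRingHom, fun x => AlgHom.congr_fun hσ x, fun a => σ.commutes a⟩

/-- A local ring with residue characteristic zero is a `ℚ`-algebra. -/
theorem nonempty_algebra_rat (S : Type*) [CommRing S] [IsLocalRing S]
    (h : CharZero (ResidueField S)) : Nonempty (Algebra ℚ S) := by
  rw [EqualCharZero.nonempty_algebraRat_iff]
  intro I hI
  have hle : I ≤ maximalIdeal S := le_maximalIdeal hI
  have h' : CharZero (S ⧸ maximalIdeal S) := h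
  exact RingHom.charZero (Ideal.Quotient.factor hle : S ⧸ I →+* S ⧸ maximalIdeal S)

/-- Coefficient fields, residue characteristic zero. -/
theorem exists_coefficientField_charZero' (S : Type*)
    [CommRing S] [IsLocalRing S] [IsAdicComplete (maximalIdeal S) S]
    (h : CharZero (ResidueField S)) :
    ∃ σ : ResidueField S →+* S, ∀ x, residue S (σ x) = x := by
  obtain ⟨_⟩ := nonempty_algebra_rat S h
  obtain ⟨σ, hσ, -⟩ := exists_coefficientField_charZero (k := ℚ) S
  exact ⟨σ, hσ⟩

/-- Coefficient fields in equal characteristic `p`. -/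
theorem exists_coefficientField_charP (p : ℕ) [Fact p.Prime] (S : Type u)
    [CommRing S] [IsLocalRing S] [IsAdicComplete (maximalIdeal S) S] (hp : (p : S) = 0) :
    ∃ σ : ResidueField S →+* S, ∀ x, residue S (σ x) = x := by
  obtain ⟨C, _, _, hC, g, hg, hbij⟩ := exists_coefficientRing p S
    (by rw [hp]; exact Ideal.zero_mem _)
  have hker : ∀ a ∈ maximalIdeal C, g a = 0 := by
    intro a ha
    rw [hC.maximalIdeal_eq, Ideal.mem_span_singleton] at ha
    obtain ⟨b, rfl⟩ := ha
    rw [map_mul, map_natCast, hp, zero_mul]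
  let τ : ResidueField C →+* S := Ideal.Quotient.lift _ g hker
  let e := RingEquiv.ofBijective _ hbij
  refine ⟨τ.comp e.symm.toRingHom, fun x => ?_⟩
  obtain ⟨y, rfl⟩ := e.surjective x
  obtain ⟨z, rfl⟩ := residue_surjective y
  change residue S (τ (e.symm (e (residue C z)))) = _
  rw [RingEquiv.symm_apply_apply]
  rfl

end Crest.Agent.R183.Cohen
end

-- ▼ part R183/CohenStruct

/-!
# R183 (Lech), Cohen structure, part 10: complete Noetherian local rings are finite over power
series rings over a coefficient ring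
-/

set_option autoImplicit false

namespace Crest.Agent.R183.Cohen

open Ideal IsLocalRing MvPowerSeries

universe u

section CNRing

variable {A M : Type*} [CommRing A] [CommRing M] [Algebra A M] (I : Ideal A)

/-- Complete Nakayama for algebras. -/
theorem finite_algebra_of_finite_quotient [IsPrecomplete I A]
    [hH : IsHausdorff (I.map (algebraMap A M)) M]
    (h : Module.Finite A (M ⧸ I.map (algebraMap A M))) : Module.Finite A M := by
  have hH' : IsHausdorff I M := IsHausdorff.map_algebraMap_iff.mp hH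
  apply finite_of_finite_quotient I
  have heq : (I • ⊤ : Submodule A M) = (I.map (algebraMap A M)).restrictScalars A :=
    Ideal.smul_top_eq_map I
  rw [heq]
  exact Module.Finite.equiv (Submodule.Quotient.restrictScalarsEquiv A _).symm

end CNRing

section Finite

variable {σ Λ S : Type*} [Finite σ] [CommRing Λ] [IsLocalRing Λ] [CommRing S] [IsLocalRing S]
  [IsNoetherianRing S] [IsAdicComplete (maximalIdeal S) S] (φ : Λ →+* S) (t : σ → S)

/-- **Finiteness over the power series ring.** -/
theorem psEval_finite [IsPrecomplete (maximalIdeal Λ) Λ] (hφ : IsLocalHom φ)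
    (hres : ((residue S).comp φ).Finite) (ht : ∀ i, t i ∈ maximalIdeal S) (c : ℕ)
    (hc : maximalIdeal S ^ c ≤ (maximalIdeal Λ).map φ ⊔ span (Set.range t)) :
    (psEval (maximalIdeal S) φ t ht).Finite := by
  let _ : Algebra Λ S := φ.toAlgebra
  have hφm : (maximalIdeal Λ).map φ ≤ maximalIdeal S := by
    rw [Ideal.map_le_iff_le_comap]
    exact ((local_hom_TFAE φ).out 0 3).1 hφ
  have htm : span (Set.range t) ≤ maximalIdeal S := by
    rw [Ideal.span_le]
    rintro _ ⟨i, rfl⟩
    exact ht i
  -- (a)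
  have h1 : Module.Finite Λ (S ⧸ maximalIdeal S) := hres
  -- (b)
  have h2 : Module.Finite Λ (S ⧸ maximalIdeal S ^ c) :=
    finite_quotient_pow (maximalIdeal S) (maximalIdeal S).fg_of_isNoetherianRing h1 c
  -- (c), (d)
  let M₁ := S ⧸ span (Set.range t)
  have hM₁n : Nontrivial M₁ := Ideal.Quotient.nontrivial_iff.2
    (fun h => (maximalIdeal.isMaximal S).ne_top (top_le_iff.1 (h ▸ htm)))
  have hM₁l : IsLocalRing M₁ := IsLocalRing.of_surjective' (Ideal.Quotient.mk _)
    Ideal.Quotient.mk_surjective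
  have hmap : (maximalIdeal Λ).map (algebraMap Λ M₁) =
      ((maximalIdeal Λ).map φ).map (Ideal.Quotient.mk (span (Set.range t))) := by
    rw [Ideal.map_map]; rfl
  have hmapne : (maximalIdeal Λ).map (algebraMap Λ M₁) ≠ ⊤ := by
    rw [hmap]
    intro htop
    have h3 := (Ideal.eq_top_iff_one _).1 htop
    have h4 : ((maximalIdeal Λ).map φ).map (Ideal.Quotient.mk (span (Set.range t))) ≤
        (maximalIdeal S).map (Ideal.Quotient.mk (span (Set.range t))) := Ideal.map_mono hφm
    have h5 := h4 h3
    rw [Ideal.mem_map_iff_of_surjective _ Ideal.Quotient.mk_surjective] at h5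
    obtain ⟨y, hy, hy1⟩ := h5
    have h6 : y - 1 ∈ span (Set.range t) := by
      rw [← Ideal.Quotient.eq, hy1, map_one]
    have h7 : (1 : S) ∈ maximalIdeal S := by
      have : (1 : S) = y - (y - 1) := by ring
      rw [this]
      exact sub_mem hy (htm h6)
    exact (Ideal.ne_top_iff_one _).1 (maximalIdeal.isMaximal S).ne_top h7
  have hfin1 : Module.Finite Λ (M₁ ⧸ (maximalIdeal Λ).map (algebraMap Λ M₁)) := by
    let q : (S ⧸ maximalIdeal S ^ c) →+* (M₁ ⧸ (maximalIdeal Λ).map (algebraMap Λ M₁)) :=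
      Ideal.Quotient.lift _ ((Ideal.Quotient.mk _).comp (Ideal.Quotient.mk _)) (fun a ha => by
        rw [RingHom.comp_apply, Ideal.Quotient.eq_zero_iff_mem, hmap]
        obtain ⟨x, hx, y, hy, rfl⟩ := Submodule.mem_sup.1 (hc ha)
        rw [map_add, Ideal.Quotient.eq_zero_iff_mem.2 hy, add_zero]
        exact Ideal.mem_map_of_mem _ hx)
    have hq : Function.Surjective q := by
      intro x
      obtain ⟨x, rfl⟩ := Ideal.Quotient.mk_surjective x
      obtain ⟨x, rfl⟩ := Ideal.Quotient.mk_surjective x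
      exact ⟨Ideal.Quotient.mk _ x, rfl⟩
    let q' : (S ⧸ maximalIdeal S ^ c) →ₗ[Λ] (M₁ ⧸ (maximalIdeal Λ).map (algebraMap Λ M₁)) :=
      { q with
        map_smul' := fun a x => by
          obtain ⟨x, rfl⟩ := Ideal.Quotient.mk_surjective x
          rfl }
    exact Module.Finite.of_surjective q' hq
  have hH1 : IsHausdorff ((maximalIdeal Λ).map (algebraMap Λ M₁)) M₁ :=
    IsHausdorff.of_isLocalRing _ _ hmapne
  have hfinM₁ : Module.Finite Λ M₁ := finite_algebra_of_finite_quotient (maximalIdeal Λ) hfin1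
  -- (g)
  let ev := psEval (maximalIdeal S) φ t ht
  let _ : Algebra (MvPowerSeries σ Λ) S := ev.toAlgebra
  have hImap : (Ideal.span (Set.range (X : σ → MvPowerSeries σ Λ))).map
      (algebraMap (MvPowerSeries σ Λ) S) = span (Set.range t) := by
    rw [Ideal.map_span, ← Set.range_comp]
    congr 1
    congr 1
    funext i
    exact psEval_X _ _ _ ht i
  have hH2 : IsHausdorff ((Ideal.span (Set.range (X : σ → MvPowerSeries σ Λ))).map
      (algebraMap (MvPowerSeries σ Λ) S)) S := by
    rw [hImap]
    exact IsHausdorff.of_isLocalRing _ _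
      (fun h => (maximalIdeal.isMaximal S).ne_top (top_le_iff.1 (h ▸ htm)))
  have hfin2 : Module.Finite (MvPowerSeries σ Λ)
      (S ⧸ (Ideal.span (Set.range (X : σ → MvPowerSeries σ Λ))).map
        (algebraMap (MvPowerSeries σ Λ) S)) := by
    rw [hImap]
    have htower : IsScalarTower Λ (MvPowerSeries σ Λ) (S ⧸ span (Set.range t)) := by
      refine ⟨fun a f x => ?_⟩
      obtain ⟨x, rfl⟩ := Ideal.Quotient.mk_surjective x
      have h3 : ∀ (g : MvPowerSeries σ Λ) (y : S),
          g • (Ideal.Quotient.mk (span (Set.range t)) y) =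
            Ideal.Quotient.mk (span (Set.range t)) (ev g * y) := fun g y => rfl
      have h4 : ∀ (b : Λ) (y : S),
          b • (Ideal.Quotient.mk (span (Set.range t)) y) =
            Ideal.Quotient.mk (span (Set.range t)) (φ b * y) := fun g y => rfl
      have h5 : ev (C a) = φ a := psEval_C _ _ _ ht a
      have h6 : ev (a • f) * x = φ a * (ev f * x) := by
        rw [MvPowerSeries.smul_eq_C_mul, map_mul, h5, mul_assoc]
      exact congrArg (Ideal.Quotient.mk (span (Set.range t))) h6
    exact Module.Finite.of_restrictScalars_finite Λ _ _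
  exact finite_algebra_of_finite_quotient (Ideal.span (Set.range X)) hfin2

end Finite

end Crest.Agent.R183.Cohen
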