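import Crest.Agent.R183.G5

-- ▼ part R183/G6
section

/-!
# R183, block RB (helper234), part 6: gonflement, algebraic case, one step
-/

set_option autoImplicit false

namespace Crest.Agent.R183.G

open Ideal IsLocalRing Polynomial

universe u v

section step

variable {R : Type u} [CommRing R] [IsLocalRing R] {K : Type v} [Field K] [Algebra R K]
  [Algebra (ResidueField R) K] [IsScalarTower R (ResidueField R) K]
  [Algebra.IsAlgebraic (ResidueField R) K]

/-- The image of an `R`-algebra in the algebraic extension `K` of the residue field, as an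
intermediate field. -/
noncomputable def imageField {T : Type*} [CommRing T] [Algebra R T] (φ : T →ₐ[R] K) :
    IntermediateField (ResidueField R) K :=
  let S : Subalgebra (ResidueField R) K :=
    { carrier := Set.range φ
      mul_mem' := by rintro _ _ ⟨a, rfl⟩ ⟨b, rfl⟩; exact ⟨a * b, map_mul _ _ _⟩
      one_mem' := ⟨1, map_one _⟩
      add_mem' := by rintro _ _ ⟨a, rfl⟩ ⟨b, rfl⟩; exact ⟨a + b, map_add _ _ _⟩
      zero_mem' := ⟨0, map_zero _⟩
      algebraMap_mem' := by
        intro r
        obtain ⟨r, rfl⟩ := residue_surjective r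
        refine ⟨algebraMap R T r, ?_⟩
        rw [φ.commutes, IsScalarTower.algebraMap_apply R (ResidueField R) K]
        rfl }
  S.toIntermediateField' (Subalgebra.isField_of_algebraic S)


/-- Adjoining one algebraic element. -/
theorem exists_step {T : Type*} [CommRing T] [Algebra R T] [Module.Flat R T] (φ : T →ₐ[R] K)
    (hφ : RingHom.ker φ = (maximalIdeal R).map (algebraMap R T)) (a : K) :
    ∃ f : T[X], f.Monic ∧ ∃ φ' : AdjoinRoot f →ₐ[R] K,
      (∀ t, φ' (AdjoinRoot.of f t) = φ t) ∧ φ' (AdjoinRoot.root f) = a ∧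
      RingHom.ker φ' = (maximalIdeal R).map (algebraMap R (AdjoinRoot f)) := by
  classical
  let E := imageField φ
  let π : T →+* E := φ.toRingHom.codRestrict E (fun t => ⟨t, rfl⟩)
  have hπ : Function.Surjective π := by
    rintro ⟨x, t, rfl⟩
    exact ⟨t, rfl⟩
  have hπφ : ∀ t, (algebraMap E K) (π t) = φ t := fun t => rfl
  have hkerπ : RingHom.ker π = (maximalIdeal R).map (algebraMap R T) := by
    rw [← hφ]
    ext t
    rw [RingHom.mem_ker, RingHom.mem_ker]
    constructor
    · intro h
      have := hπφ t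
      rw [h, map_zero] at this
      exact this.symm
    · intro h
      have h1 := hπφ t
      have h2 : φ t = 0 := h
      rw [h2] at h1
      exact (map_eq_zero_iff _ (algebraMap E K).injective).1 h1
  have hint : IsIntegral E a :=
    (Algebra.IsAlgebraic.isAlgebraic (R := ResidueField R) a).isIntegral.tower_top
  let f0 : E[X] := minpoly E a
  have hlift : f0 ∈ Polynomial.lifts π := by
    rw [Polynomial.lifts_iff_coeff_lifts]
    intro n
    exact hπ _
  obtain ⟨f, hf, -, hfm⟩ := Polynomial.lifts_and_natDegree_eq_and_monic hlift (minpoly.monic hint)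
  have heval : ∀ g : T[X], Polynomial.eval₂ (φ : T →+* K) a g = Polynomial.aeval a (g.map π) := by
    intro g
    rw [Polynomial.aeval_def, Polynomial.eval₂_map]
    rfl
  have hroot : Polynomial.eval₂ (φ : T →+* K) a f = 0 := by
    rw [heval, hf, minpoly.aeval]
  let φ' : AdjoinRoot f →ₐ[R] K :=
    { toRingHom := AdjoinRoot.lift (φ : T →+* K) a hroot
      commutes' := by
        intro r
        change AdjoinRoot.lift (φ : T →+* K) a hroot (algebraMap R (AdjoinRoot f) r) = _
        rw [IsScalarTower.algebraMap_apply R T (AdjoinRoot f), AdjoinRoot.algebraMap_eq,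
          AdjoinRoot.lift_of]
        exact φ.commutes r }
  have hφ'mk : ∀ g : T[X], φ' (AdjoinRoot.mk f g) = Polynomial.aeval a (g.map π) := by
    intro g
    rw [← heval]
    exact AdjoinRoot.lift_mk hroot g
  refine ⟨f, hfm, φ', fun t => AdjoinRoot.lift_of hroot, AdjoinRoot.lift_root hroot,
    le_antisymm ?_ ?_⟩
  · intro y hy
    obtain ⟨g, rfl⟩ := AdjoinRoot.mk_surjective y
    rw [RingHom.mem_ker, hφ'mk] at hy
    obtain ⟨h, hh⟩ := minpoly.dvd E a hy
    obtain ⟨h', rfl⟩ := Polynomial.map_surjective π hπ h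
    have h1 : (g - f * h').map π = 0 := by
      rw [Polynomial.map_sub, Polynomial.map_mul, hf, hh, sub_self]
    have h2 : g - f * h' ∈ ((maximalIdeal R).map (algebraMap R T)).map (Polynomial.C) := by
      rw [Ideal.mem_map_C_iff]
      intro n
      rw [← hkerπ, RingHom.mem_ker, ← Polynomial.coeff_map, h1, Polynomial.coeff_zero]
    have h3 : AdjoinRoot.mk f g = AdjoinRoot.mk f (g - f * h') := by
      rw [map_sub, map_mul, AdjoinRoot.mk_self, zero_mul, sub_zero]
    rw [h3]
    have h4 := Ideal.mem_map_of_mem (AdjoinRoot.mk f) h2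
    rw [Ideal.map_map, Ideal.map_map] at h4
    exact h4
  · rw [Ideal.map_le_iff_le_comap]
    intro r hr
    rw [Ideal.mem_comap, RingHom.mem_ker]
    change φ' (algebraMap R (AdjoinRoot f) r) = 0
    rw [φ'.commutes, IsScalarTower.algebraMap_apply R (ResidueField R) K]
    have : algebraMap R (ResidueField R) r = 0 := (residue_eq_zero_iff r).2 hr
    rw [this, map_zero]

omit [IsLocalRing R] in
theorem flat_adjoinRoot {T : Type*} [CommRing T] [Algebra R T] [Module.Flat R T] (f : T[X])
    (hf : f.Monic) : Module.Flat R (AdjoinRoot f) := by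
  have : Module.Free T (AdjoinRoot f) := hf.free_adjoinRoot
  exact Module.Flat.trans R T (AdjoinRoot f)

end step

end Crest.Agent.R183.G
end

-- ▼ part R183/G7
section

/-!
# R183, block RB (helper234), part 7: gonflement, algebraic case, Zorn
-/

set_option autoImplicit false

namespace Crest.Agent.R183.G

open Ideal IsLocalRing

universe u v

section zorn

variable (R : Type u) [CommRing R] [IsLocalRing R] (K : Type v) [Field K] [Algebra R K]

/-- The evaluation `R[X_a : a ∈ A] → K`. -/
noncomputable def evA (A : Set K) : MvPolynomial A R →ₐ[R] K :=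
  MvPolynomial.aeval (fun a : A => (a : K))

/-- Stages of the construction of a flat `R`-algebra with residue field `K`. -/
structure Stage where
  A : Set K
  J : Ideal (MvPolynomial A R)
  ker_eq : RingHom.ker (evA R K A) = J ⊔ (maximalIdeal R).map (algebraMap R (MvPolynomial A R))
  flat : Module.Flat R (MvPolynomial A R ⧸ J)

variable {R K}

/-- The order on stages. -/
def Stage.r (s t : Stage R K) : Prop :=
  ∃ h : s.A ⊆ t.A, ∀ q ∈ s.J, MvPolynomial.rename (Set.inclusion h) q ∈ t.J

theorem Stage.r_refl (s : Stage R K) : s.r s := by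
  refine ⟨subset_rfl, fun q hq => ?_⟩
  have : Set.inclusion (subset_rfl : s.A ⊆ s.A) = id := funext fun _ => rfl
  rw [this, MvPolynomial.rename_id_apply]
  exact hq

theorem Stage.r_trans {s t w : Stage R K} (h1 : s.r t) (h2 : t.r w) : s.r w := by
  obtain ⟨h1, h1'⟩ := h1
  obtain ⟨h2, h2'⟩ := h2
  refine ⟨h1.trans h2, fun q hq => ?_⟩
  have := h2' _ (h1' q hq)
  rwa [MvPolynomial.rename_rename, Set.inclusion_comp_inclusion] at this

omit [IsLocalRing R] in
theorem evA_rename {A B : Set K} (h : A ⊆ B) (q : MvPolynomial A R) :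
    evA R K B (MvPolynomial.rename (Set.inclusion h) q) = evA R K A q := by
  rw [evA, MvPolynomial.aeval_rename]; rfl

/-- The step: any element can be added. -/
theorem Stage.exists_insert [Algebra (ResidueField R) K] [IsScalarTower R (ResidueField R) K]
    [Algebra.IsAlgebraic (ResidueField R) K] (s : Stage R K) (a : K) :
    ∃ t : Stage R K, s.r t ∧ a ∈ t.A := by
  classical
  by_cases haA : a ∈ s.A
  · exact ⟨s, s.r_refl, haA⟩
  let T := MvPolynomial s.A R ⧸ s.J
  have := s.flat
  have hle : s.J ≤ RingHom.ker (evA R K s.A) := by rw [s.ker_eq]; exact le_sup_left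
  let φ : T →ₐ[R] K := Ideal.Quotient.liftₐ s.J (evA R K s.A) (fun x hx => hle hx)
  have hφmk : ∀ q, φ (Ideal.Quotient.mk s.J q) = evA R K s.A q := fun q => rfl
  have hφ : RingHom.ker φ = (maximalIdeal R).map (algebraMap R T) := by
    apply le_antisymm
    · intro y hy
      obtain ⟨q, rfl⟩ := Ideal.Quotient.mk_surjective y
      have h1 : q ∈ RingHom.ker (evA R K s.A) := by
        rw [RingHom.mem_ker, ← hφmk]; exact hy
      rw [s.ker_eq] at h1
      obtain ⟨x, hx, z, hz, rfl⟩ := Submodule.mem_sup.1 h1
      rw [map_add, Ideal.Quotient.eq_zero_iff_mem.2 hx, zero_add]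
      have := Ideal.mem_map_of_mem (Ideal.Quotient.mk s.J) hz
      rw [Ideal.map_map] at this
      exact this
    · rw [Ideal.map_le_iff_le_comap]
      intro r hr
      rw [Ideal.mem_comap, RingHom.mem_ker, φ.commutes,
        IsScalarTower.algebraMap_apply R (ResidueField R) K]
      have : algebraMap R (ResidueField R) r = 0 := (residue_eq_zero_iff r).2 hr
      rw [this, map_zero]
  obtain ⟨f, hf, φ', h1, h2, h3⟩ := exists_step φ hφ a
  have := flat_adjoinRoot (R := R) f hf
  -- the new stage
  let B : Set K := insert a s.A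
  have hAB : s.A ⊆ B := Set.subset_insert _ _
  let ψ : MvPolynomial B R →ₐ[R] AdjoinRoot f :=
    MvPolynomial.aeval (fun b : B =>
      if h : (b : K) ∈ s.A then AdjoinRoot.of f (Ideal.Quotient.mk s.J (MvPolynomial.X ⟨b, h⟩))
      else AdjoinRoot.root f)
  have hψ1 : ∀ q : MvPolynomial s.A R, ψ (MvPolynomial.rename (Set.inclusion hAB) q) =
      AdjoinRoot.of f (Ideal.Quotient.mk s.J q) := by
    intro q
    have : (ψ.comp (MvPolynomial.rename (Set.inclusion hAB))) =
      ((IsScalarTower.toAlgHom R T (AdjoinRoot f)).comp (Ideal.Quotient.mkₐ R s.J)) := by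
      apply MvPolynomial.algHom_ext
      rintro ⟨b, hb⟩
      simp only [ψ, AlgHom.comp_apply, MvPolynomial.rename_X, MvPolynomial.aeval_X]
      rw [dif_pos (by exact hb)]
      rfl
    exact DFunLike.congr_fun this q
  have hψa : ψ (MvPolynomial.X ⟨a, Set.mem_insert _ _⟩) = AdjoinRoot.root f := by
    simp only [ψ, MvPolynomial.aeval_X]
    rw [dif_neg haA]
  have hψsurj : Function.Surjective ψ := by
    intro y
    obtain ⟨g, rfl⟩ := AdjoinRoot.mk_surjective y
    induction g using Polynomial.induction_on' with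
    | add p q hp hq =>
      obtain ⟨x, hx⟩ := hp
      obtain ⟨z, hz⟩ := hq
      exact ⟨x + z, by rw [map_add, map_add, hx, hz]⟩
    | monomial n c =>
      obtain ⟨q, rfl⟩ := Ideal.Quotient.mk_surjective c
      refine ⟨MvPolynomial.rename (Set.inclusion hAB) q *
        (MvPolynomial.X ⟨a, Set.mem_insert _ _⟩) ^ n, ?_⟩
      rw [map_mul, map_pow, hψ1, hψa, ← Polynomial.C_mul_X_pow_eq_monomial, map_mul, map_pow,
        AdjoinRoot.mk_X, AdjoinRoot.mk_C]
  have hφψ : φ'.comp ψ = evA R K B := by
    apply MvPolynomial.algHom_ext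
    rintro ⟨b, hb⟩
    have hev : evA R K B (MvPolynomial.X ⟨b, hb⟩) = b := MvPolynomial.aeval_X _ _
    rw [AlgHom.comp_apply, hev]
    by_cases hbA : b ∈ s.A
    · have : ψ (MvPolynomial.X ⟨b, hb⟩) =
        AdjoinRoot.of f (Ideal.Quotient.mk s.J (MvPolynomial.X ⟨b, hbA⟩)) := by
        simp only [ψ, MvPolynomial.aeval_X]
        rw [dif_pos hbA]
      rw [this, h1, hφmk]
      exact MvPolynomial.aeval_X _ _
    · have : b = a := (Set.mem_insert_iff.1 hb).resolve_right hbA
      subst this
      rw [hψa, h2]
  let t : Stage R K :=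
    { A := B
      J := RingHom.ker ψ
      ker_eq := by
        rw [← hφψ]
        apply le_antisymm
        · intro x hx
          have h4 : ψ x ∈ RingHom.ker φ' := hx
          rw [h3] at h4
          have h5 : (maximalIdeal R).map (algebraMap R (AdjoinRoot f)) =
            ((maximalIdeal R).map (algebraMap R (MvPolynomial B R))).map
              (ψ : MvPolynomial B R →+* AdjoinRoot f) := by
            rw [Ideal.map_map]
            congr 1
            ext r
            exact (ψ.commutes r).symm
          rw [h5, Ideal.mem_map_iff_of_surjective (ψ : MvPolynomial B R →+* AdjoinRoot f)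
            hψsurj] at h4
          obtain ⟨z, hz, hzx⟩ := h4
          have h6 : x - z ∈ RingHom.ker ψ := by
            have hzx' : ψ z = ψ x := hzx
            rw [RingHom.mem_ker, map_sub, hzx', sub_self]
          have : x = (x - z) + z := by ring
          rw [this]
          exact Submodule.add_mem_sup h6 hz
        · refine sup_le ?_ ?_
          · intro x hx
            rw [RingHom.mem_ker] at hx ⊢
            rw [AlgHom.comp_apply, hx, map_zero]
          · rw [Ideal.map_le_iff_le_comap]
            intro r hr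
            rw [Ideal.mem_comap, RingHom.mem_ker, AlgHom.commutes,
              IsScalarTower.algebraMap_apply R (ResidueField R) K]
            have : algebraMap R (ResidueField R) r = 0 := (residue_eq_zero_iff r).2 hr
            rw [this, map_zero]
      flat := Module.Flat.of_linearEquiv
        (Ideal.quotientKerAlgEquivOfSurjective hψsurj).toLinearEquiv }
  refine ⟨t, ⟨hAB, fun q hq => ?_⟩, Set.mem_insert _ _⟩
  change MvPolynomial.rename (Set.inclusion hAB) q ∈ RingHom.ker ψ
  rw [RingHom.mem_ker, hψ1, Ideal.Quotient.eq_zero_iff_mem.2 hq, map_zero]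

end zorn

end Crest.Agent.R183.G
end

-- ▼ part R183/G8
section

/-!
# R183, block RB (helper234), part 8: gonflement, algebraic case, chains and conclusion
-/

set_option autoImplicit false

namespace Crest.Agent.R183.G

open Ideal IsLocalRing

universe u v

section chain

variable {R : Type u} [CommRing R] [IsLocalRing R] {K : Type v} [Field K] [Algebra R K]

theorem map_maximalIdeal_le_ker_evA [Algebra (ResidueField R) K]
    [IsScalarTower R (ResidueField R) K] (A : Set K) :
    (maximalIdeal R).map (algebraMap R (MvPolynomial A R)) ≤ RingHom.ker (evA R K A) := by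
  rw [Ideal.map_le_iff_le_comap]
  intro r hr
  rw [Ideal.mem_comap, RingHom.mem_ker, AlgHom.commutes,
    IsScalarTower.algebraMap_apply R (ResidueField R) K]
  have : algebraMap R (ResidueField R) r = 0 := (residue_eq_zero_iff r).2 hr
  rw [this, map_zero]

/-- The initial stage. -/
theorem Stage.nonempty [Algebra (ResidueField R) K] [IsScalarTower R (ResidueField R) K] :
    Nonempty (Stage R K) := by
  refine ⟨⟨∅, ⊥, ?_, ?_⟩⟩
  · rw [bot_sup_eq]
    refine le_antisymm ?_ (map_maximalIdeal_le_ker_evA _)
    intro q hq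
    rw [MvPolynomial.eq_C_of_isEmpty q] at hq ⊢
    refine Ideal.mem_map_of_mem (algebraMap R (MvPolynomial (∅ : Set K) R)) ?_
    have h1 : evA R K ∅ (algebraMap R _ (MvPolynomial.coeff 0 q)) = 0 := hq
    rw [AlgHom.commutes, IsScalarTower.algebraMap_apply R (ResidueField R) K] at h1
    have h2 := (map_eq_zero_iff _ (algebraMap (ResidueField R) K).injective).1 h1
    exact (residue_eq_zero_iff _).1 h2
  · exact Module.Flat.of_linearEquiv
      (AlgEquiv.quotientBot R (MvPolynomial (∅ : Set K) R)).toLinearEquiv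

variable {c : Set (Stage R K)} (hc : IsChain Stage.r c)

/-- The union of the index sets of a chain. -/
def unionA (c : Set (Stage R K)) : Set K := ⋃ s ∈ c, s.A

theorem subset_unionA {s : Stage R K} (hs : s ∈ c) : s.A ⊆ unionA c :=
  Set.subset_biUnion_of_mem (u := fun s : Stage R K => s.A) hs

include hc in
theorem comparable {s t : Stage R K} (hs : s ∈ c) (ht : t ∈ c) : s.r t ∨ t.r s := by
  by_cases h : s = t
  · subst h; exact Or.inl s.r_refl
  · exact hc hs ht h

include hc in
theorem exists_lift (q : MvPolynomial (unionA c) R) : ∀ s₀ ∈ c, ∃ s, ∃ hs : s ∈ c, s₀.r s ∧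
    ∃ q', MvPolynomial.rename (Set.inclusion (subset_unionA hs)) q' = q := by
  induction q using MvPolynomial.induction_on with
  | C r =>
    intro s₀ hs₀
    exact ⟨s₀, hs₀, s₀.r_refl, MvPolynomial.C r, MvPolynomial.rename_C _ _⟩
  | add p q hp hq =>
    intro s₀ hs₀
    obtain ⟨s1, hs1, h01, p', hp'⟩ := hp s₀ hs₀
    obtain ⟨s2, hs2, h12, q', hq'⟩ := hq s1 hs1
    refine ⟨s2, hs2, Stage.r_trans h01 h12, MvPolynomial.rename (Set.inclusion h12.1) p' + q', ?_⟩
    rw [map_add, hq', MvPolynomial.rename_rename, Set.inclusion_comp_inclusion, hp']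
  | mul_X p b hp =>
    intro s₀ hs₀
    obtain ⟨s1, hs1, h01, p', hp'⟩ := hp s₀ hs₀
    obtain ⟨t, ht, hbt⟩ := Set.mem_iUnion₂.1 b.2
    rcases comparable hc hs1 ht with h | h
    · refine ⟨t, ht, Stage.r_trans h01 h, MvPolynomial.rename (Set.inclusion h.1) p' *
        MvPolynomial.X ⟨b, hbt⟩, ?_⟩
      rw [map_mul, MvPolynomial.rename_rename, Set.inclusion_comp_inclusion, hp',
        MvPolynomial.rename_X, Set.inclusion_mk]
    · refine ⟨s1, hs1, h01, p' * MvPolynomial.X ⟨b, h.1 hbt⟩, ?_⟩
      rw [map_mul, hp', MvPolynomial.rename_X, Set.inclusion_mk]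

include hc in
theorem exists_lift_finset {ι : Type*} (q : ι → MvPolynomial (unionA c) R) (t : Finset ι) :
    ∀ s₀ ∈ c, ∃ s, ∃ hs : s ∈ c, s₀.r s ∧
    ∀ i ∈ t, ∃ q', MvPolynomial.rename (Set.inclusion (subset_unionA hs)) q' = q i := by
  classical
  induction t using Finset.induction_on with
  | empty => exact fun s₀ hs₀ => ⟨s₀, hs₀, s₀.r_refl, by simp⟩
  | insert i t hi ih =>
    intro s₀ hs₀
    obtain ⟨s1, hs1, h01, h1⟩ := ih s₀ hs₀
    obtain ⟨s2, hs2, h12, q', hq'⟩ := exists_lift hc (q i) s1 hs1
    refine ⟨s2, hs2, Stage.r_trans h01 h12, ?_⟩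
    intro j hj
    rcases Finset.mem_insert.1 hj with rfl | hj
    · exact ⟨q', hq'⟩
    · obtain ⟨q'', hq''⟩ := h1 j hj
      refine ⟨MvPolynomial.rename (Set.inclusion h12.1) q'', ?_⟩
      rw [MvPolynomial.rename_rename, Set.inclusion_comp_inclusion, hq'']

/-- The union of the ideals of a chain. -/
def unionJ (hne : c.Nonempty) : Ideal (MvPolynomial (unionA c) R) where
  carrier := {q | ∃ s, ∃ hs : s ∈ c, ∃ q' ∈ s.J,
    MvPolynomial.rename (Set.inclusion (subset_unionA hs)) q' = q}
  zero_mem' := by
    obtain ⟨s, hs⟩ := hne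
    exact ⟨s, hs, 0, zero_mem _, map_zero _⟩
  add_mem' := by
    rintro _ _ ⟨s, hs, p, hp, rfl⟩ ⟨t, ht, q, hq, rfl⟩
    rcases comparable hc hs ht with h | h
    · refine ⟨t, ht, MvPolynomial.rename (Set.inclusion h.1) p + q, add_mem (h.2 p hp) hq, ?_⟩
      rw [map_add, MvPolynomial.rename_rename, Set.inclusion_comp_inclusion]
    · refine ⟨s, hs, p + MvPolynomial.rename (Set.inclusion h.1) q, add_mem hp (h.2 q hq), ?_⟩
      rw [map_add, MvPolynomial.rename_rename, Set.inclusion_comp_inclusion]
  smul_mem' := by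
    rintro g _ ⟨s, hs, p, hp, rfl⟩
    obtain ⟨t, ht, h, g', rfl⟩ := exists_lift hc g s hs
    refine ⟨t, ht, g' * MvPolynomial.rename (Set.inclusion h.1) p,
      Ideal.mul_mem_left _ _ (h.2 p hp), ?_⟩
    rw [map_mul, MvPolynomial.rename_rename, Set.inclusion_comp_inclusion, smul_eq_mul]


theorem flat_unionJ (hne : c.Nonempty) :
    Module.Flat R (MvPolynomial (unionA c) R ⧸ unionJ hc hne) := by
  rw [Module.Flat.iff_forall_isTrivialRelation]
  intro l f x hx
  choose q hq using fun i => Ideal.Quotient.mk_surjective (x i)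
  have h1 : ∑ i, f i • q i ∈ unionJ hc hne := by
    rw [← Ideal.Quotient.eq_zero_iff_mem, ← hx, map_sum]
    refine Finset.sum_congr rfl fun i _ => ?_
    rw [← hq i]; rfl
  obtain ⟨s, hs, q1, hq1, hq1'⟩ := h1
  obtain ⟨t, ht, hst, h2⟩ := exists_lift_finset hc q Finset.univ s hs
  choose! q' hq' using fun i => h2 i (Finset.mem_univ i)
  have h3 : ∑ i, f i • q' i ∈ t.J := by
    have h4 : MvPolynomial.rename (Set.inclusion (subset_unionA ht)) (∑ i, f i • q' i) =
        MvPolynomial.rename (Set.inclusion (subset_unionA ht))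
          (MvPolynomial.rename (Set.inclusion hst.1) q1) := by
      rw [MvPolynomial.rename_rename, Set.inclusion_comp_inclusion, hq1', map_sum]
      refine Finset.sum_congr rfl fun i _ => ?_
      rw [map_smul, hq' i]
    rw [MvPolynomial.rename_injective _ (Set.inclusion_injective _) h4]
    exact hst.2 _ hq1
  have := t.flat
  let x' : Fin l → MvPolynomial t.A R ⧸ t.J := fun i => Ideal.Quotient.mk t.J (q' i)
  have h5 : ∑ i, f i • x' i = 0 := by
    have := (Ideal.Quotient.eq_zero_iff_mem).2 h3
    rw [map_sum] at this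
    exact this
  obtain ⟨k, a, y, h6, h7⟩ := Module.Flat.isTrivialRelation_of_sum_smul_eq_zero h5
  let F : (MvPolynomial t.A R ⧸ t.J) →ₐ[R] (MvPolynomial (unionA c) R ⧸ unionJ hc hne) :=
    Ideal.quotientMapₐ _ (MvPolynomial.rename (Set.inclusion (subset_unionA ht)))
      (fun p hp => ⟨t, ht, p, hp, rfl⟩)
  refine ⟨k, a, fun j => F (y j), fun i => ?_, h7⟩
  have h8 : F (x' i) = x i := by
    rw [← hq i, ← hq' i]; rfl
  rw [← h8, h6 i, map_sum]
  refine Finset.sum_congr rfl fun j _ => ?_
  rw [map_smul]

include hc in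
theorem Stage.exists_ub [Algebra (ResidueField R) K] [IsScalarTower R (ResidueField R) K] :
    ∃ ub : Stage R K, ∀ a ∈ c, a.r ub := by
  by_cases hne : c.Nonempty
  · refine ⟨⟨unionA c, unionJ hc hne, ?_, flat_unionJ hc hne⟩, fun s hs =>
      ⟨subset_unionA hs, fun q hq => ⟨s, hs, q, hq, rfl⟩⟩⟩
    apply le_antisymm
    · intro q hq
      obtain ⟨s₀, hs₀⟩ := hne
      obtain ⟨s, hs, -, q', rfl⟩ := exists_lift hc q s₀ hs₀
      rw [RingHom.mem_ker, evA_rename] at hq
      have h1 : q' ∈ RingHom.ker (evA R K s.A) := hq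
      rw [s.ker_eq] at h1
      obtain ⟨x, hx, z, hz, rfl⟩ := Submodule.mem_sup.1 h1
      rw [map_add]
      refine Submodule.add_mem_sup ⟨s, hs, x, hx, rfl⟩ ?_
      have h2 := Ideal.mem_map_of_mem
        (MvPolynomial.rename (R := R) (Set.inclusion (subset_unionA hs))).toRingHom hz
      rw [Ideal.map_map] at h2
      have h3 : (MvPolynomial.rename (R := R) (Set.inclusion (subset_unionA hs))).toRingHom.comp
        (algebraMap R (MvPolynomial s.A R)) = algebraMap R (MvPolynomial (unionA c) R) :=
        RingHom.ext fun r =>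
          AlgHom.commutes (MvPolynomial.rename (R := R) (Set.inclusion (subset_unionA hs))) r
      rw [h3] at h2
      exact h2
    · refine sup_le ?_ (map_maximalIdeal_le_ker_evA _)
      rintro _ ⟨s, hs, q, hq, rfl⟩
      rw [RingHom.mem_ker, evA_rename]
      have : q ∈ RingHom.ker (evA R K s.A) := by
        rw [s.ker_eq]; exact Submodule.mem_sup_left hq
      exact this
  · obtain ⟨s⟩ := Stage.nonempty (R := R) (K := K)
    exact ⟨s, fun a ha => (hne ⟨a, ha⟩).elim⟩

end chain

section conclusion

variable (R : Type u) [CommRing R] [IsLocalRing R] (K : Type v) [Field K] [Algebra R K]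
  [Algebra (ResidueField R) K] [IsScalarTower R (ResidueField R) K]
  [Algebra.IsAlgebraic (ResidueField R) K]

/-- Algebraic gonflement: a flat `R`-algebra `T` with a surjection `T → K` with kernel `m T`. -/
theorem exists_flat_algebraic :
    ∃ (T : Type (max u v)) (_ : CommRing T) (_ : Algebra R T) (φ : T →ₐ[R] K),
      Module.Flat R T ∧ Function.Surjective φ ∧
        RingHom.ker φ = (maximalIdeal R).map (algebraMap R T) := by
  obtain ⟨s, hs⟩ := exists_maximal_of_chains_bounded (r := Stage.r (R := R) (K := K))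
    (fun c hc => Stage.exists_ub hc) (fun h1 h2 => Stage.r_trans h1 h2)
  have hA : ∀ a : K, a ∈ s.A := by
    intro a
    obtain ⟨t, hst, hat⟩ := s.exists_insert a
    exact (hs t hst).1 hat
  have hle : s.J ≤ RingHom.ker (evA R K s.A) := by rw [s.ker_eq]; exact le_sup_left
  refine ⟨MvPolynomial s.A R ⧸ s.J, inferInstance, inferInstance,
    Ideal.Quotient.liftₐ s.J (evA R K s.A) (fun x hx => hle hx), s.flat, ?_, ?_⟩
  · intro a
    refine ⟨Ideal.Quotient.mk s.J (MvPolynomial.X ⟨a, hA a⟩), ?_⟩
    exact MvPolynomial.aeval_X _ _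
  · apply le_antisymm
    · intro y hy
      obtain ⟨q, rfl⟩ := Ideal.Quotient.mk_surjective y
      have h1 : q ∈ RingHom.ker (evA R K s.A) := hy
      rw [s.ker_eq] at h1
      obtain ⟨x, hx, z, hz, rfl⟩ := Submodule.mem_sup.1 h1
      rw [map_add, Ideal.Quotient.eq_zero_iff_mem.2 hx, zero_add]
      have := Ideal.mem_map_of_mem (Ideal.Quotient.mk s.J) hz
      rw [Ideal.map_map] at this
      exact this
    · rw [Ideal.map_le_iff_le_comap]
      intro r hr
      rw [Ideal.mem_comap, RingHom.mem_ker, AlgHom.commutes,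
        IsScalarTower.algebraMap_apply R (ResidueField R) K]
      have : algebraMap R (ResidueField R) r = 0 := (residue_eq_zero_iff r).2 hr
      rw [this, map_zero]

end conclusion

end Crest.Agent.R183.G
end

-- ▼ part R183/G9
section

/-!
# R183, block RB (helper234), part 9: gonflement, general case (before completion)
-/

set_option autoImplicit false

namespace Crest.Agent.R183.G

open Ideal IsLocalRing

universe u v

theorem isAlgebraic_of_range {k k₁ K : Type*} [Field k] [Field k₁] [Field K] [Algebra k K]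
    [Algebra k₁ K] {ι : Type*} (x : ι → K) (hx : IsTranscendenceBasis k x)
    (h1 : ∀ a : k, algebraMap k K a ∈ (algebraMap k₁ K).range)
    (h2 : ∀ i, x i ∈ (algebraMap k₁ K).range) : Algebra.IsAlgebraic k₁ K := by
  have hle : ∀ a ∈ Algebra.adjoin k (Set.range x), a ∈ (algebraMap k₁ K).range := by
    intro a ha
    induction ha using Algebra.adjoin_induction with
    | mem y hy => obtain ⟨i, rfl⟩ := hy; exact h2 i
    | algebraMap r => exact h1 r
    | add y z _ _ hy hz => exact add_mem hy hz
    | mul y z _ _ hy hz => exact mul_mem hy hz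
  have := hx.isAlgebraic
  let e : k₁ ≃+* (algebraMap k₁ K).range :=
    RingEquiv.ofBijective (algebraMap k₁ K).rangeRestrict
      ⟨fun a b hab => (algebraMap k₁ K).injective (congrArg Subtype.val hab),
        RingHom.rangeRestrict_surjective _⟩
  let i : Algebra.adjoin k (Set.range x) →+* (algebraMap k₁ K).range :=
    (Algebra.adjoin k (Set.range x)).val.toRingHom.codRestrict _ (fun a => hle a.1 a.2)
  let f : Algebra.adjoin k (Set.range x) →+* k₁ := (e.symm : _ →+* k₁).comp i
  have hf : Function.Injective f := by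
    refine e.symm.injective.comp ?_
    intro a b hab
    have hab' : i a = i b := hab
    have h5 : ((i a : (algebraMap k₁ K).range) : K) = (i b : (algebraMap k₁ K).range) := by
      rw [hab']
    exact Subtype.ext h5
  refine Algebra.IsAlgebraic.ringHom_of_comp_eq (R := Algebra.adjoin k (Set.range x)) (A := K)
    f (RingHom.id K) hf Function.surjective_id ?_
  ext a
  have h3 : e (f a) = i a := e.apply_symm_apply _
  have h4 := congrArg Subtype.val h3
  exact h4

section

variable (R : Type u) [CommRing R] [IsLocalRing R] (K : Type v) [Field K]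
  [Algebra (ResidueField R) K]

/-- General gonflement, before completion: a flat local `R`-algebra `T` with `m T` maximal and
residue field `K`. -/
theorem exists_flat_local :
    ∃ (T : Type (max u v)) (_ : CommRing T) (_ : IsLocalRing T) (_ : Algebra R T) (φ : T →+* K),
      Module.Flat R T ∧ Function.Surjective φ ∧
        (∀ r : R, φ (algebraMap R T r) = algebraMap (ResidueField R) K (residue R r)) ∧
        (maximalIdeal R).map (algebraMap R T) = maximalIdeal T := by
  classical
  -- transcendence basis
  obtain ⟨ι, x, hx⟩ := exists_isTranscendenceBasis' (ResidueField R) K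
  let P := MvPolynomial ι R
  let ev0 : P →+* MvPolynomial ι (ResidueField R) := MvPolynomial.map (residue R)
  have hker0 : RingHom.ker ev0 = (maximalIdeal R).map (algebraMap R P) := by
    rw [MvPolynomial.ker_map, ker_residue]
    rfl
  let ev : P →+* K := (MvPolynomial.aeval x : MvPolynomial ι (ResidueField R) →ₐ[_] K).toRingHom.comp
    ev0
  have hinj : Function.Injective
      (MvPolynomial.aeval x : MvPolynomial ι (ResidueField R) →ₐ[ResidueField R] K) := hx.1
  have hker : RingHom.ker ev = (maximalIdeal R).map (algebraMap R P) := by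
    rw [← hker0]
    ext q
    rw [RingHom.mem_ker, RingHom.mem_ker]
    exact map_eq_zero_iff _ hinj
  have hprime : (RingHom.ker ev).IsPrime := RingHom.ker_isPrime ev
  let R₁ := Localization.AtPrime (RingHom.ker ev)
  have hflat1 : Module.Flat R R₁ := Module.Flat.trans R P R₁
  let g : R₁ →+* K := IsLocalization.lift (M := (RingHom.ker ev).primeCompl) (g := ev) (by
    rintro ⟨y, hy⟩
    refine IsUnit.mk0 _ ?_
    intro h
    exact hy h)
  have hg : ∀ q, g (algebraMap P R₁ q) = ev q := fun q => IsLocalization.lift_eq _ q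
  have hmax1 : maximalIdeal R₁ = (maximalIdeal R).map (algebraMap R R₁) := by
    rw [← Localization.AtPrime.map_eq_maximalIdeal]
    refine (congrArg (Ideal.map (algebraMap P R₁)) hker).trans ?_
    rw [Ideal.map_map, ← IsScalarTower.algebraMap_eq]
  have hgker : RingHom.ker g = maximalIdeal R₁ := by
    have : maximalIdeal R₁ ≤ RingHom.ker g := by
      rw [← Localization.AtPrime.map_eq_maximalIdeal, Ideal.map_le_iff_le_comap]
      intro q hq
      rw [Ideal.mem_comap, RingHom.mem_ker, hg]
      exact hq
    exact ((maximalIdeal.isMaximal R₁).eq_of_le (RingHom.ker_ne_top g) this).symm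
  have hgloc : IsLocalHom g := by
    constructor
    intro a ha
    by_contra h
    have : a ∈ maximalIdeal R₁ := h
    rw [← hgker, RingHom.mem_ker] at this
    rw [this] at ha
    exact not_isUnit_zero ha
  let _ : Algebra R₁ K := g.toAlgebra
  let _ : Algebra (ResidueField R₁) K := (ResidueField.lift g).toAlgebra
  have : IsScalarTower R₁ (ResidueField R₁) K := IsScalarTower.of_algebraMap_eq fun y => by
    change g y = ResidueField.lift g (residue R₁ y)
    rw [ResidueField.lift_residue_apply]
  have : Algebra.IsAlgebraic (ResidueField R₁) K := by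
    refine isAlgebraic_of_range x hx ?_ ?_
    · intro a
      obtain ⟨r, rfl⟩ := residue_surjective a
      refine ⟨residue R₁ (algebraMap P R₁ (MvPolynomial.C r)), ?_⟩
      change ResidueField.lift g (residue R₁ _) = _
      rw [ResidueField.lift_residue_apply, hg]
      change (MvPolynomial.aeval x) (MvPolynomial.map (residue R) (MvPolynomial.C r)) = _
      rw [MvPolynomial.map_C, MvPolynomial.aeval_C]
    · intro i
      refine ⟨residue R₁ (algebraMap P R₁ (MvPolynomial.X i)), ?_⟩
      change ResidueField.lift g (residue R₁ _) = _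
      rw [ResidueField.lift_residue_apply, hg]
      change (MvPolynomial.aeval x) (MvPolynomial.map (residue R) (MvPolynomial.X i)) = _
      rw [MvPolynomial.map_X, MvPolynomial.aeval_X]
  obtain ⟨T, _, _, φ, hflat, hsurj, hkerφ⟩ := exists_flat_algebraic R₁ K
  -- localise at the kernel
  have hprimeφ : (RingHom.ker (φ : T →+* K)).IsPrime := RingHom.ker_isPrime _
  let T' := Localization.AtPrime (RingHom.ker (φ : T →+* K))
  let ψ : T' →+* K := IsLocalization.lift (M := (RingHom.ker (φ : T →+* K)).primeCompl)
    (g := (φ : T →+* K)) (by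
    rintro ⟨y, hy⟩
    refine IsUnit.mk0 _ ?_
    intro h
    exact hy h)
  have hψ : ∀ q, ψ (algebraMap T T' q) = φ q := fun q => IsLocalization.lift_eq _ q
  let _ : Algebra R T' := ((algebraMap R₁ T').comp (algebraMap R R₁)).toAlgebra
  have : IsScalarTower R R₁ T' := IsScalarTower.of_algebraMap_eq fun _ => rfl
  have hflat2 : Module.Flat R₁ T' := Module.Flat.trans R₁ T T'
  have hflat3 : Module.Flat R T' := Module.Flat.trans R R₁ T'
  refine ⟨T', inferInstance, inferInstance, inferInstance, ψ, hflat3, ?_, ?_, ?_⟩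
  · intro a
    obtain ⟨t, rfl⟩ := hsurj a
    exact ⟨algebraMap T T' t, hψ t⟩
  · intro r
    have h1 : algebraMap R T' r = algebraMap T T' (algebraMap R₁ T (algebraMap R R₁ r)) := by
      rw [← IsScalarTower.algebraMap_apply R₁ T T']; rfl
    rw [h1, hψ, φ.commutes]
    change g (algebraMap R R₁ r) = _
    rw [IsScalarTower.algebraMap_apply R P R₁, hg]
    change (MvPolynomial.aeval x) (MvPolynomial.map (residue R) (MvPolynomial.C r)) = _
    rw [MvPolynomial.map_C, MvPolynomial.aeval_C]
  · rw [← Localization.AtPrime.map_eq_maximalIdeal]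
    have h2 : RingHom.ker (φ : T →+* K) = (maximalIdeal R₁).map (algebraMap R₁ T) := hkerφ
    refine Eq.symm ((congrArg (Ideal.map (algebraMap T T')) h2).trans ?_)
    rw [hmax1, Ideal.map_map, Ideal.map_map]
    congr 1

end

end Crest.Agent.R183.G
end

-- ▼ part R183/G10

/-!
# R183, block RB (helper234), part 10: gonflement
-/

set_option autoImplicit false

namespace Crest.Agent.R183.G

open Ideal IsLocalRing TensorProduct

universe u v

section

variable {A B₀ B : Type*} [CommRing A] [CommRing B₀] [CommRing B] [Algebra A B₀] [Algebra B₀ B]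
  [Algebra A B] [IsScalarTower A B₀ B]

theorem exists_eq_one_tmul {M : Type*} [AddCommGroup M] [Module A M] (J : Ideal A)
    (z : (A ⧸ J) ⊗[A] M) : ∃ b : M, z = 1 ⊗ₜ[A] b := by
  induction z using TensorProduct.induction_on with
  | zero => exact ⟨0, (TensorProduct.tmul_zero _ _).symm⟩
  | add x y hx hy =>
    obtain ⟨b, rfl⟩ := hx
    obtain ⟨c, rfl⟩ := hy
    exact ⟨b + c, (TensorProduct.tmul_add _ _ _).symm⟩
  | tmul q b =>
    obtain ⟨a, rfl⟩ := Ideal.Quotient.mk_surjective q
    refine ⟨a • b, ?_⟩
    rw [← TensorProduct.smul_tmul]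
    congr 1
    rw [Algebra.smul_def, mul_one]; rfl

theorem one_tmul_eq_zero_iff {M : Type*} [AddCommGroup M] [Module A M] (J : Ideal A) (b : M) :
    (1 : A ⧸ J) ⊗ₜ[A] b = 0 ↔ b ∈ (J • ⊤ : Submodule A M) := by
  rw [← (TensorProduct.quotTensorEquivQuotSMul M J).map_eq_zero_iff]
  have : TensorProduct.quotTensorEquivQuotSMul M J ((1 : A ⧸ J) ⊗ₜ[A] b) =
      Submodule.Quotient.mk b := by
    have h := TensorProduct.quotTensorEquivQuotSMul_mk_tmul (R := A) J (1 : A) b
    rw [one_smul] at h
    exact h
  rw [this, Submodule.Quotient.mk_eq_zero]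

/-- If `B₀` is flat over the Noetherian ring `A`, `B` is Noetherian, `I B ⊆ rad B` and
`B₀ ⧸ I ^ n B₀ → B ⧸ I ^ n B` is bijective for all `n`, then `B` is flat over `A`. -/
theorem flat_of_quotient_bijective [IsNoetherianRing A] [IsNoetherianRing B] [Module.Flat A B₀]
    (I : Ideal A) (hI : I.map (algebraMap A B) ≤ Ideal.jacobson ⊥)
    (hinj : ∀ n, ∀ b : B₀, algebraMap B₀ B b ∈ (I ^ n).map (algebraMap A B) →
      b ∈ (I ^ n).map (algebraMap A B₀))
    (hsurj : ∀ n, ∀ c : B, ∃ b : B₀, c - algebraMap B₀ B b ∈ (I ^ n).map (algebraMap A B)) :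
    Module.Flat A B := by
  refine flat_of_forall_flat_quotient I hI fun n => ?_
  let F : (A ⧸ I ^ n) ⊗[A] B₀ →ₗ[A ⧸ I ^ n] (A ⧸ I ^ n) ⊗[A] B :=
    ((IsScalarTower.toAlgHom A B₀ B).toLinearMap).baseChange (A ⧸ I ^ n)
  have hF : ∀ b : B₀, F (1 ⊗ₜ b) = 1 ⊗ₜ (algebraMap B₀ B b) := fun b => rfl
  have hbij : Function.Bijective F := by
    constructor
    · rw [injective_iff_map_eq_zero]
      intro z hz
      obtain ⟨b, rfl⟩ := exists_eq_one_tmul _ z
      rw [hF, one_tmul_eq_zero_iff, Ideal.smul_top_eq_map] at hz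
      rw [one_tmul_eq_zero_iff, Ideal.smul_top_eq_map]
      exact hinj n b hz
    · intro z
      obtain ⟨c, rfl⟩ := exists_eq_one_tmul _ z
      obtain ⟨b, hb⟩ := hsurj n c
      refine ⟨1 ⊗ₜ b, ?_⟩
      rw [hF, ← sub_eq_zero, ← TensorProduct.tmul_sub, one_tmul_eq_zero_iff,
        Ideal.smul_top_eq_map]
      rw [← neg_mem_iff, neg_sub]
      exact hb
  exact Module.Flat.of_linearEquiv (LinearEquiv.ofBijective F hbij).symm

end

section

/-- GONFLEMENT. Let `R` be a Noetherian local ring with residue field `k` and let `K / k` be any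
field extension. There is a complete Noetherian local flat `R`-algebra `S` with maximal ideal
`m S` and residue field `K` (over `k`). -/
theorem exists_gonflement (R : Type u) [CommRing R] [IsLocalRing R] [IsNoetherianRing R]
    (K : Type v) [Field K] [Algebra (ResidueField R) K] :
    ∃ (S : Type (max u v)) (_ : CommRing S) (_ : IsLocalRing S) (_ : IsNoetherianRing S)
      (_ : Algebra R S) (_ : IsAdicComplete (maximalIdeal S) S) (e : ResidueField S ≃+* K),
      Module.Flat R S ∧ (maximalIdeal R).map (algebraMap R S) = maximalIdeal S ∧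
      ∀ r : R, e (residue S (algebraMap R S r)) = algebraMap (ResidueField R) K (residue R r) := by
  obtain ⟨T, _, _, _, φ, hflat, hsurj, hφ, hm⟩ := exists_flat_local R K
  have hfg : (maximalIdeal T).FG := by
    rw [← hm]
    have h0 : (maximalIdeal R).FG := IsNoetherian.noetherian _
    exact Ideal.FG.map h0 _
  let S := AdicCompletion (maximalIdeal T) T
  have hloc : IsLocalRing S := AdicCompletion.isLocalRing_of_fg hfg
  have hmS : maximalIdeal S = (maximalIdeal T).map (algebraMap T S) :=
    AdicCompletion.maximalIdeal_eq_map_of_fg hfg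
  have hcomp : IsAdicComplete (maximalIdeal S) S := AdicCompletion.isAdicComplete_of_fg hfg
  have : IsNoetherianRing (T ⧸ maximalIdeal T) :=
    inferInstanceAs (IsNoetherianRing (ResidueField T))
  have hNoeth : IsNoetherianRing S := isNoetherianRing_adicCompletion _ hfg
  have hmRS : (maximalIdeal R).map (algebraMap R S) = maximalIdeal S := by
    refine Eq.trans ?_ ((congrArg (Ideal.map (algebraMap T S)) hm).trans hmS.symm)
    rw [Ideal.map_map]
    congr 1
  -- the residue field
  have hbij := AdicCompletion.residueField_map_bijective_of_fg hfg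
  have hlh : IsLocalHom (algebraMap T S) := AdicCompletion.algebraMap_isLocalHom_of_fg hfg
  have hkerφ : RingHom.ker φ = maximalIdeal T := by
    have : (RingHom.ker φ).IsMaximal := RingHom.ker_isMaximal_of_surjective φ hsurj
    exact IsLocalRing.eq_maximalIdeal this
  let e1 : ResidueField T ≃+* K :=
    (Ideal.quotEquivOfEq hkerφ.symm).trans (RingHom.quotientKerEquivOfSurjective hsurj)
  have he1 : ∀ t, e1 (residue T t) = φ t := fun t => rfl
  let e2 : ResidueField T ≃+* ResidueField S :=
    RingEquiv.ofBijective (ResidueField.map (algebraMap T S)) hbij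
  have he2 : ∀ t, e2 (residue T t) = residue S (algebraMap T S t) := fun t => rfl
  refine ⟨S, inferInstance, hloc, hNoeth, inferInstance, hcomp, e2.symm.trans e1, ?_, hmRS, ?_⟩
  · refine flat_of_quotient_bijective (A := R) (B₀ := T) (B := S) (maximalIdeal R) ?_ ?_ ?_
    · rw [hmRS]; exact IsLocalRing.maximalIdeal_le_jacobson _
    · intro n b hb
      have h1 := (quotientMap_adicCompletion_bijective (maximalIdeal T) hfg n).1
      have h2 : (maximalIdeal R ^ n).map (algebraMap R S) =
        (maximalIdeal T ^ n).map (algebraMap T S) := by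
        rw [Ideal.map_pow, Ideal.map_pow, hmRS, hmS]
      rw [h2] at hb
      rw [Ideal.map_pow, hm]
      rw [← Ideal.Quotient.eq_zero_iff_mem]
      apply h1
      rw [map_zero]
      exact (Ideal.Quotient.eq_zero_iff_mem).2 hb
    · intro n c
      have h1 := (quotientMap_adicCompletion_bijective (maximalIdeal T) hfg n).2
      have h2 : (maximalIdeal R ^ n).map (algebraMap R S) =
        (maximalIdeal T ^ n).map (algebraMap T S) := by
        rw [Ideal.map_pow, Ideal.map_pow, hmRS, hmS]
      rw [h2]
      obtain ⟨y, hy⟩ := h1 (Ideal.Quotient.mk _ c)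
      obtain ⟨b, rfl⟩ := Ideal.Quotient.mk_surjective y
      refine ⟨b, ?_⟩
      rw [← Ideal.Quotient.mk_eq_mk_iff_sub_mem, ← hy]
      rfl
  · intro r
    have h3 : algebraMap R S r = algebraMap T S (algebraMap R T r) := rfl
    rw [h3, ← he2, RingEquiv.trans_apply, RingEquiv.symm_apply_apply, he1, hφ]

end

end Crest.Agent.R183.G
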