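import Mathlib

-- ▼ part R183/G1
section

/-!
# R183, block RB (helper234), part 1

* `isNoetherianRing_of_isAdicComplete`: a ring that is adically complete with respect to a finitely
  generated ideal `I` with `A ⧸ I` Noetherian is Noetherian.
-/

set_option autoImplicit false

namespace Crest.Agent.R183.G

open Ideal

section Noeth

variable {A : Type*} [CommRing A]

/-- Main approximation lemma: if `P = span s + a P` with `a ∈ I` and `A` is `I`-adically complete
then `P = span s`. -/
theorem fg_of_le_sup_smul (I : Ideal A) [IsAdicComplete I A] (a : A) (ha : a ∈ I) (P : Ideal A)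
    (s : Finset A) (hs : ∀ x ∈ s, x ∈ P)
    (h : ∀ g ∈ P, ∃ g' ∈ P, g - a * g' ∈ Ideal.span (s : Set A)) : P = Ideal.span (s : Set A) := by
  classical
  refine le_antisymm (fun g hg => ?_) (Ideal.span_le.2 hs)
  choose! nxt hnxt using h
  -- the sequence of remainders
  let r : ℕ → A := fun n => Nat.rec g (fun _ x => nxt x) n
  have hr0 : r 0 = g := rfl
  have hrs : ∀ n, r (n + 1) = nxt (r n) := fun n => rfl
  have hrP : ∀ n, r n ∈ P := by
    intro n
    induction n with
    | zero => exact hg
    | succ n ih => rw [hrs]; exact (hnxt _ ih).1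
  have hc : ∀ n, ∃ c : A → A, r n - a * r (n + 1) = ∑ x ∈ s, c x * x := by
    intro n
    have := (hnxt _ (hrP n)).2
    rw [← hrs] at this
    obtain ⟨c, _, hc⟩ := (Submodule.mem_span_finset).1 this
    exact ⟨c, by rw [← hc]; simp [smul_eq_mul]⟩
  choose c hc using hc
  -- partial sums
  let S : A → ℕ → A := fun x n => ∑ k ∈ Finset.range n, a ^ k * c k x
  have hsum : ∀ n, g = ∑ x ∈ s, S x n * x + a ^ n * r n := by
    intro n
    induction n with
    | zero => simp [S, hr0]
    | succ n ih =>
      rw [ih]
      have h1 : r n = a * r (n + 1) + ∑ x ∈ s, c n x * x := by rw [← hc]; ring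
      have h2 : ∑ x ∈ s, S x (n + 1) * x = ∑ x ∈ s, S x n * x + a ^ n * ∑ x ∈ s, c n x * x := by
        rw [Finset.mul_sum, ← Finset.sum_add_distrib]
        refine Finset.sum_congr rfl fun x _ => ?_
        simp only [S, Finset.sum_range_succ]
        ring
      rw [h2]
      conv_lhs => rw [h1]
      ring
  -- limits
  have hlim : ∀ x, ∃ L : A, ∀ n, S x n ≡ L [SMOD (I ^ n • ⊤ : Submodule A A)] := by
    intro x
    refine IsPrecomplete.prec inferInstance ?_
    intro m n hmn
    rw [SModEq.sub_mem]
    have : S x m - S x n = - ∑ k ∈ Finset.Ico m n, a ^ k * c k x := by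
      simp only [S]
      rw [← Finset.sum_range_add_sum_Ico _ hmn]
      ring
    rw [this]
    refine neg_mem (sum_mem fun k hk => ?_)
    rw [smul_eq_mul, Ideal.mul_top]
    refine Ideal.mul_mem_right _ _ ?_
    exact Ideal.pow_le_pow_right (Finset.mem_Ico.1 hk).1 (Ideal.pow_mem_pow ha k)
  choose L hL using hlim
  have hg' : g = ∑ x ∈ s, L x * x := by
    rw [← sub_eq_zero]
    refine IsHausdorff.haus (I := I) inferInstance _ fun n => ?_
    rw [SModEq.zero]
    have : g - ∑ x ∈ s, L x * x = ∑ x ∈ s, (S x n - L x) * x + a ^ n * r n := by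
      conv_lhs => rw [hsum n]
      rw [show (∑ x ∈ s, (S x n - L x) * x) = ∑ x ∈ s, S x n * x - ∑ x ∈ s, L x * x by
        rw [← Finset.sum_sub_distrib]; exact Finset.sum_congr rfl fun x _ => by ring]
      ring
    rw [this]
    refine add_mem (sum_mem fun x _ => ?_) ?_
    · have := (SModEq.sub_mem.1 (hL x n))
      rw [smul_eq_mul, Ideal.mul_top] at this ⊢
      exact Ideal.mul_mem_right _ _ this
    · rw [smul_eq_mul, Ideal.mul_top]
      exact Ideal.mul_mem_right _ _ (Ideal.pow_mem_pow ha n)
  rw [hg']
  exact sum_mem fun x hx => Ideal.mul_mem_left _ _ (Ideal.subset_span hx)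

/-- A ring that is adically complete with respect to a finitely generated ideal `I` such that
`A ⧸ I` is Noetherian is Noetherian. -/
theorem isNoetherianRing_of_isAdicComplete (I : Ideal A) (hI : I.FG) [IsAdicComplete I A]
    [IsNoetherianRing (A ⧸ I)] : IsNoetherianRing A := by
  classical
  by_contra hcon
  have hex : ∃ J : Ideal A, ¬ J.FG := by
    by_contra h
    push Not at h
    exact hcon ⟨h⟩
  obtain ⟨J₀, hJ₀⟩ := hex
  -- a maximal non-f.g. ideal
  obtain ⟨P, _, hP⟩ : ∃ M, J₀ ≤ M ∧ Maximal (fun J : Ideal A => ¬ J.FG) M := by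
    refine zorn_le_nonempty₀ {J : Ideal A | ¬ J.FG} (fun C hC₁ hC₂ J hJ => ⟨sSup C, ?_, fun _ => le_sSup⟩)
      J₀ hJ₀
    rintro ⟨G, hG⟩
    obtain ⟨J', J_mem_C, G_subset_J⟩ : ∃ J' ∈ C, (G : Set A) ⊆ J' := by
      refine hC₂.directedOn.exists_mem_subset_of_finset_subset_biUnion ⟨J, hJ⟩ (fun _ hx => ?_)
      simp only [Set.mem_iUnion, SetLike.mem_coe, exists_prop]
      exact (Submodule.mem_sSup_of_directed ⟨J, hJ⟩ hC₂.directedOn).1 <| hG ▸ subset_span hx
    have J_eq_sSup : J' = sSup C :=
      le_antisymm (le_sSup J_mem_C) (hG ▸ Ideal.span_le.2 G_subset_J)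
    exact hC₁ J_mem_C ⟨G, by rw [hG, J_eq_sSup]⟩
  have hprime : P.IsPrime := Ideal.isOka_fg.isPrime_of_maximal_not hP
  -- `I ≤ P`
  have hIP : I ≤ P := by
    intro a ha
    by_contra haP
    have hfg : (P ⊔ Ideal.span {a}).FG := by
      by_contra h
      exact (hP.not_prop_of_gt (Submodule.lt_sup_iff_notMem.2 haP)) h
    -- generators
    obtain ⟨t, ht⟩ := hfg
    have H : ∀ y ∈ t, ∃ p ∈ P, ∃ r : A, p + r * a = y := by
      intro y hy
      have : y ∈ P ⊔ Ideal.span {a} := by rw [← ht]; exact Ideal.subset_span hy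
      obtain ⟨p, hp, z, hz, hpz⟩ := Submodule.mem_sup.1 this
      obtain ⟨r, rfl⟩ := Ideal.mem_span_singleton'.1 hz
      exact ⟨p, hp, r, hpz⟩
    choose! p hp r hr using H
    have : P = Ideal.span ((t.image p : Finset A) : Set A) := by
      refine fg_of_le_sup_smul I a ha P (t.image p) ?_ ?_
      · intro x hx
        obtain ⟨y, hy, rfl⟩ := Finset.mem_image.1 hx
        exact hp y hy
      · intro g hg
        have hg1 : g ∈ Ideal.span (t : Set A) := by
          have : g ∈ P ⊔ Ideal.span {a} := Ideal.mem_sup_left hg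
          rwa [← ht] at this
        obtain ⟨c, _, hc⟩ := (Submodule.mem_span_finset).1 hg1
        refine ⟨∑ y ∈ t, c y * r y, ?_, ?_⟩
        · have h1 : a * ∑ y ∈ t, c y * r y ∈ P := by
            have h2 : a * ∑ y ∈ t, c y * r y = g - ∑ y ∈ t, c y * p y := by
              rw [← hc, Finset.mul_sum, ← Finset.sum_sub_distrib]
              refine Finset.sum_congr rfl fun y hy => ?_
              rw [smul_eq_mul]
              linear_combination (c y) * (hr y hy)
            rw [h2]
            exact sub_mem hg (sum_mem fun y hy => Ideal.mul_mem_left _ _ (hp y hy))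
          exact (hprime.mem_or_mem h1).resolve_left haP
        · have h2 : g - a * ∑ y ∈ t, c y * r y = ∑ y ∈ t, c y * p y := by
            rw [← hc, Finset.mul_sum, ← Finset.sum_sub_distrib]
            refine Finset.sum_congr rfl fun y hy => ?_
            rw [smul_eq_mul]
            linear_combination -(c y) * (hr y hy)
          rw [h2]
          refine sum_mem fun y hy => Ideal.mul_mem_left _ _ (Ideal.subset_span ?_)
          simp only [Finset.coe_image]
          exact ⟨y, hy, rfl⟩
    exact hP.prop ⟨_, this.symm⟩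
  -- `P / I` is f.g.
  have h1 : (P.map (Ideal.Quotient.mk I)).FG := (isNoetherianRing_iff_ideal_fg _).1 inferInstance _
  have h2 : P.FG := by
    refine Ideal.fg_of_fg_map_of_fg_inf_ker_of_surjective h1 ?_ Ideal.Quotient.mk_surjective
    rw [Ideal.mk_ker, inf_eq_right.2 hIP]
    exact hI
  exact hP.prop h2

end Noeth

end Crest.Agent.R183.G
end

-- ▼ part R183/G2
section

/-!
# R183, block RB (helper234), part 2: adic completions
-/

set_option autoImplicit false

namespace Crest.Agent.R183.G

open Ideal AdicCompletion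

variable {R : Type*} [CommRing R]

theorem isNoetherianRing_adicCompletion (I : Ideal R) (hI : I.FG) [IsNoetherianRing (R ⧸ I)] :
    IsNoetherianRing (AdicCompletion I R) := by
  have := AdicCompletion.isAdicComplete_self I hI
  have hfg : (I.map (algebraMap R (AdicCompletion I R))).FG := hI.map _
  have hker := AdicCompletion.ker_evalOneₐ_eq_map I hI
  have : IsNoetherianRing (AdicCompletion I R ⧸ I.map (algebraMap R (AdicCompletion I R))) := by
    have e : (AdicCompletion I R ⧸ RingHom.ker (evalOneₐ I).toRingHom) ≃+* (R ⧸ I) :=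
      RingHom.quotientKerEquivOfSurjective (f := (evalOneₐ I).toRingHom) (evalOneₐ_surjective I)
    rw [hker] at e
    exact isNoetherianRing_of_ringEquiv _ e.symm
  exact isNoetherianRing_of_isAdicComplete _ hfg

instance isNoetherianRing_adicCompletion' [IsNoetherianRing R] (I : Ideal R) :
    IsNoetherianRing (AdicCompletion I R) :=
  isNoetherianRing_adicCompletion I (IsNoetherian.noetherian I)

theorem ker_evalₐ_eq_map (I : Ideal R) (hI : I.FG) (n : ℕ) :
    RingHom.ker (evalₐ I n).toRingHom = (I ^ n).map (algebraMap R (AdicCompletion I R)) := by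
  ext x
  trans x ∈ (AdicCompletion.eval I R n).ker
  · have eq : I ^ n * ⊤ = I ^ n := by simp
    have : Function.Injective (Ideal.Quotient.factor ((le_of_eq eq))) := by
      simpa [RingHom.injective_iff_ker_eq_bot, Ideal.Quotient.factor_ker]
        using Ideal.map_mk_eq_bot_of_le (le_of_eq eq.symm)
    simpa [← factor_eval_eq_evalₐ] using map_eq_zero_iff _ this
  · simp [← pow_smul_top_eq_ker_eval hI]

/-- `R ⧸ I ^ n ≃ R^ ⧸ I ^ n R^`. -/
theorem quotientMap_adicCompletion_bijective (I : Ideal R) (hI : I.FG) (n : ℕ) :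
    Function.Bijective (algebraMap (R ⧸ I ^ n)
      (AdicCompletion I R ⧸ (I ^ n).map (algebraMap R (AdicCompletion I R)))) := by
  have hker := ker_evalₐ_eq_map I hI n
  constructor
  · rw [injective_iff_map_eq_zero]
    intro x hx
    obtain ⟨x, rfl⟩ := Ideal.Quotient.mk_surjective x
    have h1 : algebraMap R (AdicCompletion I R) x ∈
        (I ^ n).map (algebraMap R (AdicCompletion I R)) := by
      rw [← Ideal.Quotient.eq_zero_iff_mem]
      exact hx
    rw [← hker, RingHom.mem_ker] at h1
    have h2 : evalₐ I n (algebraMap R (AdicCompletion I R) x) = Ideal.Quotient.mk _ x := by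
      rw [AlgHom.commutes]; rfl
    rw [← h2]; exact h1
  · intro y
    obtain ⟨y, rfl⟩ := Ideal.Quotient.mk_surjective y
    obtain ⟨x, hx⟩ := Ideal.Quotient.mk_surjective (evalₐ I n y)
    refine ⟨Ideal.Quotient.mk _ x, ?_⟩
    change Ideal.Quotient.mk _ (algebraMap R (AdicCompletion I R) x) = _
    rw [Ideal.Quotient.mk_eq_mk_iff_sub_mem, ← hker, RingHom.mem_ker]
    change evalₐ I n _ = 0
    rw [map_sub, sub_eq_zero, ← hx, AlgHom.commutes]; rfl

end Crest.Agent.R183.G
end

-- ▼ part R183/G3

/-!
# R183, block RB (helper234), part 3: local criterion of flatness (Noetherian case)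
-/

set_option autoImplicit false

namespace Crest.Agent.R183.G

open Ideal TensorProduct

section

variable {A B : Type*} [CommRing A] [CommRing B] [Algebra A B]

theorem rTensor_injective_of_flat_baseChange (Q : Type*) [CommRing Q] [Algebra A Q]
    [Module.Flat Q (Q ⊗[A] B)] {M N : Type*} [AddCommGroup M] [AddCommGroup N] [Module A M]
    [Module A N] [Module Q M] [Module Q N] [IsScalarTower A Q M] [IsScalarTower A Q N]
    (f : M →ₗ[Q] N) (hf : Function.Injective f) :
    Function.Injective ((f.restrictScalars A).rTensor B) := by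
  have h1 : Function.Injective (f.rTensor (Q ⊗[A] B)) :=
    Module.Flat.rTensor_preserves_injective_linearMap f hf
  have h2 : ∀ x, (f.restrictScalars A).rTensor B
      (TensorProduct.AlgebraTensorModule.cancelBaseChange A Q Q M B x) =
      TensorProduct.AlgebraTensorModule.cancelBaseChange A Q Q N B (f.rTensor (Q ⊗[A] B) x) := by
    intro x
    induction x using TensorProduct.induction_on with
    | zero => simp
    | add x y hx hy => simp only [map_add, hx, hy]
    | tmul m y =>
      induction y using TensorProduct.induction_on with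
      | zero => simp
      | add x y hx hy => simp only [map_add, tmul_add, hx, hy]
      | tmul q b => simp
  rw [injective_iff_map_eq_zero]
  intro y hy
  obtain ⟨x, rfl⟩ := (TensorProduct.AlgebraTensorModule.cancelBaseChange A Q Q M B).surjective y
  rw [h2, LinearEquiv.map_eq_zero_iff, map_eq_zero_iff _ h1] at hy
  rw [hy, map_zero]

/-- Local criterion of flatness, Noetherian form: if `I B` is in the Jacobson radical of `B` and
`B ⧸ I ^ n B` is flat over `A ⧸ I ^ n` for all `n`, then `B` is flat over `A`. -/
theorem flat_of_forall_flat_quotient [IsNoetherianRing A] [IsNoetherianRing B] (I : Ideal A)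
    (hI : I.map (algebraMap A B) ≤ Ideal.jacobson ⊥)
    (h : ∀ n, Module.Flat (A ⧸ I ^ n) ((A ⧸ I ^ n) ⊗[A] B)) : Module.Flat A B := by
  rw [Module.Flat.iff_rTensor_injective]
  intro J hJ
  rw [injective_iff_map_eq_zero]
  intro x hx
  -- it is enough that `x ∈ I ^ n (J ⊗ B)` for all `n`
  have key : ∀ n : ℕ, x ∈ (I ^ n • ⊤ : Submodule A (J ⊗[A] B)) := by
    intro n
    obtain ⟨k, hk⟩ := I.exists_pow_inf_eq_pow_smul (M := A) J
    set m := n + k with hm
    have hAR : (I ^ m ⊓ J : Ideal A) ≤ I ^ n * J := by
      have := hk m (by omega)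
      rw [show m - k = n by omega] at this
      have h2 : (I ^ m • ⊤ : Submodule A A) = I ^ m := by simp
      rw [h2] at this
      rw [this]
      exact Submodule.smul_mono le_rfl inf_le_right
    let Q := A ⧸ I ^ m
    have := h m
    -- the image of `J` in `Q`
    let J' : Ideal Q := J.map (Ideal.Quotient.mk (I ^ m))
    let q : J →ₗ[A] J' :=
      ((Ideal.Quotient.mkₐ A (I ^ m)).toLinearMap.restrict (p := J) (q := J'.restrictScalars A)
        (fun x hx => Ideal.mem_map_of_mem _ hx))
    have hq : Function.Surjective q := by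
      rintro ⟨y, hy⟩
      obtain ⟨z, hz, rfl⟩ := (Ideal.mem_map_iff_of_surjective _ Ideal.Quotient.mk_surjective).1 hy
      exact ⟨⟨z, hz⟩, rfl⟩
    have hinj := rTensor_injective_of_flat_baseChange (A := A) (B := B) Q (J'.subtype)
      (Submodule.subtype_injective _)
    have hcomm : ((J'.subtype.restrictScalars A).rTensor B) (q.rTensor B x) = 0 := by
      have h3 : (J'.subtype.restrictScalars A) ∘ₗ q =
          (Ideal.Quotient.mkₐ A (I ^ m)).toLinearMap ∘ₗ J.subtype := by
        ext z; rfl
      rw [← LinearMap.comp_apply, ← LinearMap.rTensor_comp, h3, LinearMap.rTensor_comp,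
        LinearMap.comp_apply, hx, map_zero]
    have hx' : q.rTensor B x = 0 := by
      rwa [map_eq_zero_iff _ hinj] at hcomm
    -- `ker q`
    have hex : Function.Exact ((LinearMap.ker q).subtype.rTensor B) (q.rTensor B) :=
      rTensor_exact B (by exact LinearMap.exact_subtype_ker_map q) hq
    obtain ⟨y, rfl⟩ := (hex x).1 hx'
    have hker : LinearMap.ker q ≤ (I ^ n • ⊤ : Submodule A J) := by
      rintro ⟨z, hz⟩ hz'
      have h4 : z ∈ I ^ m := by
        have : (Ideal.Quotient.mk (I ^ m)) z = 0 := by
          have := congrArg (Subtype.val) (LinearMap.mem_ker.1 hz')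
          exact this
        rwa [Ideal.Quotient.eq_zero_iff_mem] at this
      have h5 : z ∈ I ^ n * J := hAR ⟨h4, hz⟩
      have h6 : (I ^ n • ⊤ : Submodule A J).map J.subtype = I ^ n • J := by
        rw [Submodule.map_smul'', Submodule.map_top, Submodule.range_subtype]
      have h7 : z ∈ (I ^ n • ⊤ : Submodule A J).map J.subtype := by
        rw [h6]; exact h5
      obtain ⟨w, hw, hwz⟩ := h7
      have : w = ⟨z, hz⟩ := Subtype.ext hwz
      rwa [← this]
    clear hx hx' hcomm hex
    induction y using TensorProduct.induction_on with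
    | zero => simp
    | add a b ha hb => rw [map_add]; exact add_mem ha hb
    | tmul a b =>
      rw [LinearMap.rTensor_tmul]
      have h8 : ∀ w ∈ (I ^ n • ⊤ : Submodule A J), w ⊗ₜ[A] b ∈
          (I ^ n • ⊤ : Submodule A (J ⊗[A] B)) := by
        intro w hw
        refine Submodule.smul_induction_on hw ?_ ?_
        · intro r hr t _
          rw [← TensorProduct.smul_tmul']
          exact Submodule.smul_mem_smul hr trivial
        · intro u v hu hv
          rw [TensorProduct.add_tmul]
          exact add_mem hu hv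
      exact h8 _ (hker a.2)
  -- Krull intersection for the finite `B`-module `B ⊗ J`
  have hKrull : (⨅ i : ℕ, (I.map (algebraMap A B)) ^ i • ⊤ : Submodule B (B ⊗[A] J)) = ⊥ := by
    have : Module.Finite A J := Module.Finite.iff_fg.2 hJ
    exact Ideal.iInf_pow_smul_eq_bot_of_le_jacobson _ hI
  have hx2 : TensorProduct.comm A J B x = 0 := by
    rw [← Submodule.mem_bot B, ← hKrull, Submodule.mem_iInf]
    intro n
    have h9 : ∀ w ∈ (I ^ n • ⊤ : Submodule A (J ⊗[A] B)), TensorProduct.comm A J B w ∈
        ((I.map (algebraMap A B)) ^ n • ⊤ : Submodule B (B ⊗[A] J)) := by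
      intro w hw
      refine Submodule.smul_induction_on hw ?_ ?_
      · intro r hr t _
        rw [map_smul, ← algebraMap_smul B r]
        refine Submodule.smul_mem_smul ?_ trivial
        rw [← Ideal.map_pow]
        exact Ideal.mem_map_of_mem _ hr
      · intro u v hu hv
        rw [map_add]
        exact add_mem hu hv
    exact h9 _ (key n)
  rwa [LinearEquiv.map_eq_zero_iff] at hx2

end

end Crest.Agent.R183.G
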