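import Mathlib
import Crest.Agent.R183.KHom

-- ▼ part R183/KFree
section

set_option autoImplicit false

namespace Crest.Agent.R183.KF

open Finset Polynomial

/-- exponents `(j,k)` of the monomial `u^j τ^k`. -/
abbrev Ex (n : ℕ) := (Fin n → ℤ) × ℤ

/-- the Laurent ring `ℤ[u_l^±, τ^±]`. -/
abbrev LL (n : ℕ) := AddMonoidAlgebra ℤ (Ex n)

variable {n : ℕ}

/-- the monomial `u^j τ^k`. -/
noncomputable def mo (j : Fin n → ℤ) (k : ℤ) : LL n := AddMonoidAlgebra.single (j, k) 1

lemma mo_mul (j j' : Fin n → ℤ) (k k' : ℤ) : mo j k * mo j' k' = mo (j + j') (k + k') := by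
  simp [mo, AddMonoidAlgebra.single_mul_single]

lemma mo_zero : (mo 0 0 : LL n) = 1 := rfl

/-- the variable `u_l`. -/
noncomputable def uu (l : Fin n) : LL n := mo (Pi.single l 1) 0

/-- the variable `τ`. -/
noncomputable def tau : LL n := mo 0 1

lemma mo_mul_uu_pow (j : Fin n → ℤ) (k : ℤ) (l : Fin n) (a : ℕ) :
    mo j k * uu l ^ a = mo (j + Pi.single l (a : ℤ)) k := by
  induction a with
  | zero => simp
  | succ a ih =>
    rw [pow_succ, ← mul_assoc, ih, uu, mo_mul]
    congr 1
    · rw [add_assoc, ← Pi.single_add]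
      push_cast
      rfl
    · simp

lemma tau_pow (k : ℕ) : (tau ^ k : LL n) = mo 0 k := by
  induction k with
  | zero => simp [← mo_zero]
  | succ k ih => rw [pow_succ, ih, tau, mo_mul]; simp

/-- `∏_{l ∈ S} (1 + u_l z)`. -/
noncomputable def gg (S : Finset (Fin n)) : (LL n)[X] := ∏ l ∈ S, (1 + C (uu l) * X)

/-- elementary symmetric polynomials of the `u_l`, `l ∈ S`. -/
noncomputable def es (S : Finset (Fin n)) (i : ℕ) : LL n := (gg S).coeff i

/-- `τ e_i(u_S)`. -/
noncomputable def xs (S : Finset (Fin n)) (i : ℕ) : LL n := tau * es S i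

lemma es_zero (S : Finset (Fin n)) : es S 0 = 1 := by
  simp [es, gg, coeff_zero_prod]

lemma es_insert_succ {S : Finset (Fin n)} {l : Fin n} (hl : l ∉ S) (i : ℕ) :
    es (insert l S) (i + 1) = es S (i + 1) + uu l * es S i := by
  unfold es gg
  rw [Finset.prod_insert hl, add_mul, one_mul, coeff_add, mul_assoc, coeff_C_mul, mul_comm X,
    coeff_mul_X]

/-- the indicator exponent. -/
def ind (A : Finset (Fin n)) : Fin n → ℤ := fun l => if l ∈ A then 1 else 0

lemma prod_uu (A : Finset (Fin n)) : ∏ l ∈ A, uu l = mo (ind A) 0 := by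
  induction A using Finset.induction_on with
  | empty =>
    simp only [Finset.prod_empty]
    rw [← mo_zero]
    congr 1
  | insert a A ha ih =>
    rw [Finset.prod_insert ha, ih, uu, mo_mul]
    congr 1
    funext l
    by_cases h : l = a
    · subst h
      simp [ind, ha]
    · simp [ind, h]

lemma es_eq (S : Finset (Fin n)) (i : ℕ) : es S i = ∑ A ∈ S.powersetCard i, mo (ind A) 0 := by
  unfold es gg
  rw [Finset.prod_one_add, finsetSum_coeff]
  have h : ∀ A : Finset (Fin n), (∏ l ∈ A, (C (uu l) * X : (LL n)[X])).coeff i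
      = if A.card = i then mo (ind A) 0 else 0 := by
    intro A
    rw [Finset.prod_mul_distrib, Finset.prod_const, ← map_prod, prod_uu, coeff_C_mul_X_pow]
    by_cases h : A.card = i
    · simp [h]
    · simp [h, Ne.symm h]
  simp_rw [h]
  rw [Finset.sum_ite, Finset.sum_const_zero, add_zero, Finset.powersetCard_eq_filter]

lemma es_gt (S : Finset (Fin n)) {i : ℕ} (h : S.card < i) : es S i = 0 := by
  rw [es_eq, Finset.powersetCard_eq_empty.2 h, Finset.sum_empty]

lemma xs_zero (S : Finset (Fin n)) : xs S 0 = tau := by simp [xs, es_zero]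

lemma xs_gt (S : Finset (Fin n)) {i : ℕ} (h : S.card < i) : xs S i = 0 := by
  simp [xs, es_gt S h]

lemma xs_insert_succ {S : Finset (Fin n)} {l : Fin n} (hl : l ∉ S) (i : ℕ) :
    xs (insert l S) (i + 1) = xs S (i + 1) + uu l * xs S i := by
  simp only [xs, es_insert_succ hl]; ring

/-- submodule spanned by the monomials with exponents in `P`. -/
noncomputable abbrev Sub (P : Set (Ex n)) : Submodule ℤ (LL n) := AddMonoidAlgebra.supported ℤ ℤ P

lemma Sub_eq_span (P : Set (Ex n)) :
    Sub P = Submodule.span ℤ ((fun e : Ex n => mo e.1 e.2) '' P) :=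
  AddMonoidAlgebra.supported_eq_span_single ℤ P

lemma mo_mem {P : Set (Ex n)} {j : Fin n → ℤ} {k : ℤ} (h : (j, k) ∈ P) : mo j k ∈ Sub P := by
  rw [Sub_eq_span]
  exact Submodule.subset_span ⟨(j, k), h, rfl⟩

lemma mo_mul_mem {P P' : Set (Ex n)} {j : Fin n → ℤ} {k : ℤ}
    (h : ∀ e ∈ P, (j + e.1, k + e.2) ∈ P') {f : LL n} (hf : f ∈ Sub P) : mo j k * f ∈ Sub P' := by
  rw [Sub_eq_span] at hf
  induction hf using Submodule.span_induction with
  | mem x hx =>
    obtain ⟨e, he, rfl⟩ := hx
    dsimp only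
    rw [mo_mul]
    exact mo_mem (h e he)
  | zero => simp
  | add x y _ _ hx hy => rw [mul_add]; exact add_mem hx hy
  | smul a x _ hx => rw [mul_smul_comm]; exact Submodule.smul_mem _ _ hx

lemma es_mul_mem {P P' : Set (Ex n)} {S : Finset (Fin n)}
    (h : ∀ e ∈ P, ∀ A ⊆ S, (ind A + e.1, e.2) ∈ P') (i : ℕ) {f : LL n} (hf : f ∈ Sub P) :
    es S i * f ∈ Sub P' := by
  rw [es_eq, Finset.sum_mul]
  refine Submodule.sum_mem _ fun A hA => ?_
  refine mo_mul_mem (fun e he => ?_) hf
  rw [zero_add]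
  exact h e he A (Finset.mem_powersetCard.1 hA).1

lemma xs_mul_mem {P P' : Set (Ex n)} {S : Finset (Fin n)}
    (h : ∀ e ∈ P, ∀ A ⊆ S, (ind A + e.1, e.2 + 1) ∈ P') (i : ℕ) {f : LL n} (hf : f ∈ Sub P) :
    xs S i * f ∈ Sub P' := by
  rw [xs, mul_assoc]
  refine mo_mul_mem (P := {e | (e.1, e.2 + 1) ∈ P'}) (fun e he => ?_) (es_mul_mem (P := P) ?_ i hf)
  · rw [zero_add, add_comm]; exact he
  · intro e he A hA
    exact h e he A hA

/-! ### Generation of the staircase module -/

/-- degree-`k` part of the staircase module for `S`, `π`. -/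
def stair (S : Finset (Fin n)) (π : Fin n → ℕ) (k : ℕ) : Set (Ex n) :=
  {e | e.2 = k ∧ ∀ l, (l ∈ S → 0 ≤ e.1 l ∧ e.1 l ≤ k + π l) ∧ (l ∉ S → e.1 l = 0)}

/-- span of (monomials of degree `k` in the `X_i`) times (staircase monomials of degree `0`). -/
noncomputable def Gen (S : Finset (Fin n)) (π : Fin n → ℕ) (k : ℕ) : Submodule ℤ (LL n) :=
  Submodule.span ℤ {x | ∃ (a : Multiset ℕ) (b : Fin n → ℤ), a.card = k ∧ (b, (0 : ℤ)) ∈ stair S π 0 ∧
    x = (a.map (xs S)).prod * mo b 0}

/-- one step. -/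
noncomputable def Stp (S : Finset (Fin n)) (l : Fin n) (m k : ℕ) : Submodule ℤ (LL n) :=
  Submodule.span ℤ {x | ∃ (a : Multiset ℕ) (c : ℕ), a.card = k ∧ c ≤ m ∧
    x = (a.map (xs S)).prod * uu l ^ c}

lemma Stp_mul {S : Finset (Fin n)} {l : Fin n} {m k : ℕ} (i : ℕ) {f : LL n} (hf : f ∈ Stp S l m k) :
    xs S i * f ∈ Stp S l m (k + 1) := by
  unfold Stp at hf
  induction hf using Submodule.span_induction with
  | mem x hx =>
    obtain ⟨a, c, ha, hc, rfl⟩ := hx
    refine Submodule.subset_span ⟨i ::ₘ a, c, by simp [ha], hc, ?_⟩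
    rw [Multiset.map_cons, Multiset.prod_cons, mul_assoc]
  | zero => simp
  | add x y _ _ hx hy => rw [mul_add]; exact add_mem hx hy
  | smul r x _ hx => rw [mul_smul_comm]; exact Submodule.smul_mem _ _ hx

lemma step {S : Finset (Fin n)} {l : Fin n} (hl : l ∉ S) (k : ℕ) :
    ∀ (a : Multiset ℕ) (c : ℕ), a.card = k → c ≤ k + S.card →
      (a.map (xs S)).prod * uu l ^ c ∈ Stp (insert l S) l S.card k := by
  induction k with
  | zero =>
    intro a c ha hc
    rw [Multiset.card_eq_zero] at ha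
    subst ha
    exact Submodule.subset_span ⟨0, c, rfl, by simpa using hc, by simp⟩
  | succ k ih =>
    intro a c ha hc
    obtain ⟨i, a, rfl⟩ : ∃ i b, a = i ::ₘ b := by
      have : a ≠ 0 := by rintro rfl; simp at ha
      obtain ⟨i, hi⟩ := Multiset.exists_mem_of_ne_zero this
      exact ⟨i, _, (Multiset.cons_erase hi).symm⟩
    have ha' : a.card = k := by simpa using ha
    rw [Multiset.map_cons, Multiset.prod_cons]
    set p : LL n := (a.map (xs S)).prod with hp
    -- case A
    have hA : ∀ i c, c + i ≤ k + S.card → xs S i * (p * uu l ^ c) ∈ Stp (insert l S) l S.card (k + 1) := by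
      intro i
      induction i with
      | zero =>
        intro c hc
        have := Stp_mul 0 (ih a c ha' (by omega))
        rwa [xs_zero] at this ⊢
      | succ i ihi =>
        intro c hc
        have h1 := Stp_mul (i + 1) (ih a c ha' (by omega))
        have h2 := ihi (c + 1) (by omega)
        rw [xs_insert_succ hl] at h1
        have h3 := sub_mem h1 h2
        convert h3 using 1
        rw [pow_succ]; ring
    -- case B
    have hB : ∀ j i c, i + j = S.card + 1 → k + S.card < c + i → c ≤ k + 1 + S.card →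
        xs S i * (p * uu l ^ c) ∈ Stp (insert l S) l S.card (k + 1) := by
      intro j
      induction j with
      | zero =>
        intro i c h1 h2 h3
        rw [xs_gt S (by omega)]
        simp
      | succ j ihj =>
        intro i c h1 h2 h3
        obtain ⟨c, rfl⟩ : ∃ c', c = c' + 1 := ⟨c - 1, by omega⟩
        have h4 := Stp_mul (i + 1) (ih a c ha' (by omega))
        rw [xs_insert_succ hl] at h4
        have h5 := ihj (i + 1) c (by omega) (by omega) (by omega)
        have h6 := sub_mem h4 h5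
        convert h6 using 1
        rw [pow_succ]; ring
    rw [mul_assoc]
    by_cases hi : S.card < i
    · rw [xs_gt S hi]; simp
    by_cases h : c + i ≤ k + S.card
    · exact hA i c h
    · exact hB (S.card + 1 - i) i c (by omega) (by omega) (by omega)

lemma gen_aux (π : Fin n → ℕ) (m : ℕ) : ∀ S : Finset (Fin n), S.card = m →
    S.image π = Finset.range m → ∀ (k : ℕ) (j : Fin n → ℤ), (j, (k : ℤ)) ∈ stair S π k →
      mo j k ∈ Gen S π k := by
  induction m with
  | zero =>
    intro S hS _ k j hj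
    rw [Finset.card_eq_zero] at hS
    subst hS
    have hj0 : j = 0 := by
      funext l
      exact (hj.2 l).2 (by simp)
    subst hj0
    refine Submodule.subset_span ⟨Multiset.replicate k 0, 0, by simp, ?_, ?_⟩
    · exact ⟨by simp, fun l => by simp⟩
    · rw [Multiset.map_replicate, Multiset.prod_replicate, xs_zero, tau_pow, mo_mul]
      simp
  | succ m ih =>
    intro S hS himg k j hj
    obtain ⟨l, hlS, hπl⟩ : ∃ l ∈ S, π l = m := by
      have : m ∈ S.image π := by rw [himg]; simp
      simpa using this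
    have hinj : Set.InjOn π S := by
      rw [← Finset.card_image_iff, himg, hS]; simp
    set S' := S.erase l with hS'
    have hl : l ∉ S' := by simp [hS']
    have hins : insert l S' = S := Finset.insert_erase hlS
    have hcard : S'.card = m := by rw [hS', Finset.card_erase_of_mem hlS, hS]; rfl
    have himg' : S'.image π = Finset.range m := by
      ext x
      constructor
      · intro hx
        obtain ⟨y, hy, rfl⟩ := Finset.mem_image.1 hx
        have hyS : y ∈ S := Finset.mem_of_mem_erase hy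
        have h1 : π y ∈ S.image π := Finset.mem_image_of_mem _ hyS
        rw [himg, Finset.mem_range] at h1
        have h2 : π y ≠ m := by
          intro h
          have := hinj hyS hlS (h.trans hπl.symm)
          exact (Finset.ne_of_mem_erase hy) this
        rw [Finset.mem_range]; omega
      · intro hx
        have h1 : x ∈ S.image π := by rw [himg]; rw [Finset.mem_range] at hx ⊢; omega
        obtain ⟨y, hy, rfl⟩ := Finset.mem_image.1 h1
        refine Finset.mem_image_of_mem _ (Finset.mem_erase.2 ⟨?_, hy⟩)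
        rintro rfl
        rw [Finset.mem_range] at hx; omega
    -- split `j`
    obtain ⟨hj1, hj2⟩ := (hj.2 l).1 hlS
    obtain ⟨a, ha⟩ := Int.eq_ofNat_of_zero_le hj1
    replace ha : j l = a := ha
    have ha' : a ≤ k + m := by
      rw [hπl] at hj2
      have : (j l) ≤ (k : ℤ) + m := hj2
      omega
    set j' : Fin n → ℤ := Function.update j l 0 with hj'
    have hjj : j = j' + Pi.single l (a : ℤ) := by
      funext x
      by_cases hx : x = l
      · subst hx; simp [hj', ha]
      · simp [hj', hx]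
    have hj's : (j', (k : ℤ)) ∈ stair S' π k := by
      refine ⟨rfl, fun x => ⟨fun hx => ?_, fun hx => ?_⟩⟩
      · have hxl : x ≠ l := Finset.ne_of_mem_erase hx
        have := (hj.2 x).1 (Finset.mem_of_mem_erase hx)
        simpa [hj', hxl] using this
      · by_cases hxl : x = l
        · subst hxl; simp [hj']
        · have : x ∉ S := fun h => hx (Finset.mem_erase.2 ⟨hxl, h⟩)
          have := (hj.2 x).2 this
          simpa [hj', hxl] using this
    have key := ih S' hcard himg' k j' hj's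
    rw [hjj, ← mo_mul_uu_pow]
    generalize mo j' (k : ℤ) = f at key ⊢
    unfold Gen at key
    induction key using Submodule.span_induction with
    | mem x hx =>
      obtain ⟨A, b, hA, hb, rfl⟩ := hx
      have h1 := step hl k A a hA (by omega)
      rw [hins, hcard] at h1
      have h2 : (A.map (xs S')).prod * uu l ^ a * mo b 0 ∈ Gen S π k := by
        generalize (A.map (xs S')).prod * uu l ^ a = g at h1 ⊢
        unfold Stp at h1
        induction h1 using Submodule.span_induction with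
        | mem y hy =>
          obtain ⟨A', c, hA', hc, rfl⟩ := hy
          refine Submodule.subset_span ⟨A', b + Pi.single l (c : ℤ), hA', ?_, ?_⟩
          · refine ⟨by simp, fun x => ⟨fun hx => ?_, fun hx => ?_⟩⟩
            · by_cases hxl : x = l
              · subst hxl
                have : b x = 0 := (hb.2 x).2 hl
                simp only [Pi.add_apply, this, Pi.single_eq_same, zero_add]
                rw [hπl]
                constructor
                · positivity
                · push_cast; omega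
              · have := (hb.2 x).1 (Finset.mem_erase.2 ⟨hxl, hx⟩)
                simpa [hxl] using this
            · have hxl : x ≠ l := by rintro rfl; exact hx hlS
              have : b x = 0 := (hb.2 x).2 (fun h => hx (Finset.mem_of_mem_erase h))
              simp [hxl, this]
          · rw [mul_assoc, mul_comm (uu l ^ c), mo_mul_uu_pow]
        | zero => simp
        | add y z _ _ hy hz => rw [add_mul]; exact add_mem hy hz
        | smul r y _ hy => rw [smul_mul_assoc]; exact Submodule.smul_mem _ _ hy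
      convert h2 using 1
      ring
    | zero => simp
    | add y z _ _ hy hz => rw [add_mul]; exact add_mem hy hz
    | smul r y _ hy => rw [smul_mul_assoc]; exact Submodule.smul_mem _ _ hy

/-! ### The action of `Λ = ℤ[X_0..X_n]` -/

/-- `Λ = ℤ[X_0..X_n]`. -/
abbrev Lam (n : ℕ) := MvPolynomial (Fin (n + 1)) ℤ

/-- `X_i ↦ τ e_i(u)`. -/
noncomputable def ev : Lam n →ₐ[ℤ] LL n := MvPolynomial.aeval (fun i => xs univ i)

lemma ev_X (i : Fin (n + 1)) : ev (MvPolynomial.X i) = xs (univ : Finset (Fin n)) i := by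
  simp [ev]

/-- `LL n` is a `Λ`-algebra. -/
noncomputable instance algLL : Algebra (Lam n) (LL n) := (ev : Lam n →ₐ[ℤ] LL n).toRingHom.toAlgebra

lemma smul_def (c : Lam n) (f : LL n) : c • f = ev c * f := rfl

/-- a set of exponents stable under `(j,k) ↦ (1_A + j, k+1)` -/
def Stable (P : Set (Ex n)) : Prop := ∀ e ∈ P, ∀ A : Finset (Fin n), (ind A + e.1, e.2 + 1) ∈ P



/-! ### Freeness -/

variable (π : Fin n → ℕ)

/-- index set of the basis. -/
abbrev BB (π : Fin n → ℕ) := (l : Fin n) → Fin (π l + 1)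

variable {π}

/-- exponent of a basis element. -/
def bexp (b : BB π) : Fin n → ℤ := fun l => (b l : ℤ)

/-- `(c_b) ↦ ∑_b c_b u^b`. -/
noncomputable def Phi : (BB π → Lam n) →ₗ[Lam n] LL n :=
  ∑ b : BB π, (LinearMap.proj b : (BB π → Lam n) →ₗ[Lam n] Lam n).smulRight (mo (bexp b) 0)

lemma Phi_apply (c : BB π → Lam n) : Phi c = ∑ b, ev (c b) * mo (bexp b) 0 := by
  simp [Phi, smul_def]

/-- degree `k` part of the full staircase. -/
def st (π : Fin n → ℕ) (k : ℤ) : Set (Ex n) := {e | e.2 = k ∧ ∀ l, 0 ≤ e.1 l ∧ e.1 l ≤ k + π l}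

lemma st_eq (k : ℕ) : st π k = stair univ π k := by
  ext e; simp [st, stair]



lemma exists_hom (a : Multiset ℕ) : ∃ p : Lam n, p.IsHomogeneous a.card ∧
    ev p = (a.map (xs univ)).prod := by
  induction a using Multiset.induction_on with
  | empty => exact ⟨1, MvPolynomial.isHomogeneous_one _ _, by simp⟩
  | cons i a ih =>
    obtain ⟨p, hp, hev⟩ := ih
    by_cases hi : i < n + 1
    · refine ⟨MvPolynomial.X ⟨i, hi⟩ * p, ?_, ?_⟩
      · rw [Multiset.card_cons, add_comm a.card 1]
        exact (MvPolynomial.isHomogeneous_X _ _).mul hp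
      · rw [map_mul, ev_X, hev, Multiset.map_cons, Multiset.prod_cons]
    · refine ⟨0, MvPolynomial.isHomogeneous_zero _ _ _, ?_⟩
      rw [Multiset.map_cons, Multiset.prod_cons, xs_gt _ (by simpa using hi)]
      simp

lemma surj (hπ : (univ : Finset (Fin n)).image π = Finset.range n) {k : ℕ} {f : LL n}
    (hf : f ∈ Sub (st π k)) : ∃ c : BB π → Lam n, (∀ b, (c b).IsHomogeneous k) ∧ Phi c = f := by
  rw [Sub_eq_span] at hf
  induction hf using Submodule.span_induction with
  | mem x hx =>
    obtain ⟨e, he, rfl⟩ := hx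
    rw [st_eq] at he
    have hk : e.2 = k := he.1
    obtain ⟨j, k'⟩ := e
    dsimp only at hk
    subst hk
    have h := gen_aux π n univ (by simp) hπ k j he
    dsimp only
    generalize mo j (k : ℤ) = f at h ⊢
    unfold Gen at h
    induction h using Submodule.span_induction with
    | mem y hy =>
      obtain ⟨a, b, ha, hb, rfl⟩ := hy
      obtain ⟨p, hp, hev⟩ := exists_hom (n := n) a
      rw [ha] at hp
      have hb1 : ∀ l, 0 ≤ b l ∧ b l ≤ π l := fun l => by
        simpa using (hb.2 l).1 (mem_univ l)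
      let b' : BB π := fun l => ⟨(b l).toNat, by have := hb1 l; omega⟩
      have hb' : bexp b' = b := by
        funext l
        simp only [bexp, b']
        have := hb1 l
        omega
      refine ⟨Pi.single b' p, fun b => ?_, ?_⟩
      · by_cases h : b = b'
        · subst h; simpa using hp
        · simp only [Pi.single_eq_of_ne h]; exact MvPolynomial.isHomogeneous_zero _ _ _
      · rw [Phi_apply, Finset.sum_eq_single b']
        · simp [hb', hev]
        · intro b _ h; simp [Pi.single_eq_of_ne h]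
        · intro h; exact absurd (mem_univ _) h
    | zero => exact ⟨0, fun b => MvPolynomial.isHomogeneous_zero _ _ _, by simp⟩
    | add y z _ _ hy hz =>
      obtain ⟨c, hc, rfl⟩ := hy
      obtain ⟨c', hc', rfl⟩ := hz
      exact ⟨c + c', fun b => (hc b).add (hc' b), by simp⟩
    | smul r y _ hy =>
      obtain ⟨c, hc, rfl⟩ := hy
      refine ⟨r • c, fun b => ?_, map_zsmul (Phi (π := π)) r c⟩
      exact Submodule.smul_mem (MvPolynomial.homogeneousSubmodule _ _ _) r (hc b)
  | zero => exact ⟨0, fun b => MvPolynomial.isHomogeneous_zero _ _ _, by simp⟩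
  | add y z _ _ hy hz =>
    obtain ⟨c, hc, rfl⟩ := hy
    obtain ⟨c', hc', rfl⟩ := hz
    exact ⟨c + c', fun b => (hc b).add (hc' b), by simp⟩
  | smul r y _ hy =>
    obtain ⟨c, hc, rfl⟩ := hy
    refine ⟨r • c, fun b => ?_, map_zsmul (Phi (π := π)) r c⟩
    exact Submodule.smul_mem (MvPolynomial.homogeneousSubmodule _ _ _) r (hc b)


/-! ### Injectivity by counting -/

lemma prod_eq (hπ : (univ : Finset (Fin n)).image π = Finset.range n) (f : ℕ → ℕ) :
    ∏ l, f (π l) = ∏ i ∈ Finset.range n, f i := by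
  have hinj : Set.InjOn π (univ : Finset (Fin n)) := by
    rw [← Finset.card_image_iff, hπ]; simp
  rw [← hπ, Finset.prod_image hinj]

/-- exponents of degree `k` -/
noncomputable def stEquiv (k : ℕ) : st π (k : ℤ) ≃ ((l : Fin n) → Fin (k + π l + 1)) where
  toFun e := fun l => ⟨(e.1.1 l).toNat, by have := e.2.2 l; omega⟩
  invFun b := ⟨(fun l => (b l : ℤ), k), rfl, fun l => by
    have := (b l).2
    dsimp only
    constructor <;> omega⟩
  left_inv := by
    rintro ⟨⟨j, k'⟩, h1, h2⟩
    dsimp only at h1 h2 ⊢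
    subst h1
    congr 1
    congr 1
    funext l
    have := h2 l
    omega
  right_inv := by
    intro b
    funext l
    apply Fin.ext
    simp

noncomputable instance (k : ℕ) : Fintype (st π (k : ℤ)) := Fintype.ofEquiv _ (stEquiv k).symm


lemma card_BB (hπ : (univ : Finset (Fin n)).image π = Finset.range n) :
    Fintype.card (BB π) = n.factorial := by
  rw [Fintype.card_pi]
  simp only [Fintype.card_fin]
  rw [prod_eq hπ (fun i => i + 1), Finset.prod_range_add_one_eq_factorial]

/-- exponents of degree `k` in `n+1` variables -/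
noncomputable def degEquiv (k : ℕ) : {d : Fin (n + 1) →₀ ℕ | d.degree = k} ≃
    (Finset.finsuppAntidiag (univ : Finset (Fin (n + 1))) k) :=
  Equiv.subtypeEquivRight fun d => by
    simp [Finset.mem_finsuppAntidiag, Finsupp.degree_eq_sum]

noncomputable instance (k : ℕ) : Fintype {d : Fin (n + 1) →₀ ℕ | d.degree = k} :=
  Fintype.ofEquiv _ (degEquiv k).symm


/-- homogeneous polynomials of degree `k` are free. -/
noncomputable def homEquiv (k : ℕ) : MvPolynomial.homogeneousSubmodule (Fin (n + 1)) ℤ k ≃ₗ[ℤ]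
    ({d : Fin (n + 1) →₀ ℕ | d.degree = k} →₀ ℤ) :=
  (LinearEquiv.ofEq _ _ (MvPolynomial.homogeneousSubmodule_eq_finsupp_supported _ _ _)).trans
    (AddMonoidAlgebra.supportedEquivFinsupp _)

noncomputable def SubEquiv (P : Set (Ex n)) : Sub P ≃ₗ[ℤ] (P →₀ ℤ) :=
  AddMonoidAlgebra.supportedEquivFinsupp _

instance (P : Set (Ex n)) : Module.Free ℤ (Sub P) := Module.Free.of_equiv (SubEquiv P).symm

instance (k : ℕ) : Module.Finite ℤ (Sub (st π (k : ℤ))) :=
  Module.Finite.equiv (SubEquiv _).symm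

instance (k : ℕ) : Module.Free ℤ (MvPolynomial.homogeneousSubmodule (Fin (n + 1)) ℤ k) :=
  Module.Free.of_equiv (homEquiv k).symm

instance (k : ℕ) : Module.Finite ℤ (MvPolynomial.homogeneousSubmodule (Fin (n + 1)) ℤ k) :=
  Module.Finite.equiv (homEquiv k).symm






/-! ### Injectivity of `Phi` -/











/-! ### Charts and unit ideals (C2) -/

/-- charts of `P^1`: `s` a unit, `t` a unit, both units. -/
inductive Ch : Type
  | s | t | st
  deriving DecidableEq

instance : Fintype Ch := ⟨{Ch.s, Ch.t, Ch.st}, by intro x; cases x <;> simp⟩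

/-- the exponents (of degree `-1`) allowed for the coefficients of a unit relation. -/
def unitSet (σ : Fin n → Ch) (S : Finset (Fin n)) : Set (Ex n) :=
  {e | e.2 = -1 ∧ ∀ l, (l ∈ S → (σ l = Ch.s → 0 ≤ e.1 l) ∧ (σ l = Ch.t → e.1 l ≤ -1)) ∧
    (l ∉ S → e.1 l = 0)}

/-- `∑_{i ≤ |S|} X_i g_i` with `g_i ∈ Sub P`. -/
def Jd (S : Finset (Fin n)) (P : Set (Ex n)) : Submodule ℤ (LL n) where
  carrier := {x | ∃ g : ℕ → LL n, (∀ i, g i ∈ Sub P) ∧ x = ∑ i ∈ Finset.range (S.card + 1), xs S i * g i}
  add_mem' := by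
    rintro x y ⟨g, hg, rfl⟩ ⟨g', hg', rfl⟩
    exact ⟨g + g', fun i => add_mem (hg i) (hg' i), by
      simp [mul_add, Finset.sum_add_distrib]⟩
  zero_mem' := ⟨0, fun i => zero_mem _, by simp⟩
  smul_mem' := by
    rintro r x ⟨g, hg, rfl⟩
    exact ⟨r • g, fun i => Submodule.smul_mem _ r (hg i), by
      rw [Finset.smul_sum]; exact Finset.sum_congr rfl fun i _ => by
        rw [Pi.smul_apply, mul_smul_comm]⟩

lemma Jd_mem {S : Finset (Fin n)} {P : Set (Ex n)} (i : ℕ) {f : LL n} (hf : f ∈ Sub P) :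
    xs S i * f ∈ Jd S P := by
  by_cases hi : i ≤ S.card
  · refine ⟨Pi.single i f, fun j => ?_, ?_⟩
    · by_cases h : j = i
      · subst h; simpa using hf
      · rw [Pi.single_eq_of_ne h]; exact zero_mem _
    · rw [Finset.sum_eq_single i]
      · simp
      · intro j _ h; simp [Pi.single_eq_of_ne h]
      · intro h; exact absurd (Finset.mem_range.2 (by omega)) h
  · rw [xs_gt S (by omega), zero_mul]; exact zero_mem _

lemma Jd_mono {S : Finset (Fin n)} {P P' : Set (Ex n)} (h : P ⊆ P') : Jd S P ≤ Jd S P' := by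
  rintro x ⟨g, hg, rfl⟩
  exact ⟨g, fun i => AddMonoidAlgebra.supported_mono h (hg i), rfl⟩

lemma unit_aux (σ : Fin n → Ch) (S : Finset (Fin n)) : (1 : LL n) ∈ Jd S (unitSet σ S) := by
  induction S using Finset.induction_on with
  | empty =>
    have h : (1 : LL n) = xs ∅ 0 * mo 0 (-1) := by
      rw [xs_zero, tau, mo_mul, ← mo_zero]; simp
    rw [h]
    exact Jd_mem 0 (mo_mem ⟨rfl, fun l => ⟨fun h => by simp at h, fun _ => rfl⟩⟩)
  | insert l S hl ih =>
    obtain ⟨g, hg, h1⟩ := ih
    rw [h1]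
    refine Submodule.sum_mem _ fun i hi => ?_
    rw [Finset.mem_range] at hi
    by_cases hs : σ l = Ch.t
    · -- `t`-chart
      set P : Set (Ex n) := {e | e.2 = -1 ∧ ∀ x, (x ∈ S → (σ x = Ch.s → 0 ≤ e.1 x) ∧
        (σ x = Ch.t → e.1 x ≤ -1)) ∧ (x ∉ S → x ≠ l → e.1 x = 0) ∧ (x = l → e.1 x ≤ 0)} with hP
      have hg' : g i ∈ Sub P := by
        refine AddMonoidAlgebra.supported_mono ?_ (hg i)
        intro e he
        refine ⟨he.1, fun x => ⟨(he.2 x).1, fun hx _ => (he.2 x).2 hx, ?_⟩⟩
        rintro rfl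
        rw [(he.2 x).2 hl]
      have key : ∀ j i, i + j = S.card + 1 → ∀ f ∈ Sub P,
          xs S i * f ∈ Jd (insert l S) (unitSet σ (insert l S)) := by
        intro j
        induction j with
        | zero =>
          intro i hi f _
          rw [xs_gt S (by omega), zero_mul]; exact zero_mem _
        | succ j ihj =>
          intro i hi f hf
          have h2 : mo (-Pi.single l 1) 0 * f ∈ Sub (unitSet σ (insert l S)) := by
            refine mo_mul_mem (fun e he => ?_) hf
            refine ⟨by simpa using he.1, fun x => ⟨fun hx => ?_, fun hx => ?_⟩⟩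
            · by_cases hxl : x = l
              · subst hxl
                have := (he.2 x).2.2 rfl
                refine ⟨fun h => ?_, fun _ => ?_⟩
                · rw [hs] at h; exact absurd h (by decide)
                · simp only [Pi.add_apply, Pi.neg_apply, Pi.single_eq_same]; omega
              · have hxS : x ∈ S := by
                  rw [Finset.mem_insert] at hx
                  exact hx.resolve_left hxl
                simpa [hxl] using (he.2 x).1 hxS
            · rw [Finset.mem_insert, not_or] at hx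
              simpa [hx.1] using (he.2 x).2.1 hx.2 hx.1
          have h2' : mo (-Pi.single l 1) 0 * f ∈ Sub P := by
            refine mo_mul_mem (fun e he => ?_) hf
            refine ⟨by simpa using he.1, fun x => ⟨fun hx => ?_, fun hx hxl => ?_, ?_⟩⟩
            · have hxl : x ≠ l := by rintro rfl; exact hl hx
              simpa [hxl] using (he.2 x).1 hx
            · simpa [hxl] using (he.2 x).2.1 hx hxl
            · rintro rfl
              have := (he.2 x).2.2 rfl
              simp only [Pi.add_apply, Pi.neg_apply, Pi.single_eq_same]; omega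
          have h3 := Jd_mem (S := insert l S) (i + 1) h2
          have h4 := ihj (i + 1) (by omega) _ h2'
          have h5 := sub_mem h3 h4
          convert h5 using 1
          rw [xs_insert_succ hl]
          have h6 : uu l * mo (-Pi.single l 1) 0 = 1 := by
            rw [uu, mo_mul, ← mo_zero]; simp
          linear_combination (-(xs S i * f)) * h6
      exact key (S.card + 1 - i) i (by omega) _ hg'
    · -- `s`-chart (or `st`)
      set P : Set (Ex n) := {e | e.2 = -1 ∧ ∀ x, (x ∈ S → (σ x = Ch.s → 0 ≤ e.1 x) ∧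
        (σ x = Ch.t → e.1 x ≤ -1)) ∧ (x ∉ S → x ≠ l → e.1 x = 0) ∧ (x = l → 0 ≤ e.1 x)} with hP
      have hPsub : P ⊆ unitSet σ (insert l S) := by
        intro e he
        refine ⟨he.1, fun x => ⟨fun hx => ?_, fun hx => ?_⟩⟩
        · by_cases hxl : x = l
          · subst hxl
            exact ⟨fun _ => (he.2 x).2.2 rfl, fun h => absurd h hs⟩
          · rw [Finset.mem_insert] at hx
            exact (he.2 x).1 (hx.resolve_left hxl)
        · rw [Finset.mem_insert, not_or] at hx
          exact (he.2 x).2.1 hx.2 hx.1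
      have hg' : g i ∈ Sub P := by
        refine AddMonoidAlgebra.supported_mono ?_ (hg i)
        intro e he
        refine ⟨he.1, fun x => ⟨(he.2 x).1, fun hx _ => (he.2 x).2 hx, ?_⟩⟩
        rintro rfl
        rw [(he.2 x).2 hl]
      have key : ∀ i, ∀ f ∈ Sub P, xs S i * f ∈ Jd (insert l S) (unitSet σ (insert l S)) := by
        intro i
        induction i with
        | zero =>
          intro f hf
          rw [xs_zero, ← xs_zero (insert l S)]
          exact Jd_mono hPsub (Jd_mem 0 hf)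
        | succ i ihi =>
          intro f hf
          have h2 : uu l * f ∈ Sub P := by
            refine mo_mul_mem (fun e he => ?_) hf
            refine ⟨by simpa using he.1, fun x => ⟨fun hx => ?_, fun hx hxl => ?_, ?_⟩⟩
            · have hxl : x ≠ l := by rintro rfl; exact hl hx
              simpa [hxl] using (he.2 x).1 hx
            · simpa [hxl] using (he.2 x).2.1 hx hxl
            · rintro rfl
              have := (he.2 x).2.2 rfl
              simp only [Pi.add_apply, Pi.single_eq_same]; omega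
          have h3 := Jd_mono hPsub (Jd_mem (S := insert l S) (i + 1) hf)
          have h4 := ihi _ h2
          have h5 := sub_mem h3 h4
          convert h5 using 1
          rw [xs_insert_succ hl]
          ring
      exact key i _ hg'

/-- **(C2)** on every chart `X_0..X_n` generate the unit ideal, with coefficients of degree `-1`. -/
theorem unit_chart (σ : Fin n → Ch) : ∃ g : Fin (n + 1) → LL n,
    (∀ i, g i ∈ Sub {e : Ex n | e.2 = -1 ∧ ∀ l, (σ l = Ch.s → 0 ≤ e.1 l) ∧ (σ l = Ch.t → e.1 l ≤ -1)}) ∧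
    ∑ i, ev (MvPolynomial.X i) * g i = 1 := by
  obtain ⟨g, hg, h⟩ := unit_aux σ univ
  refine ⟨fun i => g i, fun i => ?_, ?_⟩
  · refine AddMonoidAlgebra.supported_mono ?_ (hg i)
    intro e he
    exact ⟨he.1, fun l => (he.2 l).1 (mem_univ l)⟩
  · rw [h]
    simp only [Finset.card_univ, Fintype.card_fin, ev_X]
    rw [Finset.sum_range (fun i => xs univ i * g i)]

end Crest.Agent.R183.KF
end

-- ▼ part R183/KPkg

set_option autoImplicit false

namespace Crest.Agent.R183.KF

open scoped ENNReal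

universe u v

variable {n : ℕ}

/-- number of roots above `k`. -/
def Jd0 (ρ : Fin n → ℤ) (k : ℤ) : ℤ := ((Finset.univ.filter fun l => k < ρ l).card : ℤ)

/-- `|∏ (k - ρ_l)|`. -/
def rk (ρ : Fin n → ℤ) (k : ℤ) : ℕ := ∏ l, (k - ρ l).natAbs

/-- The Čech package: all that the total complex needs to know about the Čech complexes
`⨁_k RΓ((P^1)^n, O(k-1-ρ_1,..,k-1-ρ_n)) ⊗_Λ W`.
`V` = cochains, `δ` = Čech differential, `FF ρ k j` = cochains of cohomological degree `j`, of
internal degree `≥ k` modulo the relations; `ZZ ρ j` = the relations. -/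
structure Pkg {A : Type u} [CommRing A] (Λ : AddLen.{u, v} A) (W : Type v) [AddCommGroup W]
    [Module A W] (X : Fin (n + 1) → A) (V : Type v) [AddCommGroup V] [Module A V]
    (δ : V →ₗ[A] V) (FF : (Fin n → ℤ) → ℤ → ℤ → Submodule A V)
    (ZZ : (Fin n → ℤ) → ℤ → Submodule A V) : Prop where
  δδ : δ ∘ₗ δ = 0
  δFF : ∀ ρ k j, (FF ρ k j).map δ ≤ FF ρ k (j + 1)
  δZZ : ∀ ρ j, (ZZ ρ j).map δ ≤ ZZ ρ (j + 1)
  anti : ∀ ρ k j, FF ρ (k + 1) j ≤ FF ρ k j
  ZZ_le : ∀ ρ k j, ZZ ρ j ≤ FF ρ k j
  neg : ∀ ρ k j, j < 0 → FF ρ k j = ⊥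
  gt : ∀ ρ k j, (n : ℤ) < j → FF ρ k j = ⊥
  /-- elements of `A` mapping `W` into `(X)^N W` raise the internal degree by `N` -/
  raise : ∀ (r : A) (N : ℕ), (∀ w : W, r • w ∈ (Ideal.span (Set.range X)) ^ N • (⊤ : Submodule A W)) →
    ∀ ρ k j, ∀ y ∈ FF ρ k j, r • y ∈ FF ρ (k + N) j
  /-- graded pieces are exact outside the degree `J` -/
  piece_null : ∀ ρ k j, j ≠ Jd0 ρ k → ∀ y ∈ FF ρ k j, δ y ∈ FF ρ (k + 1) (j + 1) →
    ∃ y' ∈ FF ρ k (j - 1), y - δ y' ∈ FF ρ (k + 1) j
  /-- and have the homology `(W/XW)^r` in the degree `J` -/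
  piece_len : ∀ ρ k, Λ.rel ((FF ρ k (Jd0 ρ k - 1)).map δ ⊔ FF ρ (k + 1) (Jd0 ρ k))
      (FF ρ k (Jd0 ρ k) ⊓ (FF ρ (k + 1) (Jd0 ρ k + 1)).comap δ) =
    rk ρ k * Λ.L (W ⧸ ((Ideal.span (Set.range X)) • (⊤ : Submodule A W)))
  /-- unit ideal on the charts (the `c ν` do NOT commute with `δ`) -/
  contr : ∀ N' : ℕ, ∃ (M' : ℕ) (c : Fin (n + 1) → V →ₗ[A] V), ∀ ρ,
    (∀ ν k j, (FF ρ k j).map (c ν) ≤ FF ρ (k - M') j) ∧ (∀ ν j, (ZZ ρ j).map (c ν) ≤ ZZ ρ j) ∧
    (∀ k j, ∀ y ∈ FF ρ k j, (∑ ν, c ν (X ν ^ N' • y)) - y ∈ ZZ ρ j)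
  /-- affinity in the root `ρ_l` -/
  aff : ∀ l : Fin n, ∃ U : V →ₗ[A] V, U ∘ₗ δ = δ ∘ₗ U ∧ ∀ ρ ρ1 ρ2 : Fin n → ℤ,
    ρ1 = Function.update ρ l (ρ l + 1) → ρ2 = Function.update ρ l (ρ l + 2) →
    (∀ k j, FF ρ1 k j ≤ FF ρ k j) ∧ (∀ j, ZZ ρ1 j ≤ ZZ ρ j) ∧
    (∀ k j, (FF ρ1 k j).map U ≤ FF ρ k j) ∧ (∀ j, (ZZ ρ1 j).map U ≤ ZZ ρ j) ∧
    (∀ k j, ∀ w ∈ FF ρ k j, ∃ x ∈ FF ρ1 k j, ∃ y ∈ FF ρ1 k j, w - (x + U y) ∈ ZZ ρ j) ∧
    (∀ k j, ∀ x ∈ FF ρ1 k j, ∀ y ∈ FF ρ1 k j, x + U y ∈ ZZ ρ j →
      ∃ z ∈ FF ρ2 k j, x - U z ∈ ZZ ρ1 j ∧ y + z ∈ ZZ ρ1 j) ∧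
    (∀ k j, ∀ z ∈ FF ρ2 k j, U z ∈ ZZ ρ1 j → z ∈ ZZ ρ1 j → z ∈ ZZ ρ2 j)
  /-- shift of all roots -/
  shift : ∃ T T' : V →ₗ[A] V, T ∘ₗ δ = δ ∘ₗ T ∧ T' ∘ₗ δ = δ ∘ₗ T' ∧ T ∘ₗ T' = LinearMap.id ∧
    T' ∘ₗ T = LinearMap.id ∧ (∀ ρ k j, (FF ρ k j).map T = FF (fun l => ρ l + 1) (k + 1) j) ∧
    (∀ ρ j, (ZZ ρ j).map T = ZZ (fun l => ρ l + 1) j)
  /-- staircases -/
  stair : ∀ σ : Equiv.Perm (Fin n), ∃ ψ : (Fin n.factorial → W) →ₗ[A] V, ∀ ρ : Fin n → ℤ,
    (∀ l, ρ l = -((σ l : ℕ) : ℤ) - 1) → (∀ w, ψ w ∈ FF ρ 0 0) ∧ (∀ w, δ (ψ w) = 0) ∧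
    (∀ k : ℤ, 0 ≤ k → ∀ y ∈ FF ρ k 0, δ y ∈ FF ρ (k + 1) 1 → ∃ w, y - ψ w ∈ FF ρ (k + 1) 0)

end Crest.Agent.R183.KF
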