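import Crest.Agent.R183.Res2
import Crest.Agent.R183.Lam2

/-!
# R183 (Lech), block [4]: null-homotopies, base change, the null filter of a tower
-/

set_option autoImplicit false

namespace Crest.Agent.R183.Res

universe u v w

section NHom

variable {A : Type u} [CommRing A]

/-- `x` is null-homotopic on `C`. -/
def MCx.NHom (C : MCx A) (x : A) : Prop :=
  ∃ s : ∀ n, Matrix (C.ι (n + 1)) (C.ι n) A,
    C.d 0 * s 0 = x • (1 : Matrix (C.ι 0) (C.ι 0) A) ∧
    ∀ n, C.d (n + 1) * s (n + 1) + s n * C.d n = x • (1 : Matrix (C.ι (n + 1)) (C.ι (n + 1)) A)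

theorem MCx.NHom.zero (C : MCx A) : C.NHom 0 := ⟨fun _ => 0, by simp, by simp⟩

theorem MCx.NHom.add {C : MCx A} {x y : A} (hx : C.NHom x) (hy : C.NHom y) : C.NHom (x + y) := by
  obtain ⟨s, hs0, hs⟩ := hx
  obtain ⟨t, ht0, ht⟩ := hy
  refine ⟨fun n => s n + t n, ?_, ?_⟩
  · rw [Matrix.mul_add, hs0, ht0, add_smul]
  · intro n
    rw [Matrix.mul_add, Matrix.add_mul, add_smul, ← hs n, ← ht n]
    abel

theorem MCx.NHom.smul {C : MCx A} {x : A} (r : A) (hx : C.NHom x) : C.NHom (r * x) := by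
  obtain ⟨s, hs0, hs⟩ := hx
  refine ⟨fun n => r • s n, ?_, ?_⟩
  · rw [Matrix.mul_smul, hs0, smul_smul]
  · intro n
    rw [Matrix.mul_smul, Matrix.smul_mul, ← smul_add, hs n, smul_smul]

/-- The ideal of null-homotopic elements. -/
def MCx.nhI (C : MCx A) : Ideal A where
  carrier := {x | C.NHom x}
  zero_mem' := MCx.NHom.zero C
  add_mem' := fun hx hy => hx.add hy
  smul_mem' := fun r _ hx => hx.smul r

@[simp] theorem MCx.mem_nhI {C : MCx A} {x : A} : x ∈ C.nhI ↔ C.NHom x := Iff.rfl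

theorem MCx.NHom.kill {C : MCx A} {x : A} (hx : C.NHom x) (M : Type v) [AddCommGroup M]
    [Module A M] (n : ℕ) {v : C.ι n → M} (hv : v ∈ C.cycM M n) : x • v ∈ C.bdyM M n := by
  obtain ⟨s, hs0, hs⟩ := hx
  cases n with
  | zero =>
    refine ⟨act M (s 0) v, ?_⟩
    show act M (C.d 0) (act M (s 0) v) = x • v
    rw [← act_mul, hs0, act_smul_one]
  | succ k =>
    refine ⟨act M (s (k + 1)) v, ?_⟩
    show act M (C.d (k + 1)) (act M (s (k + 1)) v) = x • v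
    have h0 : act M (C.d k) v = 0 := hv
    have h1 := hs k
    rw [← act_smul_one x v, ← h1, act_add, act_mul, act_mul, h0, map_zero, add_zero]

/-- The homotopies of the cone. -/
def coneS (C : MCx A) (s : ∀ n, Matrix (C.ι (n + 1)) (C.ι n) A) :
    ∀ n, Matrix (coneι C.ι (n + 1)) (coneι C.ι n) A
  | 0 => Matrix.fromRows (s 0) 0
  | (n + 1) => Matrix.fromBlocks (s (n + 1)) 0 0 (- s n)

/-- The homotopies of the cone for the element itself. -/
def coneT (C : MCx A) : ∀ n, Matrix (coneι C.ι (n + 1)) (coneι C.ι n) A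
  | 0 => Matrix.fromRows (0 : Matrix (C.ι 1) (C.ι 0) A) (1 : Matrix (C.ι 0) (C.ι 0) A)
  | (n + 1) => Matrix.fromBlocks (0 : Matrix (C.ι (n + 2)) (C.ι (n + 1)) A)
      (0 : Matrix (C.ι (n + 2)) (C.ι n) A) (1 : Matrix (C.ι (n + 1)) (C.ι (n + 1)) A)
      (0 : Matrix (C.ι (n + 1)) (C.ι n) A)

theorem MCx.NHom.cone {C : MCx A} {x : A} (hx : C.NHom x) (y : A) : (C.cone y).NHom x := by
  obtain ⟨s, hs0, hs⟩ := hx
  refine ⟨coneS C s, ?_, ?_⟩
  · show (Matrix.fromCols (C.d 0) (y • (1 : Matrix (C.ι 0) (C.ι 0) A)) :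
      Matrix (C.ι 0) (C.ι 1 ⊕ C.ι 0) A) * (Matrix.fromRows (s 0) 0 :
      Matrix (C.ι 1 ⊕ C.ι 0) (C.ι 0) A) = x • (1 : Matrix (C.ι 0) (C.ι 0) A)
    rw [Matrix.fromCols_mul_fromRows, Matrix.mul_zero, add_zero, hs0]
  · intro n
    cases n with
    | zero =>
      show (Matrix.fromBlocks (C.d 1) (y • (1 : Matrix (C.ι 1) (C.ι 1) A)) 0 (- C.d 0) :
        Matrix (C.ι 1 ⊕ C.ι 0) (C.ι 2 ⊕ C.ι 1) A) *
        (Matrix.fromBlocks (s 1) 0 0 (- s 0) : Matrix (C.ι 2 ⊕ C.ι 1) (C.ι 1 ⊕ C.ι 0) A) +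
        (Matrix.fromRows (s 0) 0 : Matrix (C.ι 1 ⊕ C.ι 0) (C.ι 0) A) *
        (Matrix.fromCols (C.d 0) (y • (1 : Matrix (C.ι 0) (C.ι 0) A)) :
          Matrix (C.ι 0) (C.ι 1 ⊕ C.ι 0) A) =
        x • (1 : Matrix (C.ι 1 ⊕ C.ι 0) (C.ι 1 ⊕ C.ι 0) A)
      rw [Matrix.fromBlocks_multiply, Matrix.fromRows_mul_fromCols, Matrix.fromBlocks_add,
        ← Matrix.fromBlocks_one, Matrix.fromBlocks_smul]
      congr 1
      · simpa using hs 0
      · simp
      · simp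
      · simpa using hs0
    | succ k =>
      show (Matrix.fromBlocks (C.d (k + 2)) (y • (1 : Matrix (C.ι (k + 2)) (C.ι (k + 2)) A)) 0
          (- C.d (k + 1)) :
        Matrix (C.ι (k + 2) ⊕ C.ι (k + 1)) (C.ι (k + 3) ⊕ C.ι (k + 2)) A) *
        (Matrix.fromBlocks (s (k + 2)) 0 0 (- s (k + 1)) :
          Matrix (C.ι (k + 3) ⊕ C.ι (k + 2)) (C.ι (k + 2) ⊕ C.ι (k + 1)) A) +
        (Matrix.fromBlocks (s (k + 1)) 0 0 (- s k) :
          Matrix (C.ι (k + 2) ⊕ C.ι (k + 1)) (C.ι (k + 1) ⊕ C.ι k) A) *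
        (Matrix.fromBlocks (C.d (k + 1)) (y • (1 : Matrix (C.ι (k + 1)) (C.ι (k + 1)) A)) 0
          (- C.d k) : Matrix (C.ι (k + 1) ⊕ C.ι k) (C.ι (k + 2) ⊕ C.ι (k + 1)) A) =
        x • (1 : Matrix (C.ι (k + 2) ⊕ C.ι (k + 1)) (C.ι (k + 2) ⊕ C.ι (k + 1)) A)
      rw [Matrix.fromBlocks_multiply, Matrix.fromBlocks_multiply, Matrix.fromBlocks_add,
        ← Matrix.fromBlocks_one, Matrix.fromBlocks_smul]
      congr 1
      · simpa using hs (k + 1)
      · simp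
      · simp
      · simpa using hs k

theorem MCx.NHom.cone_self (C : MCx A) (y : A) : (C.cone y).NHom y := by
  refine ⟨coneT C, ?_, ?_⟩
  · show (Matrix.fromCols (C.d 0) (y • (1 : Matrix (C.ι 0) (C.ι 0) A)) :
      Matrix (C.ι 0) (C.ι 1 ⊕ C.ι 0) A) * (Matrix.fromRows 0 1 :
      Matrix (C.ι 1 ⊕ C.ι 0) (C.ι 0) A) = y • (1 : Matrix (C.ι 0) (C.ι 0) A)
    rw [Matrix.fromCols_mul_fromRows, Matrix.mul_zero, zero_add, Matrix.mul_one]
  · intro n
    cases n with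
    | zero =>
      show (Matrix.fromBlocks (C.d 1) (y • (1 : Matrix (C.ι 1) (C.ι 1) A)) 0 (- C.d 0) :
        Matrix (C.ι 1 ⊕ C.ι 0) (C.ι 2 ⊕ C.ι 1) A) *
        (Matrix.fromBlocks 0 0 1 0 : Matrix (C.ι 2 ⊕ C.ι 1) (C.ι 1 ⊕ C.ι 0) A) +
        (Matrix.fromRows 0 1 : Matrix (C.ι 1 ⊕ C.ι 0) (C.ι 0) A) *
        (Matrix.fromCols (C.d 0) (y • (1 : Matrix (C.ι 0) (C.ι 0) A)) :
          Matrix (C.ι 0) (C.ι 1 ⊕ C.ι 0) A) =
        y • (1 : Matrix (C.ι 1 ⊕ C.ι 0) (C.ι 1 ⊕ C.ι 0) A)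
      rw [Matrix.fromBlocks_multiply, Matrix.fromRows_mul_fromCols, Matrix.fromBlocks_add,
        ← Matrix.fromBlocks_one, Matrix.fromBlocks_smul]
      congr 1 <;> simp
    | succ k =>
      show (Matrix.fromBlocks (C.d (k + 2)) (y • (1 : Matrix (C.ι (k + 2)) (C.ι (k + 2)) A)) 0
          (- C.d (k + 1)) :
        Matrix (C.ι (k + 2) ⊕ C.ι (k + 1)) (C.ι (k + 3) ⊕ C.ι (k + 2)) A) *
        (Matrix.fromBlocks 0 0 1 0 :
          Matrix (C.ι (k + 3) ⊕ C.ι (k + 2)) (C.ι (k + 2) ⊕ C.ι (k + 1)) A) +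
        (Matrix.fromBlocks 0 0 1 0 :
          Matrix (C.ι (k + 2) ⊕ C.ι (k + 1)) (C.ι (k + 1) ⊕ C.ι k) A) *
        (Matrix.fromBlocks (C.d (k + 1)) (y • (1 : Matrix (C.ι (k + 1)) (C.ι (k + 1)) A)) 0
          (- C.d k) : Matrix (C.ι (k + 1) ⊕ C.ι k) (C.ι (k + 2) ⊕ C.ι (k + 1)) A) =
        y • (1 : Matrix (C.ι (k + 2) ⊕ C.ι (k + 1)) (C.ι (k + 2) ⊕ C.ι (k + 1)) A)
      rw [Matrix.fromBlocks_multiply, Matrix.fromBlocks_multiply, Matrix.fromBlocks_add,
        ← Matrix.fromBlocks_one, Matrix.fromBlocks_smul]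
      congr 1 <;> simp

theorem MCx.nhI_cones (C : MCx A) : ∀ (l : List A), C.nhI ⊔ Ideal.span {x | x ∈ l} ≤ (C.cones l).nhI
  | [] => by
    simp [MCx.cones]
  | (x :: l) => by
    have ih := MCx.nhI_cones C l
    have h1 : (C.cones l).nhI ≤ (C.cones (x :: l)).nhI := fun y hy => hy.cone x
    refine sup_le (le_trans (le_sup_left.trans ih) h1) ?_
    rw [Ideal.span_le]
    intro y hy
    rcases List.mem_cons.mp hy with rfl | hy
    · exact MCx.NHom.cone_self _ _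
    · exact h1 (ih (Ideal.mem_sup_right (Ideal.subset_span hy)))

end NHom

/-! ## Base change -/

section Map

variable {A : Type u} [CommRing A] {B : Type v} [CommRing B]

/-- Base change of a matrix complex. -/
def MCx.map (C : MCx A) (φ : A →+* B) : MCx B where
  ι := C.ι
  fin := C.fin
  dec := C.dec
  d := fun n => (C.d n).map φ
  dd := by
    intro n
    rw [← Matrix.map_mul, C.dd]
    simp

@[simp] theorem MCx.map_d (C : MCx A) (φ : A →+* B) (n : ℕ) : (C.map φ).d n = (C.d n).map φ := rfl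

theorem MCx.EntriesIn.map {C : MCx A} {I : Ideal A} (h : C.EntriesIn I) (φ : A →+* B) {J : Ideal B}
    (hIJ : ∀ x ∈ I, φ x ∈ J) : (C.map φ).EntriesIn J := by
  intro n a b
  exact hIJ _ (h n a b)

theorem MCx.Len.map {C : MCx A} {D : ℕ} (h : C.Len D) (φ : A →+* B) : (C.map φ).Len D := h

theorem MCx.NHom.map {C : MCx A} {x : A} (hx : C.NHom x) (φ : A →+* B) : (C.map φ).NHom (φ x) := by
  obtain ⟨s, hs0, hs⟩ := hx
  refine ⟨fun n => (s n).map φ, ?_, ?_⟩
  · show (C.d 0).map φ * (s 0).map φ = φ x • (1 : Matrix (C.ι 0) (C.ι 0) B)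
    rw [← Matrix.map_mul, hs0]
    ext i j
    by_cases h : i = j <;> simp [h]
  · intro n
    show (C.d (n + 1)).map φ * (s (n + 1)).map φ + (s n).map φ * (C.d n).map φ =
      φ x • (1 : Matrix (C.ι (n + 1)) (C.ι (n + 1)) B)
    rw [← Matrix.map_mul, ← Matrix.map_mul, ← Matrix.map_add _ (map_add φ), hs n]
    ext i j
    by_cases h : i = j <;> simp [h]

theorem MCx.ext' {ι : ℕ → Type} {fin : ∀ n, Fintype (ι n)} {dec : ∀ n, DecidableEq (ι n)}
    {d d' : ∀ n, Matrix (ι n) (ι (n + 1)) A} {h : ∀ n, d n * d (n + 1) = 0}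
    {h' : ∀ n, d' n * d' (n + 1) = 0} (hd : ∀ n, d n = d' n) :
    (⟨ι, fin, dec, d, h⟩ : MCx A) = ⟨ι, fin, dec, d', h'⟩ := by
  have : d = d' := funext hd
  subst this
  rfl



end Map

/-! ## Koszul nullness of finite powers -/

section Pi

variable {A : Type u} [CommRing A] (N : NullF A) (C : MCx A)

theorem MCx.null_pi {M : Type v} [AddCommGroup M] [Module A M] (κ : Type w) [Finite κ] (j : ℕ)
    (h : C.NullM N M j) : C.NullM N (κ → M) j := by
  intro v hv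
  have h1 : ∀ k, post _ (LinearMap.proj (R := A) (φ := fun _ : κ => M) k) v ∈
      N.sat (C.bdyM M j) := fun k => h (MCx.post_cyc C _ j hv)
  have key : ∀ (s : Set κ), s.Finite → N.F (⨅ k ∈ s, col (C.bdyM M j)
      (post _ (LinearMap.proj (R := A) (φ := fun _ : κ => M) k) v)) := by
    intro s hs
    induction s, hs using Set.Finite.induction_on with
    | empty => simpa using N.top
    | insert _ _ ih =>
      rw [iInf_insert]
      exact N.inf (h1 _) ih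
  refine N.mono ?_ (key Set.univ Set.finite_univ)
  intro a ha
  simp only [Submodule.mem_iInf] at ha
  have h2 : ∀ k, ∃ w, C.dM M j w = a • post _ (LinearMap.proj (R := A) (φ := fun _ : κ => M) k) v :=
    fun k => ha k (Set.mem_univ k)
  choose w hw using h2
  refine ⟨fun b k => w k b, ?_⟩
  show act (κ → M) (C.d j) _ = a • v
  funext b
  funext k
  have := congrFun (hw k) b
  rw [act_apply, Finset.sum_apply]
  exact this

theorem MCx.null_congr {M : Type v} [AddCommGroup M] [Module A M] {M' : Type w} [AddCommGroup M']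
    [Module A M'] (e : M ≃ₗ[A] M') (j : ℕ) (h : C.NullM N M j) : C.NullM N M' j := by
  intro v hv
  have h1 := h (MCx.post_cyc C e.symm.toLinearMap j hv)
  have h2 := N.map_sat (post _ e.toLinearMap) (fun x hx => MCx.post_bdy C e.toLinearMap j hx) h1
  have h3 : post (C.ι j) e.toLinearMap (post (C.ι j) e.symm.toLinearMap v) = v := by
    funext b
    simp
  rwa [h3] at h2

end Pi

end Crest.Agent.R183.Res
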