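import Mathlib
import Crest.Agent.R183.KHom
import Crest.Agent.R183.KPkg
import Crest.Agent.R183.Res3

-- ▼ part R183/KHom2
section

set_option autoImplicit false

namespace Crest.Agent.R183

open scoped ENNReal

universe u v

namespace AddLen

variable {A : Type u} [CommRing A] (Λ : AddLen.{u, v} A)

/-- continuity: a module all of whose cyclic submodules are null is null. -/
def Cont : Prop := ∀ (M : Type v) [AddCommGroup M] [Module A M],
  (∀ x : M, Λ.L (Submodule.span A {x}) = 0) → Λ.L M = 0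

variable {Λ} {M : Type v} [AddCommGroup M] [Module A M]

lemma Cont.le0 (hΛ : Λ.Cont) {S T : Submodule A M}
    (h : ∀ x ∈ T, Λ.le0 (Submodule.span A {x}) S) : Λ.le0 T S := by
  unfold AddLen.le0
  refine hΛ _ ?_
  rintro ⟨_, x, hx, rfl⟩
  have h1 := h x hx
  unfold AddLen.le0 at h1
  refine Λ.null_of_comap (Submodule.subtype _) (Submodule.subtype_injective _) _ _ h1 ?_
  rw [Submodule.span_le, Set.singleton_subset_iff]
  change S.mkQ x ∈ (Submodule.span A {x}).map S.mkQ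
  exact ⟨x, Submodule.mem_span_singleton_self x, rfl⟩

lemma le0_span {S T : Submodule A M} (h : Λ.le0 T S) {x : M} (hx : x ∈ T) :
    Λ.le0 (Submodule.span A {x}) S :=
  Λ.le0_mono h (by rwa [Submodule.span_le, Set.singleton_subset_iff]) le_rfl

end AddLen

namespace KHom

open AddLen

variable {A : Type u} [CommRing A] (Λ : AddLen.{u, v} A)
variable {U : Type v} [AddCommGroup U] [Module A U] {D : U →ₗ[A] U}

lemma h_self {G : ℤ → Submodule A U} (n : ℤ) : h Λ D G G n = 0 :=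
  Λ.rel_of_le (inf_le_left.trans le_sup_right)

lemma finS_zero : FinS (fun _ => 0) := ⟨fun _ => ENNReal.zero_ne_top, by simp⟩

variable {Λ}

/-- union lemma. -/
lemma null_union (hΛ : Λ.Cont) {G0 T : ℤ → Submodule A U} (Gs : ℕ → ℤ → Submodule A U)
    (hmono : ∀ t n, Gs t n ≤ Gs (t + 1) n) (hT : ∀ n, T n = ⨆ t, Gs t n) (n : ℤ)
    (hn : ∀ t, h Λ D (Gs t) G0 n = 0) : h Λ D T G0 n = 0 := by
  unfold h
  rw [rel_eq_zero_iff]
  refine hΛ.le0 fun x hx => ?_
  have hx1 : x ∈ ⨆ t, Gs t n := by rw [← hT]; exact hx.1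
  have hdir : Directed (· ≤ ·) (fun t => Gs t n) :=
    (monotone_nat_of_le_succ (fun t => hmono t n)).directed_le
  obtain ⟨t, ht⟩ := (Submodule.mem_iSup_of_directed _ hdir).1 hx1
  have h1 := hn t
  unfold h at h1
  rw [rel_eq_zero_iff] at h1
  refine Λ.le0_mono (le0_span h1 (x := x) ⟨ht, hx.2⟩) le_rfl ?_
  refine sup_le_sup_right (Submodule.map_mono ?_) _
  rw [hT]
  exact le_iSup (fun t => Gs t (n + 1)) t

variable (Λ)

/-- telescoping: null. -/
lemma null_tele (hD : D ∘ₗ D = 0) (G : ℕ → ℤ → Submodule A U) (r : ℕ)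
    (hst : ∀ j ≤ r, Stable D (G j)) (hle : ∀ j < r, ∀ n, G (j + 1) n ≤ G j n) (n : ℤ)
    (hn : ∀ j < r, h Λ D (G j) (G (j + 1)) n = 0) : h Λ D (G 0) (G r) n = 0 := by
  induction r with
  | zero => exact h_self Λ n
  | succ r ih =>
    have hle' : ∀ n, G r n ≤ G 0 n := by
      intro n
      have : ∀ j ≤ r, G j n ≤ G 0 n := by
        intro j
        induction j with
        | zero => intro _; exact le_rfl
        | succ j ihj => intro hj; exact (hle j (by omega) n).trans (ihj (by omega))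
      exact this r le_rfl
    refine null_mid Λ hD (hst 0 (by omega)) (hst r (by omega)) (hst (r + 1) le_rfl) hle'
      (hle r (by omega)) (hn r (by omega)) ?_
    exact ih (fun j hj => hst j (by omega)) (fun j hj => hle j (by omega))
      (fun j hj => hn j (by omega))

/-- telescoping: Euler characteristics. -/
lemma chi_tele (hD : D ∘ₗ D = 0) (G : ℕ → ℤ → Submodule A U) (r : ℕ)
    (hst : ∀ j ≤ r, Stable D (G j)) (hle : ∀ j < r, ∀ n, G (j + 1) n ≤ G j n)
    (hn : ∀ j < r, FinS (h Λ D (G j) (G (j + 1)))) : FinS (h Λ D (G 0) (G r)) ∧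
      chi (h Λ D (G 0) (G r)) = ∑ j ∈ Finset.range r, chi (h Λ D (G j) (G (j + 1))) := by
  induction r with
  | zero =>
    have : h Λ D (G 0) (G 0) = fun _ => 0 := funext fun n => h_self Λ n
    rw [this]
    exact ⟨finS_zero, by simp [chi_zero]⟩
  | succ r ih =>
    have hle' : ∀ n, G r n ≤ G 0 n := by
      intro n
      have : ∀ j ≤ r, G j n ≤ G 0 n := by
        intro j
        induction j with
        | zero => intro _; exact le_rfl
        | succ j ihj => intro hj; exact (hle j (by omega) n).trans (ihj (by omega))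
      exact this r le_rfl
    obtain ⟨f1, e1⟩ := ih (fun j hj => hst j (by omega)) (fun j hj => hle j (by omega))
      (fun j hj => hn j (by omega))
    have f2 := hn r (by omega)
    refine ⟨finS_mid Λ hD (hst 0 (by omega)) (hst r (by omega)) (hst (r + 1) le_rfl) hle'
      (hle r (by omega)) f2 f1, ?_⟩
    rw [chi_les Λ hD (hst 0 (by omega)) (hst r (by omega)) (hst (r + 1) le_rfl) hle'
      (hle r (by omega)) f2 f1, e1, Finset.sum_range_succ, add_comm]

/-- a family concentrated in one degree. -/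
lemma finS_single (g : ℤ) {l : ℝ≥0∞} (hl : l ≠ ⊤) : FinS (fun m => if m = g then l else 0) := by
  refine ⟨fun n => ?_, (Set.finite_singleton g).subset fun n hn => ?_⟩
  · split_ifs
    · exact hl
    · exact ENNReal.zero_ne_top
  · rw [Function.mem_support] at hn
    by_contra h1
    exact hn (if_neg h1)

lemma chi_single (g : ℤ) (l : ℝ≥0∞) :
    chi (fun m => if m = g then l else 0) = (-1 : ℝ) ^ g * l.toReal := by
  unfold chi
  rw [finsum_eq_single _ g]
  · simp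
  · intro n hn; simp [hn]

/-- A staircase system: `H κ` plays the role of `∑_i Q_i ⊗ F^{κ_i} C`, `i ≤ d`. -/
structure Stair (D : U →ₗ[A] U) (d N : ℕ) (g : ℕ → ℤ → ℤ) (l : ℕ → ℤ → ℝ≥0∞)
    (H : (ℕ → ℤ) → ℤ → Submodule A U) : Prop where
  anti : ∀ κ κ' : ℕ → ℤ, (∀ i ≤ d, κ i ≤ κ' i) → ∀ m, H κ' m ≤ H κ m
  stable : ∀ κ : ℕ → ℤ, (∀ i < d, κ i ≤ κ (i + 1) + N) → Stable D (H κ)
  step : ∀ (κ : ℕ → ℤ) (i : ℕ), i ≤ d → (∀ i < d, κ i ≤ κ (i + 1) + N) →
    (∀ j < d, Function.update κ i (κ i + 1) j ≤ Function.update κ i (κ i + 1) (j + 1) + N) →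
    ∀ m, h Λ D (H κ) (H (Function.update κ i (κ i + 1))) m = if m = g i (κ i) then l i (κ i) else 0

variable {Λ} {d N : ℕ} {g : ℕ → ℤ → ℤ} {l : ℕ → ℤ → ℝ≥0∞} {H : (ℕ → ℤ) → ℤ → Submodule A U}

/-- raising one coordinate. -/
lemma Stair.raise (hH : Stair Λ D d N g l H) (hD : D ∘ₗ D = 0) (κ : ℕ → ℤ) (i : ℕ) (hi : i ≤ d)
    (r : ℕ) (hs : ∀ s ≤ r, ∀ j < d, Function.update κ i (κ i + s) j ≤
      Function.update κ i (κ i + s) (j + 1) + N) :
    (∀ m, (∀ s < r, m ≠ g i (κ i + s)) → h Λ D (H κ) (H (Function.update κ i (κ i + r))) m = 0) ∧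
    ((∀ s < r, l i (κ i + s) ≠ ⊤) → FinS (h Λ D (H κ) (H (Function.update κ i (κ i + r)))) ∧
      chi (h Λ D (H κ) (H (Function.update κ i (κ i + r)))) =
        ∑ s ∈ Finset.range r, (-1 : ℝ) ^ (g i (κ i + s)) * (l i (κ i + s)).toReal) := by
  let G : ℕ → ℤ → Submodule A U := fun s => H (Function.update κ i (κ i + s))
  have hG0 : G 0 = H κ := by simp [G]
  have hst : ∀ s ≤ r, Stable D (G s) := fun s hs' => hH.stable _ (hs s hs')
  have hle : ∀ s < r, ∀ n, G (s + 1) n ≤ G s n := by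
    intro s _ n
    refine hH.anti _ _ (fun j _ => ?_) n
    by_cases hj : j = i
    · subst hj; simp
    · simp [Function.update_of_ne hj]
  have hstep : ∀ s < r, ∀ m, h Λ D (G s) (G (s + 1)) m =
      if m = g i (κ i + s) then l i (κ i + s) else 0 := by
    intro s hs' m
    have e1 : Function.update (Function.update κ i (κ i + s)) i
        (Function.update κ i (κ i + s) i + 1) = Function.update κ i (κ i + (s + 1 : ℕ)) := by
      rw [Function.update_self, Function.update_idem]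
      push_cast
      rw [add_assoc]
    have := hH.step (Function.update κ i (κ i + s)) i hi (hs s hs'.le)
      (by rw [e1]; exact hs (s + 1) hs') m
    rw [e1] at this
    simpa [G] using this
  rw [← hG0]
  refine ⟨fun m hm => ?_, fun hl => ?_⟩
  · refine null_tele Λ hD G r hst hle m fun s hs' => ?_
    rw [hstep s hs' m, if_neg (hm s hs')]
  · have hstep' : ∀ s < r, h Λ D (G s) (G (s + 1)) =
      fun m => if m = g i (κ i + s) then l i (κ i + s) else 0 :=
      fun s hs' => funext (hstep s hs')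
    obtain ⟨f, e⟩ := chi_tele Λ hD G r hst hle (fun s hs' => by
      rw [hstep' s hs']; exact finS_single _ (hl s hs'))
    refine ⟨f, ?_⟩
    rw [e]
    refine Finset.sum_congr rfl fun s hs' => ?_
    rw [hstep' s (Finset.mem_range.1 hs'), chi_single]

/-- from `κs` to `κe`. -/
lemma Stair.total (hH : Stair Λ D d N g l H) (hD : D ∘ₗ D = 0) (κs κe : ℕ → ℤ)
    (hle : ∀ i ≤ d, κs i ≤ κe i)
    (hss : ∀ i < d, κs i ≤ κs (i + 1) + N) (hse : ∀ i < d, κe i ≤ κe (i + 1) + N) :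
    (∀ m, (∀ i ≤ d, ∀ k, κs i ≤ k → k < κe i → m ≠ g i k) → h Λ D (H κs) (H κe) m = 0) ∧
    ((∀ i ≤ d, ∀ k, κs i ≤ k → k < κe i → l i k ≠ ⊤) → FinS (h Λ D (H κs) (H κe)) ∧
      chi (h Λ D (H κs) (H κe)) =
        ∑ i ∈ Finset.range (d + 1), ∑ k ∈ Finset.Ico (κs i) (κe i),
          (-1 : ℝ) ^ (g i k) * (l i k).toReal) := by
  -- `κ^[j] i = κe i` for `i ≥ d + 1 - j`
  let kk : ℕ → ℕ → ℤ := fun j i => if d + 1 ≤ i + j then κe i else κs i
  have hk0 : ∀ i ≤ d, kk 0 i = κs i := fun i hi => by simp only [kk]; rw [if_neg (by omega)]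
  have hkd : ∀ i, kk (d + 1) i = κe i := fun i => by simp only [kk]; rw [if_pos (by omega)]
  have hH0 : ∀ m, H (kk 0) m = H κs m := fun m => le_antisymm
    (hH.anti _ _ (fun i hi => (hk0 i hi).ge) m) (hH.anti _ _ (fun i hi => (hk0 i hi).le) m)
  have hHd : H (kk (d + 1)) = H κe := by
    congr 1; exact funext hkd
  have hH0' : H (kk 0) = H κs := funext hH0
  let G : ℕ → ℤ → Submodule A U := fun j => H (kk j)
  -- stability of intermediate
  have hinter : ∀ j ≤ d, ∀ s : ℕ, κs (d - j) + s ≤ κe (d - j) → ∀ i < d,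
      Function.update (kk j) (d - j) (kk j (d - j) + s) i ≤
        Function.update (kk j) (d - j) (kk j (d - j) + s) (i + 1) + N := by
    intro j hj s hs i hi
    have e0 : kk j (d - j) = κs (d - j) := by simp only [kk]; rw [if_neg (by omega)]
    rw [e0]
    by_cases h1 : i = d - j
    · rw [h1, Function.update_self, Function.update_of_ne (by omega)]
      simp only [kk]
      rw [if_pos (by omega)]
      have := hse (d - j) (by omega)
      omega
    · rw [Function.update_of_ne h1]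
      by_cases h2 : i + 1 = d - j
      · rw [h2, Function.update_self]
        simp only [kk]
        rw [if_neg (by omega)]
        have := hss i hi
        rw [h2] at this
        omega
      · rw [Function.update_of_ne h2]
        simp only [kk]
        by_cases h3 : d + 1 ≤ i + j
        · rw [if_pos h3, if_pos (by omega)]
          exact hse i hi
        · rw [if_neg h3, if_neg (by omega)]
          exact hss i hi
  have hnext : ∀ j ≤ d, Function.update (kk j) (d - j)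
      (kk j (d - j) + ((κe (d - j) - κs (d - j)).toNat : ℕ)) = kk (j + 1) := by
    intro j hj
    have e0 : kk j (d - j) = κs (d - j) := by simp only [kk]; rw [if_neg (by omega)]
    rw [e0]
    have e1 : κs (d - j) + ((κe (d - j) - κs (d - j)).toNat : ℕ) = κe (d - j) := by
      have := hle (d - j) (by omega)
      omega
    rw [e1]
    funext i
    by_cases h1 : i = d - j
    · rw [h1, Function.update_self]
      simp only [kk]
      rw [if_pos (by omega)]
    · rw [Function.update_of_ne h1]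
      simp only [kk]
      by_cases h3 : d + 1 ≤ i + j
      · rw [if_pos h3, if_pos (by omega)]
      · rw [if_neg h3, if_neg (by omega)]
  have hraise : ∀ j ≤ d, _ := fun j hj => hH.raise hD (kk j) (d - j) (by omega)
    (κe (d - j) - κs (d - j)).toNat (fun s hs => hinter j hj s (by
      have := hle (d - j) (by omega)
      omega))
  have hst : ∀ j ≤ d + 1, Stable D (G j) := by
    intro j hj
    rcases Nat.lt_or_ge j (d + 1) with h1 | h1
    · have := hH.stable _ (hinter j (by omega) 0 (by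
        have := hle (d - j) (by omega)
        simpa using this))
      simpa [G] using this
    · have : j = d + 1 := by omega
      subst this
      change Stable D (H (kk (d + 1)))
      rw [hHd]
      exact hH.stable _ hse
  have hmono : ∀ j < d + 1, ∀ n, G (j + 1) n ≤ G j n := by
    intro j _ n
    refine hH.anti _ _ (fun i hi => ?_) n
    simp only [kk]
    by_cases h3 : d + 1 ≤ i + j
    · rw [if_pos h3, if_pos (by omega)]
    · rw [if_neg h3]
      split_ifs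
      · exact hle i hi
      · exact le_rfl
  have key : h Λ D (H κs) (H κe) = h Λ D (G 0) (G (d + 1)) := by
    change _ = h Λ D (H (kk 0)) (H (kk (d + 1)))
    rw [hH0', hHd]
  rw [key]
  have e0 : ∀ j ≤ d, kk j (d - j) = κs (d - j) := fun j hj => by
    simp only [kk]; rw [if_neg (by omega)]
  refine ⟨fun m hm => ?_, fun hl => ?_⟩
  · refine null_tele Λ hD G (d + 1) hst hmono m fun j hj => ?_
    have h1 := (hraise j (by omega)).1 m (fun s hs => by
      rw [e0 j (by omega)]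
      exact hm (d - j) (by omega) _ (by omega) (by omega))
    rw [hnext j (by omega)] at h1
    exact h1
  · have h2 : ∀ j < d + 1, FinS (h Λ D (G j) (G (j + 1))) ∧ chi (h Λ D (G j) (G (j + 1))) =
        ∑ k ∈ Finset.Ico (κs (d - j)) (κe (d - j)),
          (-1 : ℝ) ^ (g (d - j) k) * (l (d - j) k).toReal := by
      intro j hj
      have h1 := (hraise j (by omega)).2 (fun s hs => by
        rw [e0 j (by omega)]
        exact hl (d - j) (by omega) _ (by omega) (by omega))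
      rw [hnext j (by omega)] at h1
      refine ⟨h1.1, ?_⟩
      rw [show h Λ D (G j) (G (j + 1)) = h Λ D (H (kk j)) (H (kk (j + 1))) from rfl, h1.2,
        e0 j (by omega)]
      -- reindex
      have hle' := hle (d - j) (by omega)
      rw [Finset.sum_bij (fun (s : ℕ) _ => κs (d - j) + (s : ℤ))]
      · intro s hs
        rw [Finset.mem_range] at hs
        rw [Finset.mem_Ico]
        omega
      · intro a _ b _ hab; omega
      · intro k hk
        rw [Finset.mem_Ico] at hk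
        refine ⟨(k - κs (d - j)).toNat, ?_, by omega⟩
        rw [Finset.mem_range]
        omega
      · intro s _; rfl
    obtain ⟨f, e⟩ := chi_tele Λ hD G (d + 1) hst hmono (fun j hj => (h2 j hj).1)
    refine ⟨f, ?_⟩
    rw [e, Finset.sum_congr rfl (fun j hj => (h2 j (Finset.mem_range.1 hj)).2)]
    rw [← Finset.sum_range_reflect]
    refine Finset.sum_congr rfl fun i hi => ?_
    rw [Finset.mem_range] at hi
    rw [show d - (d + 1 - 1 - i) = i by omega]

/-- the zero family. -/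
def zf (A : Type u) [CommRing A] (U : Type v) [AddCommGroup U] [Module A U] :
    ℤ → Submodule A U := fun _ => ⊥

lemma stable_zf : Stable D (zf A U) := fun n => by simp [zf]

/-- **abstract core of (A)**: `T = ⋃ H(-t-iN)` exact, window conditions on the degrees `g`, tail
`H(K)` null in negative degrees. Then `χ(H K) + ∑ (-1)^g l ≥ 0`. -/
theorem Stair.core (hΛ : Λ.Cont) (hH : Stair Λ D d N g l H) (hD : D ∘ₗ D = 0)
    (T : ℤ → Submodule A U) (hT : ∀ m, T m = ⨆ t : ℕ, H (fun i => -(t : ℤ) - i * N) m)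
    (hTst : Stable D T) (hex : ∀ m, h Λ D T (zf A U) m = 0)
    (K : ℤ) (hK : 0 ≤ K)
    (hneg : ∀ i ≤ d, ∀ k : ℤ, k < -(i * N : ℤ) → g i k ≤ 1)
    (hpos : ∀ i ≤ d, ∀ k : ℤ, -(i * N : ℤ) ≤ k → 0 ≤ g i k)
    (hl : ∀ i ≤ d, ∀ k : ℤ, l i k ≠ ⊤)
    (hKnull : ∀ m < 0, h Λ D (H fun _ => K) (zf A U) m = 0)
    (hKfin : FinS (h Λ D (H fun _ => K) (zf A U))) :
    0 ≤ chi (h Λ D (H fun _ => K) (zf A U)) +
      ∑ i ∈ Finset.range (d + 1), ∑ k ∈ Finset.Ico (-(i * N : ℤ)) K,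
        (-1 : ℝ) ^ (g i k) * (l i k).toReal := by
  set κ0 : ℕ → ℤ := fun i => -(i * N : ℤ) with hκ0
  have hs0 : ∀ i < d, κ0 i ≤ κ0 (i + 1) + N := by
    intro i _; simp only [hκ0]; push_cast; linarith [mul_comm (i : ℤ) N]
  have hsK : ∀ i < d, (fun _ : ℕ => K) i ≤ (fun _ : ℕ => K) (i + 1) + N := by
    intro i _; simp
  have hst0 : Stable D (H κ0) := hH.stable _ hs0
  have hstK : Stable D (H fun _ => K) := hH.stable _ hsK
  have hle0K : ∀ i ≤ d, κ0 i ≤ K := by
    intro i _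
    have : (0 : ℤ) ≤ (i * N : ℤ) := by positivity
    simp only [hκ0]; linarith
  have hT0 : ∀ n, H κ0 n ≤ T n := by
    intro n
    rw [hT n]
    refine le_trans ?_ (le_iSup _ 0)
    refine hH.anti _ _ (fun i _ => ?_) n
    simp [hκ0]
  -- `T/T_0` null in degrees `≥ 2`
  have h2 : ∀ m : ℤ, 2 ≤ m → h Λ D T (H κ0) m = 0 := by
    intro m hm
    refine null_union hΛ (fun t => H (fun i => -(t : ℤ) - i * N)) ?_ hT m ?_
    · intro t n
      refine hH.anti _ _ (fun i _ => ?_) n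
      push_cast; linarith
    · intro t
      refine (hH.total hD (fun i => -(t : ℤ) - i * N) κ0 ?_ ?_ hs0).1 m ?_
      · intro i _; simp only [hκ0]; linarith
      · intro i _
        push_cast; linarith
      · intro i hi k _ hk
        have := hneg i hi k hk
        omega
  have h0pos : ∀ m : ℤ, 1 ≤ m → h Λ D (H κ0) (zf A U) m = 0 := fun m hm =>
    null_sub Λ hD hTst hst0 stable_zf hT0 (fun n => bot_le) (hex m) (h2 (m + 1) (by omega))
  -- `T_0/T_K`
  have htot := hH.total hD κ0 (fun _ => K) hle0K hs0 hsK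
  have hneg' : ∀ m < 0, h Λ D (H κ0) (H fun _ => K) m = 0 := by
    intro m hm
    refine htot.1 m fun i hi k hk _ => ?_
    have := hpos i hi k hk
    omega
  have hmono : ∀ n, H (fun _ => K) n ≤ H κ0 n := fun n => hH.anti _ _ hle0K n
  have h0neg : ∀ m : ℤ, m < 0 → h Λ D (H κ0) (zf A U) m = 0 := fun m hm =>
    null_mid Λ hD hst0 hstK stable_zf hmono (fun n => bot_le) (hKnull m hm) (hneg' m hm)
  obtain ⟨f1, e1⟩ := htot.2 (fun i hi k _ _ => hl i hi k)
  have e2 := chi_les Λ hD hst0 hstK stable_zf hmono (fun n => bot_le) hKfin f1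
  rw [← e1, ← e2]
  unfold chi
  rw [finsum_eq_single _ (0 : ℤ)]
  · simp
  · intro n hn
    rcases lt_or_gt_of_ne hn with h3 | h3
    · rw [h0neg n h3]; simp
    · rw [h0pos n (by omega)]; simp

end KHom

end Crest.Agent.R183
end

-- ▼ part R183/KT0
section

set_option autoImplicit false

namespace Crest.Agent.R183

open scoped ENNReal

universe u v

namespace AddLen

variable {A : Type u} [CommRing A] (Λ : AddLen.{u, v} A)
variable {M N : Type v} [AddCommGroup M] [Module A M] [AddCommGroup N] [Module A N]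

lemma rel_eq_L (S T : Submodule A M) : Λ.rel S T = Λ.L (T ⧸ S.comap T.subtype) := by
  have h := Λ.rel_comap T.subtype S ⊤
  rw [Submodule.map_top, Submodule.range_subtype, rel_top] at h
  exact h.symm

lemma rel_pi (ι : Type) [Fintype ι] (S T : Submodule A M) :
    Λ.rel (Submodule.pi Set.univ fun _ : ι => S) (Submodule.pi Set.univ fun _ : ι => T) =
      Fintype.card ι * Λ.rel S T := by
  classical
  let F : (ι → T) →ₗ[A] (ι → M) := LinearMap.pi fun i => T.subtype ∘ₗ LinearMap.proj i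
  have hF : (⊤ : Submodule A (ι → T)).map F = Submodule.pi Set.univ fun _ : ι => T := by
    ext x
    constructor
    · rintro ⟨y, _, rfl⟩ i _
      exact (y i).2
    · intro hx
      exact ⟨fun i => ⟨x i, hx i (Set.mem_univ i)⟩, trivial, rfl⟩
  have hS : (Submodule.pi Set.univ fun _ : ι => S).comap F =
      Submodule.pi Set.univ fun _ : ι => S.comap T.subtype := by
    ext x; rfl
  rw [← hF, ← Λ.rel_comap, hS, rel_top, Λ.L_congr (Submodule.quotientPi _), Λ.L_pi_const,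
    rel_eq_L]

lemma rel_prod {S1 T1 : Submodule A M} {S2 T2 : Submodule A N} (h1 : S1 ≤ T1) (h2 : S2 ≤ T2) :
    Λ.rel (S1.prod S2) (T1.prod T2) = Λ.rel S1 T1 + Λ.rel S2 T2 := by
  have e1 : S1.prod S2 ≤ T1.prod S2 := Submodule.prod_mono h1 le_rfl
  have e2 : T1.prod S2 ≤ T1.prod T2 := Submodule.prod_mono le_rfl h2
  rw [Λ.rel_add e1 e2]
  congr 1
  · have k1 : S1.prod S2 = S1.comap (LinearMap.fst A M N) ⊓ T1.prod S2 := by
      ext x
      simp only [Submodule.mem_prod, Submodule.mem_inf, Submodule.mem_comap, LinearMap.fst_apply]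
      constructor
      · rintro ⟨a, b⟩; exact ⟨a, h1 a, b⟩
      · rintro ⟨a, _, b⟩; exact ⟨a, b⟩
    have k2 : (T1.prod S2).map (LinearMap.fst A M N) = T1 := by
      ext x
      constructor
      · rintro ⟨y, hy, rfl⟩; exact hy.1
      · intro hx; exact ⟨(x, 0), ⟨hx, S2.zero_mem⟩, rfl⟩
    conv_lhs => rw [k1]
    rw [Λ.rel_inf, Λ.rel_comap, k2]
  · have k1 : T1.prod S2 = S2.comap (LinearMap.snd A M N) ⊓ T1.prod T2 := by
      ext x
      simp only [Submodule.mem_prod, Submodule.mem_inf, Submodule.mem_comap, LinearMap.snd_apply]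
      constructor
      · rintro ⟨a, b⟩; exact ⟨b, a, h2 b⟩
      · rintro ⟨a, b, _⟩; exact ⟨b, a⟩
    have k2 : (T1.prod T2).map (LinearMap.snd A M N) = T2 := by
      ext x
      constructor
      · rintro ⟨y, hy, rfl⟩; exact hy.2
      · intro hx; exact ⟨(0, x), ⟨T1.zero_mem, hx⟩, rfl⟩
    conv_lhs => rw [k1]
    rw [Λ.rel_inf, Λ.rel_comap, k2]

/-- modular law in `rel` form -/
lemma rel_le_of_le_sup {S T R : Submodule A M} (h : Λ.le0 T (S ⊔ R)) (hS : S ≤ T) :
    Λ.rel S T ≤ Λ.rel S R := by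
  have h1 : Λ.rel S T ≤ Λ.rel S (T ⊔ (S ⊔ R)) := Λ.rel_mono le_rfl le_sup_left
  have h2 : Λ.rel S (T ⊔ (S ⊔ R)) = Λ.rel S (S ⊔ R) + Λ.rel (S ⊔ R) (T ⊔ (S ⊔ R)) :=
    Λ.rel_add le_sup_left le_sup_right
  have h3 : Λ.rel (S ⊔ R) (T ⊔ (S ⊔ R)) = 0 := by
    rw [Λ.rel_sup_right]; exact h
  have h4 : Λ.rel S (S ⊔ R) = Λ.rel S R := by rw [sup_comm, Λ.rel_sup_right]
  rw [h2, h3, h4, add_zero] at h1
  exact h1

end AddLen

namespace KHom

open AddLen

variable {A : Type u} [CommRing A] (Λ : AddLen.{u, v} A)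
variable {U : Type v} [AddCommGroup U] [Module A U] {D : U →ₗ[A] U}
variable {U' : Type v} [AddCommGroup U'] [Module A U'] {D' : U' →ₗ[A] U'}

/-- **isomorphism invariance** of `h`. -/
theorem h_iso (f : U' →ₗ[A] U) (hf : D ∘ₗ f = f ∘ₗ D') (hD : D ∘ₗ D = 0) (hD' : D' ∘ₗ D' = 0)
    {K L : ℤ → Submodule A U'} {G G0 : ℤ → Submodule A U}
    (hL : ∀ m, L m = K m ⊓ (G0 m).comap f) (hG : ∀ m, G m = (K m).map f ⊔ G0 m)
    (hK : Stable D' K) (hG0 : Stable D G0) (m : ℤ) : h Λ D' K L m = h Λ D G G0 m := by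
  have hfx : ∀ x, D (f x) = f (D' x) := fun x => LinearMap.congr_fun hf x
  have hDD : ∀ x, D (D x) = 0 := fun x => LinearMap.congr_fun hD x
  have hDD' : ∀ x, D' (D' x) = 0 := fun x => LinearMap.congr_fun hD' x
  have hKG : ∀ m, ∀ x ∈ K m, f x ∈ G m := fun m x hx => by
    rw [hG]; exact Submodule.mem_sup_left ⟨x, hx, rfl⟩
  have hG0G : ∀ m, G0 m ≤ G m := fun m => by rw [hG]; exact le_sup_right
  have hLst : ∀ m, ∀ x ∈ L m, D' x ∈ L (m - 1) := by
    intro m x hx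
    rw [hL] at hx ⊢
    refine ⟨hK.map_le m ⟨x, hx.1, rfl⟩, ?_⟩
    rw [SetLike.mem_coe, Submodule.mem_comap, ← hfx]
    exact hG0.map_le m ⟨f x, hx.2, rfl⟩
  unfold h
  set S' := (K (m + 1)).map D' ⊔ L m with hS'
  set T' := K m ⊓ (L (m - 1)).comap D' with hT'
  set S := (G (m + 1)).map D ⊔ G0 m with hS
  set T := G m ⊓ (G0 (m - 1)).comap D with hT
  have e1 : S' = S.comap f ⊓ T' := by
    apply le_antisymm
    · refine sup_le ?_ ?_
      · rintro _ ⟨k, hk, rfl⟩
        refine ⟨?_, hK m ⟨k, hk, rfl⟩, ?_⟩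
        · rw [SetLike.mem_coe, Submodule.mem_comap, ← hfx]
          exact Submodule.mem_sup_left ⟨f k, hKG _ _ hk, rfl⟩
        · rw [SetLike.mem_coe, Submodule.mem_comap, hDD']
          exact Submodule.zero_mem _
      · intro x hx
        have hx' := hx
        rw [hL] at hx'
        exact ⟨Submodule.mem_sup_right hx'.2, hx'.1, hLst m x hx⟩
    · rintro w ⟨hw1, hw2, hw3⟩
      have hw1' : f w ∈ S := hw1
      obtain ⟨_, ⟨g, hg, rfl⟩, g0, hg0, hsum⟩ := Submodule.mem_sup.1 hw1'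
      rw [SetLike.mem_coe, hG] at hg
      obtain ⟨_, ⟨k, hk, rfl⟩, g1, hg1, rfl⟩ := Submodule.mem_sup.1 hg
      have h1 : w = D' k + (w - D' k) := by abel
      rw [h1]
      refine Submodule.add_mem_sup ⟨k, hk, rfl⟩ ?_
      rw [hL]
      refine ⟨Submodule.sub_mem _ hw2 (hK m ⟨k, hk, rfl⟩), ?_⟩
      rw [SetLike.mem_coe, Submodule.mem_comap, map_sub, ← hfx, ← hsum, map_add]
      have h2 : D (f k) + D g1 + g0 - D (f k) = D g1 + g0 := by abel
      rw [h2]
      exact Submodule.add_mem _ (hG0 m ⟨g1, hg1, rfl⟩) hg0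
  have e2 : T = T'.map f ⊔ S := by
    apply le_antisymm
    · rintro t ⟨ht1, ht2⟩
      rw [SetLike.mem_coe, hG] at ht1
      obtain ⟨_, ⟨k, hk, rfl⟩, g0, hg0, rfl⟩ := Submodule.mem_sup.1 ht1
      refine Submodule.add_mem_sup ⟨k, ⟨hk, ?_⟩, rfl⟩ (Submodule.mem_sup_right hg0)
      rw [SetLike.mem_coe, Submodule.mem_comap, hL]
      refine ⟨hK.map_le m ⟨k, hk, rfl⟩, ?_⟩
      rw [SetLike.mem_coe, Submodule.mem_comap, ← hfx]
      have h2 : D (f k) = D (f k + g0) - D g0 := by rw [map_add]; abel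
      rw [h2]
      exact Submodule.sub_mem _ ht2 (hG0.map_le m ⟨g0, hg0, rfl⟩)
    · refine sup_le ?_ (sup_le ?_ ?_)
      · rintro _ ⟨w, ⟨hw1, hw2⟩, rfl⟩
        refine ⟨hKG _ _ hw1, ?_⟩
        rw [SetLike.mem_coe, Submodule.mem_comap, hfx]
        have hw2' : D' w ∈ L (m - 1) := hw2
        rw [hL] at hw2'
        exact hw2'.2
      · rintro _ ⟨g, hg, rfl⟩
        rw [SetLike.mem_coe, hG] at hg
        obtain ⟨_, ⟨k, hk, rfl⟩, g1, hg1, rfl⟩ := Submodule.mem_sup.1 hg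
        refine ⟨?_, ?_⟩
        · rw [map_add, hfx]
          exact Submodule.add_mem _ (hKG _ _ (hK m ⟨k, hk, rfl⟩)) (hG0G _ (hG0 m ⟨g1, hg1, rfl⟩))
        · rw [SetLike.mem_coe, Submodule.mem_comap, hDD]
          exact Submodule.zero_mem _
      · intro x hx
        exact ⟨hG0G _ hx, hG0.map_le m ⟨x, hx, rfl⟩⟩
  rw [e2, Λ.rel_sup_right, ← Λ.rel_comap, ← Λ.rel_inf (S.comap f), ← e1]

/-- products. -/
theorem h_prod (G G0 : ℤ → Submodule A U) (K K0 : ℤ → Submodule A U')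
    (hD : D ∘ₗ D = 0) (hD' : D' ∘ₗ D' = 0) (hG : Stable D G) (hK : Stable D' K)
    (hG0 : Stable D G0) (hK0 : Stable D' K0) (h1 : ∀ m, G0 m ≤ G m) (h2 : ∀ m, K0 m ≤ K m)
    (m : ℤ) :
    h Λ (D.prodMap D') (fun m => (G m).prod (K m)) (fun m => (G0 m).prod (K0 m)) m =
      h Λ D G G0 m + h Λ D' K K0 m := by
  unfold h
  have e1 : ((G (m + 1)).prod (K (m + 1))).map (D.prodMap D') ⊔ (G0 m).prod (K0 m) =
      ((G (m + 1)).map D ⊔ G0 m).prod ((K (m + 1)).map D' ⊔ K0 m) := by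
    apply le_antisymm
    · refine sup_le ?_ (Submodule.prod_mono le_sup_right le_sup_right)
      rintro _ ⟨x, hx, rfl⟩
      exact ⟨Submodule.mem_sup_left ⟨x.1, hx.1, rfl⟩, Submodule.mem_sup_left ⟨x.2, hx.2, rfl⟩⟩
    · rintro ⟨x, y⟩ ⟨hx, hy⟩
      obtain ⟨_, ⟨a, ha, rfl⟩, b, hb, hab⟩ := Submodule.mem_sup.1 hx
      obtain ⟨_, ⟨c, hc, rfl⟩, d, hd, hcd⟩ := Submodule.mem_sup.1 hy
      have : ((x, y) : U × U') = (D.prodMap D') (a, c) + (b, d) := by
        rw [LinearMap.prodMap_apply, Prod.mk_add_mk]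
        exact Prod.ext hab.symm hcd.symm
      rw [this]
      exact Submodule.add_mem_sup ⟨(a, c), ⟨ha, hc⟩, rfl⟩ ⟨hb, hd⟩
  have e2 : (G m).prod (K m) ⊓ ((G0 (m - 1)).prod (K0 (m - 1))).comap (D.prodMap D') =
      (G m ⊓ (G0 (m - 1)).comap D).prod (K m ⊓ (K0 (m - 1)).comap D') := by
    ext ⟨x, y⟩
    simp only [Submodule.mem_inf, Submodule.mem_prod, Submodule.mem_comap, LinearMap.prodMap_apply]
    tauto
  rw [e1, e2]
  have hDD : ∀ x, D (D x) = 0 := fun x => LinearMap.congr_fun hD x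
  have hDD' : ∀ x, D' (D' x) = 0 := fun x => LinearMap.congr_fun hD' x
  refine Λ.rel_prod ?_ ?_
  · refine sup_le ?_ ?_
    · rintro _ ⟨g, hg, rfl⟩
      refine ⟨hG m ⟨g, hg, rfl⟩, ?_⟩
      rw [SetLike.mem_coe, Submodule.mem_comap, hDD]; exact Submodule.zero_mem _
    · intro x hx
      exact ⟨h1 m hx, hG0.map_le m ⟨x, hx, rfl⟩⟩
  · refine sup_le ?_ ?_
    · rintro _ ⟨g, hg, rfl⟩
      refine ⟨hK m ⟨g, hg, rfl⟩, ?_⟩
      rw [SetLike.mem_coe, Submodule.mem_comap, hDD']; exact Submodule.zero_mem _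
    · intro x hx
      exact ⟨h2 m hx, hK0.map_le m ⟨x, hx, rfl⟩⟩

variable {Λ} {d N : ℕ} {g : ℕ → ℤ → ℤ} {l : ℕ → ℤ → ℝ≥0∞} {H : (ℕ → ℤ) → ℤ → Submodule A U}

/-- only the degrees with nonzero length matter. -/
lemma Stair.change (hH : Stair Λ D d N g l H) (g' : ℕ → ℤ → ℤ)
    (hg : ∀ i k, l i k ≠ 0 → g' i k = g i k) : Stair Λ D d N g' l H where
  anti := hH.anti
  stable := hH.stable
  step := by
    intro κ i hi h1 h2 m
    rw [hH.step κ i hi h1 h2 m]
    by_cases h3 : l i (κ i) = 0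
    · rw [h3]; simp
    · rw [hg i _ h3]

lemma Stair.total_null (hH : Stair Λ D d N g l H) (hD : D ∘ₗ D = 0) (κs κe : ℕ → ℤ)
    (hle : ∀ i ≤ d, κs i ≤ κe i)
    (hss : ∀ i < d, κs i ≤ κs (i + 1) + N) (hse : ∀ i < d, κe i ≤ κe (i + 1) + N) (m : ℤ)
    (hm : ∀ i ≤ d, ∀ k, κs i ≤ k → k < κe i → m = g i k → l i k = 0) :
    h Λ D (H κs) (H κe) m = 0 := by
  classical
  have hH' := hH.change (fun i k => if l i k = 0 then m + 1 else g i k)
    (fun i k hk => by simp [hk])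
  refine (hH'.total hD κs κe hle hss hse).1 m fun i hi k h1 h2 => ?_
  intro h3
  by_cases h4 : l i k = 0
  · simp only [h4, if_true] at h3; omega
  · simp only [h4, if_false] at h3
    exact h4 (hm i hi k h1 h2 h3)

end KHom

end Crest.Agent.R183
end

-- ▼ part R183/KNum
section

set_option autoImplicit false

namespace Crest.Agent.R183.KNum

open Finset

/-- the root set `{0,..,d} \ {τ, τ+1}` (in units of `-N`). -/
def rootSet (d τ : ℕ) : Finset ℕ := (Finset.range (d + 1)).filter (fun j => j ≠ τ ∧ j ≠ τ + 1)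

/-- `S d N τ i = ∑_{k=-iN}^{-1} ∏_l (k - ρ_l)`, roots `ρ = -jN`, `j ∈ {0..d} \ {τ,τ+1}`;
`k = -(m+1)`. -/
def S (d N τ i : ℕ) : ℤ :=
  ∑ m ∈ Finset.range (i * N), ∏ j ∈ rootSet d τ, ((j : ℤ) * N - (m + 1))

/-- `D(u) = ∏_{j=1}^d (u + j)`. -/
noncomputable def D (d : ℕ) (u : ℝ) : ℝ := ∏ j ∈ Finset.range d, (u + ((j : ℝ) + 1))

/-- `Q_j(u) = ∏_{i ∈ {1..d}, i ≠ j+1} (u + i)`. -/
noncomputable def Q (d j : ℕ) (u : ℝ) : ℝ := ∏ i ∈ (Finset.range d).erase j, (u + ((i : ℝ) + 1))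

/-- `P_τ(u) = ∏_{j ∈ {0..d} \ {τ,τ+1}} (u + j)`. -/
noncomputable def P (d τ : ℕ) (u : ℝ) : ℝ := ∏ j ∈ rootSet d τ, (u + (j : ℝ))

/-- the convex weights. -/
noncomputable def lam (d τ : ℕ) : ℝ := (∑ j ∈ Finset.Ico τ d, 1 / ((j : ℝ) + 1)) / d

lemma lam_nonneg (d τ : ℕ) : 0 ≤ lam d τ := by
  unfold lam; positivity

lemma lam_succ {d τ : ℕ} (h : τ < d) : lam d τ - lam d (τ + 1) = 1 / (((τ : ℝ) + 1) * d) := by
  unfold lam
  rw [Finset.sum_eq_sum_Ico_succ_bot h]
  have hd : (d : ℝ) ≠ 0 := by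
    have : 0 < d := by omega
    exact_mod_cast this.ne'
  have h1 : ((τ : ℝ) + 1) ≠ 0 := by positivity
  field_simp
  ring

lemma lam_self (d : ℕ) : lam d d = 0 := by simp [lam]

lemma abel (a A : ℕ → ℝ) (n : ℕ) :
    ∑ τ ∈ Finset.range n, a τ * (A (τ + 1) - A τ)
      = a n * A n - a 0 * A 0 + ∑ τ ∈ Finset.range n, (a τ - a (τ + 1)) * A (τ + 1) := by
  induction n with
  | zero => simp
  | succ n ih =>
    rw [Finset.sum_range_succ, Finset.sum_range_succ, ih]; ring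

lemma sum_lam {d : ℕ} (hd : 1 ≤ d) : ∑ τ ∈ Finset.range d, lam d τ = 1 := by
  have h := abel (lam d) (fun n => (n : ℝ)) d
  have h1 : ∑ τ ∈ Finset.range d, lam d τ * (((τ + 1 : ℕ) : ℝ) - (τ : ℝ))
      = ∑ τ ∈ Finset.range d, lam d τ := by
    refine Finset.sum_congr rfl fun τ _ => ?_
    push_cast; ring
  have h2 : ∑ τ ∈ Finset.range d, (lam d τ - lam d (τ + 1)) * (((τ + 1 : ℕ) : ℝ))
      = ∑ τ ∈ Finset.range d, (1 / (d : ℝ)) := by
    refine Finset.sum_congr rfl fun τ hτ => ?_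
    rw [lam_succ (Finset.mem_range.1 hτ)]
    have hd : (d : ℝ) ≠ 0 := by
      have : 0 < d := by omega
      exact_mod_cast this.ne'
    have h1 : ((τ : ℝ) + 1) ≠ 0 := by positivity
    push_cast
    field_simp
  rw [h1, h2, lam_self] at h
  rw [h]
  have hd : (d : ℝ) ≠ 0 := by
    have : 0 < d := by omega
    exact_mod_cast this.ne'
  simp [hd]

/-- the common factor -/
noncomputable def common (d τ : ℕ) (u : ℝ) : ℝ :=
  ∏ i ∈ ((Finset.range d).erase τ).erase (τ - 1), (u + ((i : ℝ) + 1))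

lemma P_eq {d τ : ℕ} (h : τ < d) (u : ℝ) :
    P d τ u = ((τ : ℝ) + 1) * Q d τ u - (τ : ℝ) * Q d (τ - 1) u := by
  rcases Nat.eq_zero_or_pos τ with h0 | h0
  · subst h0
    simp only [Nat.cast_zero, zero_add, one_mul, zero_mul, sub_zero]
    unfold P Q rootSet
    symm
    refine Finset.prod_bij (fun i _ => i + 1) ?_ ?_ ?_ ?_
    · intro i hi
      simp only [Finset.mem_erase, Finset.mem_range, Finset.mem_filter] at hi ⊢
      omega
    · intro i _ j _ hij; omega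
    · intro j hj
      simp only [Finset.mem_filter, Finset.mem_range] at hj
      refine ⟨j - 1, ?_, by omega⟩
      simp only [Finset.mem_erase, Finset.mem_range]
      omega
    · intro i _; push_cast; ring
  · have hQ1 : Q d τ u = (u + τ) * common d τ u := by
      unfold Q common
      rw [← Finset.mul_prod_erase _ _ (show τ - 1 ∈ (Finset.range d).erase τ by
        simp only [Finset.mem_erase, Finset.mem_range]; omega)]
      congr 1
      have : ((τ - 1 : ℕ) : ℝ) = (τ : ℝ) - 1 := by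
        rw [Nat.cast_sub h0]; simp
      rw [this]; ring
    have hQ2 : Q d (τ - 1) u = (u + (τ + 1)) * common d τ u := by
      unfold Q common
      rw [Finset.erase_right_comm]
      rw [← Finset.mul_prod_erase _ _ (show τ ∈ (Finset.range d).erase (τ - 1) by
        simp only [Finset.mem_erase, Finset.mem_range]; omega)]
    have hP : P d τ u = u * common d τ u := by
      unfold P common rootSet
      rw [← Finset.mul_prod_erase _ _ (show 0 ∈ (Finset.range (d + 1)).filter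
        (fun j => j ≠ τ ∧ j ≠ τ + 1) by
          simp only [Finset.mem_filter, Finset.mem_range]; omega)]
      congr 1
      · simp
      · symm
        refine Finset.prod_bij (fun i _ => i + 1) ?_ ?_ ?_ ?_
        · intro i hi
          simp only [Finset.mem_erase, Finset.mem_range, Finset.mem_filter] at hi ⊢
          omega
        · intro i _ j _ hij; omega
        · intro j hj
          simp only [Finset.mem_erase, Finset.mem_filter, Finset.mem_range] at hj
          refine ⟨j - 1, ?_, by omega⟩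
          simp only [Finset.mem_erase, Finset.mem_range]
          omega
        · intro i _; push_cast; ring
    rw [hP, hQ1, hQ2]; ring

/-- The key identity `∑_τ lam_τ P_τ = D'/d`. -/
lemma sum_lam_P {d : ℕ} (hd : 1 ≤ d) (u : ℝ) :
    ∑ τ ∈ Finset.range d, lam d τ * P d τ u = (∑ j ∈ Finset.range d, Q d j u) / d := by
  have h := abel (lam d) (fun n => (n : ℝ) * Q d (n - 1) u) d
  have h1 : ∑ τ ∈ Finset.range d, lam d τ *
      ((((τ + 1 : ℕ) : ℝ)) * Q d (τ + 1 - 1) u - (τ : ℝ) * Q d (τ - 1) u)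
      = ∑ τ ∈ Finset.range d, lam d τ * P d τ u := by
    refine Finset.sum_congr rfl fun τ hτ => ?_
    rw [P_eq (Finset.mem_range.1 hτ)]
    simp
  have h2 : ∑ τ ∈ Finset.range d, (lam d τ - lam d (τ + 1)) *
      ((((τ + 1 : ℕ) : ℝ)) * Q d (τ + 1 - 1) u)
      = ∑ τ ∈ Finset.range d, Q d τ u / (d : ℝ) := by
    refine Finset.sum_congr rfl fun τ hτ => ?_
    rw [lam_succ (Finset.mem_range.1 hτ)]
    have hd : (d : ℝ) ≠ 0 := by
      have : 0 < d := by omega
      exact_mod_cast this.ne'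
    have h1 : ((τ : ℝ) + 1) ≠ 0 := by positivity
    simp only [Nat.add_sub_cancel]
    push_cast
    field_simp
  rw [h1, h2, lam_self] at h
  rw [h, Finset.sum_div]
  simp

lemma hasDerivAt_D (d : ℕ) (u : ℝ) :
    HasDerivAt (D d) (∑ j ∈ Finset.range d, Q d j u) u := by
  have h : HasDerivAt (fun x : ℝ => ∏ j ∈ Finset.range d, (x + ((j : ℝ) + 1)))
      (∑ i ∈ Finset.range d, (∏ j ∈ (Finset.range d).erase i, (u + ((j : ℝ) + 1))) • (1 : ℝ)) u := by
    refine HasDerivAt.fun_finsetProd (u := Finset.range d)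
      (f := fun (j : ℕ) (x : ℝ) => x + ((j : ℝ) + 1)) (f' := fun _ => 1) ?_
    intro i _
    simpa using (hasDerivAt_id u).add_const ((i : ℝ) + 1)
  have h' : D d = fun x : ℝ => ∏ j ∈ Finset.range d, (x + ((j : ℝ) + 1)) := rfl
  rw [h']
  simpa [Q] using h

lemma contDiff_D1 (d : ℕ) : ContDiff ℝ 1 (fun u : ℝ => ∑ j ∈ Finset.range d, Q d j u) := by
  unfold Q
  fun_prop

/-- second order Taylor estimate on `[-d, 0]`. -/
lemma exists_taylor (d : ℕ) : ∃ K : ℝ, 0 ≤ K ∧ ∀ x h : ℝ, 0 ≤ h → -(d : ℝ) ≤ x → x + h ≤ 0 →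
    |D d (x + h) - D d x - h * ∑ j ∈ Finset.range d, Q d j x| ≤ K * h ^ 2 := by
  set f : ℝ → ℝ := fun u => ∑ j ∈ Finset.range d, Q d j u with hf
  have hc : ContDiff ℝ 1 f := contDiff_D1 d
  have hcd : Continuous (deriv f) := hc.continuous_deriv le_rfl
  obtain ⟨K, hK⟩ := (isCompact_Icc (a := -(d : ℝ)) (b := 0)).exists_bound_of_continuousOn
    hcd.continuousOn
  refine ⟨max K 0, le_max_right _ _, ?_⟩
  intro x h hh hx hxh
  have hsub : Set.Icc x (x + h) ⊆ Set.Icc (-(d : ℝ)) 0 := Set.Icc_subset_Icc hx hxh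
  have hlip : ∀ u ∈ Set.Icc x (x + h), ‖f u - f x‖ ≤ max K 0 * h := by
    intro u hu
    have h1 := Convex.norm_image_sub_le_of_norm_deriv_le (𝕜 := ℝ) (f := f) (C := max K 0)
      (s := Set.Icc x (x + h)) (x := x) (y := u)
      (fun y _ => (hc.differentiable one_ne_zero).differentiableAt)
      (fun y hy => (hK y (hsub hy)).trans (le_max_left _ _))
      (convex_Icc _ _) (Set.left_mem_Icc.2 (by linarith)) hu
    refine h1.trans (mul_le_mul_of_nonneg_left ?_ (le_max_right _ _))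
    rw [Real.norm_eq_abs, abs_of_nonneg (by linarith [hu.1])]
    linarith [hu.2]
  have h2 := Convex.norm_image_sub_le_of_norm_hasDerivWithin_le (𝕜 := ℝ)
    (f := fun u => D d u - u * f x) (f' := fun u => f u - f x) (C := max K 0 * h)
    (s := Set.Icc x (x + h)) (x := x) (y := x + h)
    (fun u _ => by
      have := (hasDerivAt_D d u).fun_sub ((hasDerivAt_id u).mul_const (f x))
      simpa [hf] using this.hasDerivWithinAt)
    hlip (convex_Icc _ _) (Set.left_mem_Icc.2 (by linarith)) (Set.right_mem_Icc.2 (by linarith))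
  rw [Real.norm_eq_abs] at h2
  have e1 : D d (x + h) - (x + h) * f x - (D d x - x * f x)
      = D d (x + h) - D d x - h * f x := by ring
  rw [e1] at h2
  refine h2.trans (le_of_eq ?_)
  rw [show x + h - x = h by ring, Real.norm_eq_abs, abs_of_nonneg hh]; ring

lemma D_zero (d : ℕ) : D d 0 = (d.factorial : ℝ) := by
  unfold D
  rw [← Finset.prod_range_add_one_eq_factorial]
  push_cast
  refine Finset.prod_congr rfl fun j _ => by ring

lemma D_neg {d i : ℕ} (hi : 1 ≤ i) (hid : i ≤ d) : D d (-(i : ℝ)) = 0 := by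
  unfold D
  refine Finset.prod_eq_zero (i := i - 1) (Finset.mem_range.2 (by omega)) ?_
  have : ((i - 1 : ℕ) : ℝ) = (i : ℝ) - 1 := by
    rw [Nat.cast_sub hi]; simp
  rw [this]; ring

/-- Riemann sum estimate. -/
lemma riemann (d : ℕ) : ∃ K : ℝ, 0 ≤ K ∧ ∀ N i : ℕ, 1 ≤ N → 1 ≤ i → i ≤ d →
    |∑ m ∈ Finset.range (i * N), (∑ j ∈ Finset.range d, Q d j (-((m : ℝ) + 1) / N)) / N
      - d.factorial| ≤ K / N := by
  obtain ⟨K, hK0, hK⟩ := exists_taylor d
  refine ⟨K * d, by positivity, ?_⟩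
  intro N i hN hi hid
  have hN' : (0 : ℝ) < N := by exact_mod_cast hN
  have htel : ∑ m ∈ Finset.range (i * N),
      (D d (-((m : ℝ) + 1) / N + 1 / N) - D d (-((m : ℝ) + 1) / N)) = d.factorial := by
    have h1 : ∑ m ∈ Finset.range (i * N),
      (D d (-((m : ℝ) + 1) / N + 1 / N) - D d (-((m : ℝ) + 1) / N))
      = ∑ m ∈ Finset.range (i * N),
        ((fun n : ℕ => D d (-(n : ℝ) / N)) m - (fun n : ℕ => D d (-(n : ℝ) / N)) (m + 1)) := by
      refine Finset.sum_congr rfl fun m _ => ?_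
      simp only
      congr 2
      · ring
      · push_cast; ring
    rw [h1, Finset.sum_range_sub']
    rw [Nat.cast_zero, neg_zero, zero_div, D_zero]
    have : -((i * N : ℕ) : ℝ) / N = -(i : ℝ) := by
      push_cast; field_simp
    rw [this, D_neg hi hid, sub_zero]
  rw [← htel, ← Finset.sum_sub_distrib]
  refine (Finset.abs_sum_le_sum_abs _ _).trans ?_
  have hb : ∀ m ∈ Finset.range (i * N),
      |(∑ j ∈ Finset.range d, Q d j (-((m : ℝ) + 1) / N)) / N -
        (D d (-((m : ℝ) + 1) / N + 1 / N) - D d (-((m : ℝ) + 1) / N))| ≤ K * (1 / N) ^ 2 := by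
    intro m hm
    have hm' : (m : ℝ) + 1 ≤ (i : ℝ) * N := by
      have : m + 1 ≤ i * N := by
        have := Finset.mem_range.1 hm; omega
      exact_mod_cast this
    have hx : -(d : ℝ) ≤ -((m : ℝ) + 1) / N := by
      rw [neg_div, neg_le_neg_iff, div_le_iff₀ hN']
      refine hm'.trans (mul_le_mul_of_nonneg_right (by exact_mod_cast hid) hN'.le)
    have hx2 : -((m : ℝ) + 1) / N + 1 / N ≤ 0 := by
      rw [← add_div]
      apply div_nonpos_of_nonpos_of_nonneg _ hN'.le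
      have : (0 : ℝ) ≤ m := by positivity
      linarith
    have := hK (-((m : ℝ) + 1) / N) (1 / N) (by positivity) hx hx2
    rw [abs_sub_comm]
    convert this using 2
    ring
  refine (Finset.sum_le_sum hb).trans ?_
  rw [Finset.sum_const, Finset.card_range, nsmul_eq_mul]
  push_cast
  have : (i : ℝ) * N * (K * (1 / N) ^ 2) = K * i / N := by field_simp
  rw [this]
  have hid' : (i : ℝ) ≤ d := by exact_mod_cast hid
  gcongr

lemma card_rootSet {d τ : ℕ} (h : τ < d) : (rootSet d τ).card = d - 1 := by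
  have : rootSet d τ = ((Finset.range (d + 1)).erase τ).erase (τ + 1) := by
    ext j; simp only [rootSet, Finset.mem_filter, Finset.mem_erase, Finset.mem_range]; tauto
  rw [this, Finset.card_erase_of_mem, Finset.card_erase_of_mem, Finset.card_range]
  · omega
  · simp only [Finset.mem_range]; omega
  · simp only [Finset.mem_erase, Finset.mem_range]; omega

lemma S_cast {d N τ i : ℕ} (hτ : τ < d) (hN : 1 ≤ N) :
    ((S d N τ i : ℤ) : ℝ)
      = ∑ m ∈ Finset.range (i * N), (N : ℝ) ^ (d - 1) * P d τ (-((m : ℝ) + 1) / N) := by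
  have hN' : (N : ℝ) ≠ 0 := by
    have : 0 < N := by omega
    exact_mod_cast this.ne'
  unfold S P
  push_cast
  refine Finset.sum_congr rfl fun m _ => ?_
  rw [← card_rootSet hτ, ← Finset.prod_const, ← Finset.prod_mul_distrib]
  refine Finset.prod_congr rfl fun j _ => ?_
  field_simp
  ring

/-- **Numerics.** the weighted average of the `S_i^τ` is `(d-1)! N^d + O(N^{d-1})`. -/
theorem avg_S {d : ℕ} (hd : 1 ≤ d) : ∃ K : ℝ, 0 ≤ K ∧ ∀ N i : ℕ, 1 ≤ N → 1 ≤ i → i ≤ d →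
    |∑ τ ∈ Finset.range d, lam d τ * (S d N τ i : ℝ) - ((d - 1).factorial : ℝ) * N ^ d|
      ≤ K * N ^ (d - 1) := by
  obtain ⟨K, hK0, hK⟩ := riemann d
  refine ⟨K, hK0, ?_⟩
  intro N i hN hi hid
  have hN' : (0 : ℝ) < N := by exact_mod_cast hN
  have hd' : (0 : ℝ) < d := by exact_mod_cast hd
  have h1 : ∑ τ ∈ Finset.range d, lam d τ * (S d N τ i : ℝ)
      = (N : ℝ) ^ d / d * ∑ m ∈ Finset.range (i * N),
          (∑ j ∈ Finset.range d, Q d j (-((m : ℝ) + 1) / N)) / N := by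
    have : ∀ τ ∈ Finset.range d, lam d τ * (S d N τ i : ℝ)
        = ∑ m ∈ Finset.range (i * N),
          (N : ℝ) ^ (d - 1) * (lam d τ * P d τ (-((m : ℝ) + 1) / N)) := by
      intro τ hτ
      rw [S_cast (Finset.mem_range.1 hτ) hN, Finset.mul_sum]
      refine Finset.sum_congr rfl fun m _ => by ring
    rw [Finset.sum_congr rfl this, Finset.sum_comm, Finset.mul_sum]
    refine Finset.sum_congr rfl fun m _ => ?_
    rw [← Finset.mul_sum, sum_lam_P hd]
    have : (N : ℝ) ^ d = (N : ℝ) ^ (d - 1) * N := by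
      rw [← pow_succ]; congr 1; omega
    rw [this]
    field_simp
  have h2 : ((d - 1).factorial : ℝ) * N ^ d = (N : ℝ) ^ d / d * d.factorial := by
    have : (d.factorial : ℝ) = d * (d - 1).factorial := by
      have := Nat.mul_factorial_pred (show d ≠ 0 by omega)
      rw [← this]; push_cast; ring
    rw [this]; field_simp
  rw [h1, h2, ← mul_sub, abs_mul, abs_of_nonneg (by positivity : (0 : ℝ) ≤ (N : ℝ) ^ d / d)]
  refine (mul_le_mul_of_nonneg_left (hK N i hN hi hid) (by positivity)).trans ?_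
  have : (N : ℝ) ^ d = (N : ℝ) ^ (d - 1) * N := by
    rw [← pow_succ]; congr 1; omega
  rw [this]
  have e : (N : ℝ) ^ (d - 1) * N / d * (K / N) = K * N ^ (d - 1) / d := by field_simp
  rw [e]
  apply div_le_self (by positivity)
  exact_mod_cast hd

lemma S_zero (d N τ : ℕ) : S d N τ 0 = 0 := by simp [S]

/-- **Final inequality of Theorem K.**  From the inequalities
`0 ≤ (d-1)! LM + Λ ∑_i (-1)^i b_i S_i^τ` for all `τ < d` get `LM ≥ (b_0 N^d - C N^{d-1}) Λ`. -/
theorem final {d : ℕ} (hd : 1 ≤ d) (b : ℕ → ℕ)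
    (hb : ∑ i ∈ Finset.range (d + 1), (-1 : ℤ) ^ i * b i = 0) :
    ∃ C : ℝ, 0 ≤ C ∧ ∀ N : ℕ, 1 ≤ N → ∀ LM Λ : ℝ, 0 ≤ Λ →
      (∀ τ < d, 0 ≤ ((d - 1).factorial : ℝ) * LM +
        Λ * ∑ i ∈ Finset.range (d + 1), (-1 : ℝ) ^ i * b i * (S d N τ i : ℝ)) →
      ((b 0 : ℝ) * N ^ d - C * N ^ (d - 1)) * Λ ≤ LM := by
  obtain ⟨K, hK0, hK⟩ := avg_S hd
  set B : ℝ := ∑ i ∈ Finset.range (d + 1), (b i : ℝ) with hB
  have hB0 : 0 ≤ B := Finset.sum_nonneg fun _ _ => by positivity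
  refine ⟨B * K, by positivity, ?_⟩
  intro N hN LM Λ hΛ h
  have hN' : (0 : ℝ) < N := by exact_mod_cast hN
  have hF : (1 : ℝ) ≤ (d - 1).factorial := by exact_mod_cast Nat.one_le_iff_ne_zero.2 (Nat.factorial_ne_zero _)
  -- averaged inequality
  have havg : 0 ≤ ((d - 1).factorial : ℝ) * LM + Λ * ∑ i ∈ Finset.range (d + 1),
      (-1 : ℝ) ^ i * b i * ∑ τ ∈ Finset.range d, lam d τ * (S d N τ i : ℝ) := by
    have h1 : 0 ≤ ∑ τ ∈ Finset.range d, lam d τ * (((d - 1).factorial : ℝ) * LM +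
        Λ * ∑ i ∈ Finset.range (d + 1), (-1 : ℝ) ^ i * b i * (S d N τ i : ℝ)) :=
      Finset.sum_nonneg fun τ hτ => mul_nonneg (lam_nonneg _ _) (h τ (Finset.mem_range.1 hτ))
    have h2 : ∑ τ ∈ Finset.range d, lam d τ * (((d - 1).factorial : ℝ) * LM +
        Λ * ∑ i ∈ Finset.range (d + 1), (-1 : ℝ) ^ i * b i * (S d N τ i : ℝ))
        = (∑ τ ∈ Finset.range d, lam d τ) * (((d - 1).factorial : ℝ) * LM) +
          Λ * ∑ i ∈ Finset.range (d + 1),
      (-1 : ℝ) ^ i * b i * ∑ τ ∈ Finset.range d, lam d τ * (S d N τ i : ℝ) := by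
      simp_rw [mul_add, Finset.sum_add_distrib, Finset.sum_mul, Finset.mul_sum]
      congr 1
      rw [Finset.sum_comm]
      refine Finset.sum_congr rfl fun i _ => Finset.sum_congr rfl fun τ _ => by ring
    rw [h2, sum_lam hd, one_mul] at h1
    exact h1
  -- compare the alternating sum
  have hbR : ∑ i ∈ Finset.range (d + 1), (-1 : ℝ) ^ i * b i = 0 := by exact_mod_cast hb
  have hsum : ∑ i ∈ Finset.range (d + 1),
      (-1 : ℝ) ^ i * b i * ∑ τ ∈ Finset.range d, lam d τ * (S d N τ i : ℝ)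
      ≤ - (b 0 : ℝ) * (((d - 1).factorial : ℝ) * N ^ d) + B * (K * N ^ (d - 1)) := by
    set T : ℕ → ℝ := fun i => ∑ τ ∈ Finset.range d, lam d τ * (S d N τ i : ℝ) with hT
    set M0 : ℝ := ((d - 1).factorial : ℝ) * N ^ d with hM0
    have hT0 : T 0 = 0 := by simp [hT, S_zero]
    have e1 : ∑ i ∈ Finset.range (d + 1), (-1 : ℝ) ^ i * b i * T i
        = ∑ i ∈ Finset.range (d + 1), ((-1 : ℝ) ^ i * b i * (T i - M0)) := by
      have : ∑ i ∈ Finset.range (d + 1), ((-1 : ℝ) ^ i * b i * (T i - M0))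
          = ∑ i ∈ Finset.range (d + 1), (-1 : ℝ) ^ i * b i * T i
            - (∑ i ∈ Finset.range (d + 1), (-1 : ℝ) ^ i * b i) * M0 := by
        rw [Finset.sum_mul, ← Finset.sum_sub_distrib]
        refine Finset.sum_congr rfl fun i _ => by ring
      rw [this, hbR]; ring
    rw [e1, Finset.sum_range_succ', pow_zero, one_mul, hT0]
    have e2 : ∑ i ∈ Finset.range d, ((-1 : ℝ) ^ (i + 1) * b (i + 1) * (T (i + 1) - M0))
        ≤ ∑ i ∈ Finset.range d, (b (i + 1) : ℝ) * (K * N ^ (d - 1)) := by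
      refine Finset.sum_le_sum fun i hi => ?_
      have hi' := Finset.mem_range.1 hi
      have hk := hK N (i + 1) hN (by omega) (by omega)
      refine (le_abs_self _).trans ?_
      rw [abs_mul, abs_mul, abs_pow, abs_neg, abs_one, one_pow, one_mul,
        abs_of_nonneg (by positivity : (0 : ℝ) ≤ b (i + 1))]
      exact mul_le_mul_of_nonneg_left hk (by positivity)
    have e3 : ∑ i ∈ Finset.range d, (b (i + 1) : ℝ) * (K * N ^ (d - 1))
        ≤ B * (K * N ^ (d - 1)) := by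
      rw [← Finset.sum_mul]
      refine mul_le_mul_of_nonneg_right ?_ (by positivity)
      rw [hB, Finset.sum_range_succ']
      have : (0 : ℝ) ≤ b 0 := by positivity
      linarith
    linarith [e2.trans e3]
  have h3 := mul_le_mul_of_nonneg_left hsum hΛ
  -- (d-1)! LM ≥ Λ (b0 (d-1)! N^d - B K N^{d-1})
  have h4 : ((b 0 : ℝ) * N ^ d - B * K * N ^ (d - 1)) * Λ * ((d - 1).factorial : ℝ)
      ≤ ((d - 1).factorial : ℝ) * LM := by
    have h5 : Λ * ((b 0 : ℝ) * (((d - 1).factorial : ℝ) * N ^ d) - B * (K * N ^ (d - 1)))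
        ≤ ((d - 1).factorial : ℝ) * LM := by linarith
    refine le_trans ?_ h5
    have h6 : B * K * N ^ (d - 1) * Λ ≤ B * K * N ^ (d - 1) * Λ * ((d - 1).factorial : ℝ) :=
      le_mul_of_one_le_right (by positivity) hF
    nlinarith [h6]
  have h5 : 0 < ((d - 1).factorial : ℝ) := by linarith
  rw [mul_comm ((d - 1).factorial : ℝ) LM] at h4
  exact le_of_mul_le_mul_right h4 h5

end Crest.Agent.R183.KNum
end

-- ▼ part R183/KConst
section

set_option autoImplicit false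

namespace Crest.Agent.R183.KConst

open Finset Polynomial

variable {n : ℕ}

/-- affine in one variable. -/
lemma affine_of_second_diff (g : ℤ → ℝ) (h : ∀ t, g (t + 1) - 2 * g t + g (t - 1) = 0) (t : ℤ) :
    g t = (1 - (t : ℝ)) * g 0 + t * g 1 := by
  have hd : ∀ t, g (t + 1) - g t = g 1 - g 0 := by
    intro t
    induction t using Int.induction_on with
    | zero => simp
    | succ k ih =>
      have := h ((k : ℤ) + 1)
      rw [show (k : ℤ) + 1 - 1 = k by ring] at this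
      linarith
    | pred k ih =>
      have := h (-(k : ℤ))
      rw [show -(k : ℤ) - 1 + 1 = -(k : ℤ) by ring]
      linarith
  induction t using Int.induction_on with
  | zero => simp
  | succ k ih =>
    have := hd (k : ℤ)
    push_cast at ih ⊢
    linarith
  | pred k ih =>
    have := hd (-(k : ℤ) - 1)
    rw [show -(k : ℤ) - 1 + 1 = -(k : ℤ) by ring] at this
    push_cast at ih ⊢
    linarith

/-- overwrite on `T` by the indicator of `B`. -/
def ow (T B : Finset (Fin n)) (ρ : Fin n → ℤ) : Fin n → ℤ :=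
  fun l => if l ∈ T then (if l ∈ B then 1 else 0) else ρ l

lemma expand (c : (Fin n → ℤ) → ℝ)
    (haff : ∀ ρ (l : Fin n) (t : ℤ), c (Function.update ρ l t)
      = (1 - (t : ℝ)) * c (Function.update ρ l 0) + t * c (Function.update ρ l 1))
    (ρ : Fin n → ℤ) (T : Finset (Fin n)) :
    c ρ = ∑ B ∈ T.powerset, (∏ l ∈ B, (ρ l : ℝ)) * (∏ l ∈ T \ B, (1 - (ρ l : ℝ))) *
      c (ow T B ρ) := by
  induction T using Finset.induction_on with
  | empty =>
    have h0 : ow ∅ ∅ ρ = ρ := by funext l; simp [ow]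
    simp [h0]
  | insert a T ha ih =>
    rw [Finset.sum_powerset_insert ha, ← Finset.sum_add_distrib]
    rw [ih]
    refine Finset.sum_congr rfl fun B hB => ?_
    rw [Finset.mem_powerset] at hB
    have haB : a ∉ B := fun h => ha (hB h)
    have hw : ow T B ρ = Function.update (ow T B ρ) a (ρ a) := by
      funext l
      by_cases hl : l = a
      · subst hl; simp [ow, ha]
      · simp [Function.update_of_ne hl]
    have h0 : Function.update (ow T B ρ) a 0 = ow (insert a T) B ρ := by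
      funext l
      by_cases hl : l = a
      · subst hl; simp [ow, haB]
      · simp [ow, Finset.mem_insert, hl]
    have h1 : Function.update (ow T B ρ) a 1 = ow (insert a T) (insert a B) ρ := by
      funext l
      by_cases hl : l = a
      · subst hl; simp [ow]
      · simp [ow, Finset.mem_insert, hl]
    have e := haff (ow T B ρ) a (ρ a)
    rw [← hw, h0, h1] at e
    rw [e, Finset.prod_insert haB, Finset.insert_sdiff_of_notMem _ haB,
      Finset.prod_insert (by simp [ha]),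
      show insert a T \ insert a B = T \ B by
        ext x; simp only [Finset.mem_sdiff, Finset.mem_insert]
        constructor
        · rintro ⟨h | h, h2⟩
          · exact absurd (Or.inl h) h2
          · exact ⟨h, fun hb => h2 (Or.inr hb)⟩
        · rintro ⟨h, h2⟩
          exact ⟨Or.inr h, by rintro (h3 | h3); exacts [ha (h3 ▸ h), h2 h3]⟩]
    ring

/-- coefficients: if `∑_k C(n,k) g_k X^k (1-X)^(n-k)` vanishes then all `g_k = 0`. -/
lemma bernstein_indep (n : ℕ) (g : ℕ → ℝ)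
    (h : ∑ k ∈ Finset.range (n + 1), Polynomial.C ((n.choose k : ℝ) * g k) *
      (X ^ k * (1 - X) ^ (n - k)) = 0) : ∀ k ≤ n, g k = 0 := by
  intro k
  induction k using Nat.strong_induction_on with
  | _ k ih =>
    intro hk
    have h1 := congrArg (fun p => Polynomial.coeff p k) h
    simp only [Polynomial.finsetSum_coeff, Polynomial.coeff_C_mul, Polynomial.coeff_zero,
      Polynomial.coeff_X_pow_mul'] at h1
    rw [Finset.sum_eq_single k] at h1
    · simp only [le_refl, if_true, Nat.sub_self] at h1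
      have h2 : ((1 - X : ℝ[X]) ^ (n - k)).coeff 0 = 1 := by
        rw [Polynomial.coeff_zero_eq_eval_zero]; simp
      rw [h2, mul_one] at h1
      have h3 : (n.choose k : ℝ) ≠ 0 := by
        exact_mod_cast (Nat.choose_pos hk).ne'
      exact (mul_eq_zero.1 h1).resolve_left h3
    · intro j hj hjk
      rcases lt_or_gt_of_ne hjk with h4 | h4
      · rw [ih j h4 (by omega)]; simp
      · rw [if_neg (by omega)]; simp
    · intro hk'
      exact absurd (Finset.mem_range.2 (by omega)) hk'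

/-- the symmetric function on `{0,1}^n` only depends on the cardinality. -/
lemma symm_card (c : (Fin n → ℤ) → ℝ)
    (hsymm : ∀ (σ : Equiv.Perm (Fin n)) (ρ : Fin n → ℤ), c (ρ ∘ σ) = c ρ)
    (B B' : Finset (Fin n)) (hB : B.card = B'.card) :
    c (fun l => if l ∈ B then 1 else 0) = c (fun l => if l ∈ B' then 1 else 0) := by
  classical
  have e : {x // x ∈ B} ≃ {x // x ∈ B'} := Fintype.equivOfCardEq (by simpa using hB)
  have h := hsymm e.extendSubtype (fun l => if l ∈ B' then 1 else 0)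
  rw [← h]
  congr 1
  funext l
  simp only [Function.comp_apply]
  by_cases hl : l ∈ B
  · rw [if_pos hl, if_pos (e.extendSubtype_mem l hl)]
  · rw [if_neg hl, if_neg (e.extendSubtype_not_mem l hl)]

/-- **(K5), pure part.** -/
theorem const_of_symm_affine_shift (c : (Fin n → ℤ) → ℝ)
    (hsymm : ∀ (σ : Equiv.Perm (Fin n)) (ρ : Fin n → ℤ), c (ρ ∘ σ) = c ρ)
    (haff : ∀ (ρ : Fin n → ℤ) (l : Fin n) (t : ℤ), c (Function.update ρ l (t + 1))
      - 2 * c (Function.update ρ l t) + c (Function.update ρ l (t - 1)) = 0)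
    (hshift : ∀ ρ : Fin n → ℤ, c (fun l => ρ l + 1) = c ρ) (ρ : Fin n → ℤ) :
    c ρ = c 0 := by
  classical
  have haff' : ∀ (ρ : Fin n → ℤ) (l : Fin n) (t : ℤ), c (Function.update ρ l t)
      = (1 - (t : ℝ)) * c (Function.update ρ l 0) + t * c (Function.update ρ l 1) :=
    fun ρ l t => affine_of_second_diff (fun t => c (Function.update ρ l t)) (haff ρ l) t
  -- value on indicator functions
  set f : ℕ → ℝ := fun k => if h : ∃ B : Finset (Fin n), B.card = k
    then c (fun l => if l ∈ h.choose then 1 else 0) else c 0 with hf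
  have hfB : ∀ B : Finset (Fin n), c (fun l => if l ∈ B then 1 else 0) = f B.card := by
    intro B
    have h : ∃ B' : Finset (Fin n), B'.card = B.card := ⟨B, rfl⟩
    simp only [hf]
    rw [dif_pos h]
    exact symm_card c hsymm _ _ h.choose_spec.symm
  have hf0 : f 0 = c 0 := by
    have := hfB ∅
    simp only [Finset.notMem_empty, if_false, Finset.card_empty] at this
    rw [← this]; rfl
  -- constant on the diagonal
  have hdiag : ∀ t : ℕ, c (fun _ => (t : ℤ)) = c 0 := by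
    intro t
    induction t with
    | zero => rfl
    | succ t ih =>
      have h1 := hshift (fun _ => (t : ℤ))
      rw [ih] at h1
      rw [← h1]
      push_cast
      rfl
  have hexp : ∀ ρ : Fin n → ℤ, c ρ = ∑ B ∈ (Finset.univ : Finset (Fin n)).powerset,
      (∏ l ∈ B, (ρ l : ℝ)) * (∏ l ∈ Finset.univ \ B, (1 - (ρ l : ℝ))) * f B.card := by
    intro ρ
    rw [expand c haff' ρ Finset.univ]
    refine Finset.sum_congr rfl fun B _ => ?_
    rw [← hfB B]
    congr 2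
    funext l
    simp [ow]
  have hbern : ∀ t : ℕ, ∑ k ∈ Finset.range (n + 1), (n.choose k : ℝ) *
      ((t : ℝ) ^ k * (1 - (t : ℝ)) ^ (n - k)) * f k = c 0 := by
    intro t
    rw [← hdiag t, hexp, Finset.powerset_univ, ← Finset.powerset_univ,
      Finset.sum_powerset, Finset.card_univ, Fintype.card_fin]
    refine Finset.sum_congr rfl fun k _ => ?_
    have : ∀ B ∈ Finset.powersetCard k (Finset.univ : Finset (Fin n)),
        (∏ l ∈ B, (((t : ℤ)) : ℝ)) * (∏ l ∈ Finset.univ \ B, (1 - (((t : ℤ)) : ℝ))) * f B.card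
        = ((t : ℝ) ^ k * (1 - (t : ℝ)) ^ (n - k)) * f k := by
      intro B hB
      rw [Finset.mem_powersetCard] at hB
      rw [Finset.prod_const, Finset.prod_const, Finset.card_sdiff_of_subset hB.1,
        Finset.card_univ, Fintype.card_fin, hB.2]
      push_cast
      ring
    rw [Finset.sum_congr rfl this, Finset.sum_const, Finset.card_powersetCard, Finset.card_univ,
      Fintype.card_fin, nsmul_eq_mul]
    ring
  have hpoly : ∑ k ∈ Finset.range (n + 1), Polynomial.C ((n.choose k : ℝ) * (f k - c 0)) *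
      (X ^ k * (1 - X) ^ (n - k)) = 0 := by
    refine Polynomial.eq_zero_of_infinite_isRoot _ ?_
    refine Set.Infinite.mono (s := Set.range (fun t : ℕ => (t : ℝ))) ?_
      (Set.infinite_range_of_injective Nat.cast_injective)
    rintro _ ⟨t, rfl⟩
    simp only [Set.mem_ofPred_eq, Polynomial.IsRoot.def, Polynomial.eval_finsetSum,
      Polynomial.eval_mul, Polynomial.eval_C, Polynomial.eval_pow, Polynomial.eval_X,
      Polynomial.eval_sub, Polynomial.eval_one]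
    have h1 := hbern t
    have h2 : ∑ k ∈ Finset.range (n + 1), (n.choose k : ℝ) *
      ((t : ℝ) ^ k * (1 - (t : ℝ)) ^ (n - k)) = 1 := by
      have := add_pow (t : ℝ) (1 - t) n
      rw [show (t : ℝ) + (1 - t) = 1 by ring, one_pow] at this
      refine Eq.trans (Finset.sum_congr rfl fun k _ => ?_) this.symm
      ring
    have h3 : ∑ k ∈ Finset.range (n + 1), (n.choose k : ℝ) * (f k - c 0) *
        ((t : ℝ) ^ k * (1 - (t : ℝ)) ^ (n - k))
        = ∑ k ∈ Finset.range (n + 1), (n.choose k : ℝ) *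
      ((t : ℝ) ^ k * (1 - (t : ℝ)) ^ (n - k)) * f k
        - (∑ k ∈ Finset.range (n + 1), (n.choose k : ℝ) *
      ((t : ℝ) ^ k * (1 - (t : ℝ)) ^ (n - k))) * c 0 := by
      rw [Finset.sum_mul, ← Finset.sum_sub_distrib]
      refine Finset.sum_congr rfl fun k _ => by ring
    rw [h3, h1, h2]; ring
  have hfk := bernstein_indep n (fun k => f k - c 0) hpoly
  -- conclude
  rw [hexp ρ]
  have h4 : ∀ B ∈ (Finset.univ : Finset (Fin n)).powerset,
      (∏ l ∈ B, (ρ l : ℝ)) * (∏ l ∈ Finset.univ \ B, (1 - (ρ l : ℝ))) * f B.card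
      = (∏ l ∈ B, (ρ l : ℝ)) * (∏ l ∈ Finset.univ \ B, (1 - (ρ l : ℝ))) * c 0 := by
    intro B _
    have : f B.card - c 0 = 0 := hfk B.card (by
      have := Finset.card_le_univ B
      simpa using this)
    rw [sub_eq_zero.1 this]
  rw [Finset.sum_congr rfl h4, ← Finset.sum_mul, ← Finset.prod_add]
  simp

end Crest.Agent.R183.KConst
end

-- ▼ part R183/KHom3
section

set_option autoImplicit false

namespace Crest.Agent.R183.KFin

open Finset KNum
open scoped Nat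

/-- number of roots `> k`. -/
def jj {n : ℕ} (ρ : Fin n → ℤ) (k : ℤ) : ℕ := (Finset.univ.filter fun l => k < ρ l).card

/-- sign of the product. -/
lemma prod_sub_eq {n : ℕ} (ρ : Fin n → ℤ) (k : ℤ) :
    ∏ l, (k - ρ l) = (-1) ^ jj ρ k * |∏ l, (k - ρ l)| := by
  rw [Finset.abs_prod]
  have h1 : ∀ l, k - ρ l = (if k < ρ l then -1 else 1) * |k - ρ l| := by
    intro l
    split_ifs with h
    · rw [abs_of_neg (by linarith)]; ring
    · rw [abs_of_nonneg (by linarith), one_mul]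
  conv_lhs => rw [Finset.prod_congr rfl fun l _ => h1 l]
  rw [Finset.prod_mul_distrib]
  congr 1
  rw [jj, Finset.prod_ite, Finset.prod_const, Finset.prod_const_one, mul_one]

/-- the roots of the `τ`-th window in some order. -/
structure IsRoots (d τ N n : ℕ) (ρ : Fin n → ℤ) : Prop where
  ex : ∃ e : Fin n → ℕ, Function.Injective e ∧ Finset.univ.image e = rootSet d τ ∧
    ∀ l, ρ l = -((e l : ℤ) * N)

lemma IsRoots.comp {d τ N n : ℕ} {ρ : Fin n → ℤ} (h : IsRoots d τ N n ρ)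
    (σ : Equiv.Perm (Fin n)) : IsRoots d τ N n (ρ ∘ σ) := by
  obtain ⟨e, he, hi, hr⟩ := h.ex
  refine ⟨e ∘ σ, he.comp σ.injective, ?_, fun l => hr (σ l)⟩
  rw [← hi]
  ext x
  simp only [Finset.mem_image, Finset.mem_univ, true_and, Function.comp]
  constructor
  · rintro ⟨a, rfl⟩; exact ⟨_, rfl⟩
  · rintro ⟨a, rfl⟩; exact ⟨σ.symm a, by simp⟩

lemma exists_isRoots {n τ N : ℕ} (hτ : τ < n + 1) : ∃ ρ : Fin n → ℤ, IsRoots (n + 1) τ N n ρ := by
  have hc : (rootSet (n + 1) τ).card = n := by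
    rw [card_rootSet hτ]; rfl
  let e := (rootSet (n + 1) τ).orderEmbOfFin hc
  refine ⟨fun l => -((e l : ℤ) * N), fun l => e l, e.injective, ?_, fun l => rfl⟩
  rw [← Finset.coe_inj, Finset.coe_image, Finset.coe_univ, Set.image_univ]
  exact Finset.range_orderEmbOfFin _ hc

lemma IsRoots.jj_le {d τ N n : ℕ} {ρ : Fin n → ℤ} (h : IsRoots d τ N n ρ) (hN : 1 ≤ N) (i : ℕ)
    (k : ℤ) (hk : -(i * N : ℤ) ≤ k) : jj ρ k ≤ i := by
  obtain ⟨e, he, hi, hr⟩ := h.ex
  unfold jj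
  calc (Finset.univ.filter fun l => k < ρ l).card
      = ((Finset.univ.filter fun l => k < ρ l).image e).card :=
        (Finset.card_image_of_injective _ he).symm
    _ ≤ (Finset.range i).card := by
        refine Finset.card_le_card fun x hx => ?_
        simp only [Finset.mem_image, Finset.mem_filter, Finset.mem_univ, true_and] at hx
        obtain ⟨l, hl, rfl⟩ := hx
        rw [hr l] at hl
        have h1 : ((e l : ℤ) * N) < i * N := by linarith
        have h2 : (e l : ℤ) < i := lt_of_mul_lt_mul_right h1 (by positivity)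
        exact Finset.mem_range.2 (by exact_mod_cast h2)
    _ = i := Finset.card_range i

lemma IsRoots.le_jj {d τ N n : ℕ} {ρ : Fin n → ℤ} (h : IsRoots d τ N n ρ) (i : ℕ)
    (hid : i ≤ d) (k : ℤ) (hk : k < -(i * N : ℤ)) : i ≤ jj ρ k + 1 := by
  obtain ⟨e, he, hi, hr⟩ := h.ex
  unfold jj
  have h1 : ((Finset.range (i + 1)).filter fun j => j ≠ τ ∧ j ≠ τ + 1).card ≤
      (Finset.univ.filter fun l => k < ρ l).card := by
    rw [← Finset.card_image_of_injective _ he]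
    refine Finset.card_le_card fun x hx => ?_
    simp only [Finset.mem_filter, Finset.mem_range] at hx
    have hx' : x ∈ rootSet d τ := by
      simp only [rootSet, Finset.mem_filter, Finset.mem_range]
      exact ⟨by omega, hx.2⟩
    rw [← hi] at hx'
    simp only [Finset.mem_image, Finset.mem_univ, true_and] at hx'
    obtain ⟨l, rfl⟩ := hx'
    simp only [Finset.mem_image, Finset.mem_filter, Finset.mem_univ, true_and]
    refine ⟨l, ?_, rfl⟩
    rw [hr l]
    have h2 : (e l : ℤ) * N ≤ i * N := by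
      have : (e l : ℤ) ≤ i := by exact_mod_cast Nat.lt_succ_iff.1 hx.1
      nlinarith [Int.natCast_nonneg N]
    linarith
  have h2 : i + 1 ≤ ((Finset.range (i + 1)).filter fun j => j ≠ τ ∧ j ≠ τ + 1).card + 2 := by
    have h3 := Finset.card_filter_add_card_filter_not (s := Finset.range (i + 1))
      (fun j => j ≠ τ ∧ j ≠ τ + 1)
    rw [Finset.card_range] at h3
    have h4 : ((Finset.range (i + 1)).filter fun j => ¬ (j ≠ τ ∧ j ≠ τ + 1)).card ≤ 2 := by
      refine (Finset.card_le_card (t := {τ, τ + 1}) fun x hx => ?_).trans Finset.card_le_two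
      simp only [Finset.mem_filter] at hx
      simp only [Finset.mem_insert, Finset.mem_singleton]
      by_contra h5
      push Not at h5
      exact hx.2 h5
    omega
  omega

/-- `∑_{k ∈ [-iN, 0)} ∏ (k - ρ_l) = S d N τ i`. -/
lemma IsRoots.sum_eq {d τ N n : ℕ} {ρ : Fin n → ℤ} (h : IsRoots d τ N n ρ) (i : ℕ) :
    ∑ k ∈ Finset.Ico (-(i * N : ℤ)) 0, ∏ l, (k - ρ l) = S d N τ i := by
  obtain ⟨e, he, hi, hr⟩ := h.ex
  unfold S
  symm
  refine Finset.sum_bij (fun (m : ℕ) _ => -((m : ℤ) + 1)) ?_ ?_ ?_ ?_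
  · intro m hm
    rw [Finset.mem_range] at hm
    rw [Finset.mem_Ico]
    have : (m : ℤ) + 1 ≤ (i * N : ℕ) := by exact_mod_cast hm
    push_cast at this
    constructor <;> linarith
  · intro a _ b _ hab; omega
  · intro k hk
    rw [Finset.mem_Ico] at hk
    refine ⟨(-k - 1).toNat, ?_, by omega⟩
    rw [Finset.mem_range]
    have h1 : ((-k - 1).toNat : ℤ) < (i * N : ℕ) := by
      push_cast
      omega
    exact_mod_cast h1
  · intro m _
    rw [← hi, Finset.prod_image fun a _ b _ hab => he hab]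
    refine Finset.prod_congr rfl fun l _ => ?_
    rw [hr l]; ring


/-! ### glue with `Stair` -/

section stair

open KHom
open scoped ENNReal

universe u v

variable {A : Type u} [CommRing A] {Λ : AddLen.{u, v} A}
variable {U : Type v} [AddCommGroup U] [Module A U] {D : U →ₗ[A] U}

/-- degree of the piece `Q_i ⊗ C_k`. -/
def gg {n : ℕ} (ρ : Fin n → ℤ) (i : ℕ) (k : ℤ) : ℤ := (i : ℤ) - jj ρ k

/-- length of the piece `Q_i ⊗ C_k`. -/
noncomputable def ll {n : ℕ} (ρ : Fin n → ℤ) (b : ℕ → ℕ) (Λ0 : ℝ≥0∞) (i : ℕ) (k : ℤ) : ℝ≥0∞ :=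
  (b i : ℝ≥0∞) * (((∏ l, (k - ρ l)).natAbs : ℕ) : ℝ≥0∞) * Λ0

lemma ll_ne_top {n : ℕ} (ρ : Fin n → ℤ) (b : ℕ → ℕ) {Λ0 : ℝ≥0∞} (h : Λ0 ≠ ⊤) (i : ℕ) (k : ℤ) :
    ll ρ b Λ0 i k ≠ ⊤ :=
  ENNReal.mul_ne_top (ENNReal.mul_ne_top (ENNReal.natCast_ne_top _) (ENNReal.natCast_ne_top _)) h

lemma sign_ll {n : ℕ} (ρ : Fin n → ℤ) (b : ℕ → ℕ) (Λ0 : ℝ≥0∞) (i : ℕ) (k : ℤ) :
    (-1 : ℝ) ^ (gg ρ i k) * (ll ρ b Λ0 i k).toReal =
      Λ0.toReal * ((-1 : ℝ) ^ i * b i * ((∏ l, (k - ρ l) : ℤ) : ℝ)) := by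
  have h1 : ((∏ l, (k - ρ l) : ℤ) : ℝ) = (-1) ^ jj ρ k * (|∏ l, (k - ρ l)| : ℤ) := by
    conv_lhs => rw [prod_sub_eq]
    push_cast; rfl
  have h2 : (-1 : ℝ) ^ (gg ρ i k) = (-1) ^ i * (-1) ^ jj ρ k := by
    unfold gg
    rw [zpow_sub₀ (by norm_num : (-1 : ℝ) ≠ 0), zpow_natCast, zpow_natCast, div_eq_mul_inv]
    congr 1
    rcases neg_one_pow_eq_or ℝ (jj ρ k) with h | h <;> rw [h] <;> norm_num
  rw [h1, h2, ll, ENNReal.toReal_mul, ENNReal.toReal_mul, ENNReal.toReal_natCast,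
    ENNReal.toReal_natCast, Nat.cast_natAbs]
  ring



end stair

end Crest.Agent.R183.KFin
end

-- ▼ part R183/KT1
section

set_option autoImplicit false

namespace Crest.Agent.R183.KT

open scoped ENNReal
open KF KHom Res

universe u v

variable {A : Type u} [CommRing A] {V : Type v} [AddCommGroup V] [Module A V]

/-- the ambient module. -/
abbrev UU (C : MCx A) (V : Type v) : Type v := (i : ℕ) → C.ι i → V

/-- the total differential. -/
def DD (C : MCx A) (δ : V →ₗ[A] V) : UU C V →ₗ[A] UU C V :=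
  LinearMap.pi fun i => (C.dM V i) ∘ₗ LinearMap.proj (i + 1) +
    ((-1 : A) ^ i) • ((post (C.ι i) δ) ∘ₗ LinearMap.proj i)

lemma DD_apply (C : MCx A) (δ : V →ₗ[A] V) (x : UU C V) (i : ℕ) :
    DD C δ x i = C.dM V i (x (i + 1)) + (-1 : A) ^ i • post (C.ι i) δ (x i) := rfl

lemma DD_apply' (C : MCx A) (δ : V →ₗ[A] V) (x : UU C V) (i : ℕ) (a : C.ι i) :
    DD C δ x i a = (∑ b, C.d i a b • x (i + 1) b) + (-1 : A) ^ i • δ (x i a) := rfl

lemma DD_DD (C : MCx A) {δ : V →ₗ[A] V} (hδ : δ ∘ₗ δ = 0) : DD C δ ∘ₗ DD C δ = 0 := by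
  ext1 x
  funext i
  rw [LinearMap.comp_apply, DD_apply, DD_apply, DD_apply, map_add, C.dM_dM, map_smul, zero_add,
    MCx.dM_post, map_add, map_smul, smul_add, smul_smul]
  have h1 : post (C.ι i) δ (post (C.ι i) δ (x i)) = 0 := by
    funext a
    exact LinearMap.congr_fun hδ (x i a)
  rw [h1, smul_zero, add_zero, ← add_smul]
  have h2 : (-1 : A) ^ (i + 1) + (-1) ^ i = 0 := by ring
  rw [h2, zero_smul]; rfl

/-- families given by a submodule of `V` in every degree. -/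
def fam (C : MCx A) (P : ℕ → Submodule A V) : Submodule A (UU C V) :=
  Submodule.pi Set.univ fun i => Submodule.pi Set.univ fun _ : C.ι i => P i

lemma mem_fam {C : MCx A} {P : ℕ → Submodule A V} {x : UU C V} :
    x ∈ fam C P ↔ ∀ i a, x i a ∈ P i := by
  simp [fam, Submodule.mem_pi]

lemma fam_mono {C : MCx A} {d : ℕ} (hC : C.Len d) {P Q : ℕ → Submodule A V}
    (h : ∀ i ≤ d, P i ≤ Q i) : fam C P ≤ fam C Q := by
  intro x hx
  rw [mem_fam] at hx ⊢
  intro i a
  by_cases hi : i ≤ d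
  · exact h i hi (hx i a)
  · exact ((hC i (by omega)).false a).elim

lemma DD_fam {C : MCx A} {d : ℕ} (hC : C.Len d) {δ : V →ₗ[A] V} {P Q : ℕ → Submodule A V}
    (h1 : ∀ i < d, ∀ a b, ∀ y ∈ P (i + 1), C.d i a b • y ∈ Q i)
    (h2 : ∀ i ≤ d, ∀ y ∈ P i, δ y ∈ Q i) {x : UU C V} (hx : x ∈ fam C P) :
    DD C δ x ∈ fam C Q := by
  rw [mem_fam] at hx ⊢
  intro i a
  rw [DD_apply']
  have hi : i ≤ d := by
    by_contra h
    exact (hC i (by omega)).false a
  refine Submodule.add_mem _ (Submodule.sum_mem _ fun b _ => ?_)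
    (Submodule.smul_mem _ _ (h2 i hi _ (hx i a)))
  have hi' : i < d := by
    by_contra h
    exact (hC (i + 1) (by omega)).false b
  exact h1 i hi' a b _ (hx (i + 1) b)

/-- single component. -/
def sgl (C : MCx A) (V : Type v) [AddCommGroup V] [Module A V] (i : ℕ) :
    (C.ι i → V) →ₗ[A] UU C V :=
  LinearMap.single A (fun i => C.ι i → V) i

lemma sgl_same (C : MCx A) (i : ℕ) (z : C.ι i → V) : sgl C V i z i = z := by
  simp [sgl]

lemma sgl_ne (C : MCx A) {i j : ℕ} (h : j ≠ i) (z : C.ι i → V) : sgl C V i z j = 0 := by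
  simp [sgl, Pi.single_eq_of_ne h]

lemma sgl_mem_fam {C : MCx A} {P : ℕ → Submodule A V} {i : ℕ} {z : C.ι i → V}
    (hz : ∀ a, z a ∈ P i) : sgl C V i z ∈ fam C P := by
  rw [mem_fam]
  intro j a
  by_cases h : j = i
  · subst h; rw [sgl_same]; exact hz a
  · rw [sgl_ne C h]; exact Submodule.zero_mem _

section pkg

variable {Λ : AddLen.{u, v} A} {W : Type v} [AddCommGroup W] [Module A W] {n : ℕ}
  {X : Fin (n + 1) → A} {δ : V →ₗ[A] V} {FF : (Fin n → ℤ) → ℤ → ℤ → Submodule A V}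
  {ZZ : (Fin n → ℤ) → ℤ → Submodule A V}

/-- the staircase families. -/
def HH (C : MCx A) (FF : (Fin n → ℤ) → ℤ → ℤ → Submodule A V) (ρ : Fin n → ℤ) (κ : ℕ → ℤ) (m : ℤ) :
    Submodule A (UU C V) := fam C fun i => FF ρ (κ i) ((i : ℤ) - m)

/-- the relations. -/
def ZT (C : MCx A) (ZZ : (Fin n → ℤ) → ℤ → Submodule A V) (ρ : Fin n → ℤ) (m : ℤ) :
    Submodule A (UU C V) := fam C fun i => ZZ ρ ((i : ℤ) - m)

/-- entries of `C` map `W` into `(X)^N W`. -/
def Ent (C : MCx A) (W : Type v) [AddCommGroup W] [Module A W] (X : Fin (n + 1) → A) (N : ℕ) :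
    Prop := ∀ i a b (w : W), C.d i a b • w ∈ (Ideal.span (Set.range X)) ^ N • (⊤ : Submodule A W)

variable (P : Pkg Λ W X V δ FF ZZ)

include P in
lemma anti' (ρ : Fin n → ℤ) {k k' : ℤ} (h : k ≤ k') (j : ℤ) : FF ρ k' j ≤ FF ρ k j := by
  obtain ⟨r, rfl⟩ : ∃ r : ℕ, k' = k + r := ⟨(k' - k).toNat, by omega⟩
  clear h
  induction r with
  | zero => simp
  | succ r ih =>
    refine le_trans ?_ ih
    have := P.anti ρ (k + r) j
    rwa [add_assoc] at this

variable {C : MCx A} {N : ℕ}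

include P in
lemma HH_anti (hC : C.Len (n + 1)) (ρ : Fin n → ℤ) (κ κ' : ℕ → ℤ)
    (h : ∀ i ≤ n + 1, κ i ≤ κ' i) (m : ℤ) : HH C FF ρ κ' m ≤ HH C FF ρ κ m :=
  fam_mono hC fun i hi => anti' P ρ (h i hi) _

include P in
lemma ZT_le (ρ : Fin n → ℤ) (κ : ℕ → ℤ) (m : ℤ) : ZT C ZZ ρ m ≤ HH C FF ρ κ m := by
  intro x hx
  unfold ZT at hx
  unfold HH
  rw [mem_fam] at hx ⊢
  exact fun i a => P.ZZ_le _ _ _ (hx i a)

include P in
lemma HH_stable (hC : C.Len (n + 1)) (hE : Ent C W X N) (ρ : Fin n → ℤ) (κ : ℕ → ℤ)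
    (h : ∀ i < n + 1, κ i ≤ κ (i + 1) + N) : Stable (DD C δ) (HH C FF ρ κ) := by
  rintro m _ ⟨x, hx, rfl⟩
  refine DD_fam hC ?_ ?_ hx
  · intro i hi a b y hy
    have h1 := P.raise (C.d i a b) N (hE i a b) ρ _ _ y hy
    refine anti' P ρ (h i hi) _ ?_
    convert h1 using 2
    push_cast; ring
  · intro i _ y hy
    have h1 := P.δFF ρ (κ i) ((i : ℤ) - (m + 1)) ⟨y, hy, rfl⟩
    convert h1 using 2
    ring

include P in
lemma ZT_stable (hC : C.Len (n + 1)) (ρ : Fin n → ℤ) : Stable (DD C δ) (ZT C ZZ ρ) := by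
  rintro m _ ⟨x, hx, rfl⟩
  refine DD_fam hC ?_ ?_ hx
  · intro i _ a b y hy
    refine Submodule.smul_mem _ _ ?_
    convert hy using 2
    push_cast; ring
  · intro i _ y hy
    have h1 := P.δZZ ρ ((i : ℤ) - (m + 1)) ⟨y, hy, rfl⟩
    convert h1 using 2
    ring

/-- powers of submodules. -/
abbrev pw (ι : Type) (S : Submodule A V) : Submodule A (ι → V) := Submodule.pi Set.univ fun _ => S

include P in
/-- **step lemma**: the graded pieces. -/
lemma step_eq (hC : C.Len (n + 1)) (hE : Ent C W X N) (ρ : Fin n → ℤ) (κ : ℕ → ℤ) (i0 : ℕ)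
    (hi0 : i0 ≤ n + 1) (h1 : ∀ i < n + 1, κ i ≤ κ (i + 1) + N)
    (h2 : ∀ j < n + 1, Function.update κ i0 (κ i0 + 1) j ≤
      Function.update κ i0 (κ i0 + 1) (j + 1) + N) (m : ℤ) :
    h Λ (DD C δ) (HH C FF ρ κ) (HH C FF ρ (Function.update κ i0 (κ i0 + 1))) m =
      Fintype.card (C.ι i0) *
        Λ.rel ((FF ρ (κ i0) ((i0 : ℤ) - m - 1)).map δ ⊔ FF ρ (κ i0 + 1) ((i0 : ℤ) - m))
          (FF ρ (κ i0) ((i0 : ℤ) - m) ⊓ (FF ρ (κ i0 + 1) ((i0 : ℤ) - m + 1)).comap δ) := by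
  set κ' := Function.update κ i0 (κ i0 + 1) with hκ'
  set j : ℤ := (i0 : ℤ) - m with hj
  have hstκ := HH_stable P hC hE ρ κ h1
  have hstκ' := HH_stable P hC hE ρ κ' h2
  have hκ'0 : κ' i0 = κ i0 + 1 := by rw [hκ']; exact Function.update_self _ _ _
  have hκ'n : ∀ i, i ≠ i0 → κ' i = κ i := fun i hi => by rw [hκ']; exact Function.update_of_ne hi _ _
  have hle : ∀ i ≤ n + 1, κ i ≤ κ' i := by
    intro i _
    by_cases hi : i = i0
    · subst hi; rw [hκ'0]; omega
    · rw [hκ'n i hi]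
  -- membership in the smaller family
  have hmem : ∀ (m' : ℤ) (x : UU C V), x ∈ HH C FF ρ κ m' →
      (∀ a, x i0 a ∈ FF ρ (κ i0 + 1) ((i0 : ℤ) - m')) → x ∈ HH C FF ρ κ' m' := by
    intro m' x hx hx0
    unfold HH at hx ⊢
    rw [mem_fam] at hx ⊢
    intro i a
    by_cases hi : i = i0
    · subst hi; rw [hκ'0]; exact hx0 a
    · rw [hκ'n i hi]; exact hx i a
  -- the `C`-part of the differential at `i0` is small
  have hpart : ∀ (m' : ℤ) (x : UU C V), x ∈ HH C FF ρ κ (m' + 1) →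
      ∀ a, (∑ b, C.d i0 a b • x (i0 + 1) b) ∈ FF ρ (κ i0 + 1) ((i0 : ℤ) - m') := by
    intro m' x hx a
    refine Submodule.sum_mem _ fun b _ => ?_
    have hi' : i0 < n + 1 := by
      by_contra h
      exact (hC (i0 + 1) (by omega)).false b
    have h3 := h2 i0 hi'
    rw [hκ'0, hκ'n _ (by omega)] at h3
    refine anti' P ρ h3 _ ?_
    have h4 := P.raise (C.d i0 a b) N (hE i0 a b) ρ _ _ _ ((mem_fam.1 hx) (i0 + 1) b)
    convert h4 using 2
    push_cast; ring
  have hsgn : ∀ (y : V) (S : Submodule A V), (-1 : A) ^ i0 • y ∈ S ↔ y ∈ S := by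
    intro y S
    rcases neg_one_pow_eq_or A i0 with h | h <;> rw [h] <;> simp
  unfold h
  set S := (HH C FF ρ κ (m + 1)).map (DD C δ) ⊔ HH C FF ρ κ' m with hS
  set T := HH C FF ρ κ m ⊓ (HH C FF ρ κ' (m - 1)).comap (DD C δ) with hT
  set S0 : Submodule A (C.ι i0 → V) :=
    pw (C.ι i0) ((FF ρ (κ i0) (j - 1)).map δ ⊔ FF ρ (κ i0 + 1) j) with hS0
  set T0 : Submodule A (C.ι i0 → V) :=
    pw (C.ι i0) (FF ρ (κ i0) j ⊓ (FF ρ (κ i0 + 1) (j + 1)).comap δ) with hT0
  let pr : UU C V →ₗ[A] (C.ι i0 → V) := LinearMap.proj i0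
  have hDDx : ∀ x, DD C δ (DD C δ x) = 0 := fun x => LinearMap.congr_fun (DD_DD C P.δδ) x
  -- `T`
  have hTpr : T.map pr = T0 := by
    apply le_antisymm
    · rintro _ ⟨x, ⟨hx1, hx2⟩, rfl⟩ a _
      refine ⟨(mem_fam.1 hx1) i0 a, ?_⟩
      have h3 := (mem_fam.1 hx2) i0 a
      rw [hκ'0, DD_apply'] at h3
      have h4 := hpart (m - 1) x (by rw [sub_add_cancel]; exact hx1) a
      have h5 := Submodule.sub_mem _ h3 h4
      rw [add_sub_cancel_left, hsgn] at h5
      rw [SetLike.mem_coe, Submodule.mem_comap]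
      have h6 : (i0 : ℤ) - (m - 1) = j + 1 := by rw [hj]; ring
      rw [← h6]
      exact h5
    · intro z hz
      refine ⟨sgl C V i0 z, ⟨?_, ?_⟩, sgl_same C i0 z⟩
      · exact sgl_mem_fam fun a => (hz a (Set.mem_univ a)).1
      · rw [SetLike.mem_coe, Submodule.mem_comap]
        have h3 : sgl C V i0 z ∈ HH C FF ρ κ m := sgl_mem_fam fun a => (hz a (Set.mem_univ a)).1
        refine hmem _ _ (hstκ.map_le m ⟨_, h3, rfl⟩) fun a => ?_
        rw [DD_apply', sgl_same, sgl_ne C (by omega)]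
        simp only [Pi.zero_apply, smul_zero, Finset.sum_const_zero, zero_add]
        rw [hsgn]
        have h4 := (hz a (Set.mem_univ a)).2
        rw [SetLike.mem_coe, Submodule.mem_comap] at h4
        have h6 : (i0 : ℤ) - (m - 1) = j + 1 := by rw [hj]; ring
        rw [h6]; exact h4
  -- `S`
  have hSeq : S = S0.comap pr ⊓ T := by
    apply le_antisymm
    · refine sup_le ?_ ?_
      · rintro _ ⟨y, hy, rfl⟩
        refine ⟨?_, hstκ m ⟨y, hy, rfl⟩, ?_⟩
        · intro a _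
          change DD C δ y i0 a ∈ _
          rw [DD_apply']
          refine Submodule.add_mem _ (Submodule.mem_sup_right (hpart m y hy a))
            (Submodule.mem_sup_left (Submodule.smul_mem _ _ ⟨y i0 a, ?_, rfl⟩))
          have h3 := (mem_fam.1 hy) i0 a
          have h6 : (i0 : ℤ) - (m + 1) = j - 1 := by rw [hj]; ring
          rw [h6] at h3; exact h3
        · rw [SetLike.mem_coe, Submodule.mem_comap, hDDx]; exact Submodule.zero_mem _
      · intro x hx
        refine ⟨?_, HH_anti P hC ρ κ κ' hle m hx, hstκ'.map_le m ⟨x, hx, rfl⟩⟩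
        intro a _
        have h3 := (mem_fam.1 hx) i0 a
        rw [hκ'0] at h3
        exact Submodule.mem_sup_right h3
    · rintro x ⟨hx1, hx2, _⟩
      have hx1' : ∀ a, ∃ z ∈ FF ρ (κ i0) (j - 1), ∃ f ∈ FF ρ (κ i0 + 1) j, δ z + f = x i0 a := by
        intro a
        obtain ⟨_, ⟨z, hz, rfl⟩, f, hf, h3⟩ := Submodule.mem_sup.1 (hx1 a (Set.mem_univ a))
        exact ⟨z, hz, f, hf, h3⟩
      choose z hz f hf hzf using hx1'
      have h6 : (i0 : ℤ) - (m + 1) = j - 1 := by rw [hj]; ring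
      have hy : sgl C V i0 ((-1 : A) ^ i0 • z) ∈ HH C FF ρ κ (m + 1) :=
        sgl_mem_fam fun a => Submodule.smul_mem _ _ (by rw [h6]; exact hz a)
      have hx3 : x = DD C δ (sgl C V i0 ((-1 : A) ^ i0 • z)) +
          (x - DD C δ (sgl C V i0 ((-1 : A) ^ i0 • z))) := by abel
      rw [hx3]
      refine Submodule.add_mem_sup ⟨_, hy, rfl⟩ ?_
      refine hmem _ _ (Submodule.sub_mem _ hx2 (hstκ m ⟨_, hy, rfl⟩)) fun a => ?_
      have h7 : (x - DD C δ (sgl C V i0 ((-1 : A) ^ i0 • z))) i0 a = f a := by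
        change x i0 a - DD C δ (sgl C V i0 ((-1 : A) ^ i0 • z)) i0 a = f a
        rw [DD_apply', sgl_same, sgl_ne C (by omega)]
        simp only [Pi.zero_apply, smul_zero, Finset.sum_const_zero, zero_add, Pi.smul_apply,
          map_smul, smul_smul]
        have h8 : (-1 : A) ^ i0 * (-1) ^ i0 = 1 := by
          rw [← mul_pow]; simp
        rw [h8, one_smul, ← hzf a, add_sub_cancel_left]
      rw [h7]
      exact hf a
  rw [hSeq, Λ.rel_inf, Λ.rel_comap, hTpr, hS0, hT0, Λ.rel_pi]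

/-- lengths of the pieces -/
noncomputable def LX (Λ : AddLen.{u, v} A) (W : Type v) [AddCommGroup W] [Module A W]
    (X : Fin (n + 1) → A) : ℝ≥0∞ :=
  Λ.L (W ⧸ ((Ideal.span (Set.range X)) • (⊤ : Submodule A W)))

lemma Jd0_eq (ρ : Fin n → ℤ) (k : ℤ) : Jd0 ρ k = (KFin.jj ρ k : ℤ) := rfl

lemma rk_eq (ρ : Fin n → ℤ) (k : ℤ) : rk ρ k = (∏ l, (k - ρ l)).natAbs := by
  unfold rk
  exact (map_prod Int.natAbsHom _ _).symm

include P in
/-- the staircase system. -/
theorem stair (hC : C.Len (n + 1)) (hE : Ent C W X N) (ρ : Fin n → ℤ) :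
    Stair Λ (DD C δ) (n + 1) N (KFin.gg ρ)
      (KFin.ll ρ (fun i => Fintype.card (C.ι i)) (LX Λ W X)) (HH C FF ρ) where
  anti := fun κ κ' h m => HH_anti P hC ρ κ κ' h m
  stable := fun κ h => HH_stable P hC hE ρ κ h
  step := by
    intro κ i hi h1 h2 m
    rw [step_eq P hC hE ρ κ i hi h1 h2 m]
    split_ifs with hm
    · have hj : (i : ℤ) - m = Jd0 ρ (κ i) := by
        rw [hm, KFin.gg, Jd0_eq]; ring
      rw [hj, P.piece_len ρ (κ i), KFin.ll, rk_eq, mul_assoc]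
      rfl
    · have hj : (i : ℤ) - m ≠ Jd0 ρ (κ i) := by
        intro h3
        apply hm
        rw [KFin.gg, ← Jd0_eq, ← h3]; ring
      rw [Λ.rel_of_le, mul_zero]
      rintro y ⟨hy1, hy2⟩
      obtain ⟨y', hy', h3⟩ := P.piece_null ρ (κ i) _ hj y hy1 hy2
      have : y = δ y' + (y - δ y') := by abel
      rw [this]
      exact Submodule.add_mem_sup ⟨y', hy', rfl⟩ h3

end pkg

end Crest.Agent.R183.KT
end

-- ▼ part R183/KT2
section

set_option autoImplicit false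

namespace Crest.Agent.R183.KT

open scoped ENNReal
open KF KHom Res

universe u v

variable {A : Type u} [CommRing A] {V : Type v} [AddCommGroup V] [Module A V]
variable {Λ : AddLen.{u, v} A} {W : Type v} [AddCommGroup W] [Module A W] {n : ℕ}
  {X : Fin (n + 1) → A} {δ : V →ₗ[A] V} {FF : (Fin n → ℤ) → ℤ → ℤ → Submodule A V}
  {ZZ : (Fin n → ℤ) → ℤ → Submodule A V}
variable (P : Pkg Λ W X V δ FF ZZ) {C : MCx A} {N : ℕ}

include P in
lemma DD_const (hC : C.Len (n + 1)) (ρ : Fin n → ℤ) (K : ℤ) :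
    Stable (DD C δ) (HH C FF ρ fun _ => K) := by
  rintro m _ ⟨x, hx, rfl⟩
  refine DD_fam hC ?_ ?_ hx
  · intro i _ a b y hy
    refine Submodule.smul_mem _ _ ?_
    convert hy using 2
    push_cast; ring
  · intro i _ y hy
    have h1 := P.δFF ρ K ((i : ℤ) - (m + 1)) ⟨y, hy, rfl⟩
    convert h1 using 2
    ring

include P in
/-- **bounded loss.** -/
theorem bounded_loss (hC : C.Len (n + 1)) (N' : ℕ) (hN' : ∀ ν, X ν ^ N' ∈ C.nhI) :
    ∃ M : ℕ, ∀ (ρ : Fin n → ℤ) (K m : ℤ) (x : UU C V), x ∈ HH C FF ρ (fun _ => K) m →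
      DD C δ x ∈ ZT C ZZ ρ (m - 1) →
      ∃ y ∈ HH C FF ρ (fun _ => K - M) (m + 1), x - DD C δ y ∈ ZT C ZZ ρ m := by
  obtain ⟨Mc, c, hc⟩ := P.contr N'
  have hN'' : ∀ ν, C.NHom (X ν ^ N') := fun ν => hN' ν
  choose s hs0 hs1 using hN''
  refine ⟨(n + 2) * Mc, fun ρ K m x hx hDx => ?_⟩
  obtain ⟨hcF, hcZ, hcU⟩ := hc ρ
  have hDD : ∀ x, DD C δ (DD C δ x) = 0 := fun x => LinearMap.congr_fun (DD_DD C P.δδ) x
  -- induction
  have key : ∀ i : ℕ, ∃ y ∈ HH C FF ρ (fun _ => K - (i * Mc : ℕ)) (m + 1),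
      ∀ i' < i, ∀ a, (x - DD C δ y) i' a ∈ ZZ ρ ((i' : ℤ) - m) := by
    intro i
    induction i with
    | zero => exact ⟨0, Submodule.zero_mem _, fun i' hi' => absurd hi' (Nat.not_lt_zero _)⟩
    | succ i ih =>
      obtain ⟨y, hy, hyZ⟩ := ih
      set x' := x - DD C δ y with hx'
      have hx'm : x' ∈ HH C FF ρ (fun _ => K - (i * Mc : ℕ)) m := by
        refine Submodule.sub_mem _ (HH_anti P hC ρ _ _ (fun _ _ => by omega) m hx) ?_
        exact DD_const P hC ρ _ m ⟨y, hy, rfl⟩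
      have hDx' : DD C δ x' ∈ ZT C ZZ ρ (m - 1) := by
        rw [hx', map_sub, hDD, sub_zero]; exact hDx
      set z := x' i with hz
      have hzF : ∀ a, z a ∈ FF ρ (K - (i * Mc : ℕ)) ((i : ℤ) - m) := fun a => (mem_fam.1 hx'm) i a
      let y1 : C.ι (i + 1) → V := ∑ ν, post _ (c ν) (act V (s ν i) z)
      have hy1F : ∀ a, y1 a ∈ FF ρ (K - ((i + 1) * Mc : ℕ)) ((i : ℤ) - m) := by
        intro a
        simp only [y1, Finset.sum_apply]
        refine Submodule.sum_mem _ fun ν _ => ?_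
        have h1 : (act V (s ν i) z) a ∈ FF ρ (K - (i * Mc : ℕ)) ((i : ℤ) - m) := by
          rw [act_apply]
          exact Submodule.sum_mem _ fun b _ => Submodule.smul_mem _ _ (hzF b)
        have h2 := hcF ν _ _ ⟨_, h1, rfl⟩
        have h3 : K - ((i + 1) * Mc : ℕ) = K - (i * Mc : ℕ) - (Mc : ℤ) := by push_cast; ring
        rw [h3]
        exact h2
      -- the key computation
      have hcomp : ∀ a, z a - C.dM V i y1 a ∈ ZZ ρ ((i : ℤ) - m) := by
        intro a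
        have e1 : C.dM V i y1 = ∑ ν, post _ (c ν) (act V (C.d i) (act V (s ν i) z)) := by
          simp only [y1]
          rw [map_sum]
          refine Finset.sum_congr rfl fun ν _ => ?_
          exact C.dM_post (c ν) i _
        have e2 : ∀ ν, (c ν) ((act V (C.d i) (act V (s ν i) z)) a) - c ν (X ν ^ N' • z a) ∈
            ZZ ρ ((i : ℤ) - m) := by
          intro ν
          cases i with
          | zero =>
            rw [← act_mul, hs0, act_smul_one, Pi.smul_apply, sub_self]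
            exact Submodule.zero_mem _
          | succ k =>
            have h1 : act V (C.d (k + 1)) (act V (s ν (k + 1)) z) =
                X ν ^ N' • z - act V (s ν k) (act V (C.d k) z) := by
              rw [← act_smul_one (X ν ^ N') z, ← hs1 ν k, act_add, act_mul, act_mul]
              abel
            rw [h1, ← map_sub, Pi.sub_apply, Pi.smul_apply]
            have h2 : X ν ^ N' • z a - act V (s ν k) (act V (C.d k) z) a - X ν ^ N' • z a =
                - act V (s ν k) (act V (C.d k) z) a := by abel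
            rw [h2]
            refine hcZ ν _ ⟨_, Submodule.neg_mem _ ?_, rfl⟩
            rw [act_apply]
            refine Submodule.sum_mem _ fun b _ => Submodule.smul_mem _ _ ?_
            -- `C.dM V k z` is a relation
            have h3 := (mem_fam.1 hDx') k b
            have h4 := hyZ k (Nat.lt_succ_self k) b
            have h5 : DD C δ x' k b = act V (C.d k) z b + (-1 : A) ^ k • δ (x' k b) := rfl
            have h6 : δ (x' k b) ∈ ZZ ρ ((k : ℤ) - m + 1) := P.δZZ ρ _ ⟨_, h4, rfl⟩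
            have e7 : (k : ℤ) - (m - 1) = ((k + 1 : ℕ) : ℤ) - m := by push_cast; ring
            have e8 : (k : ℤ) - m + 1 = ((k + 1 : ℕ) : ℤ) - m := by push_cast; ring
            rw [e8] at h6
            rw [e7, h5] at h3
            have h9 := Submodule.sub_mem _ h3 (Submodule.smul_mem _ ((-1 : A) ^ k) h6)
            rwa [add_sub_cancel_right] at h9
        rw [e1, Finset.sum_apply]
        have e3 := hcU _ _ (z a) (hzF a)
        have e4 : z a - ∑ ν, (post (C.ι i) (c ν)) ((act V (C.d i)) ((act V (s ν i)) z)) a =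
            -(∑ ν, (c ν ((act V (C.d i) (act V (s ν i) z)) a) - c ν (X ν ^ N' • z a))) -
            ((∑ ν, c ν (X ν ^ N' • z a)) - z a) := by
          rw [Finset.sum_sub_distrib]
          simp only [post_apply]
          abel
        rw [e4]
        exact Submodule.sub_mem _ (Submodule.neg_mem _ (Submodule.sum_mem _ fun ν _ => e2 ν)) e3
      refine ⟨y + sgl C V (i + 1) y1, Submodule.add_mem _ ?_ ?_, ?_⟩
      · refine HH_anti P hC ρ _ _ (fun _ _ => ?_) _ hy
        push_cast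
        nlinarith [Int.natCast_nonneg Mc]
      · refine sgl_mem_fam fun a => ?_
        have h1 := hy1F a
        convert h1 using 2
        push_cast; ring
      · intro i' hi' a
        have e5 : (x - DD C δ (y + sgl C V (i + 1) y1)) i' a =
            x' i' a - DD C δ (sgl C V (i + 1) y1) i' a := by
          rw [map_add, hx']
          simp only [Pi.sub_apply, Pi.add_apply]
          abel
        rw [e5, DD_apply]
        rcases Nat.lt_succ_iff_lt_or_eq.1 hi' with h | h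
        · rw [sgl_ne C (by omega), sgl_ne C (by omega)]
          simp only [map_zero, smul_zero, add_zero, Pi.zero_apply, sub_zero]
          exact hyZ i' h a
        · subst h
          rw [sgl_same, sgl_ne C (by omega)]
          simp only [map_zero, smul_zero, add_zero]
          exact hcomp a
  obtain ⟨y, hy, hyZ⟩ := key (n + 2)
  refine ⟨y, hy, ?_⟩
  unfold ZT
  rw [mem_fam]
  intro i a
  by_cases hi : i ≤ n + 1
  · exact hyZ i (by omega) a
  · exact ((hC i (by omega)).false a).elim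

/-- the conclusion of `bounded_loss` as a predicate. -/
def BL (C : MCx A) (δ : V →ₗ[A] V) (FF : (Fin n → ℤ) → ℤ → ℤ → Submodule A V)
    (ZZ : (Fin n → ℤ) → ℤ → Submodule A V) (M : ℕ) : Prop :=
  ∀ (ρ : Fin n → ℤ) (K m : ℤ) (x : UU C V), x ∈ HH C FF ρ (fun _ => K) m →
      DD C δ x ∈ ZT C ZZ ρ (m - 1) →
      ∃ y ∈ HH C FF ρ (fun _ => K - M) (m + 1), x - DD C δ y ∈ ZT C ZZ ρ m

section core

variable {M : ℕ} (hBL : BL C δ FF ZZ M) (hC : C.Len (n + 1)) (hE : Ent C W X N) (ρ : Fin n → ℤ)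
  (hΛ0 : LX Λ W X ≠ ⊤)

include hBL in
/-- images into the bigger family vanish. -/
lemma ii_zero {K : ℤ} {G' : ℤ → Submodule A (UU C V)} (m : ℤ)
    (hG' : G' m ≤ HH C FF ρ (fun _ => K) m) :
    Ii Λ (DD C δ) (HH C FF ρ fun _ => K - M) G' (ZT C ZZ ρ) m = 0 := by
  unfold Ii
  refine Λ.rel_of_le ?_
  rintro x ⟨hx1, hx2⟩
  obtain ⟨y, hy, hxy⟩ := hBL ρ K m x (hG' hx1) hx2
  have : x = DD C δ y + (x - DD C δ y) := by abel
  rw [this]
  exact Submodule.add_mem_sup ⟨y, hy, rfl⟩ hxy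

include P hBL hC hE hΛ0 in
/-- finiteness. -/
lemma finS_GZ (K : ℤ) : FinS (h Λ (DD C δ) (HH C FF ρ fun _ => K) (ZT C ZZ ρ)) := by
  have hD := DD_DD C P.δδ
  have st := stair P hC hE ρ
  have hGm : ∀ K : ℤ, ∀ i < n + 1, (fun _ : ℕ => K) i ≤ (fun _ : ℕ => K) (i + 1) + N := by
    intro K i _; simp
  have hmono : ∀ m, HH C FF ρ (fun _ => K) m ≤ HH C FF ρ (fun _ => K - M) m := fun m =>
    HH_anti P hC ρ _ _ (fun _ _ => by simp) m
  have f1 := ((st.total hD (fun _ => K - M) (fun _ => K) (fun _ _ => by simp) (hGm _) (hGm _)).2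
    (fun i _ k _ _ => KFin.ll_ne_top ρ _ hΛ0 i k)).1
  have f1' : FinS (fun n_1 => h Λ (DD C δ) (HH C FF ρ fun _ => K - M) (HH C FF ρ fun _ => K)
      (n_1 + 1)) := by
    refine FinS.unshift ?_
    simpa using f1
  refine f1'.mono fun m => ?_
  rw [les_sub Λ hD (DD_const P hC ρ K) (ZT_stable P hC ρ) hmono (fun m => ZT_le P ρ _ m),
    ii_zero hBL ρ m le_rfl, add_zero,
    les_quot Λ hD (DD_const P hC ρ (K - M)) (DD_const P hC ρ K) hmono
      (fun m => ZT_le P ρ _ m) (G'' := ZT C ZZ ρ), add_sub_cancel_right]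
  exact le_add_self

include P hBL hC hE in
/-- (V'): vanishing in negative degrees for large `K`. -/
lemma tail_null (K : ℤ) (hK : ∀ l, ρ l ≤ K) (m : ℤ) (hm : m < 0) :
    h Λ (DD C δ) (HH C FF ρ fun _ => K) (ZT C ZZ ρ) m = 0 := by
  have hD := DD_DD C P.δδ
  have st := stair P hC hE ρ
  have hGm : ∀ K : ℤ, ∀ i < n + 1, (fun _ : ℕ => K) i ≤ (fun _ : ℕ => K) (i + 1) + N := by
    intro K i _; simp
  have hmono : ∀ m, HH C FF ρ (fun _ => K + M) m ≤ HH C FF ρ (fun _ => K) m := fun m =>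
    HH_anti P hC ρ _ _ (fun _ _ => by simp) m
  have h1 := ii_zero (Λ := Λ) hBL ρ (K := K + M) (G' := HH C FF ρ fun _ => K + M) m le_rfl
  rw [add_sub_cancel_right] at h1
  have h2 : h Λ (DD C δ) (HH C FF ρ fun _ => K) (HH C FF ρ fun _ => K + M) m = 0 := by
    refine st.total_null hD _ _ (fun _ _ => by simp) (hGm _) (hGm _) m fun i _ k hk _ hmk => ?_
    exfalso
    have : KFin.jj ρ k = 0 := by
      unfold KFin.jj
      rw [Finset.card_eq_zero, Finset.filter_eq_empty_iff]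
      intro l _
      have := hK l
      omega
    rw [KFin.gg, this] at hmk
    omega
  rw [les_mid Λ hD (DD_const P hC ρ K) (ZT_stable P hC ρ) hmono (fun m => ZT_le P ρ _ m), h1,
    zero_add]
  rw [les_quot Λ hD (DD_const P hC ρ K) (DD_const P hC ρ (K + M)) hmono
      (fun m => ZT_le P ρ _ m) (G'' := ZT C ZZ ρ), add_eq_zero] at h2
  exact h2.1

include P hBL hC hE hΛ0 in
/-- `χ(G_K/Z)` is independent of `K`. -/
lemma chi_K {b : ℕ → ℕ} (hbC : ∀ i, Fintype.card (C.ι i) = b i)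
    (hb : ∑ i ∈ Finset.range (n + 1 + 1), (-1 : ℤ) ^ i * b i = 0) {K K' : ℤ} (hKK : K ≤ K') :
    chi (h Λ (DD C δ) (HH C FF ρ fun _ => K) (ZT C ZZ ρ)) =
      chi (h Λ (DD C δ) (HH C FF ρ fun _ => K') (ZT C ZZ ρ)) := by
  have hD := DD_DD C P.δδ
  have st := stair P hC hE ρ
  have hGm : ∀ K : ℤ, ∀ i < n + 1, (fun _ : ℕ => K) i ≤ (fun _ : ℕ => K) (i + 1) + N := by
    intro K i _; simp
  have hmono : ∀ m, HH C FF ρ (fun _ => K') m ≤ HH C FF ρ (fun _ => K) m := fun m =>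
    HH_anti P hC ρ _ _ (fun _ _ => hKK) m
  obtain ⟨f1, e1⟩ := (st.total hD (fun _ => K) (fun _ => K') (fun _ _ => hKK) (hGm _) (hGm _)).2
    (fun i _ k _ _ => KFin.ll_ne_top ρ _ hΛ0 i k)
  rw [chi_les Λ hD (DD_const P hC ρ K) (DD_const P hC ρ K') (ZT_stable P hC ρ) hmono
    (fun m => ZT_le P ρ _ m) (finS_GZ P hBL hC hE ρ hΛ0 K') f1, e1]
  have h2 : ∀ i ∈ Finset.range (n + 1 + 1), ∑ k ∈ Finset.Ico K K',
      (-1 : ℝ) ^ (KFin.gg ρ i k) * (KFin.ll ρ (fun i => Fintype.card (C.ι i)) (LX Λ W X) i k).toReal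
      = ((-1 : ℝ) ^ i * b i) * ((LX Λ W X).toReal *
          (∑ k ∈ Finset.Ico K K', ∏ l, (k - ρ l) : ℤ)) := by
    intro i _
    rw [Finset.sum_congr rfl fun k _ => KFin.sign_ll ρ _ (LX Λ W X) i k, ← Finset.mul_sum,
      ← Finset.mul_sum, ← Int.cast_sum, hbC i]
    ring
  rw [Finset.sum_congr rfl h2, ← Finset.sum_mul]
  have h4 : ∑ i ∈ Finset.range (n + 1 + 1), (-1 : ℝ) ^ i * (b i : ℝ) = 0 := by exact_mod_cast hb
  rw [h4]; ring

/-- the function `c`. -/
noncomputable def cc (Λ : AddLen.{u, v} A) (C : MCx A) (δ : V →ₗ[A] V)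
    (FF : (Fin n → ℤ) → ℤ → ℤ → Submodule A V) (ZZ : (Fin n → ℤ) → ℤ → Submodule A V)
    (ρ : Fin n → ℤ) : ℝ := chi (h Λ (DD C δ) (HH C FF ρ fun _ => 0) (ZT C ZZ ρ))

include P hBL hC hE hΛ0 in
lemma chi_eq_cc {b : ℕ → ℕ} (hbC : ∀ i, Fintype.card (C.ι i) = b i)
    (hb : ∑ i ∈ Finset.range (n + 1 + 1), (-1 : ℤ) ^ i * b i = 0) (K : ℤ) :
    chi (h Λ (DD C δ) (HH C FF ρ fun _ => K) (ZT C ZZ ρ)) = cc Λ C δ FF ZZ ρ := by
  rcases le_total 0 K with hK | hK
  · exact (chi_K P hBL hC hE ρ hΛ0 hbC hb hK).symm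
  · exact chi_K P hBL hC hE ρ hΛ0 hbC hb hK

include P hBL hC hE hΛ0 in
/-- **core inequality** -/
theorem core_ineq (hN : 1 ≤ N) {b : ℕ → ℕ} (hbC : ∀ i, Fintype.card (C.ι i) = b i)
    (hb : ∑ i ∈ Finset.range (n + 1 + 1), (-1 : ℤ) ^ i * b i = 0) {τ : ℕ}
    (hρ : KFin.IsRoots (n + 1) τ N n ρ) :
    0 ≤ cc Λ C δ FF ZZ ρ + (LX Λ W X).toReal *
      ∑ i ∈ Finset.range (n + 1 + 1), (-1 : ℝ) ^ i * b i * (KNum.S (n + 1) N τ i : ℝ) := by
  have hD := DD_DD C P.δδ
  have st := stair P hC hE ρ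
  have hZst := ZT_stable (C := C) P hC ρ
  have hGm : ∀ K : ℤ, ∀ i < n + 1, (fun _ : ℕ => K) i ≤ (fun _ : ℕ => K) (i + 1) + N := by
    intro K i _; simp
  set κ0 : ℕ → ℤ := fun i => -(i * N : ℤ) with hκ0
  have hs0 : ∀ i < n + 1, κ0 i ≤ κ0 (i + 1) + N := by
    intro i _; simp only [hκ0]; push_cast; linarith [mul_comm (i : ℤ) N]
  have hst0 : Stable (DD C δ) (HH C FF ρ κ0) := st.stable _ hs0
  have hroot : ∀ l, ρ l ≤ 0 := by
    obtain ⟨e, _, _, hr⟩ := hρ.ex
    intro l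
    rw [hr l]
    have : (0 : ℤ) ≤ (e l : ℤ) * N := by positivity
    linarith
  -- (A)
  set K1 : ℤ := -((n + 1 : ℕ) * N : ℤ) with hK1
  have hκ0K1 : ∀ i ≤ n + 1, K1 ≤ κ0 i := by
    intro i hi
    simp only [hκ0, hK1]
    have : (i : ℤ) * N ≤ ((n + 1 : ℕ) : ℤ) * N := by
      have : (i : ℤ) ≤ ((n + 1 : ℕ) : ℤ) := by exact_mod_cast hi
      nlinarith [Int.natCast_nonneg N]
    linarith
  have hmono1 : ∀ m, HH C FF ρ κ0 m ≤ HH C FF ρ (fun _ => K1 - M) m := fun m =>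
    HH_anti P hC ρ _ _ (fun i hi => by have := hκ0K1 i hi; omega) m
  have hpos : ∀ m : ℤ, 1 ≤ m → h Λ (DD C δ) (HH C FF ρ κ0) (ZT C ZZ ρ) m = 0 := by
    intro m hm
    have h1 := ii_zero (Λ := Λ) hBL ρ (K := K1) (G' := HH C FF ρ κ0) m
      (HH_anti P hC ρ _ _ hκ0K1 m)
    have h2 : h Λ (DD C δ) (HH C FF ρ fun _ => K1 - M) (HH C FF ρ κ0) (m + 1) = 0 := by
      refine st.total_null hD _ _ (fun i hi => by have := hκ0K1 i hi; omega)
        (hGm _) hs0 (m + 1) fun i hi k _ hk hmk => ?_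
      exfalso
      have := hρ.le_jj i hi k hk
      rw [KFin.gg] at hmk
      omega
    rw [les_quot Λ hD (DD_const P hC ρ _) hst0 hmono1 (fun m => ZT_le P ρ _ m)
      (G'' := ZT C ZZ ρ), add_eq_zero, add_sub_cancel_right] at h2
    rw [les_sub Λ hD hst0 hZst hmono1 (fun m => ZT_le P ρ _ m), h1, h2.2, add_zero]
  -- (C)
  have hle0 : ∀ i ≤ n + 1, κ0 i ≤ (fun _ : ℕ => (0 : ℤ)) i := by
    intro i _
    have : (0 : ℤ) ≤ (i * N : ℤ) := by positivity
    simp only [hκ0]; linarith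
  have hmono0 : ∀ m, HH C FF ρ (fun _ => 0) m ≤ HH C FF ρ κ0 m := fun m =>
    HH_anti P hC ρ _ _ hle0 m
  have hneg : ∀ m : ℤ, m < 0 → h Λ (DD C δ) (HH C FF ρ κ0) (ZT C ZZ ρ) m = 0 := by
    intro m hm
    refine null_mid Λ hD hst0 (DD_const P hC ρ 0) hZst hmono0 (fun m => ZT_le P ρ _ m)
      (tail_null P hBL hC hE ρ 0 hroot m hm) ?_
    refine st.total_null hD _ _ hle0 hs0 (hGm _) m fun i _ k hk _ hmk => ?_
    exfalso
    have := hρ.jj_le hN i k hk
    rw [KFin.gg] at hmk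
    omega
  -- Euler characteristics
  obtain ⟨f1, e1⟩ := (st.total hD κ0 (fun _ => 0) hle0 hs0 (hGm _)).2
    (fun i _ k _ _ => KFin.ll_ne_top ρ _ hΛ0 i k)
  have e2 := chi_les Λ hD hst0 (DD_const P hC ρ 0) hZst hmono0 (fun m => ZT_le P ρ _ m)
    (finS_GZ P hBL hC hE ρ hΛ0 0) f1
  have e3 : 0 ≤ chi (h Λ (DD C δ) (HH C FF ρ κ0) (ZT C ZZ ρ)) := by
    unfold chi
    rw [finsum_eq_single _ (0 : ℤ)]
    · simp
    · intro m hm
      rcases lt_or_gt_of_ne hm with h3 | h3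
      · rw [hneg m h3]; simp
      · rw [hpos m (by omega)]; simp
  rw [e2, e1] at e3
  refine e3.trans_eq ?_
  unfold cc
  congr 1
  rw [Finset.mul_sum]
  refine Finset.sum_congr rfl fun i _ => ?_
  rw [Finset.sum_congr rfl fun k _ => KFin.sign_ll ρ _ (LX Λ W X) i k, ← Finset.mul_sum,
      ← Finset.mul_sum, ← Int.cast_sum, hbC i]
  have h5 := hρ.sum_eq i
  simp only [hκ0]
  rw [h5]

end core

end Crest.Agent.R183.KT
end

-- ▼ part R183/KT3
section

set_option autoImplicit false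

namespace Crest.Agent.R183.KT

open scoped ENNReal Nat
open KF KHom Res

universe u v

section numeric

open Finset KNum

/-- **The final inequality**, from a function `c` (with `≤` at the staircases). -/
theorem final_of_c' (n : ℕ) (b : ℕ → ℕ)
    (hb : ∑ i ∈ Finset.range (n + 1 + 1), (-1 : ℤ) ^ i * b i = 0) :
    ∃ C : ℝ, 0 ≤ C ∧ ∀ N : ℕ, 1 ≤ N → ∀ LM Λ0 : ℝ, 0 ≤ Λ0 → ∀ c : (Fin n → ℤ) → ℝ,
      (∀ (ρ : Fin n → ℤ) (l : Fin n) (t : ℤ), c (Function.update ρ l (t + 1))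
        - 2 * c (Function.update ρ l t) + c (Function.update ρ l (t - 1)) = 0) →
      (∀ ρ : Fin n → ℤ, c (fun l => ρ l + 1) = c ρ) →
      (∃ ρ0 : Fin n → ℤ, ∀ σ : Equiv.Perm (Fin n), c (ρ0 ∘ σ) ≤ (n ! : ℝ) * LM) →
      (∀ τ < n + 1, ∀ ρ : Fin n → ℤ, KFin.IsRoots (n + 1) τ N n ρ →
        0 ≤ c ρ + Λ0 * ∑ i ∈ Finset.range (n + 1 + 1), (-1 : ℝ) ^ i * b i * (S (n + 1) N τ i : ℝ)) →
      ((b 0 : ℝ) * N ^ (n + 1) - C * N ^ n) * Λ0 ≤ LM := by
  obtain ⟨C, hC0, hC⟩ := final (d := n + 1) (by omega) b hb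
  refine ⟨C, hC0, ?_⟩
  intro N hN LM Λ0 hΛ c haff hshift hval hineq
  have hn : (0 : ℝ) < n ! := by exact_mod_cast Nat.factorial_pos n
  have hcard : (Fintype.card (Equiv.Perm (Fin n)) : ℝ) = n ! := by
    rw [Fintype.card_perm, Fintype.card_fin]
  set cb : (Fin n → ℤ) → ℝ := fun ρ => ∑ σ : Equiv.Perm (Fin n), c (ρ ∘ σ) with hcb
  have hsymm : ∀ (σ : Equiv.Perm (Fin n)) (ρ : Fin n → ℤ), cb (ρ ∘ σ) = cb ρ := by
    intro σ ρ
    simp only [hcb]
    exact Fintype.sum_equiv (Equiv.mulLeft σ) _ _ fun τ => rfl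
  have hupd : ∀ (ρ : Fin n → ℤ) (l : Fin n) (t : ℤ) (σ : Equiv.Perm (Fin n)),
      (Function.update ρ l t) ∘ σ = Function.update (ρ ∘ σ) (σ.symm l) t := by
    intro ρ l t σ
    rw [Function.update_comp_equiv]
  have haff' : ∀ (ρ : Fin n → ℤ) (l : Fin n) (t : ℤ), cb (Function.update ρ l (t + 1))
        - 2 * cb (Function.update ρ l t) + cb (Function.update ρ l (t - 1)) = 0 := by
    intro ρ l t
    simp only [hcb, hupd]
    rw [Finset.mul_sum, ← Finset.sum_sub_distrib, ← Finset.sum_add_distrib]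
    exact Finset.sum_eq_zero fun σ _ => haff _ _ _
  have hshift' : ∀ ρ : Fin n → ℤ, cb (fun l => ρ l + 1) = cb ρ := by
    intro ρ
    simp only [hcb]
    exact Finset.sum_congr rfl fun σ _ => hshift (ρ ∘ σ)
  have hconst := KConst.const_of_symm_affine_shift cb hsymm haff' hshift'
  obtain ⟨ρ0, hρ0⟩ := hval
  have hc0 : ∀ ρ, cb ρ ≤ (n ! : ℝ) * ((n ! : ℝ) * LM) := by
    intro ρ
    rw [hconst ρ, ← hconst ρ0]
    simp only [hcb]
    refine (Finset.sum_le_sum fun σ _ => hρ0 σ).trans_eq ?_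
    rw [Finset.sum_const, Finset.card_univ, nsmul_eq_mul, hcard]
  refine hC N hN LM Λ0 hΛ ?_
  intro τ hτ
  obtain ⟨ρ, hρ⟩ := KFin.exists_isRoots (N := N) hτ
  have h1 : 0 ≤ ∑ σ : Equiv.Perm (Fin n), (c (ρ ∘ σ) + Λ0 *
      ∑ i ∈ Finset.range (n + 1 + 1), (-1 : ℝ) ^ i * b i * (S (n + 1) N τ i : ℝ)) :=
    Finset.sum_nonneg fun σ _ => hineq τ hτ _ (hρ.comp σ)
  rw [Finset.sum_add_distrib, Finset.sum_const, Finset.card_univ, nsmul_eq_mul, hcard] at h1
  have h2 : ∑ σ : Equiv.Perm (Fin n), c (ρ ∘ σ) ≤ (n ! : ℝ) * ((n ! : ℝ) * LM) := hc0 ρ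
  have h2' := h1.trans (add_le_add_left h2 _)
  rw [← mul_add] at h2'
  have h3 := nonneg_of_mul_nonneg_right h2' hn
  simpa using h3

end numeric

variable {A : Type u} [CommRing A] {V : Type v} [AddCommGroup V] [Module A V]
variable {Λ : AddLen.{u, v} A} {W : Type v} [AddCommGroup W] [Module A W] {n : ℕ}
  {X : Fin (n + 1) → A} {δ : V →ₗ[A] V} {FF : (Fin n → ℤ) → ℤ → ℤ → Submodule A V}
  {ZZ : (Fin n → ℤ) → ℤ → Submodule A V}
variable (P : Pkg Λ W X V δ FF ZZ) {C : MCx A} {N : ℕ}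

/-- `u` applied to all components. -/
def hat (C : MCx A) (u : V →ₗ[A] V) : UU C V →ₗ[A] UU C V :=
  LinearMap.pi fun i => (post (C.ι i) u) ∘ₗ LinearMap.proj i

lemma hat_apply (C : MCx A) (u : V →ₗ[A] V) (x : UU C V) (i : ℕ) (a : C.ι i) :
    hat C u x i a = u (x i a) := rfl

lemma DD_hat (C : MCx A) {δ u : V →ₗ[A] V} (hu : u ∘ₗ δ = δ ∘ₗ u) :
    DD C δ ∘ₗ hat C u = hat C u ∘ₗ DD C δ := by
  ext1 x
  funext i a
  rw [LinearMap.comp_apply, LinearMap.comp_apply, hat_apply, DD_apply', DD_apply', map_add,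
    map_sum, map_smul]
  congr 1
  · refine Finset.sum_congr rfl fun b _ => ?_
    rw [map_smul]; rfl
  · have := LinearMap.congr_fun hu (x i a)
    rw [LinearMap.comp_apply, LinearMap.comp_apply] at this
    rw [this]; rfl

section aff

variable {M : ℕ} (hBL : BL C δ FF ZZ M) (hC : C.Len (n + 1)) (hE : Ent C W X N)
  (hΛ0 : LX Λ W X ≠ ⊤)

lemma mem_HH {ρ : Fin n → ℤ} {κ : ℕ → ℤ} {m : ℤ} {x : UU C V} :
    x ∈ HH C FF ρ κ m ↔ ∀ (i : ℕ) (a : C.ι i), x i a ∈ FF ρ (κ i) ((i : ℤ) - m) := mem_fam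

lemma mem_ZT {ρ : Fin n → ℤ} {m : ℤ} {x : UU C V} :
    x ∈ ZT C ZZ ρ m ↔ ∀ (i : ℕ) (a : C.ι i), x i a ∈ ZZ ρ ((i : ℤ) - m) := mem_fam

include P hBL hC hE hΛ0 in
theorem cc_aff0 (ρ ρ1 ρ2 : Fin n → ℤ) (l : Fin n) (h1 : ρ1 = Function.update ρ l (ρ l + 1))
    (h2 : ρ2 = Function.update ρ l (ρ l + 2)) :
    cc Λ C δ FF ZZ ρ2 - 2 * cc Λ C δ FF ZZ ρ1 + cc Λ C δ FF ZZ ρ = 0 := by
  obtain ⟨u, hu, H⟩ := P.aff l
  obtain ⟨a1, a2, a3, a4, a5, a6, a7⟩ := H ρ ρ1 ρ2 h1 h2
  have h12 : ρ2 = Function.update ρ1 l (ρ1 l + 1) := by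
    rw [h1, h2, Function.update_self, Function.update_idem]
    congr 1; ring
  obtain ⟨b1, b2, b3, b4, -, -, -⟩ := H ρ1 ρ2 (Function.update ρ1 l (ρ1 l + 2)) h12 rfl
  have hD := DD_DD C P.δδ
  have hDDx : ∀ x, DD C δ (DD C δ x) = 0 := fun x => LinearMap.congr_fun hD x
  have hDu := DD_hat C hu
  set D2 := (DD C δ).prodMap (DD C δ) with hD2
  have hD2D2 : D2 ∘ₗ D2 = 0 := by
    refine LinearMap.ext fun p => ?_
    rw [hD2]
    exact Prod.ext (hDDx _) (hDDx _)
  let f : UU C V × UU C V →ₗ[A] UU C V := LinearMap.coprod LinearMap.id (hat C u)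
  have hfx : ∀ x y, f (x, y) = x + hat C u y := fun x y => by simp [f]
  have hf : DD C δ ∘ₗ f = f ∘ₗ D2 := by
    refine LinearMap.ext fun p => ?_
    obtain ⟨x, y⟩ := p
    have h3 : DD C δ (hat C u y) = hat C u (DD C δ y) := LinearMap.congr_fun hDu y
    rw [LinearMap.comp_apply, LinearMap.comp_apply, hfx, hD2, LinearMap.prodMap_apply, hfx,
      map_add, h3]
  let g : UU C V →ₗ[A] UU C V × UU C V := LinearMap.prod (hat C u) (-LinearMap.id)
  have hgx : ∀ z, g z = (hat C u z, -z) := fun z => by simp [g]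
  have hg : D2 ∘ₗ g = g ∘ₗ DD C δ := by
    refine LinearMap.ext fun z => ?_
    have h3 : DD C δ (hat C u z) = hat C u (DD C δ z) := LinearMap.congr_fun hDu z
    rw [LinearMap.comp_apply, LinearMap.comp_apply, hgx, hgx, hD2, LinearMap.prodMap_apply, h3,
      map_neg]
  let G : (Fin n → ℤ) → ℤ → Submodule A (UU C V) := fun ρ => HH C FF ρ fun _ => 0
  let Z : (Fin n → ℤ) → ℤ → Submodule A (UU C V) := fun ρ => ZT C ZZ ρ
  have hGst : ∀ ρ, Stable (DD C δ) (G ρ) := fun ρ => DD_const P hC ρ 0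
  have hZst : ∀ ρ, Stable (DD C δ) (Z ρ) := fun ρ => ZT_stable P hC ρ
  have hZG : ∀ ρ m, Z ρ m ≤ G ρ m := fun ρ m => ZT_le P ρ _ m
  set GG : ℤ → Submodule A (UU C V × UU C V) := fun m => (G ρ1 m).prod (G ρ1 m) with hGG
  set G2 : ℤ → Submodule A (UU C V × UU C V) := fun m => (Z ρ1 m).prod (Z ρ1 m) with hG2
  set L : ℤ → Submodule A (UU C V × UU C V) := fun m => GG m ⊓ (Z ρ m).comap f with hL
  have hGGst : Stable D2 GG := by
    rintro m _ ⟨x, hx, rfl⟩
    exact ⟨hGst ρ1 m ⟨_, hx.1, rfl⟩, hGst ρ1 m ⟨_, hx.2, rfl⟩⟩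
  have hG2st : Stable D2 G2 := by
    rintro m _ ⟨x, hx, rfl⟩
    exact ⟨hZst ρ1 m ⟨_, hx.1, rfl⟩, hZst ρ1 m ⟨_, hx.2, rfl⟩⟩
  have hLst : Stable D2 L := by
    rintro m _ ⟨x, hx, rfl⟩
    refine ⟨hGGst m ⟨_, hx.1, rfl⟩, ?_⟩
    rw [SetLike.mem_coe, Submodule.mem_comap]
    have h3 : f (D2 x) = DD C δ (f x) := (LinearMap.congr_fun hf x).symm
    rw [h3]
    exact hZst ρ m ⟨_, hx.2, rfl⟩
  have hLG : ∀ m, L m ≤ GG m := fun m => inf_le_left
  have hG2L : ∀ m, G2 m ≤ L m := by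
    rintro m ⟨x, y⟩ ⟨hx, hy⟩
    refine ⟨⟨hZG _ _ hx, hZG _ _ hy⟩, ?_⟩
    rw [SetLike.mem_coe, Submodule.mem_comap, hfx]
    refine mem_ZT.2 fun i a => ?_
    exact Submodule.add_mem _ (a2 _ (mem_ZT.1 hx i a)) (a4 _ ⟨_, mem_ZT.1 hy i a, rfl⟩)
  -- (1)
  have e1 : ∀ m, h Λ D2 GG L m = h Λ (DD C δ) (G ρ) (Z ρ) m := by
    refine h_iso Λ f hf hD hD2D2 (fun m => rfl) (fun m => ?_) hGGst (hZst ρ)
    apply le_antisymm
    · intro w hw
      have hw' : ∀ (i : ℕ) (a : C.ι i), ∃ x ∈ FF ρ1 0 ((i : ℤ) - m), ∃ y ∈ FF ρ1 0 ((i : ℤ) - m),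
          w i a - (x + u y) ∈ ZZ ρ ((i : ℤ) - m) := fun i a => a5 _ _ _ (mem_HH.1 hw i a)
      choose x hx y hy hxy using hw'
      have h3 : w = f (x, y) + (w - f (x, y)) := by abel
      rw [h3]
      refine Submodule.add_mem_sup ⟨(x, y), ⟨mem_HH.2 hx, mem_HH.2 hy⟩, rfl⟩ ?_
      refine mem_ZT.2 fun i a => ?_
      rw [hfx]
      exact hxy i a
    · refine sup_le ?_ (hZG ρ m)
      rintro _ ⟨⟨x, y⟩, ⟨hx, hy⟩, rfl⟩
      rw [hfx]
      refine mem_HH.2 fun i a => ?_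
      exact Submodule.add_mem _ (a1 _ _ (mem_HH.1 hx i a)) (a3 _ _ ⟨_, mem_HH.1 hy i a, rfl⟩)
  -- (2)
  have e2 : ∀ m, h Λ D2 GG G2 m = h Λ (DD C δ) (G ρ1) (Z ρ1) m + h Λ (DD C δ) (G ρ1) (Z ρ1) m :=
    fun m => h_prod Λ _ _ _ _ hD hD (hGst ρ1) (hGst ρ1) (hZst ρ1) (hZst ρ1) (hZG ρ1) (hZG ρ1) m
  -- (3)
  have e3 : ∀ m, h Λ (DD C δ) (G ρ2) (Z ρ2) m = h Λ D2 L G2 m := by
    refine h_iso Λ g hg hD2D2 hD (fun m => ?_) (fun m => ?_) (hGst ρ2) hG2st
    · apply le_antisymm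
      · intro z hz
        refine ⟨hZG _ _ hz, ?_⟩
        rw [SetLike.mem_coe, Submodule.mem_comap, hgx]
        exact ⟨mem_ZT.2 fun i a => b4 _ ⟨_, mem_ZT.1 hz i a, rfl⟩,
          mem_ZT.2 fun i a => Submodule.neg_mem _ (b2 _ (mem_ZT.1 hz i a))⟩
      · rintro z ⟨hz1, hz2⟩
        rw [SetLike.mem_coe, Submodule.mem_comap, hgx] at hz2
        refine mem_ZT.2 fun i a => a7 _ _ _ (mem_HH.1 hz1 i a) (mem_ZT.1 hz2.1 i a) ?_
        have h3 := mem_ZT.1 hz2.2 i a
        rw [← Submodule.neg_mem_iff]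
        exact h3
    · apply le_antisymm
      · rintro ⟨x, y⟩ ⟨⟨hx, hy⟩, hxy⟩
        rw [SetLike.mem_coe, Submodule.mem_comap, hfx] at hxy
        have h3 : ∀ (i : ℕ) (a : C.ι i), ∃ z ∈ FF ρ2 0 ((i : ℤ) - m), x i a - u z ∈ ZZ ρ1 ((i : ℤ) - m) ∧
            y i a + z ∈ ZZ ρ1 ((i : ℤ) - m) := fun i a =>
          a6 _ _ _ (mem_HH.1 hx i a) _ (mem_HH.1 hy i a) (mem_ZT.1 hxy i a)
        choose z hz hz1 hz2 using h3
        have h4 : ((x, y) : UU C V × UU C V) = g z + (x - hat C u z, y + z) := by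
          rw [hgx]
          refine Prod.ext ?_ ?_
          · simp
          · simp
        rw [h4]
        refine Submodule.add_mem_sup ⟨z, mem_HH.2 hz, rfl⟩ ⟨mem_ZT.2 hz1, mem_ZT.2 hz2⟩
      · refine sup_le ?_ (hG2L m)
        rintro _ ⟨z, hz, rfl⟩
        refine ⟨?_, ?_⟩
        · rw [hgx]
          exact ⟨mem_HH.2 fun i a => b3 _ _ ⟨_, mem_HH.1 hz i a, rfl⟩,
            mem_HH.2 fun i a => Submodule.neg_mem _ (b1 _ _ (mem_HH.1 hz i a))⟩
        · rw [SetLike.mem_coe, Submodule.mem_comap, hgx, hfx, map_neg, add_neg_cancel]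
          exact Submodule.zero_mem _
  have F : ∀ ρ, FinS (h Λ (DD C δ) (G ρ) (Z ρ)) := fun ρ => finS_GZ P hBL hC hE ρ hΛ0 0
  have fa : FinS (h Λ D2 L G2) := by rw [← funext e3]; exact F ρ2
  have fb : FinS (h Λ D2 GG L) := by rw [funext e1]; exact F ρ
  have e4 := chi_les Λ hD2D2 hGGst hLst hG2st hLG hG2L fa fb
  rw [funext e1, ← funext e3, funext e2, chi_add (F ρ1) (F ρ1)] at e4
  unfold cc
  change chi (h Λ (DD C δ) (G ρ2) (Z ρ2)) - 2 * chi (h Λ (DD C δ) (G ρ1) (Z ρ1)) +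
    chi (h Λ (DD C δ) (G ρ) (Z ρ)) = 0
  linarith

include P hBL hC hE hΛ0 in
theorem cc_aff (ρ : Fin n → ℤ) (l : Fin n) (t : ℤ) :
    cc Λ C δ FF ZZ (Function.update ρ l (t + 1)) - 2 * cc Λ C δ FF ZZ (Function.update ρ l t)
      + cc Λ C δ FF ZZ (Function.update ρ l (t - 1)) = 0 := by
  refine cc_aff0 P hBL hC hE hΛ0 (Function.update ρ l (t - 1)) _ _ l ?_ ?_
  · rw [Function.update_self, Function.update_idem]; congr 1; ring
  · rw [Function.update_self, Function.update_idem]; congr 1; ring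

include P hBL hC hE hΛ0 in
theorem cc_shift {b : ℕ → ℕ} (hbC : ∀ i, Fintype.card (C.ι i) = b i)
    (hb : ∑ i ∈ Finset.range (n + 1 + 1), (-1 : ℤ) ^ i * b i = 0) (ρ : Fin n → ℤ) :
    cc Λ C δ FF ZZ (fun l => ρ l + 1) = cc Λ C δ FF ZZ ρ := by
  obtain ⟨T, T', hT, hT', hTT', hT'T, hF, hZ⟩ := P.shift
  have hD := DD_DD C P.δδ
  set ρ1 : Fin n → ℤ := fun l => ρ l + 1 with hρ1
  have hT'Tx : ∀ x, T' (T x) = x := fun x => LinearMap.congr_fun hT'T x
  have hTT'x : ∀ x, T (T' x) = x := fun x => LinearMap.congr_fun hTT' x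
  have e : ∀ m, h Λ (DD C δ) (HH C FF ρ fun _ => 0) (ZT C ZZ ρ) m =
      h Λ (DD C δ) (HH C FF ρ1 fun _ => 1) (ZT C ZZ ρ1) m := by
    refine h_iso Λ (hat C T) (DD_hat C hT) hD hD (fun m => ?_) (fun m => ?_)
      (DD_const P hC ρ 0) (ZT_stable P hC ρ1)
    · apply le_antisymm
      · intro x hx
        refine ⟨ZT_le P ρ _ m hx, ?_⟩
        rw [SetLike.mem_coe, Submodule.mem_comap]
        refine mem_ZT.2 fun i a => ?_
        rw [hρ1, ← hZ ρ]
        exact ⟨_, mem_ZT.1 hx i a, rfl⟩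
      · rintro x ⟨_, hx⟩
        rw [SetLike.mem_coe, Submodule.mem_comap] at hx
        refine mem_ZT.2 fun i a => ?_
        have h3 := mem_ZT.1 hx i a
        rw [hρ1, ← hZ ρ] at h3
        obtain ⟨y, hy, hxy⟩ := h3
        have h4 : y = x i a := by
          have := congrArg T' hxy
          rw [hat_apply, hT'Tx, hT'Tx] at this
          exact this
        rw [← h4]; exact hy
    · apply le_antisymm
      · intro x hx
        refine Submodule.mem_sup_left ⟨hat C T' x, ?_, ?_⟩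
        · refine mem_HH.2 fun i a => ?_
          have h3 : x i a ∈ FF ρ1 1 ((i : ℤ) - m) := mem_HH.1 hx i a
          have h5 : FF ρ1 1 ((i : ℤ) - m) = (FF ρ 0 ((i : ℤ) - m)).map T := by
            rw [hF ρ 0, zero_add]
          rw [h5] at h3
          obtain ⟨y, hy, hxy⟩ := h3
          rw [hat_apply, ← hxy, hT'Tx]
          exact hy
        · funext i a
          rw [hat_apply, hat_apply, hTT'x]
      · refine sup_le ?_ (ZT_le P ρ1 _ m)
        rintro _ ⟨x, hx, rfl⟩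
        refine mem_HH.2 fun i a => ?_
        have h3 : x i a ∈ FF ρ 0 ((i : ℤ) - m) := mem_HH.1 hx i a
        have h4 : T (x i a) ∈ (FF ρ 0 ((i : ℤ) - m)).map T := ⟨_, h3, rfl⟩
        rw [hF ρ 0, zero_add] at h4
        exact h4
  rw [← chi_eq_cc P hBL hC hE ρ1 hΛ0 hbC hb 1]
  unfold cc
  rw [funext e]

end aff

end Crest.Agent.R183.KT
end

-- ▼ part R183/KT4

set_option autoImplicit false

namespace Crest.Agent.R183.KT

open scoped ENNReal Nat
open KF KHom Res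

universe u v

variable {A : Type u} [CommRing A] {V : Type v} [AddCommGroup V] [Module A V]
variable {Λ : AddLen.{u, v} A} {W : Type v} [AddCommGroup W] [Module A W] {n : ℕ}
  {X : Fin (n + 1) → A} {δ : V →ₗ[A] V} {FF : (Fin n → ℤ) → ℤ → ℤ → Submodule A V}
  {ZZ : (Fin n → ℤ) → ℤ → Submodule A V}
variable (P : Pkg Λ W X V δ FF ZZ) {C : MCx A} {N : ℕ}

/-- powers of `W` in the coefficients: lengths of cokernels. -/
lemma L_coker_pow (Λ : AddLen.{u, v} A) (C : MCx A) (W : Type v) [AddCommGroup W] [Module A W]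
    (r : ℕ) : Λ.L ((C.ι 0 → (Fin r → W)) ⧸ C.bdyM (Fin r → W) 0) ≤
      (r : ℝ≥0∞) * Λ.L ((C.ι 0 → W) ⧸ C.bdyM W 0) := by
  let f : (C.ι 0 → (Fin r → W)) →ₗ[A] (Fin r → (C.ι 0 → W) ⧸ C.bdyM W 0) :=
    LinearMap.pi fun j => (C.bdyM W 0).mkQ ∘ₗ post (C.ι 0) (LinearMap.proj j)
  have hf : LinearMap.ker f ≤ C.bdyM (Fin r → W) 0 := by
    intro v hv
    rw [LinearMap.mem_ker] at hv
    have h1 : ∀ j, ∃ w : C.ι 1 → W, C.dM W 0 w = fun a => v a j := by
      intro j
      have h2 : (C.bdyM W 0).mkQ (post (C.ι 0) (LinearMap.proj j) v) = 0 := congrFun hv j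
      rw [Submodule.mkQ_apply, Submodule.Quotient.mk_eq_zero] at h2
      exact h2
    choose w hw using h1
    refine ⟨fun b j => w j b, ?_⟩
    funext a j
    have h3 := congrFun (hw j) a
    rw [← h3]
    change (∑ b, C.d 0 a b • fun j => w j b) j = ∑ b, C.d 0 a b • w j b
    rw [Finset.sum_apply]
    rfl
  have hle : C.bdyM (Fin r → W) 0 ≤ LinearMap.ker f := by
    rintro _ ⟨w, rfl⟩
    rw [LinearMap.mem_ker]
    funext j
    change (C.bdyM W 0).mkQ (post (C.ι 0) (LinearMap.proj j) (C.dM (Fin r → W) 0 w)) = 0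
    rw [← MCx.dM_post, Submodule.mkQ_apply, Submodule.Quotient.mk_eq_zero]
    exact ⟨_, rfl⟩
  have hker : C.bdyM (Fin r → W) 0 = LinearMap.ker f := le_antisymm hle hf
  rw [hker, ← Λ.L_finset_pi, Λ.L_congr f.quotKerEquivRange]
  exact Λ.L_submodule_le _

section stairs

variable {M : ℕ} (hBL : BL C δ FF ZZ M) (hC : C.Len (n + 1)) (hE : Ent C W X N)
  (σ : Equiv.Perm (Fin n)) (ρ : Fin n → ℤ) (hρ : ∀ l, ρ l = -((σ l : ℕ) : ℤ) - 1)

include hρ in
lemma jj_nonneg {k : ℤ} (hk : 0 ≤ k) : KFin.jj ρ k = 0 := by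
  unfold KFin.jj
  rw [Finset.card_eq_zero, Finset.filter_eq_empty_iff]
  intro l _
  rw [hρ l]
  omega

include hρ in
lemma jj_neg {k : ℤ} (hk : k < -(n : ℤ)) : KFin.jj ρ k = n := by
  unfold KFin.jj
  rw [Finset.filter_true_of_mem, Finset.card_univ, Fintype.card_fin]
  intro l _
  rw [hρ l]
  have := (σ l).2
  omega

include hρ in
lemma ll_mid (b : ℕ → ℕ) (Λ0 : ℝ≥0∞) (i : ℕ) {k : ℤ} (hk : -(n : ℤ) ≤ k) (hk' : k < 0) :
    KFin.ll ρ b Λ0 i k = 0 := by
  have h1 : ∏ l, (k - ρ l) = 0 := by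
    rw [Finset.prod_eq_zero_iff]
    have h2 : (-k - 1).toNat < n := by omega
    refine ⟨σ.symm ⟨(-k - 1).toNat, h2⟩, Finset.mem_univ _, ?_⟩
    rw [hρ, Equiv.apply_symm_apply]
    push_cast
    omega
  unfold KFin.ll
  rw [h1]
  simp

include P hBL hC hE hρ in
/-- vanishing in positive degrees -/
lemma stair_pos (m : ℤ) (hm : 1 ≤ m) :
    h Λ (DD C δ) (HH C FF ρ fun _ => 0) (ZT C ZZ ρ) m = 0 := by
  have hD := DD_DD C P.δδ
  have st := stair P hC hE ρ
  have hGm : ∀ K : ℤ, ∀ i < n + 1, (fun _ : ℕ => K) i ≤ (fun _ : ℕ => K) (i + 1) + N := by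
    intro K i _; simp
  have hmono : ∀ m, HH C FF ρ (fun _ => 0) m ≤ HH C FF ρ (fun _ => 0 - (M : ℤ)) m := fun m =>
    HH_anti P hC ρ _ _ (fun _ _ => by simp) m
  have h1 := ii_zero (Λ := Λ) hBL ρ (K := 0) (G' := HH C FF ρ fun _ => 0) m le_rfl
  have h2 : h Λ (DD C δ) (HH C FF ρ fun _ => 0 - (M : ℤ)) (HH C FF ρ fun _ => 0) (m + 1) = 0 := by
    refine st.total_null hD _ _ (fun _ _ => by simp) (hGm _) (hGm _) (m + 1)
      fun i hi k _ hk hmk => ?_
    rcases lt_or_ge k (-(n : ℤ)) with h3 | h3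
    · exfalso
      rw [KFin.gg, jj_neg σ ρ hρ h3] at hmk
      omega
    · exact ll_mid σ ρ hρ _ _ i h3 hk
  rw [les_quot Λ hD (DD_const P hC ρ _) (DD_const P hC ρ 0) hmono (fun m => ZT_le P ρ _ m)
    (G'' := ZT C ZZ ρ), add_eq_zero, add_sub_cancel_right] at h2
  rw [les_sub Λ hD (DD_const P hC ρ 0) (ZT_stable P hC ρ) hmono (fun m => ZT_le P ρ _ m), h1, h2.2,
    add_zero]

include P hBL hC hE hρ in
/-- the bound for `h_0` -/
lemma stair_zero : h Λ (DD C δ) (HH C FF ρ fun _ => 0) (ZT C ZZ ρ) 0 ≤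
    ((n ! : ℕ) : ℝ≥0∞) * Λ.L ((C.ι 0 → W) ⧸ C.bdyM W 0) := by
  have hD := DD_DD C P.δδ
  have hDDx : ∀ x, DD C δ (DD C δ x) = 0 := fun x => LinearMap.congr_fun hD x
  have st := stair P hC hE ρ
  obtain ⟨ψ, hψ⟩ := P.stair σ
  obtain ⟨hψ0, hψδ, hψs⟩ := hψ ρ hρ
  set Ψ : (C.ι 0 → (Fin n ! → W)) →ₗ[A] UU C V := sgl C V 0 ∘ₗ post (C.ι 0) ψ with hΨ
  have hΨx : ∀ w, Ψ w = sgl C V 0 (post (C.ι 0) ψ w) := fun w => rfl
  have hDΨ : ∀ w, DD C δ (Ψ w) = 0 := by
    intro w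
    funext i a
    rw [DD_apply', hΨx]
    rw [sgl_ne C (Nat.succ_ne_zero i)]
    simp only [Pi.zero_apply, smul_zero, Finset.sum_const_zero, zero_add]
    by_cases hi : i = 0
    · subst hi
      rw [sgl_same, post_apply, hψδ]; simp
    · rw [sgl_ne C hi]; simp
  set S : Submodule A (UU C V) := (HH C FF ρ (fun _ => 0) (0 + 1)).map (DD C δ) ⊔ ZT C ZZ ρ 0
    with hS
  set T : ℤ → Submodule A (UU C V) := fun k =>
    HH C FF ρ (fun _ => k) 0 ⊓ (ZT C ZZ ρ (0 - 1)).comap (DD C δ) with hT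
  have hGm : ∀ K : ℤ, ∀ i < n + 1, (fun _ : ℕ => K) i ≤ (fun _ : ℕ => K) (i + 1) + N := by
    intro K i _; simp
  -- (1)
  have hTM : ∀ k : ℤ, (M : ℤ) ≤ k → T k ≤ S := by
    intro k hk x hx
    obtain ⟨y, hy, hxy⟩ := hBL ρ k 0 x hx.1 hx.2
    have : x = DD C δ y + (x - DD C δ y) := by abel
    rw [this]
    exact Submodule.add_mem_sup ⟨y, HH_anti P hC ρ _ _ (fun _ _ => by simpa using hk) _ hy, rfl⟩ hxy
  -- (2)
  have hstep : ∀ k : ℤ, 0 ≤ k → Λ.le0 (T (k + 1)) (S ⊔ LinearMap.range Ψ) →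
      Λ.le0 (T k) (S ⊔ LinearMap.range Ψ) := by
    intro k hk ih
    set κ : ℕ → ℤ := Function.update (fun _ => k + 1) 0 k with hκ
    have hκ0 : κ 0 = k := by rw [hκ]; exact Function.update_self _ _ _
    have hκ1 : ∀ i, κ (i + 1) = k + 1 := fun i => by
      rw [hκ]; exact Function.update_of_ne (Nat.succ_ne_zero i) _ _
    have hκs : ∀ i < n + 1, κ i ≤ κ (i + 1) + N := by
      intro i _
      cases i with
      | zero => rw [hκ0, hκ1]; omega
      | succ i => rw [hκ1, hκ1]; omega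
    have hκle : ∀ i ≤ n + 1, (fun _ : ℕ => k) i ≤ κ i := by
      intro i _
      cases i with
      | zero => rw [hκ0]
      | succ i => rw [hκ1]; simp
    have h2 : h Λ (DD C δ) (HH C FF ρ fun _ => k) (HH C FF ρ κ) 0 = 0 := by
      refine st.total_null hD _ _ hκle (hGm _) hκs 0 fun i hi k' hk1 hk2 hmk => ?_
      exfalso
      rw [KFin.gg, jj_nonneg σ ρ hρ (le_trans hk hk1)] at hmk
      have hi0 : i = 0 := by omega
      subst hi0
      rw [hκ0] at hk2
      omega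
    have h3 : Λ.le0 (T k) ((HH C FF ρ (fun _ => k) (0 + 1)).map (DD C δ) ⊔ HH C FF ρ κ 0) := by
      refine Λ.le0_mono h2 ?_ le_rfl
      exact inf_le_inf_left _ (Submodule.comap_mono (ZT_le P ρ κ _))
    have h4 : Λ.le0 (T k) (((HH C FF ρ (fun _ => k) (0 + 1)).map (DD C δ) ⊔ HH C FF ρ κ 0) ⊓
        (ZT C ZZ ρ (0 - 1)).comap (DD C δ)) := Λ.le0_inf h3 (Λ.le0_of_le inf_le_right)
    have h5 : ((HH C FF ρ (fun _ => k) (0 + 1)).map (DD C δ) ⊔ HH C FF ρ κ 0) ⊓
        (ZT C ZZ ρ (0 - 1)).comap (DD C δ) ≤ T (k + 1) ⊔ (S ⊔ LinearMap.range Ψ) := by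
      rintro x ⟨hx1, hx2⟩
      obtain ⟨_, ⟨y, hy, rfl⟩, z, hz, rfl⟩ := Submodule.mem_sup.1 hx1
      have hDz : DD C δ z ∈ ZT C ZZ ρ (0 - 1) := by
        rw [SetLike.mem_coe, Submodule.mem_comap, map_add, hDDx, zero_add] at hx2
        exact hx2
      have hy' : DD C δ y ∈ S := Submodule.mem_sup_left
        ⟨y, HH_anti P hC ρ _ _ (fun _ _ => hk) _ hy, rfl⟩
      -- the component `0`
      have hz0 : ∀ a, δ (z 0 a) ∈ FF ρ (k + 1) 1 := by
        intro a
        have e1 := mem_ZT.1 hDz 0 a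
        rw [DD_apply'] at e1
        have e2 : (∑ b, C.d 0 a b • z (0 + 1) b) ∈ FF ρ (k + 1) 1 := by
          refine Submodule.sum_mem _ fun b _ => Submodule.smul_mem _ _ ?_
          have e3 := mem_HH.1 hz (0 + 1) b
          rw [hκ1] at e3
          simpa using e3
        have e4 : (∑ b, C.d 0 a b • z (0 + 1) b) + (-1 : A) ^ 0 • δ (z 0 a) ∈ FF ρ (k + 1) 1 := by
          refine P.ZZ_le ρ (k + 1) 1 ?_
          simpa using e1
        have e5 := Submodule.sub_mem _ e4 e2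
        simpa using e5
      have hz1 : ∀ a, ∃ w, z 0 a - ψ w ∈ FF ρ (k + 1) 0 := by
        intro a
        refine hψs k hk _ ?_ (hz0 a)
        have e3 := mem_HH.1 hz 0 a
        rw [hκ0] at e3
        simpa using e3
      choose w hw using hz1
      have hzw : z - Ψ w ∈ T (k + 1) := by
        refine ⟨?_, ?_⟩
        · refine mem_HH.2 fun i a => ?_
          cases i with
          | zero =>
            have e1 : (z - Ψ w) 0 a = z 0 a - ψ (w a) := by
              rw [hΨx, Pi.sub_apply, Pi.sub_apply, sgl_same]; rfl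
            rw [e1]
            simpa using hw a
          | succ i =>
            have e1 : (z - Ψ w) (i + 1) a = z (i + 1) a := by
              rw [hΨx, Pi.sub_apply, Pi.sub_apply, sgl_ne C (Nat.succ_ne_zero i), Pi.zero_apply,
                sub_zero]
            rw [e1]
            have e3 := mem_HH.1 hz (i + 1) a
            rw [hκ1] at e3
            exact e3
        · rw [SetLike.mem_coe, Submodule.mem_comap, map_sub, hDΨ, sub_zero]
          exact hDz
      have e6 : DD C δ y + z = (z - Ψ w) + (DD C δ y + Ψ w) := by abel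
      rw [e6]
      exact Submodule.add_mem_sup hzw (Submodule.add_mem_sup hy' ⟨w, rfl⟩)
    refine Λ.le0_trans (Λ.le0_mono h4 le_rfl h5) ?_
    exact Λ.le0_sup ih (Λ.le0_refl _)
  -- (3)
  have hT0 : Λ.le0 (T 0) (S ⊔ LinearMap.range Ψ) := by
    have key : ∀ r : ℕ, ∀ k : ℤ, 0 ≤ k → (M : ℤ) ≤ k + r → Λ.le0 (T k) (S ⊔ LinearMap.range Ψ) := by
      intro r
      induction r with
      | zero =>
        intro k _ hk
        exact Λ.le0_of_le ((hTM k (by simpa using hk)).trans le_sup_left)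
      | succ r ih =>
        intro k hk hk'
        refine hstep k hk (ih (k + 1) (by omega) ?_)
        push_cast at hk' ⊢
        omega
    exact key M 0 le_rfl (by simp)
  -- (4)
  have hST : S ≤ T 0 := by
    refine sup_le ?_ ?_
    · rintro _ ⟨y, hy, rfl⟩
      refine ⟨DD_const P hC ρ 0 0 ⟨y, hy, rfl⟩, ?_⟩
      rw [SetLike.mem_coe, Submodule.mem_comap, hDDx]; exact Submodule.zero_mem _
    · intro x hx
      exact ⟨ZT_le P ρ _ 0 hx, (ZT_stable P hC ρ).map_le 0 ⟨x, hx, rfl⟩⟩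
  have e1 : h Λ (DD C δ) (HH C FF ρ fun _ => 0) (ZT C ZZ ρ) 0 = Λ.rel S (T 0) := rfl
  rw [e1]
  refine (Λ.rel_le_of_le_sup hT0 hST).trans ?_
  have e2 : Λ.rel S (LinearMap.range Ψ) = Λ.L ((C.ι 0 → (Fin n ! → W)) ⧸ S.comap Ψ) := by
    rw [← Λ.rel_top, Λ.rel_comap, Submodule.map_top]
  rw [e2]
  refine le_trans ?_ (L_coker_pow Λ C W n !)
  have e3 : C.bdyM (Fin n ! → W) 0 ≤ S.comap Ψ := by
    rintro _ ⟨w, rfl⟩
    rw [Submodule.mem_comap]
    refine Submodule.mem_sup_left ⟨sgl C V 1 (post (C.ι 1) ψ w), ?_, ?_⟩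
    · refine sgl_mem_fam fun a => ?_
      simpa using hψ0 (w a)
    · funext i a
      rw [DD_apply', hΨx]
      by_cases hi : i = 0
      · subst hi
        rw [← MCx.dM_post, sgl_ne C (by omega : (0 : ℕ) ≠ 1)]
        have e4 : sgl C V 1 (post (C.ι 1) ψ w) (0 + 1) = post (C.ι 1) ψ w := sgl_same C 1 _
        have e5 : sgl C V 0 (C.dM V 0 (post (C.ι 1) ψ w)) 0 = C.dM V 0 (post (C.ι 1) ψ w) :=
          sgl_same C 0 _
        rw [e4]
        refine Eq.trans ?_ (congrFun e5 a).symm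
        simp only [Pi.zero_apply, map_zero, smul_zero, add_zero]
        rfl
      · have e5 : (0 : ℕ) ≠ i := fun h => hi h.symm
        rw [sgl_ne C hi, sgl_ne C (by omega : i + 1 ≠ 1)]
        simp only [Pi.zero_apply, smul_zero, Finset.sum_const_zero, zero_add]
        by_cases hi1 : i = 1
        · subst hi1
          rw [sgl_same, post_apply, hψδ]; simp
        · rw [sgl_ne C hi1]; simp
  exact Λ.L_le_of_surjective (Submodule.factor e3) (Submodule.factor_surjective e3)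

include P hBL hC hE hρ in
theorem cc_stair (hL : Λ.L ((C.ι 0 → W) ⧸ C.bdyM W 0) ≠ ⊤) :
    cc Λ C δ FF ZZ ρ ≤ (n ! : ℝ) * (Λ.L ((C.ι 0 → W) ⧸ C.bdyM W 0)).toReal := by
  unfold cc chi
  rw [finsum_eq_single _ (0 : ℤ)]
  · rw [zpow_zero, one_mul]
    have h1 := ENNReal.toReal_mono (ENNReal.mul_ne_top (ENNReal.natCast_ne_top _) hL)
      (stair_zero P hBL hC hE σ ρ hρ)
    rwa [ENNReal.toReal_mul, ENNReal.toReal_natCast] at h1
  · intro m hm
    rcases lt_or_gt_of_ne hm with h3 | h3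
    · rw [tail_null P hBL hC hE ρ 0 (fun l => by rw [hρ l]; omega) m h3]; simp
    · rw [stair_pos P hBL hC hE σ ρ hρ m (by omega)]; simp

end stairs

/-- **Theorem K** on the Čech package. -/
theorem theoremK (n : ℕ) (b : ℕ → ℕ)
    (hb : ∑ i ∈ Finset.range (n + 1 + 1), (-1 : ℤ) ^ i * b i = 0) :
    ∃ K : ℝ, 0 ≤ K ∧ ∀ (A : Type u) [CommRing A] (Λ : AddLen.{u, v} A) (W : Type v)
      [AddCommGroup W] [Module A W] (X : Fin (n + 1) → A) (V : Type v) [AddCommGroup V]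
      [Module A V] (δ : V →ₗ[A] V) (FF : (Fin n → ℤ) → ℤ → ℤ → Submodule A V)
      (ZZ : (Fin n → ℤ) → ℤ → Submodule A V), Pkg Λ W X V δ FF ZZ → ∀ (C : MCx A),
      C.Len (n + 1) → (∀ i, Fintype.card (C.ι i) = b i) → ∀ N : ℕ, 1 ≤ N → Ent C W X N →
      (∀ ν, ∃ N' : ℕ, C.NHom (X ν ^ N')) →
      Λ.L (W ⧸ ((Ideal.span (Set.range X)) • (⊤ : Submodule A W))) ≠ ⊤ →
      ENNReal.ofReal ((b 0 : ℝ) * (N : ℝ) ^ (n + 1) - K * (N : ℝ) ^ n) *
        Λ.L (W ⧸ ((Ideal.span (Set.range X)) • (⊤ : Submodule A W))) ≤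
        Λ.L ((C.ι 0 → W) ⧸ C.bdyM W 0) := by
  obtain ⟨K, hK0, hK⟩ := final_of_c' n b hb
  refine ⟨K, hK0, ?_⟩
  intro A _ Λ W _ _ X V _ _ δ FF ZZ P C hC hbC N hN hE hX hΛ0
  by_cases hL : Λ.L ((C.ι 0 → W) ⧸ C.bdyM W 0) = ⊤
  · rw [hL]; exact le_top
  -- uniform exponent
  have hN' : ∃ N' : ℕ, ∀ ν, X ν ^ N' ∈ C.nhI := by
    choose N1 hN1 using hX
    refine ⟨∑ ν, N1 ν, fun ν => ?_⟩
    have h1 : N1 ν ≤ ∑ ν, N1 ν := Finset.single_le_sum (fun _ _ => Nat.zero_le _) (Finset.mem_univ ν)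
    have h2 : X ν ^ (∑ ν, N1 ν) = X ν ^ (∑ ν, N1 ν - N1 ν) * X ν ^ N1 ν := by
      rw [← pow_add, Nat.sub_add_cancel h1]
    rw [h2]
    exact Ideal.mul_mem_left _ _ (hN1 ν)
  obtain ⟨N', hN'⟩ := hN'
  obtain ⟨M, hM⟩ := bounded_loss P hC N' hN'
  have hBL : BL C δ FF ZZ M := hM
  have key := hK N hN (Λ.L ((C.ι 0 → W) ⧸ C.bdyM W 0)).toReal (LX Λ W X).toReal
    ENNReal.toReal_nonneg (cc Λ C δ FF ZZ)
    (fun ρ l t => cc_aff P hBL hC hE hΛ0 ρ l t)
    (fun ρ => cc_shift P hBL hC hE hΛ0 hbC hb ρ)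
    ⟨fun l => -((l : ℕ) : ℤ) - 1, fun σ => cc_stair P hBL hC hE σ _ (fun l => rfl) hL⟩
    (fun τ _ ρ hρ => core_ineq P hBL hC hE ρ hΛ0 hN hbC hb hρ)
  change ENNReal.ofReal _ * LX Λ W X ≤ _
  rw [← ENNReal.ofReal_toReal hL, ← ENNReal.ofReal_toReal (a := LX Λ W X) hΛ0]
  rcases le_or_gt 0 ((b 0 : ℝ) * (N : ℝ) ^ (n + 1) - K * (N : ℝ) ^ n) with h1 | h1
  · rw [← ENNReal.ofReal_mul h1]
    exact ENNReal.ofReal_le_ofReal key
  · rw [ENNReal.ofReal_of_nonpos h1.le, zero_mul]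
    exact zero_le

end Crest.Agent.R183.KT
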