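import Mathlib

-- ▼ part R183/Res1
section

/-!
# R183 (Lech), block [4]: null filters, matrix complexes, null-tolerant homological algebra
-/

set_option autoImplicit false

namespace Crest.Agent.R183.Res

universe u v w

/-- The ideal `(B : m)`. -/
def col {A : Type u} [CommRing A] {M : Type v} [AddCommGroup M] [Module A M]
    (B : Submodule A M) (m : M) : Ideal A :=
  B.comap (LinearMap.toSpanSingleton A M m)

@[simp] theorem mem_col {A : Type u} [CommRing A] {M : Type v} [AddCommGroup M] [Module A M]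
    (B : Submodule A M) (m : M) (a : A) : a ∈ col B m ↔ a • m ∈ B := Iff.rfl

/-- A null filter (Gabriel topology) on the ideals of `A`. -/
structure NullF (A : Type u) [CommRing A] where
  F : Ideal A → Prop
  top : F ⊤
  mono : ∀ {I J : Ideal A}, I ≤ J → F I → F J
  inf : ∀ {I J : Ideal A}, F I → F J → F (I ⊓ J)
  colon : ∀ {I : Ideal A} (x : A), F I → F (col I x)
  trans : ∀ {I J : Ideal A}, F J → (∀ x ∈ J, F (col I x)) → F I

namespace NullF

variable {A : Type u} [CommRing A] (N : NullF A)
variable {M : Type v} [AddCommGroup M] [Module A M]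
variable {M' : Type w} [AddCommGroup M'] [Module A M']

/-- The trivial null filter: only `⊤`. -/
def triv (A : Type u) [CommRing A] : NullF A where
  F I := I = ⊤
  top := rfl
  mono := by
    intro I J h hI
    rw [hI] at h
    exact top_le_iff.mp h
  inf := by
    intro I J hI hJ
    rw [hI, hJ]; simp
  colon := by
    intro I x hI
    rw [hI]
    rw [Ideal.eq_top_iff_one]
    simp
  trans := by
    intro I J hJ h
    have := h 1 (by rw [hJ]; trivial)
    rw [Ideal.eq_top_iff_one, mem_col] at this
    rw [Ideal.eq_top_iff_one]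
    simpa using this

theorem mul {I J : Ideal A} (hI : N.F I) (hJ : N.F J) : N.F (I * J) := by
  refine N.trans hI ?_
  intro x hx
  refine N.mono ?_ hJ
  intro a ha
  rw [mem_col, smul_eq_mul, mul_comm a x]
  exact Ideal.mul_mem_mul hx ha

/-- Null saturation of a submodule. -/
def sat (B : Submodule A M) : Submodule A M where
  carrier := {m | N.F (col B m)}
  zero_mem' := by
    refine N.mono ?_ N.top
    intro a _
    simp
  add_mem' := by
    intro m m' hm hm'
    refine N.mono ?_ (N.inf hm hm')
    intro a ha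
    rw [mem_col, smul_add]
    exact B.add_mem ha.1 ha.2
  smul_mem' := by
    intro r m hm
    refine N.mono ?_ (N.colon r hm)
    intro a ha
    rw [mem_col, smul_smul]
    rw [mem_col, mem_col, smul_eq_mul] at ha
    exact ha

theorem mem_sat {B : Submodule A M} {m : M} : m ∈ N.sat B ↔ N.F (col B m) := Iff.rfl

theorem le_sat (B : Submodule A M) : B ≤ N.sat B := by
  intro m hm
  refine N.mono ?_ N.top
  intro a _
  exact B.smul_mem a hm

theorem sat_mono {B C : Submodule A M} (h : B ≤ C) : N.sat B ≤ N.sat C := by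
  intro m hm
  refine N.mono ?_ hm
  intro a ha
  exact h ha

/-- Key step: if `F J` and `J • m ⊆ sat B` then `m ∈ sat B`. -/
theorem mem_sat_of {B : Submodule A M} {m : M} {J : Ideal A} (hJ : N.F J)
    (h : ∀ a ∈ J, a • m ∈ N.sat B) : m ∈ N.sat B := by
  refine N.trans hJ ?_
  intro x hx
  refine N.mono ?_ (h x hx)
  intro a ha
  rw [mem_col, mem_col, smul_eq_mul, mul_smul]
  exact ha



theorem map_sat (f : M →ₗ[A] M') {B : Submodule A M} {B' : Submodule A M'}
    (h : ∀ x ∈ B, f x ∈ B') {m : M} (hm : m ∈ N.sat B) : f m ∈ N.sat B' := by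
  refine N.mono ?_ hm
  intro a ha
  rw [mem_col, ← map_smul]
  exact h _ ha

theorem comap_sat (f : M →ₗ[A] M') {B : Submodule A M} {B' : Submodule A M'}
    (h : ∀ x, f x ∈ B' → x ∈ B) {m : M} (hm : f m ∈ N.sat B') : m ∈ N.sat B := by
  refine N.mono ?_ hm
  intro a ha
  rw [mem_col, ← map_smul] at ha
  exact h _ ha

theorem pi_mem {ι : Type*} [Finite ι] {v : ι → M} (h : ∀ i, v i ∈ N.sat (⊥ : Submodule A M)) :
    v ∈ N.sat (⊥ : Submodule A (ι → M)) := by
  have key : ∀ (s : Set ι), s.Finite → N.F (⨅ i ∈ s, col (⊥ : Submodule A M) (v i)) := by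
    intro s hs
    induction s, hs using Set.Finite.induction_on with
    | empty => simpa using N.top
    | insert _ _ ih =>
      rw [iInf_insert]
      exact N.inf (h _) ih
  have h1 := key Set.univ Set.finite_univ
  refine N.mono ?_ h1
  intro a ha
  rw [mem_col, Submodule.mem_bot]
  funext i
  simp only [Submodule.mem_iInf] at ha
  have := ha i (Set.mem_univ i)
  rw [mem_col, Submodule.mem_bot] at this
  simpa using this

end NullF

/-! ## Matrices acting on `ι → M` -/

section Act

variable {A : Type u} [CommRing A]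
variable {M : Type v} [AddCommGroup M] [Module A M]
variable {M' : Type w} [AddCommGroup M'] [Module A M']
variable {ι κ μ : Type} [Fintype κ] [Fintype μ]

/-- A matrix acts on vectors with entries in any module. -/
def act (M : Type v) [AddCommGroup M] [Module A M] (D : Matrix ι κ A) :
    (κ → M) →ₗ[A] (ι → M) where
  toFun v := fun a => ∑ b, D a b • v b
  map_add' := by
    intro v w
    funext a
    simp [Finset.sum_add_distrib, smul_add]
  map_smul' := by
    intro r v
    funext a
    simp [Finset.smul_sum, smul_smul, mul_comm]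

theorem act_apply (D : Matrix ι κ A) (v : κ → M) (a : ι) : act M D v a = ∑ b, D a b • v b := rfl

theorem act_mul (D : Matrix ι κ A) (E : Matrix κ μ A) (v : μ → M) :
    act M (D * E) v = act M D (act M E v) := by
  funext a
  simp only [act_apply, Matrix.mul_apply, Finset.sum_smul, Finset.smul_sum, smul_smul]
  rw [Finset.sum_comm]

theorem act_zero (v : κ → M) : act M (0 : Matrix ι κ A) v = 0 := by
  funext a
  simp [act_apply]

theorem act_add (D E : Matrix ι κ A) (v : κ → M) : act M (D + E) v = act M D v + act M E v := by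
  funext a
  simp [act_apply, add_smul, Finset.sum_add_distrib]

theorem act_neg (D : Matrix ι κ A) (v : κ → M) : act M (-D) v = - act M D v := by
  funext a
  simp [act_apply, neg_smul]

theorem act_smul_one [Fintype ι] [DecidableEq ι] (x : A) (v : ι → M) : act M (x • (1 : Matrix ι ι A)) v = x • v := by
  funext a
  simp [act_apply, Matrix.one_apply, ite_smul]

/-- Post-composition with a linear map. -/
def post (κ : Type) (f : M →ₗ[A] M') : (κ → M) →ₗ[A] (κ → M') where
  toFun v := fun a => f (v a)
  map_add' := by intro v w; funext a; simp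
  map_smul' := by intro r v; funext a; simp

@[simp] theorem post_apply (κ : Type) (f : M →ₗ[A] M') (v : κ → M) (a : κ) :
    post κ f v a = f (v a) := rfl

theorem act_post (f : M →ₗ[A] M') (D : Matrix ι κ A) (v : κ → M) :
    act M' D (post κ f v) = post ι f (act M D v) := by
  funext a
  simp [act_apply]

theorem post_injective (κ : Type) {f : M →ₗ[A] M'} (hf : Function.Injective f) :
    Function.Injective (post κ f) := by
  intro v w h
  funext a
  exact hf (congrFun h a)

theorem post_surjective (κ : Type) {f : M →ₗ[A] M'} (hf : Function.Surjective f) :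
    Function.Surjective (post κ f) := by
  intro v
  choose g hg using hf
  exact ⟨fun a => g (v a), funext fun a => by simp [hg]⟩

end Act

/-! ## Complexes -/

section Cplx

variable {A : Type u} [CommRing A]

/-- Cycles in degree `n`. -/
def cyc {X : ℕ → Type v} [∀ n, AddCommGroup (X n)] [∀ n, Module A (X n)]
    (d : ∀ n, X (n + 1) →ₗ[A] X n) : ∀ n, Submodule A (X n)
  | 0 => ⊤
  | (n + 1) => LinearMap.ker (d n)

/-- Boundaries in degree `n`. -/
def bdy {X : ℕ → Type v} [∀ n, AddCommGroup (X n)] [∀ n, Module A (X n)]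
    (d : ∀ n, X (n + 1) →ₗ[A] X n) (n : ℕ) : Submodule A (X n) := LinearMap.range (d n)

/-- The homology in degree `n` is null. -/
def NullAt (N : NullF A) {X : ℕ → Type v} [∀ n, AddCommGroup (X n)] [∀ n, Module A (X n)]
    (d : ∀ n, X (n + 1) →ₗ[A] X n) (n : ℕ) : Prop :=
  cyc d n ≤ N.sat (bdy d n)

/-- A complex of finite free modules given by matrices. -/
structure MCx (A : Type u) [CommRing A] where
  ι : ℕ → Type
  fin : ∀ n, Fintype (ι n)
  dec : ∀ n, DecidableEq (ι n)
  d : ∀ n, Matrix (ι n) (ι (n + 1)) A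
  dd : ∀ n, d n * d (n + 1) = 0

attribute [instance] MCx.fin MCx.dec

/-- The differential of `C ⊗ M`. -/
def MCx.dM (C : MCx A) (M : Type v) [AddCommGroup M] [Module A M] (n : ℕ) :
    (C.ι (n + 1) → M) →ₗ[A] (C.ι n → M) := act M (C.d n)

/-- Cycles of `C ⊗ M`. -/
def MCx.cycM (C : MCx A) (M : Type v) [AddCommGroup M] [Module A M] (n : ℕ) :
    Submodule A (C.ι n → M) := cyc (X := fun n => C.ι n → M) (C.dM M) n

/-- Boundaries of `C ⊗ M`. -/
def MCx.bdyM (C : MCx A) (M : Type v) [AddCommGroup M] [Module A M] (n : ℕ) :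
    Submodule A (C.ι n → M) := bdy (X := fun n => C.ι n → M) (C.dM M) n

/-- `H_n(C ⊗ M)` is null. -/
def MCx.NullM (N : NullF A) (C : MCx A) (M : Type v) [AddCommGroup M] [Module A M] (n : ℕ) :
    Prop := C.cycM M n ≤ N.sat (C.bdyM M n)

variable (N : NullF A) (C : MCx A)
variable {M : Type v} [AddCommGroup M] [Module A M]
variable {M' : Type w} [AddCommGroup M'] [Module A M']
variable {M'' : Type*} [AddCommGroup M''] [Module A M'']

theorem MCx.dM_dM (n : ℕ) (v : C.ι (n + 2) → M) : C.dM M n (C.dM M (n + 1) v) = 0 := by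
  show act M (C.d n) (act M (C.d (n + 1)) v) = 0
  rw [← act_mul, C.dd, act_zero]

theorem MCx.dM_post (f : M →ₗ[A] M') (n : ℕ) (v : C.ι (n + 1) → M) :
    C.dM M' n (post _ f v) = post _ f (C.dM M n v) := act_post f _ v

theorem MCx.post_cyc (f : M →ₗ[A] M') (n : ℕ) {v : C.ι n → M} (hv : v ∈ C.cycM M n) :
    post _ f v ∈ C.cycM M' n := by
  cases n with
  | zero => trivial
  | succ k =>
    show C.dM M' k _ = 0
    rw [MCx.dM_post]
    have : C.dM M k v = 0 := hv
    rw [this, map_zero]

theorem MCx.post_bdy (f : M →ₗ[A] M') (n : ℕ) {v : C.ι n → M} (hv : v ∈ C.bdyM M n) :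
    post _ f v ∈ C.bdyM M' n := by
  obtain ⟨w, rfl⟩ := hv
  exact ⟨post _ f w, MCx.dM_post C f n w⟩

/-- `H_{i+1}(M'')` is null if `H_{i+1}(M)` is null and `H_i(M') → H_i(M)` is injective up to null. -/
theorem MCx.null_of_quot' {f : M' →ₗ[A] M} {g : M →ₗ[A] M''} (hf : Function.Injective f)
    (hg : Function.Surjective g) (hfg : Function.Exact f g) (i : ℕ)
    (hM : C.NullM N M (i + 1))
    (hM' : ∀ w ∈ C.cycM M' i, post _ f w ∈ C.bdyM M i → w ∈ N.sat (C.bdyM M' i)) :
    C.NullM N M'' (i + 1) := by
  intro v hv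
  obtain ⟨u, rfl⟩ := post_surjective _ hg v
  have hv' : C.dM M'' i (post _ g u) = 0 := hv
  rw [MCx.dM_post] at hv'
  -- `d u` lies in the image of `M'`
  have h1 : ∀ a, ∃ w, f w = C.dM M i u a := by
    intro a
    have := congrFun hv' a
    rw [post_apply] at this
    exact (hfg _).mp this
  choose w hw using h1
  have hw' : post _ f w = C.dM M i u := funext hw
  have hwc : w ∈ C.cycM M' i := by
    cases i with
    | zero => trivial
    | succ k =>
      show C.dM M' k w = 0
      apply post_injective _ hf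
      rw [← MCx.dM_post, hw', MCx.dM_dM, map_zero]
  have hws := hM' w hwc ⟨u, hw'.symm⟩
  refine N.mem_sat_of hws ?_
  intro a ha
  obtain ⟨w1, hw1⟩ := ha
  have hw1' : C.dM M' i w1 = a • w := hw1
  have hc : a • u - post _ f w1 ∈ C.cycM M (i + 1) := by
    show C.dM M i _ = 0
    rw [map_sub, map_smul, MCx.dM_post, hw1', map_smul, hw', sub_self]
  have h2 := hM hc
  have h3 := N.map_sat (post _ g) (fun x hx => MCx.post_bdy C g (i + 1) hx) h2
  rw [map_sub, map_smul] at h3
  have h4 : post _ g (post _ f w1) = 0 := by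
    funext b
    simp only [post_apply]
    exact (hfg _).mpr ⟨_, rfl⟩
  rw [h4, sub_zero] at h3
  exact h3

/-- `H_{i+1}(M'')` is null if `H_{i+1}(M)` and `H_i(M')` are null. -/
theorem MCx.null_of_quot {f : M' →ₗ[A] M} {g : M →ₗ[A] M''} (hf : Function.Injective f)
    (hg : Function.Surjective g) (hfg : Function.Exact f g) (i : ℕ)
    (hM : C.NullM N M (i + 1)) (hM' : C.NullM N M' i) :
    C.NullM N M'' (i + 1) :=
  MCx.null_of_quot' N C hf hg hfg i hM (fun _ hw _ => hM' hw)

/-- Half exactness. -/
theorem MCx.null_of_ext {f : M' →ₗ[A] M} {g : M →ₗ[A] M''} (hf : Function.Injective f)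
    (hg : Function.Surjective g) (hfg : Function.Exact f g) (i : ℕ)
    (hM' : C.NullM N M' i) (hM'' : C.NullM N M'' i) :
    C.NullM N M i := by
  intro v hv
  have h1 := hM'' (MCx.post_cyc C g i hv)
  refine N.mem_sat_of h1 ?_
  intro a ha
  obtain ⟨w'', hw''⟩ := ha
  obtain ⟨w, rfl⟩ := post_surjective _ hg w''
  rw [MCx.dM_post] at hw''
  have h2 : ∀ b, ∃ z, f z = (a • v - C.dM M i w) b := by
    intro b
    apply (hfg _).mp
    have := congrFun hw'' b
    rw [post_apply] at this
    rw [Pi.sub_apply, map_sub, this]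
    show g ((a • v) b) - (a • post _ g v) b = 0
    simp
  choose z hz using h2
  have hz' : post _ f z = a • v - C.dM M i w := funext hz
  have hzc : z ∈ C.cycM M' i := by
    cases i with
    | zero => trivial
    | succ k =>
      show C.dM M' k z = 0
      apply post_injective _ hf
      rw [← MCx.dM_post, hz', map_sub, map_smul, MCx.dM_dM, map_zero]
      have : C.dM M k v = 0 := hv
      rw [this]; simp
  have h3 := N.map_sat (post _ f) (fun x hx => MCx.post_bdy C f i hx) (hM' hzc)
  rw [hz'] at h3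
  have h4 : C.dM M i w ∈ N.sat (C.bdyM M i) := N.le_sat _ ⟨w, rfl⟩
  have := Submodule.add_mem _ h3 h4
  rwa [sub_add_cancel] at this

/-- Left exactness in the top degree. -/
theorem MCx.null_top {f : M' →ₗ[A] M} (hf : Function.Injective f) (i : ℕ)
    (hemp : IsEmpty (C.ι (i + 1))) (hM : C.NullM N M i) : C.NullM N M' i := by
  intro v hv
  have h1 := hM (MCx.post_cyc C f i hv)
  refine N.comap_sat (post _ f) ?_ h1
  intro x hx
  obtain ⟨w, hw⟩ := hx
  have h0 : w = 0 := funext fun a => (hemp.false a).elim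
  rw [h0, map_zero] at hw
  have : x = 0 := post_injective _ hf (by rw [← hw, map_zero])
  rw [this]
  exact Submodule.zero_mem _

theorem MCx.null_of_null (h : ∀ m : M, m ∈ N.sat (⊥ : Submodule A M)) (i : ℕ) :
    C.NullM N M i := by
  intro v _
  refine N.sat_mono bot_le (N.pi_mem (fun i => h _))

end Cplx

end Crest.Agent.R183.Res
end

-- ▼ part R183/Res2

/-!
# R183 (Lech), block [4]: cones, Koszul complexes, null-homotopies
-/

set_option autoImplicit false

namespace Crest.Agent.R183.Res

universe u v w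

section Cone

variable {A : Type u} [CommRing A]

/-- Index types of the cone. -/
def coneι (ι : ℕ → Type) : ℕ → Type
  | 0 => ι 0
  | (n + 1) => ι (n + 1) ⊕ ι n

instance coneFin (ι : ℕ → Type) [h : ∀ n, Fintype (ι n)] : ∀ n, Fintype (coneι ι n)
  | 0 => h 0
  | (n + 1) => inferInstanceAs (Fintype (ι (n + 1) ⊕ ι n))

instance coneDec (ι : ℕ → Type) [h : ∀ n, DecidableEq (ι n)] : ∀ n, DecidableEq (coneι ι n)
  | 0 => h 0
  | (n + 1) => inferInstanceAs (DecidableEq (ι (n + 1) ⊕ ι n))

/-- Differentials of the cone. -/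
def coned (C : MCx A) (x : A) : ∀ n, Matrix (coneι C.ι n) (coneι C.ι (n + 1)) A
  | 0 => Matrix.fromCols (C.d 0) (x • (1 : Matrix (C.ι 0) (C.ι 0) A))
  | (n + 1) => Matrix.fromBlocks (C.d (n + 1)) (x • (1 : Matrix (C.ι (n + 1)) (C.ι (n + 1)) A)) 0
      (- C.d n)

/-- The cone of multiplication by `x` on `C`, i.e. `C ⊗ K(x)`. -/
def MCx.cone (C : MCx A) (x : A) : MCx A where
  ι := coneι C.ι
  fin := fun n => coneFin C.ι n
  dec := fun n => coneDec C.ι n
  d := coned C x
  dd := by
    intro n
    cases n with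
    | zero =>
      show Matrix.fromCols (C.d 0) (x • (1 : Matrix (C.ι 0) (C.ι 0) A)) *
        (Matrix.fromBlocks (C.d 1) (x • (1 : Matrix (C.ι 1) (C.ι 1) A)) 0 (- C.d 0) :
          Matrix (C.ι 1 ⊕ C.ι 0) (C.ι 2 ⊕ C.ι 1) A) = 0
      rw [Matrix.fromCols_mul_fromBlocks]
      simp [C.dd 0]
    | succ k =>
      show (Matrix.fromBlocks (C.d (k + 1)) (x • (1 : Matrix (C.ι (k + 1)) (C.ι (k + 1)) A)) 0
        (- C.d k) : Matrix (C.ι (k + 1) ⊕ C.ι k) (C.ι (k + 2) ⊕ C.ι (k + 1)) A) *
        (Matrix.fromBlocks (C.d (k + 2)) (x • (1 : Matrix (C.ι (k + 2)) (C.ι (k + 2)) A)) 0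
        (- C.d (k + 1)) : Matrix (C.ι (k + 2) ⊕ C.ι (k + 1)) (C.ι (k + 3) ⊕ C.ι (k + 2)) A) = 0
      rw [Matrix.fromBlocks_multiply]
      simp [C.dd]

@[simp] theorem MCx.cone_d_zero (C : MCx A) (x : A) : (C.cone x).d 0 =
    Matrix.fromCols (C.d 0) (x • (1 : Matrix (C.ι 0) (C.ι 0) A)) := rfl

@[simp] theorem MCx.cone_d_succ (C : MCx A) (x : A) (n : ℕ) : (C.cone x).d (n + 1) =
    Matrix.fromBlocks (C.d (n + 1)) (x • (1 : Matrix (C.ι (n + 1)) (C.ι (n + 1)) A)) 0
      (- C.d n) := rfl

/-- All the entries of the differentials lie in `I`. -/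
def MCx.EntriesIn (C : MCx A) (I : Ideal A) : Prop := ∀ n a b, C.d n a b ∈ I

/-- `C` lives in degrees `≤ D`. -/
def MCx.Len (C : MCx A) (D : ℕ) : Prop := ∀ n, D < n → IsEmpty (C.ι n)

theorem MCx.EntriesIn.cone {C : MCx A} {I : Ideal A} (h : C.EntriesIn I) {x : A} (hx : x ∈ I) :
    (C.cone x).EntriesIn I := by
  have h1 : ∀ (n : ℕ) (a b : C.ι n), (x • (1 : Matrix (C.ι n) (C.ι n) A)) a b ∈ I := by
    intro n a b
    rw [Matrix.smul_apply, smul_eq_mul]
    exact I.mul_mem_right _ hx
  intro n
  cases n with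
  | zero =>
    intro a b
    rw [MCx.cone_d_zero]
    rcases b with b | b
    · exact h 0 a b
    · exact h1 0 a b
  | succ k =>
    intro a b
    rw [MCx.cone_d_succ]
    rcases a with a | a <;> rcases b with b | b
    · exact h (k + 1) a b
    · exact h1 (k + 1) a b
    · exact I.zero_mem
    · show - (C.d k a b) ∈ I
      exact I.neg_mem (h k a b)

theorem MCx.Len.cone {C : MCx A} {D : ℕ} (h : C.Len D) (x : A) : (C.cone x).Len (D + 1) := by
  intro n hn
  cases n with
  | zero => omega
  | succ k =>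
    have h1 := h (k + 1) (by omega)
    have h2 := h k (by omega)
    show IsEmpty (C.ι (k + 1) ⊕ C.ι k)
    exact isEmpty_sum.mpr ⟨h1, h2⟩

/-- The complex `A` in degree zero. -/
def MCx.one (A : Type u) [CommRing A] : MCx A where
  ι := fun n => match n with
    | 0 => Unit
    | (_ + 1) => Empty
  fin := fun n => match n with
    | 0 => inferInstanceAs (Fintype Unit)
    | (_ + 1) => inferInstanceAs (Fintype Empty)
  dec := fun n => match n with
    | 0 => inferInstanceAs (DecidableEq Unit)
    | (_ + 1) => inferInstanceAs (DecidableEq Empty)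
  d := fun n => 0
  dd := by intro n; simp

theorem MCx.one_entries (I : Ideal A) : (MCx.one A).EntriesIn I := by
  intro n a b
  exact I.zero_mem

theorem MCx.one_len : (MCx.one A).Len 0 := by
  intro n hn
  cases n with
  | zero => omega
  | succ k => exact inferInstanceAs (IsEmpty Empty)

/-- Iterated cone. -/
def MCx.cones (C : MCx A) : List A → MCx A
  | [] => C
  | (x :: l) => (C.cones l).cone x

/-- The Koszul complex. -/
def kos (l : List A) : MCx A := (MCx.one A).cones l

theorem MCx.EntriesIn.cones {C : MCx A} {I : Ideal A} (h : C.EntriesIn I) :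
    ∀ (l : List A), (∀ x ∈ l, x ∈ I) → (C.cones l).EntriesIn I
  | [], _ => h
  | (x :: l), hl => (MCx.EntriesIn.cones h l (fun y hy => hl y (List.mem_cons_of_mem _ hy))).cone
      (hl x List.mem_cons_self)

theorem MCx.Len.cones {C : MCx A} {D : ℕ} (h : C.Len D) :
    ∀ (l : List A), (C.cones l).Len (D + l.length)
  | [] => h
  | (x :: l) => by
    have := (MCx.Len.cones h l).cone x
    exact this

theorem MCx.cones_top_nonempty (C : MCx A) {D : ℕ} (h : Nonempty (C.ι D)) :
    ∀ (l : List A), Nonempty ((C.cones l).ι (D + l.length))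
  | [] => h
  | (x :: l) => by
    have h1 := MCx.cones_top_nonempty C h l
    show Nonempty ((C.cones l).ι (D + l.length + 1) ⊕ (C.cones l).ι (D + l.length))
    exact ⟨Sum.inr h1.some⟩

theorem kos_len (l : List A) : (kos l).Len l.length := by
  have := (MCx.one_len (A := A)).cones l
  rwa [Nat.zero_add] at this

theorem kos_top (l : List A) : Nonempty ((kos l).ι l.length) := by
  have := MCx.cones_top_nonempty (MCx.one A) (D := 0) ⟨()⟩ l
  rwa [Nat.zero_add] at this

theorem kos_entries (l : List A) : (kos l).EntriesIn (Ideal.span {x | x ∈ l}) :=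
  (MCx.one_entries _).cones l (fun _ hx => Ideal.subset_span hx)

theorem kos_top_null (N : NullF A) {M : Type v} [AddCommGroup M] [Module A M] (l : List A)
    (h : (kos l).NullM N M l.length) (hl : ∀ x ∈ l, ∀ m : M, x • m = 0) (m : M) :
    m ∈ N.sat (⊥ : Submodule A M) := by
  have h0 : ∀ a ∈ Ideal.span {x | x ∈ l}, ∀ m : M, a • m = 0 := by
    intro a ha
    have : Ideal.span {x | x ∈ l} ≤ Module.annihilator A M := by
      rw [Ideal.span_le]
      intro x hx
      exact Module.mem_annihilator.mpr (hl x hx)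
    exact Module.mem_annihilator.mp (this ha)
  have hd : ∀ n (v : (kos l).ι (n + 1) → M), (kos l).dM M n v = 0 := by
    intro n v
    funext a
    show ∑ b, (kos l).d n a b • v b = 0
    exact Finset.sum_eq_zero (fun b _ => h0 _ (kos_entries l n a b) _)
  have hc : (fun _ => m : (kos l).ι l.length → M) ∈ (kos l).cycM M l.length := by
    have : ∀ n, ∀ v : (kos l).ι n → M, v ∈ (kos l).cycM M n := by
      intro n
      cases n with
      | zero => intro v; trivial
      | succ k => intro v; exact hd k v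
    exact this _ _
  have h1 := h hc
  refine N.mono ?_ h1
  intro a ha
  obtain ⟨w, hw⟩ := ha
  have h2 : (kos l).dM M l.length w = a • (fun _ => m : (kos l).ι l.length → M) := hw
  rw [hd] at h2
  have h3 := congrFun h2 (kos_top l).some
  rw [mem_col, Submodule.mem_bot]
  exact h3.symm

end Cone

/-! ## The null-tolerant acyclicity lemma -/

section Acyclic

variable {A : Type u} [CommRing A] (N : NullF A)

theorem acyclic_step (l : List A)
    {Q : Type v} [AddCommGroup Q] [Module A Q] (B Z : Submodule A Q) (hBZ : B ≤ Z)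
    (hl : 1 ≤ l.length)
    (hQ : (kos l).NullM N Q l.length)
    (hB : ∀ j, l.length ≤ j + 1 → (kos l).NullM N B j)
    (hkill : ∀ x ∈ l, ∀ v ∈ Z, x • v ∈ B) :
    Z ≤ N.sat B ∧ ∀ j, (kos l).NullM N B j → (kos l).NullM N Z j := by
  obtain ⟨i, hi⟩ : ∃ i, l.length = i + 1 := ⟨l.length - 1, by omega⟩
  set f := Submodule.inclusion hBZ with hf
  have hfi : Function.Injective f := Submodule.inclusion_injective hBZ
  let g : Z →ₗ[A] (Z ⧸ LinearMap.range f) := (LinearMap.range f).mkQ
  have hg : Function.Surjective g := Submodule.mkQ_surjective _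
  have hfg : Function.Exact f g := by
    intro y
    show (LinearMap.range f).mkQ y = 0 ↔ _
    rw [Submodule.mkQ_apply, Submodule.Quotient.mk_eq_zero]
    rfl
  have hZ : (kos l).NullM N Z l.length := by
    refine MCx.null_top N (kos l) (f := Z.subtype) Z.injective_subtype _ ?_ hQ
    exact kos_len l _ (Nat.lt_succ_self _)
  have hH : (kos l).NullM N (Z ⧸ LinearMap.range f) l.length := by
    rw [hi] at hZ ⊢
    exact MCx.null_of_quot N (kos l) hfi hg hfg i hZ (hB i (by omega))
  have hkillH : ∀ x ∈ l, ∀ m : (Z ⧸ LinearMap.range f), x • m = 0 := by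
    intro x hx m
    obtain ⟨z, rfl⟩ := hg m
    rw [← map_smul]
    apply (hfg _).mpr
    exact ⟨⟨x • z.1, hkill x hx z.1 z.2⟩, Subtype.ext rfl⟩
  have hnull := kos_top_null N l hH hkillH
  constructor
  · intro v hv
    have := hnull (g ⟨v, hv⟩)
    refine N.mono ?_ this
    intro a ha
    rw [mem_col, Submodule.mem_bot, ← map_smul] at ha
    obtain ⟨b, hb⟩ := (hfg _).mp ha
    rw [mem_col]
    have h2 : (b : Q) = a • v := congrArg Subtype.val hb
    rw [← h2]
    exact b.2
  · intro j hj
    exact MCx.null_of_ext N (kos l) hfi hg hfg j hj (MCx.null_of_null N (kos l) hnull j)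

/-- **Null-tolerant acyclicity lemma.** -/
theorem acyclic (l : List A) {X : ℕ → Type v} [∀ n, AddCommGroup (X n)] [∀ n, Module A (X n)]
    (d : ∀ n, X (n + 1) →ₗ[A] X n) (hd : ∀ n x, d n (d (n + 1) x) = 0)
    (hlen : ∀ n, l.length < n → Subsingleton (X n))
    (hX : ∀ n j, 1 ≤ j → (kos l).NullM N (X n) j)
    (hkill : ∀ n, 1 ≤ n → ∀ x ∈ l, ∀ v ∈ cyc d n, x • v ∈ bdy d n) :
    ∀ n, 1 ≤ n → NullAt N d n := by
  have hBZ : ∀ n, bdy d n ≤ cyc d n := by
    intro n
    cases n with
    | zero => exact le_top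
    | succ k =>
      rintro _ ⟨w, rfl⟩
      exact hd k w
  -- the step
  have step : ∀ k, k + 1 ≤ l.length → (∀ j, l.length ≤ j + (k + 1) → (kos l).NullM N (bdy d (k + 1)) j) →
      NullAt N d (k + 1) ∧ ∀ j, l.length ≤ j + k → (kos l).NullM N (bdy d k) j := by
    intro k hk hS
    obtain ⟨h1, h2⟩ := acyclic_step N l (bdy d (k + 1)) (cyc d (k + 1)) (hBZ _) (by omega)
      (hX _ _ (by omega)) (fun j hj => hS j (by omega)) (hkill _ (by omega))
    refine ⟨h1, ?_⟩
    intro j hj
    obtain ⟨i, rfl⟩ : ∃ i, j = i + 1 := ⟨j - 1, by omega⟩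
    have hZ : (kos l).NullM N (LinearMap.ker (d k)) i := h2 i (hS i (by omega))
    refine MCx.null_of_quot N (kos l) (f := (LinearMap.ker (d k)).subtype)
      (g := (d k).rangeRestrict) (Submodule.injective_subtype _)
      (LinearMap.surjective_rangeRestrict _) ?_ i (hX (k + 1) (i + 1) (by omega)) hZ
    intro y
    constructor
    · intro hy
      refine ⟨⟨y, ?_⟩, rfl⟩
      exact congrArg Subtype.val hy
    · rintro ⟨⟨z, hz⟩, rfl⟩
      exact Subtype.ext hz
  have hS : ∀ r k, k + r = l.length → ∀ j, l.length ≤ j + k → (kos l).NullM N (bdy d k) j := by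
    intro r
    induction r with
    | zero =>
      intro k hk j _
      have hsub : Subsingleton (X (k + 1)) := hlen _ (by omega)
      refine MCx.null_of_null N (kos l) ?_ j
      intro m
      have : m = 0 := by
        obtain ⟨m, w, hw⟩ := m
        apply Subtype.ext
        show m = 0
        rw [← hw, Subsingleton.elim w 0, map_zero]
      rw [this]
      exact Submodule.zero_mem _
    | succ r ih =>
      intro k hk
      exact (step k (by omega) (ih (k + 1) (by omega))).2
  intro n hn
  rcases Nat.lt_or_ge l.length n with h | h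
  · have := hlen n h
    intro v _
    rw [Subsingleton.elim v 0]
    exact Submodule.zero_mem _
  · obtain ⟨k, rfl⟩ : ∃ k, n = k + 1 := ⟨n - 1, by omega⟩
    exact (step k h (hS (l.length - (k + 1)) (k + 1) (by omega))).1

end Acyclic

end Crest.Agent.R183.Res
private theorem rz_37a0f4cee7 : type_of% @_root_.Crest.Agent.R183.Res.MCx.cones.eq_def := @_root_.Crest.Agent.R183.Res.MCx.cones.eq_def -- L131
private theorem rz_2c49507f1e : type_of% @_root_.Crest.Agent.R183.Res.MCx.cones.eq_1 := @_root_.Crest.Agent.R183.Res.MCx.cones.eq_1 -- L131
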