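import Mathlib
import Crest.Agent.R183.KT4
import Crest.Agent.R183.CoreMain
import Crest.Agent.R183.KPkg
import Crest.Agent.R183.Res2

-- ▼ part R183/KT5
section

set_option autoImplicit false

namespace Crest.Agent.R183.KT

open scoped ENNReal Nat
open KF KHom Res

universe u

/-- the existence of the Čech packages. -/
def PkgHyp : Prop := ∀ (n : ℕ) (A : Type u) [CommRing A] (Λ : AddLen.{u, u} A) (W : Type u)
  [AddCommGroup W] [Module A W] (X : Fin (n + 1) → A),
  ((kos (List.ofFn X)).cycM W 1 ≤ (kos (List.ofFn X)).bdyM W 1) →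
  ∃ (V : Type u) (_ : AddCommGroup V) (_ : Module A V) (δ : V →ₗ[A] V)
    (FF : (Fin n → ℤ) → ℤ → ℤ → Submodule A V) (ZZ : (Fin n → ℤ) → ℤ → Submodule A V),
    Pkg Λ W X V δ FF ZZ

/-- **Theorem K.** -/
theorem kHyp_of_pkg (H : PkgHyp.{u}) (D : ℕ) (β : ℕ → ℕ) (hD : 0 < D) : Core.KHyp.{u} D β := by
  obtain ⟨n, rfl⟩ : ∃ n, D = n + 1 := ⟨D - 1, by omega⟩
  by_cases hb : ∑ i ∈ Finset.range (n + 1 + 1), (-1 : ℤ) ^ i * β i = 0
  · obtain ⟨K, hK0, hK⟩ := theoremK.{u, u} n β hb
    refine ⟨K, hK0, ?_⟩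
    intro C _ Λ X _ _ Y N Q hN hQ hlen _ hY hE hh hL
    obtain ⟨V, _, _, δ, FF, ZZ, P⟩ := H n C Λ X Y hY
    rw [Nat.add_sub_cancel]
    exact hK C Λ X Y V δ FF ZZ P Q hlen hQ N hN hE hh hL
  · refine ⟨0, le_rfl, ?_⟩
    intro C _ Λ X _ _ Y N Q hN hQ hlen hb' _ _ _ _
    exact absurd (by exact_mod_cast hb') hb

end Crest.Agent.R183.KT
end

-- ▼ part R183/KAct
section

set_option autoImplicit false

namespace Crest.Agent.R183.KF

open Finset

universe u v

section act

variable {A : Type u} [CommRing A] {W : Type v} [AddCommGroup W] [Module A W] {n : ℕ}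

/-- `W`-valued Laurent polynomials. -/
abbrev WL (W : Type v) [AddCommGroup W] (n : ℕ) : Type v := Ex n →₀ W

/-- shift by an exponent. -/
noncomputable def sh (A : Type u) [CommRing A] {W : Type v} [AddCommGroup W] [Module A W] {n : ℕ}
    (e : Ex n) : WL W n →ₗ[A] WL W n := Finsupp.lmapDomain W A (fun x => e + x)

@[simp] lemma sh_single (e x : Ex n) (w : W) :
    sh A e (Finsupp.single x w) = Finsupp.single (e + x) w := by
  simp [sh]

lemma sh_zero : sh A (0 : Ex n) = (LinearMap.id : WL W n →ₗ[A] WL W n) := by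
  apply Finsupp.lhom_ext
  intro x w
  simp

lemma sh_add (e e' : Ex n) : (sh A (e + e') : WL W n →ₗ[A] WL W n) = sh A e ∘ₗ sh A e' := by
  apply Finsupp.lhom_ext
  intro x w
  simp [add_assoc]

variable (A W) in
/-- the shifts as a monoid hom. -/
noncomputable def actHom : Multiplicative (Ex n) →* Module.End A (WL W n) where
  toFun e := sh A e.toAdd
  map_one' := sh_zero
  map_mul' _ _ := sh_add _ _

variable (A W) in
/-- Laurent polynomials with integer coefficients act. -/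
noncomputable def act : LL n →ₐ[ℤ] Module.End A (WL W n) :=
  AddMonoidAlgebra.lift ℤ (Module.End A (WL W n)) (Ex n) (actHom A W)

lemma act_mo (j : Fin n → ℤ) (k : ℤ) : act A W (mo j k) = sh A (j, k) := by
  unfold act mo
  rw [AddMonoidAlgebra.lift_single]
  simp [actHom]

lemma act_mul_apply (f g : LL n) (x : WL W n) : act A W (f * g) x = act A W f (act A W g x) := by
  rw [map_mul]; rfl

lemma act_comm (f g : LL n) (x : WL W n) :
    act A W f (act A W g x) = act A W g (act A W f x) := by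
  rw [← act_mul_apply, mul_comm, act_mul_apply]

lemma act_one_apply (x : WL W n) : act A W (1 : LL n) x = x := by
  rw [map_one]; rfl

lemma act_add_apply (f g : LL n) (x : WL W n) :
    act A W (f + g) x = act A W f x + act A W g x := by
  rw [map_add]; rfl

lemma act_sum_apply {ι : Type*} (s : Finset ι) (f : ι → LL n) (x : WL W n) :
    act A W (∑ i ∈ s, f i) x = ∑ i ∈ s, act A W (f i) x := by
  rw [map_sum, LinearMap.sum_apply]

variable (A W) in
/-- Laurent polynomials supported in `P`. -/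
noncomputable abbrev WS (P : Set (Ex n)) : Submodule A (WL W n) := Finsupp.supported W A P

lemma single_mem {P : Set (Ex n)} {e : Ex n} (he : e ∈ P) (w : W) :
    Finsupp.single e w ∈ WS A W P := Finsupp.single_mem_supported A w he

lemma WS_mono {P P' : Set (Ex n)} (h : P ⊆ P') : WS A W P ≤ WS A W P' :=
  Finsupp.supported_mono h

/-- induction on `WS P`. -/
lemma WS_induction {P : Set (Ex n)} {p : WL W n → Prop} {x : WL W n} (hx : x ∈ WS A W P)
    (h0 : p 0) (hadd : ∀ x y, p x → p y → p (x + y))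
    (hs : ∀ e ∈ P, ∀ w : W, p (Finsupp.single e w)) : p x := by
  classical
  have h1 : ∀ (s : Finset (Ex n)) (f : WL W n), f.support ⊆ s → (∀ e ∈ s, e ∈ P ∨ f e = 0) → p f := by
    intro s
    induction s using Finset.induction_on with
    | empty =>
      intro f hf _
      have : f = 0 := Finsupp.support_eq_empty.1 (Finset.subset_empty.1 hf)
      rw [this]; exact h0
    | insert a s ha ih =>
      intro f hf hP
      have h2 : f = Finsupp.single a (f a) + f.erase a := (Finsupp.single_add_erase a f).symm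
      rw [h2]
      refine hadd _ _ ?_ (ih _ ?_ ?_)
      · rcases hP a (Finset.mem_insert_self _ _) with h | h
        · exact hs a h _
        · rw [h, Finsupp.single_zero]; exact h0
      · intro e he
        rw [Finsupp.support_erase, Finset.mem_erase] at he
        exact (Finset.mem_insert.1 (hf he.2)).resolve_left he.1
      · intro e he
        by_cases hea : e = a
        · right; subst hea; simp
        · rcases hP e (Finset.mem_insert_of_mem he) with h | h
          · exact Or.inl h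
          · right; rw [Finsupp.erase_ne hea]; exact h
  refine h1 x.support x subset_rfl fun e he => Or.inl ?_
  exact hx he

lemma sh_mem {P P' : Set (Ex n)} {e : Ex n} (h : ∀ x ∈ P, e + x ∈ P') {x : WL W n}
    (hx : x ∈ WS A W P) : sh A e x ∈ WS A W P' := by
  refine WS_induction (p := fun x => sh A e x ∈ WS A W P') hx ?_ ?_ ?_
  · rw [map_zero]; exact zero_mem _
  · intro x y h1 h2; rw [map_add]; exact add_mem h1 h2
  · intro y hy w
    rw [sh_single]
    exact single_mem (h y hy) w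

lemma act_mem {Q P P' : Set (Ex n)} (h : ∀ e ∈ Q, ∀ x ∈ P, e + x ∈ P') {g : LL n}
    (hg : g ∈ Sub Q) {x : WL W n} (hx : x ∈ WS A W P) : act A W g x ∈ WS A W P' := by
  rw [Sub_eq_span] at hg
  induction hg using Submodule.span_induction with
  | mem y hy =>
    obtain ⟨e, he, rfl⟩ := hy
    rw [act_mo]
    exact sh_mem (h e he) hx
  | zero => rw [map_zero]; exact zero_mem _
  | add y z _ _ hy hz => rw [act_add_apply]; exact add_mem hy hz
  | smul r y _ hy =>
    rw [map_smul]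
    have : (r • act A W y) x = r • act A W y x := rfl
    rw [this]
    exact zsmul_mem hy r

/-- `θ_i` = multiplication by `τ e_i(u)`. -/
noncomputable def th (A : Type u) [CommRing A] {W : Type v} [AddCommGroup W] [Module A W] {n : ℕ}
    (i : Fin (n + 1)) : WL W n →ₗ[A] WL W n := act A W (xs univ i)

lemma th_comm (g : LL n) (i : Fin (n + 1)) (x : WL W n) :
    act A W g (th A i x) = th A i (act A W g x) := act_comm _ _ _

lemma xs_mem (S : Finset (Fin n)) (i : ℕ) :
    xs S i ∈ Sub {e : Ex n | e.2 = 1 ∧ ∃ B : Finset (Fin n), e.1 = ind B} := by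
  have h := xs_mul_mem (S := S) (P := {0})
    (P' := {e : Ex n | e.2 = 1 ∧ ∃ B : Finset (Fin n), e.1 = ind B}) (i := i) (f := 1) ?_ ?_
  · simpa using h
  · rintro e he B _
    rw [Set.mem_singleton_iff] at he
    subst he
    exact ⟨by simp, B, by simp⟩
  · rw [← mo_zero]
    exact mo_mem rfl

/-- sets of exponents stable under `(j,k) ↦ (1_B + j, k+1)`. -/
lemma th_mem {P P' : Set (Ex n)} (h : ∀ e ∈ P, ∀ B : Finset (Fin n), (ind B + e.1, e.2 + 1) ∈ P')
    (i : Fin (n + 1)) {x : WL W n} (hx : x ∈ WS A W P) : th A i x ∈ WS A W P' := by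
  refine act_mem (Q := {e : Ex n | e.2 = 1 ∧ ∃ B : Finset (Fin n), e.1 = ind B}) ?_
    (xs_mem univ i) hx
  rintro e ⟨he, B, hB⟩ x hx
  have := h x hx B
  have h2 : e + x = (ind B + x.1, x.2 + 1) := by
    refine Prod.ext ?_ ?_
    · simp [hB]
    · simp [he, add_comm]
  rw [h2]; exact this

end act


section rel

variable {A : Type u} [CommRing A] {W : Type v} [AddCommGroup W] [Module A W] {n : ℕ}
variable (X : Fin (n + 1) → A)

/-- the relations `∑ (X_i - θ_i) w_i`, `w_i` supported in `P`. -/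
def RR (W : Type v) [AddCommGroup W] [Module A W] (P : Set (Ex n)) : Submodule A (WL W n) where
  carrier := {x | ∃ w : Fin (n + 1) → WL W n, (∀ i, w i ∈ WS A W P) ∧
    x = ∑ i, (X i • w i - th A i (w i))}
  add_mem' := by
    rintro x y ⟨w, hw, rfl⟩ ⟨w', hw', rfl⟩
    refine ⟨w + w', fun i => add_mem (hw i) (hw' i), ?_⟩
    rw [← Finset.sum_add_distrib]
    refine Finset.sum_congr rfl fun i _ => ?_
    rw [Pi.add_apply, smul_add, map_add]; abel
  zero_mem' := ⟨0, fun i => zero_mem _, by simp⟩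
  smul_mem' := by
    rintro r x ⟨w, hw, rfl⟩
    refine ⟨r • w, fun i => Submodule.smul_mem _ r (hw i), ?_⟩
    rw [Finset.smul_sum]
    refine Finset.sum_congr rfl fun i _ => ?_
    rw [Pi.smul_apply, map_smul, smul_sub, smul_comm]

variable {X}

lemma RR_mono {P P' : Set (Ex n)} (h : P ⊆ P') : RR X W P ≤ RR X W P' := by
  rintro x ⟨w, hw, rfl⟩
  exact ⟨w, fun i => WS_mono h (hw i), rfl⟩

lemma sub_th_mem {P : Set (Ex n)} (i : Fin (n + 1)) {w : WL W n} (hw : w ∈ WS A W P) :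
    X i • w - th A i w ∈ RR X W P := by
  refine ⟨Pi.single i w, fun j => ?_, ?_⟩
  · by_cases h : j = i
    · subst h; simpa using hw
    · rw [Pi.single_eq_of_ne h]; exact zero_mem _
  · rw [Finset.sum_eq_single i]
    · simp
    · intro j _ h; simp [Pi.single_eq_of_ne h]
    · intro h; exact absurd (mem_univ _) h

lemma RR_le {P P' : Set (Ex n)} (hPP : P ⊆ P')
    (h : ∀ e ∈ P, ∀ B : Finset (Fin n), (ind B + e.1, e.2 + 1) ∈ P') : RR X W P ≤ WS A W P' := by
  rintro x ⟨w, hw, rfl⟩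
  exact Submodule.sum_mem _ fun i _ =>
    sub_mem (Submodule.smul_mem _ _ (WS_mono hPP (hw i))) (th_mem h i (hw i))

lemma act_RR {Q P P' : Set (Ex n)} (h : ∀ e ∈ Q, ∀ x ∈ P, e + x ∈ P') {g : LL n}
    (hg : g ∈ Sub Q) {x : WL W n} (hx : x ∈ RR X W P) : act A W g x ∈ RR X W P' := by
  obtain ⟨w, hw, rfl⟩ := hx
  refine ⟨fun i => act A W g (w i), fun i => act_mem h hg (hw i), ?_⟩
  rw [map_sum]
  refine Finset.sum_congr rfl fun i _ => ?_
  rw [map_sub, map_smul, th_comm]

/-- `H_1(X;W) = 0`. -/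
def H1 {A : Type u} [CommRing A] {n : ℕ} (X : Fin (n + 1) → A) (W : Type v) [AddCommGroup W]
    [Module A W] : Prop := ∀ w : Fin (n + 1) → W, ∑ i, X i • w i = 0 →
  ∃ a : Fin (n + 1) → Fin (n + 1) → W, (∀ i j, a i j = - a j i) ∧ (∀ i, a i i = 0) ∧
    ∀ i, w i = ∑ j, X j • a i j

lemma H1.lift (hH : H1 X W) {Q : Set (Ex n)} {w : Fin (n + 1) → WL W n}
    (hw : ∀ i, w i ∈ WS A W Q) (h : ∑ i, X i • w i = 0) :
    ∃ a : Fin (n + 1) → Fin (n + 1) → WL W n, (∀ i j, a i j = - a j i) ∧ (∀ i, a i i = 0) ∧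
      (∀ i j, a i j ∈ WS A W Q) ∧ ∀ i, w i = ∑ j, X j • a i j := by
  classical
  have h1 : ∀ e : Ex n, ∑ i, X i • (w i e) = 0 := by
    intro e
    have := DFunLike.congr_fun h e
    simpa using this
  choose α hα1 hα2 hα3 using fun e => hH (fun i => w i e) (h1 e)
  let s : Finset (Ex n) := Finset.univ.biUnion fun i => (w i).support
  have hs : ∀ e ∉ s, ∀ i, w i e = 0 := by
    intro e he i
    by_contra hne
    exact he (Finset.mem_biUnion.2 ⟨i, mem_univ i, Finsupp.mem_support_iff.2 hne⟩)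
  have hsQ : ∀ e ∈ s, e ∈ Q := by
    intro e he
    obtain ⟨i, _, hi⟩ := Finset.mem_biUnion.1 he
    exact hw i hi
  refine ⟨fun i j => Finsupp.onFinset s (fun e => if e ∈ s then α e i j else 0) (fun e he => ?_),
    fun i j => ?_, fun i => ?_, fun i j => ?_, fun i => ?_⟩
  · by_contra hne
    exact he (by simp [hne])
  · ext e
    simp only [Finsupp.onFinset_apply, Finsupp.neg_apply]
    split_ifs
    · exact hα1 e i j
    · simp
  · ext e
    simp only [Finsupp.onFinset_apply, Finsupp.zero_apply]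
    split_ifs
    · exact hα2 e i
    · rfl
  · intro e he
    refine hsQ e ?_
    by_contra hne
    rw [Finset.mem_coe, Finsupp.mem_support_iff, Finsupp.onFinset_apply, if_neg hne] at he
    exact he rfl
  · ext e
    rw [Finsupp.finsetSum_apply]
    simp only [Finsupp.smul_apply, Finsupp.onFinset_apply]
    by_cases he : e ∈ s
    · simp only [he, if_true]
      exact hα3 e i
    · simp [he, hs e he i]

lemma antisymm_sum {M : Type*} [AddCommGroup M] {m : ℕ} (f : Fin m → Fin m → M)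
    (h1 : ∀ i j, f i j = - f j i) (h2 : ∀ i, f i i = 0) : ∑ i, ∑ j, f i j = 0 := by
  rw [← Finset.sum_product']
  refine Finset.sum_involution (fun p _ => (p.2, p.1)) ?_ ?_ ?_ ?_
  · intro p _
    rw [h1]; simp
  · intro p _ hp h
    have : p.1 = p.2 := (congrArg Prod.snd h)
    apply hp
    rw [this]; exact h2 _
  · intro p _; simp
  · intro p _; rfl

variable (A W) in
/-- degree `k` part. -/
noncomputable def pr (k : ℤ) : WL W n →ₗ[A] WL W n where
  toFun := Finsupp.filter (fun e => e.2 = k)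
  map_add' _ _ := Finsupp.filter_add
  map_smul' _ _ := Finsupp.filter_smul

lemma pr_apply (k : ℤ) (x : WL W n) (e : Ex n) :
    pr A W k x e = if e.2 = k then x e else 0 := by
  show Finsupp.filter _ x e = _
  rw [Finsupp.filter_apply]

lemma pr_mem {P : Set (Ex n)} (k : ℤ) {x : WL W n} (hx : x ∈ WS A W P) :
    pr A W k x ∈ WS A W (P ∩ {e | e.2 = k}) := by
  intro e he
  rw [Finset.mem_coe, Finsupp.mem_support_iff, pr_apply] at he
  by_cases h : e.2 = k
  · rw [if_pos h] at he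
    exact ⟨hx (Finsupp.mem_support_iff.2 he), h⟩
  · rw [if_neg h] at he; exact absurd rfl he

lemma sub_pr_mem {P : Set (Ex n)} {k : ℤ} {x : WL W n} (hx : x ∈ WS A W (P ∩ {e | k ≤ e.2})) :
    x - pr A W k x ∈ WS A W (P ∩ {e | k + 1 ≤ e.2}) := by
  intro e he
  rw [Finset.mem_coe, Finsupp.mem_support_iff, Finsupp.sub_apply, pr_apply] at he
  by_cases h : e.2 = k
  · rw [if_pos h, sub_self] at he; exact absurd rfl he
  · rw [if_neg h, sub_zero] at he
    obtain ⟨h1, h2⟩ := hx (Finsupp.mem_support_iff.2 he)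
    refine ⟨h1, ?_⟩
    have : k ≤ e.2 := h2
    show k + 1 ≤ e.2
    omega

lemma pr_eq_self {k : ℤ} {x : WL W n} (hx : x ∈ WS A W {e | e.2 = k}) : pr A W k x = x := by
  ext e
  rw [pr_apply]
  split_ifs with h
  · rfl
  · by_contra hne
    exact h (hx (Finsupp.mem_support_iff.2 (Ne.symm hne)))

lemma pr_eq_zero {k : ℤ} {x : WL W n} (hx : x ∈ WS A W {e | k + 1 ≤ e.2}) : pr A W k x = 0 := by
  ext e
  rw [pr_apply]
  split_ifs with h
  · by_contra hne
    have : k + 1 ≤ e.2 := hx (Finsupp.mem_support_iff.2 hne)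
    omega
  · rfl

lemma lead_aux (hH : H1 X W) {P : Set (Ex n)} (hP : Stable P) (k : ℤ) : ∀ (t : ℕ)
    (w : Fin (n + 1) → WL W n), (∀ i, w i ∈ WS A W (P ∩ {e | k - t ≤ e.2})) →
    (∑ i, (X i • w i - th A i (w i))) ∈ WS A W {e | k ≤ e.2} →
    ∃ w' : Fin (n + 1) → WL W n, (∀ i, w' i ∈ WS A W (P ∩ {e | k ≤ e.2})) ∧
      ∑ i, (X i • w' i - th A i (w' i)) = ∑ i, (X i • w i - th A i (w i)) := by
  intro t
  induction t with
  | zero => intro w hw _; exact ⟨w, by simpa using hw, rfl⟩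
  | succ t ih =>
    intro w hw hsum
    set k0 : ℤ := k - ((t + 1 : ℕ) : ℤ) with hk0
    have hk1 : k0 + 1 = k - t := by rw [hk0]; push_cast; ring
    set w0 : Fin (n + 1) → WL W n := fun i => pr A W k0 (w i) with hw0
    have hw0m : ∀ i, w0 i ∈ WS A W (P ∩ {e | e.2 = k0}) := by
      intro i
      refine WS_mono ?_ (pr_mem k0 (hw i))
      rintro e ⟨⟨h1, _⟩, h3⟩
      exact ⟨h1, h3⟩
    have hw1m : ∀ i, w i - w0 i ∈ WS A W (P ∩ {e | k - t ≤ e.2}) := by
      intro i
      rw [← hk1]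
      exact sub_pr_mem (hw i)
    have hzero : ∑ i, X i • w0 i = 0 := by
      have h1 : pr A W k0 (∑ i, (X i • w i - th A i (w i))) = 0 := by
        refine pr_eq_zero (WS_mono ?_ hsum)
        intro e he
        have : k ≤ e.2 := he
        show k0 + 1 ≤ e.2
        omega
      rw [map_sum] at h1
      rw [← h1]
      refine Finset.sum_congr rfl fun i _ => ?_
      rw [map_sub, map_smul]
      have h2 : pr A W k0 (th A i (w i)) = 0 := by
        refine pr_eq_zero (th_mem (P := P ∩ {e | k0 ≤ e.2}) ?_ i (hw i))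
        rintro e ⟨_, he⟩ B
        have : k0 ≤ e.2 := he
        show k0 + 1 ≤ e.2 + 1
        omega
      rw [h2, sub_zero]
    obtain ⟨a, ha1, ha2, ha3, ha4⟩ := hH.lift hw0m hzero
    have hth : ∀ i j, th A i (a i j) ∈ WS A W (P ∩ {e | k - t ≤ e.2}) := by
      intro i j
      refine th_mem (P := P ∩ {e | e.2 = k0}) ?_ i (ha3 i j)
      rintro e ⟨he1, he2⟩ B
      refine ⟨hP e he1 B, ?_⟩
      have : e.2 = k0 := he2
      show k - t ≤ e.2 + 1
      omega
    let w2 : Fin (n + 1) → WL W n := fun j => (w j - w0 j) - ∑ i, th A i (a i j)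
    have hw2 : ∀ j, w2 j ∈ WS A W (P ∩ {e | k - t ≤ e.2}) := by
      intro j
      refine sub_mem (hw1m j) (Submodule.sum_mem _ fun i _ => ?_)
      exact hth i j
    have hsum2 : ∑ i, (X i • w2 i - th A i (w2 i)) = ∑ i, (X i • w i - th A i (w i)) := by
      have e1 : ∑ i, (X i • w i - th A i (w i)) =
          ∑ i, (X i • (w i - w0 i) - th A i (w i - w0 i)) + (∑ i, X i • w0 i - ∑ i, th A i (w0 i)) := by
        rw [← Finset.sum_sub_distrib, ← Finset.sum_add_distrib]
        refine Finset.sum_congr rfl fun i _ => ?_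
        rw [smul_sub, map_sub]; abel
      have e2 : ∑ i, th A i (w0 i) = ∑ j, X j • ∑ i, th A i (a i j) := by
        have : ∀ i, th A i (w0 i) = ∑ j, X j • th A i (a i j) := by
          intro i
          rw [show w0 i = ∑ j, X j • a i j from ha4 i, map_sum]
          exact Finset.sum_congr rfl fun j _ => by rw [map_smul]
        rw [Finset.sum_congr rfl fun i _ => this i, Finset.sum_comm]
        exact Finset.sum_congr rfl fun j _ => by rw [Finset.smul_sum]
      have e3 : ∑ j, th A j (∑ i, th A i (a i j)) = 0 := by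
        have : ∀ j, th A j (∑ i, th A i (a i j)) = ∑ i, th A j (th A i (a i j)) := fun j => by
          rw [map_sum]
        rw [Finset.sum_congr rfl fun j _ => this j]
        refine antisymm_sum _ (fun i j => ?_) (fun i => ?_)
        · rw [ha1, map_neg, map_neg]
          rw [show th A i (th A j (a i j)) = th A j (th A i (a i j)) from act_comm _ _ _]
        · rw [ha2, map_zero, map_zero]
      rw [e1, hzero, zero_sub, e2]
      have e4 : ∑ i, (X i • w2 i - th A i (w2 i)) =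
          ∑ i, (X i • (w i - w0 i) - th A i (w i - w0 i)) -
            (∑ j, X j • ∑ i, th A i (a i j) - ∑ j, th A j (∑ i, th A i (a i j))) := by
        rw [← Finset.sum_sub_distrib, ← Finset.sum_sub_distrib]
        refine Finset.sum_congr rfl fun i _ => ?_
        simp only [w2]
        rw [smul_sub (X i) (w i - w0 i), map_sub (th A i) (w i - w0 i)]; abel
      rw [e4, e3, sub_zero]
      abel
    obtain ⟨w', h1, h2⟩ := ih w2 hw2 (by rw [hsum2]; exact hsum)
    exact ⟨w', h1, h2.trans hsum2⟩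

lemma exists_bound {w : Fin (n + 1) → WL W n} (k : ℤ) {P : Set (Ex n)}
    (hw : ∀ i, w i ∈ WS A W P) : ∃ t : ℕ, ∀ i, w i ∈ WS A W (P ∩ {e | k - t ≤ e.2}) := by
  classical
  let s : Finset (Ex n) := Finset.univ.biUnion fun i => (w i).support
  refine ⟨s.sup fun e => (k - e.2).toNat, fun i e he => ⟨hw i he, ?_⟩⟩
  have h1 : e ∈ s := Finset.mem_biUnion.2 ⟨i, mem_univ i, he⟩
  have h2 : (k - e.2).toNat ≤ s.sup fun e => (k - e.2).toNat :=
    Finset.le_sup (f := fun e : Ex n => (k - e.2).toNat) h1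
  show k - _ ≤ e.2
  omega

/-- **(K1)** leading forms: an element of degree `k` which is a relation modulo higher degree is
in `(X) WS`. -/
theorem lead (hH : H1 X W) {P : Set (Ex n)} (hP : Stable P) {k : ℤ} {x : WL W n}
    (hx : x ∈ WS A W (P ∩ {e | e.2 = k}))
    (hx' : x ∈ WS A W (P ∩ {e | k + 1 ≤ e.2}) ⊔ RR X W P) :
    x ∈ (Ideal.span (Set.range X)) • WS A W (P ∩ {e | e.2 = k}) := by
  obtain ⟨y, hy, r, ⟨w, hw, hr⟩, hxy⟩ := Submodule.mem_sup.1 hx'
  obtain ⟨t, ht⟩ := exists_bound k hw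
  have hr2 : r = x - y := by rw [← hxy]; abel
  have hr3 : (∑ i, (X i • w i - th A i (w i))) ∈ WS A W {e | k ≤ e.2} := by
    rw [← hr, hr2]
    refine sub_mem (WS_mono ?_ hx) (WS_mono ?_ hy)
    · rintro e ⟨_, he⟩
      have : e.2 = k := he
      show k ≤ e.2
      omega
    · rintro e ⟨_, he⟩
      have : k + 1 ≤ e.2 := he
      show k ≤ e.2
      omega
  obtain ⟨w', hw', hsum⟩ := lead_aux hH hP k t w ht hr3
  have h1 : x = ∑ i, X i • pr A W k (w' i) := by
    have h2 : pr A W k x = x := pr_eq_self (WS_mono (fun e he => he.2) hx)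
    have h3 : pr A W k y = 0 := pr_eq_zero (WS_mono (fun e he => he.2) hy)
    have h4 : pr A W k r = x := by rw [hr2, map_sub, h2, h3, sub_zero]
    rw [← h4, hr, ← hsum, map_sum]
    refine Finset.sum_congr rfl fun i _ => ?_
    rw [map_sub, map_smul]
    have h5 : pr A W k (th A i (w' i)) = 0 := by
      refine pr_eq_zero (th_mem (P := P ∩ {e | k ≤ e.2}) ?_ i (hw' i))
      rintro e ⟨_, he⟩ B
      have : k ≤ e.2 := he
      show k + 1 ≤ e.2 + 1
      omega
    rw [h5, sub_zero]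
  rw [h1]
  refine Submodule.sum_mem _ fun i _ => ?_
  refine Submodule.smul_mem_smul (Ideal.subset_span ⟨i, rfl⟩) ?_
  refine WS_mono ?_ (pr_mem k (hw' i))
  rintro e ⟨⟨h6, _⟩, h7⟩
  exact ⟨h6, h7⟩

end rel

end Crest.Agent.R183.KF
end

-- ▼ part R183/KH1
section

set_option autoImplicit false

namespace Crest.Agent.R183.KF

open Crest.Agent.R183.Res

universe u v

variable {A : Type u} [CommRing A]

/-- coordinates of the Koszul complex in degrees `0, 1, 2`. -/
def KC (W : Type v) [AddCommGroup W] [Module A W] (C : MCx A) (m : ℕ) (X : Fin m → A) : Prop :=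
  ∃ (o : C.ι 0) (e : Fin m ≃ C.ι 1), (∀ o', o' = o) ∧ (∀ i, C.d 0 o (e i) = X i) ∧
    ∀ v : C.ι 2 → W, ∃ a : Fin m → Fin m → W, (∀ i j, a i j = - a j i) ∧
      (∀ i, a i i = 0) ∧ ∀ i, C.dM W 1 v (e i) = ∑ j, X j • a i j

theorem KC.cone {W : Type v} [AddCommGroup W] [Module A W] {C : MCx A} {m : ℕ}
    {X : Fin (m + 1) → A} (h : KC W C m fun i => X i.succ) : KC W (C.cone (X 0)) (m + 1) X := by
    obtain ⟨o, e, ho, he, ha⟩ := h
    -- the equivalence
    let f : Fin (m + 1) → C.ι 1 ⊕ C.ι 0 := Fin.cases (Sum.inr o) fun i => Sum.inl (e i)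
    have hf : Function.Bijective f := by
      constructor
      · intro i j hij
        induction i using Fin.cases with
        | zero =>
          induction j using Fin.cases with
          | zero => rfl
          | succ j => exact absurd hij (by simp [f])
        | succ i =>
          induction j using Fin.cases with
          | zero => exact absurd hij (by simp [f])
          | succ j =>
            have h1 : (Sum.inl (e i) : C.ι 1 ⊕ C.ι 0) = Sum.inl (e j) := hij
            rw [Sum.inl.injEq] at h1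
            rw [e.injective h1]
      · intro b
        rcases b with b | b
        · exact ⟨(e.symm b).succ, by simp [f]⟩
        · exact ⟨0, by rw [ho b]; rfl⟩
    have hf0 : f 0 = Sum.inr o := rfl
    have hf1 : ∀ i : Fin m, f i.succ = Sum.inl (e i) := fun i => rfl
    refine ⟨o, Equiv.ofBijective f hf, ho, ?_, ?_⟩
    · intro i
      induction i using Fin.cases with
      | zero =>
        change (Matrix.fromCols (C.d 0) (X 0 • (1 : Matrix (C.ι 0) (C.ι 0) A))) o (Sum.inr o) = X 0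
        simp
      | succ i =>
        change (Matrix.fromCols (C.d 0) (X 0 • (1 : Matrix (C.ι 0) (C.ι 0) A))) o (Sum.inl (e i)) =
          X i.succ
        exact he i
    · intro v
      let v' : C.ι 2 ⊕ C.ι 1 → W := v
      obtain ⟨a, ha1, ha2, ha3⟩ := ha fun c => v' (Sum.inl c)
      let u : Fin m → W := fun i => v' (Sum.inr (e i))
      refine ⟨Fin.cases (Fin.cases 0 fun j => - u j) fun i => Fin.cases (u i) fun j => a i j,
        ?_, ?_, ?_⟩
      · intro i j
        induction i using Fin.cases with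
        | zero =>
          induction j using Fin.cases with
          | zero => simp
          | succ j => simp
        | succ i =>
          induction j using Fin.cases with
          | zero => simp
          | succ j => simpa using ha1 i j
      · intro i
        induction i using Fin.cases with
        | zero => simp
        | succ i => simpa using ha2 i
      · intro i
        rw [Fin.sum_univ_succ]
        induction i using Fin.cases with
        | zero =>
          simp only [Fin.cases_zero, Fin.cases_succ, smul_zero, zero_add]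
          have e1 : (MCx.dM (C.cone (X 0)) W 1 v) (Sum.inr o : C.ι 1 ⊕ C.ι 0) =
              ∑ b : C.ι 2 ⊕ C.ι 1, (Matrix.fromBlocks (C.d 1)
                (X 0 • (1 : Matrix (C.ι 1) (C.ι 1) A)) 0 (- C.d 0)) (Sum.inr o) b • v' b := rfl
          refine e1.trans ?_
          rw [Fintype.sum_sum_type]
          simp only [Matrix.fromBlocks_apply₂₁, Matrix.fromBlocks_apply₂₂, Matrix.zero_apply,
            zero_smul, Finset.sum_const_zero, zero_add, Matrix.neg_apply]
          rw [← e.sum_comp]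
          refine Finset.sum_congr rfl fun j _ => ?_
          rw [he j, neg_smul, smul_neg]
        | succ i =>
          simp only [Fin.cases_zero, Fin.cases_succ]
          have e1 : (MCx.dM (C.cone (X 0)) W 1 v) (Sum.inl (e i) : C.ι 1 ⊕ C.ι 0) =
              ∑ b : C.ι 2 ⊕ C.ι 1, (Matrix.fromBlocks (C.d 1)
                (X 0 • (1 : Matrix (C.ι 1) (C.ι 1) A)) 0 (- C.d 0)) (Sum.inl (e i)) b • v' b := rfl
          refine e1.trans ?_
          rw [Fintype.sum_sum_type]
          simp only [Matrix.fromBlocks_apply₁₁, Matrix.fromBlocks_apply₁₂, Matrix.smul_apply,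
            Matrix.one_apply, smul_eq_mul, mul_ite, mul_one, mul_zero, ite_smul, zero_smul,
            Finset.sum_ite_eq, Finset.mem_univ, if_true]
          rw [add_comm]
          congr 1
          exact ha3 i

theorem kos_coord (W : Type v) [AddCommGroup W] [Module A W] :
    ∀ (m : ℕ) (X : Fin m → A), KC W (kos (List.ofFn X)) m X := by
  intro m
  induction m with
  | zero =>
    intro X
    rw [List.ofFn_zero]
    refine ⟨(() : Unit), ?_, fun o' => ?_, fun i => i.elim0, fun v => ?_⟩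
    · exact (Equiv.equivOfIsEmpty (Fin 0) Empty)
    · rfl
    · exact ⟨fun i => i.elim0, fun i => i.elim0, fun i => i.elim0, fun i => i.elim0⟩
  | succ m ih =>
    intro X
    rw [List.ofFn_succ]
    exact (ih fun i => X i.succ).cone

/-- **conversion**. -/
theorem H1_of_kos {n : ℕ} (X : Fin (n + 1) → A) (W : Type v) [AddCommGroup W] [Module A W]
    (h : (kos (List.ofFn X)).cycM W 1 ≤ (kos (List.ofFn X)).bdyM W 1) : H1 X W := by
  intro w hw
  obtain ⟨o, e, ho, he, ha⟩ := kos_coord W (n + 1) X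
  have h1 : (fun b => w (e.symm b)) ∈ (kos (List.ofFn X)).cycM W 1 := by
    change (kos (List.ofFn X)).dM W 0 (fun b => w (e.symm b)) = 0
    funext o'
    rw [ho o']
    change ∑ b, (kos (List.ofFn X)).d 0 o b • w (e.symm b) = 0
    rw [← e.sum_comp]
    simp only [Equiv.symm_apply_apply, he]
    exact hw
  obtain ⟨u, hu⟩ := h h1
  obtain ⟨a, ha1, ha2, ha3⟩ := ha u
  refine ⟨a, ha1, ha2, fun i => ?_⟩
  rw [← ha3 i]
  have h2 := congrFun hu (e i)
  simp only [Equiv.symm_apply_apply] at h2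
  exact h2.symm

end Crest.Agent.R183.KF
end

-- ▼ part R183/KCube
section

set_option autoImplicit false

namespace Crest.Agent.R183.KF

open Finset

universe u v

section op

variable {A : Type u} [CommRing A] {M : Type v} [AddCommGroup M] [Module A M] {n : ℕ}

/-- sign of a chart. -/
def sg : Ch → ℤ
  | Ch.s => 1
  | Ch.t => 1
  | Ch.st => -1

lemma sg_mul_self (c : Ch) : sg c * sg c = 1 := by cases c <;> simp [sg]

/-- Koszul sign: number of `st` before `l`. -/
def eps (l : Fin n) (σ : Fin n → Ch) : ℤ := ∏ x ∈ Finset.Iio l, sg (σ x)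

lemma eps_mul_self (l : Fin n) (σ : Fin n → Ch) : eps l σ * eps l σ = 1 := by
  unfold eps
  rw [← Finset.prod_mul_distrib]
  exact Finset.prod_eq_one fun x _ => sg_mul_self _

lemma eps_update_of_le {l l' : Fin n} (h : l' ≤ l) (σ : Fin n → Ch) (c : Ch) :
    eps l' (Function.update σ l c) = eps l' σ := by
  unfold eps
  refine Finset.prod_congr rfl fun x hx => ?_
  rw [Finset.mem_Iio] at hx
  rw [Function.update_of_ne (by rintro rfl; exact absurd (lt_of_lt_of_le hx h) (lt_irrefl _))]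

lemma eps_update_of_lt {l l' : Fin n} (h : l < l') (σ : Fin n → Ch) (c : Ch) :
    eps l' (Function.update σ l c) = sg (σ l) * sg c * eps l' σ := by
  unfold eps
  have hl : l ∈ Finset.Iio l' := Finset.mem_Iio.2 h
  rw [← Finset.mul_prod_erase _ _ hl, ← Finset.mul_prod_erase (Finset.Iio l') (fun x => sg (σ x)) hl]
  rw [Function.update_self]
  have h2 : ∏ x ∈ (Finset.Iio l').erase l, sg (Function.update σ l c x)
      = ∏ x ∈ (Finset.Iio l').erase l, sg (σ x) := by
    refine Finset.prod_congr rfl fun x hx => ?_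
    rw [Function.update_of_ne (Finset.ne_of_mem_erase hx)]
  rw [h2]
  have := sg_mul_self (σ l)
  linear_combination (-(sg c * ∏ x ∈ (Finset.Iio l').erase l, sg (σ x))) * this

/-- operator on the `l`-th factor of the cube given by a matrix. -/
noncomputable def Op (l : Fin n) (a : Ch → Ch → M →ₗ[A] M) :
    ((Fin n → Ch) → M) →ₗ[A] ((Fin n → Ch) → M) where
  toFun y σ := eps l σ • ∑ c : Ch, a (σ l) c (y (Function.update σ l c))
  map_add' x y := by
    funext σ
    simp [Finset.sum_add_distrib, smul_add]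
  map_smul' r y := by
    funext σ
    simp only [Pi.smul_apply, map_smul, RingHom.id_apply]
    rw [← Finset.smul_sum, smul_comm]

lemma Op_apply (l : Fin n) (a : Ch → Ch → M →ₗ[A] M) (y : (Fin n → Ch) → M) (σ : Fin n → Ch) :
    Op l a y σ = eps l σ • ∑ c : Ch, a (σ l) c (y (Function.update σ l c)) := rfl

lemma Op_Op_same (l : Fin n) (a b : Ch → Ch → M →ₗ[A] M) (y : (Fin n → Ch) → M) (σ : Fin n → Ch) :
    Op l a (Op l b y) σ = ∑ c : Ch, ∑ c' : Ch, a (σ l) c (b c c' (y (Function.update σ l c'))) := by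
  rw [Op_apply]
  simp only [Op_apply, Function.update_self, Function.update_idem, eps_update_of_le le_rfl]
  rw [Finset.smul_sum]
  refine Finset.sum_congr rfl fun c _ => ?_
  rw [map_zsmul, smul_smul, eps_mul_self, one_smul, map_sum]

/-- odd matrices. -/
def Odd' (a : Ch → Ch → M →ₗ[A] M) : Prop := ∀ c c', sg c * sg c' = 1 → a c c' = 0

lemma Op_anti_lt {l l' : Fin n} (h : l < l') {a b : Ch → Ch → M →ₗ[A] M} (ha : Odd' a)
    (hab : ∀ c1 c2 c3 c4 x, a c1 c2 (b c3 c4 x) = b c3 c4 (a c1 c2 x)) (y : (Fin n → Ch) → M) :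
    Op l a (Op l' b y) = - Op l' b (Op l a y) := by
  funext σ
  have hne : l ≠ l' := h.ne
  rw [Pi.neg_apply, Op_apply, Op_apply]
  simp only [Op_apply, Function.update_of_ne hne, Function.update_of_ne hne.symm,
    eps_update_of_le h.le, eps_update_of_lt h]
  have e1 : ∀ c : Ch, a (σ l) c ((sg (σ l) * sg c * eps l' σ) • ∑ c', b (σ l') c'
      (y (Function.update (Function.update σ l c) l' c'))) =
      -(eps l' σ • ∑ c', b (σ l') c' (a (σ l) c (y (Function.update (Function.update σ l c) l' c')))) := by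
    intro c
    by_cases hc : sg (σ l) * sg c = 1
    · rw [ha _ _ hc]; simp
    · have hc' : sg (σ l) * sg c = -1 := by
        revert hc
        cases σ l <;> cases c <;> simp [sg]
      rw [hc', neg_one_mul, neg_smul, map_neg, map_zsmul, map_sum]
      congr 2
      exact Finset.sum_congr rfl fun c' _ => hab _ _ _ _ _
  simp only [e1]
  rw [Finset.sum_neg_distrib, smul_neg]
  congr 1
  rw [← Finset.smul_sum, smul_smul, mul_comm, mul_smul]
  congr 1
  simp only [map_zsmul, map_sum]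
  rw [← Finset.smul_sum]
  congr 1
  rw [Finset.sum_comm]
  refine Finset.sum_congr rfl fun c _ => Finset.sum_congr rfl fun c' _ => ?_
  rw [Function.update_comm hne]

lemma Op_anti {l l' : Fin n} (h : l ≠ l') {a b : Ch → Ch → M →ₗ[A] M} (ha : Odd' a) (hb : Odd' b)
    (hab : ∀ c1 c2 c3 c4 x, a c1 c2 (b c3 c4 x) = b c3 c4 (a c1 c2 x)) (y : (Fin n → Ch) → M) :
    Op l a (Op l' b y) = - Op l' b (Op l a y) := by
  rcases lt_or_gt_of_ne h with h1 | h1
  · exact Op_anti_lt h1 ha hab y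
  · rw [Op_anti_lt h1 hb (fun c1 c2 c3 c4 x => (hab c3 c4 c1 c2 x).symm), neg_neg]

/-- the matrix of the Čech differential of `P^1`. -/
noncomputable def dm : Ch → Ch → M →ₗ[A] M
  | Ch.st, Ch.s => LinearMap.id
  | Ch.st, Ch.t => -LinearMap.id
  | _, _ => 0

lemma dm_odd : Odd' (dm : Ch → Ch → M →ₗ[A] M) := by
  intro c c' h
  cases c <;> cases c' <;> simp_all [sg, dm]

lemma dm_comm (c1 c2 : Ch) (f : M →ₗ[A] M) (x : M) :
    (dm c1 c2 : M →ₗ[A] M) (f x) = f ((dm c1 c2 : M →ₗ[A] M) x) := by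
  cases c1 <;> cases c2 <;> simp [dm]

lemma sum_Ch {N : Type*} [AddCommMonoid N] (f : Ch → N) : ∑ c : Ch, f c = f Ch.s + f Ch.t + f Ch.st := by
  have : (Finset.univ : Finset Ch) = {Ch.s, Ch.t, Ch.st} := rfl
  rw [this, Finset.sum_insert (by decide), Finset.sum_insert (by decide), Finset.sum_singleton,
    add_assoc]

variable (A M n) in
/-- Čech differential in direction `l`. -/
noncomputable def dl (l : Fin n) : ((Fin n → Ch) → M) →ₗ[A] ((Fin n → Ch) → M) := Op l dm

variable (A M n) in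
/-- the Čech differential. -/
noncomputable def dC : ((Fin n → Ch) → M) →ₗ[A] ((Fin n → Ch) → M) := ∑ l, dl A M n l

lemma dl_dl (l : Fin n) (y : (Fin n → Ch) → M) : dl A M n l (dl A M n l y) = 0 := by
  funext σ
  unfold dl
  rw [Op_Op_same]
  simp only [sum_Ch]
  cases σ l <;> simp [dm]

lemma dl_anti {l l' : Fin n} (h : l ≠ l') (y : (Fin n → Ch) → M) :
    dl A M n l (dl A M n l' y) = - dl A M n l' (dl A M n l y) :=
  Op_anti h dm_odd dm_odd (fun _ _ _ _ _ => dm_comm _ _ _ _) y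

lemma dC_dC : (dC A M n) ∘ₗ (dC A M n) = 0 := by
  have h : ∀ S : Finset (Fin n), (∑ l ∈ S, dl A M n l) ∘ₗ (∑ l ∈ S, dl A M n l) = 0 := by
    intro S
    induction S using Finset.induction_on with
    | empty => simp
    | insert a S ha ih =>
      rw [Finset.sum_insert ha]
      apply LinearMap.ext
      intro y
      have ih' := LinearMap.congr_fun ih y
      simp only [LinearMap.comp_apply, LinearMap.zero_apply] at ih'
      simp only [LinearMap.comp_apply, LinearMap.add_apply, map_add, LinearMap.zero_apply]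
      rw [ih', dl_dl]
      have : dl A M n a ((∑ l ∈ S, dl A M n l) y) = - (∑ l ∈ S, dl A M n l) (dl A M n a y) := by
        rw [LinearMap.sum_apply, LinearMap.sum_apply, map_sum, ← Finset.sum_neg_distrib]
        refine Finset.sum_congr rfl fun l hl => dl_anti (by rintro rfl; exact ha hl) y
      rw [this]; abel
  exact h univ

lemma dC_dC_apply (y : (Fin n → Ch) → M) : dC A M n (dC A M n y) = 0 :=
  LinearMap.congr_fun dC_dC y

lemma dl_apply (l : Fin n) (y : (Fin n → Ch) → M) (σ : Fin n → Ch) :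
    dl A M n l y σ = if σ l = Ch.st then
      eps l σ • (y (Function.update σ l Ch.s) - y (Function.update σ l Ch.t)) else 0 := by
  unfold dl
  rw [Op_apply, sum_Ch]
  cases h : σ l <;> simp [dm, sub_eq_add_neg]

lemma dC_apply (y : (Fin n → Ch) → M) (σ : Fin n → Ch) :
    dC A M n y σ = ∑ l, dl A M n l y σ := by
  unfold dC
  rw [LinearMap.sum_apply, Finset.sum_apply]

/-- post-composition commutes with the differential. -/
lemma dC_post {M' : Type*} [AddCommGroup M'] [Module A M'] (f : M →ₗ[A] M')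
    (y : (Fin n → Ch) → M) : dC A M' n (fun σ => f (y σ)) = fun σ => f (dC A M n y σ) := by
  funext σ
  rw [dC_apply, dC_apply, map_sum]
  refine Finset.sum_congr rfl fun l _ => ?_
  rw [dl_apply, dl_apply]
  split_ifs
  · rw [map_zsmul, map_sub]
  · rw [map_zero]

end op

end Crest.Agent.R183.KF
private theorem rz_2b8d3e525a : type_of% @_root_.Crest.Agent.R183.KF.dm.eq_1 := @_root_.Crest.Agent.R183.KF.dm.eq_1 -- L123
private theorem rz_5edbac40a5 : type_of% @_root_.Crest.Agent.R183.KF.sg.eq_1 := @_root_.Crest.Agent.R183.KF.sg.eq_1 -- L21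
end

-- ▼ part R183/KGr
section

set_option autoImplicit false

namespace Crest.Agent.R183.KF

open Finset

universe u v

section gr

variable {A : Type u} [CommRing A] {W : Type v} [AddCommGroup W] [Module A W] {n : ℕ}

/-- number of `st`. -/
def cnt (σ : Fin n → Ch) : ℤ := ((univ.filter fun l => σ l = Ch.st).card : ℤ)

lemma cnt_nonneg (σ : Fin n → Ch) : 0 ≤ cnt σ := by unfold cnt; positivity

lemma cnt_le (σ : Fin n → Ch) : cnt σ ≤ n := by
  unfold cnt
  have := Finset.card_le_univ (univ.filter fun l : Fin n => σ l = Ch.st)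
  rw [Fintype.card_fin] at this
  exact_mod_cast this

lemma cnt_update {σ : Fin n → Ch} {l : Fin n} (h : σ l = Ch.st) {c : Ch} (hc : c ≠ Ch.st) :
    cnt (Function.update σ l c) = cnt σ - 1 := by
  unfold cnt
  have h1 : (univ.filter fun x => σ x = Ch.st)
      = insert l (univ.filter fun x => Function.update σ l c x = Ch.st) := by
    ext x
    rw [Finset.mem_insert, Finset.mem_filter, Finset.mem_filter]
    by_cases hx : x = l
    · subst hx; simp [h]
    · simp [hx]
  rw [h1, Finset.card_insert_of_notMem]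
  · push_cast; ring
  · simp [hc]

lemma cnt_update' {σ : Fin n → Ch} {l : Fin n} (h : σ l ≠ Ch.st) :
    cnt (Function.update σ l Ch.st) = cnt σ + 1 := by
  have := cnt_update (σ := Function.update σ l Ch.st) (l := l) (by simp) h
  rw [Function.update_idem, Function.update_eq_self] at this
  omega

/-- the exponents of the chart `σ`. -/
def cs (ρ : Fin n → ℤ) (σ : Fin n → Ch) : Set (Ex n) :=
  {e | ∀ l, (σ l = Ch.s → 0 ≤ e.1 l) ∧ (σ l = Ch.t → e.1 l ≤ e.2 - 1 - ρ l)}

lemma ind_nonneg (B : Finset (Fin n)) (l : Fin n) : 0 ≤ ind B l := by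
  unfold ind; split_ifs <;> norm_num

lemma ind_le (B : Finset (Fin n)) (l : Fin n) : ind B l ≤ 1 := by
  unfold ind; split_ifs <;> norm_num

lemma cs_stable (ρ : Fin n → ℤ) (σ : Fin n → Ch) : Stable (cs ρ σ) := by
  intro e he B l
  have h1 := he l
  have h2 := ind_nonneg B l
  have h3 := ind_le B l
  refine ⟨fun h => ?_, fun h => ?_⟩
  · have := h1.1 h
    show 0 ≤ ind B l + e.1 l
    omega
  · have := h1.2 h
    show ind B l + e.1 l ≤ e.2 + 1 - 1 - ρ l
    omega

lemma cs_update_subset (ρ : Fin n → ℤ) {σ : Fin n → Ch} {l : Fin n} (h : σ l = Ch.st) (c : Ch) :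
    cs ρ (Function.update σ l c) ⊆ cs ρ σ := by
  intro e he x
  by_cases hx : x = l
  · subst hx
    rw [h]
    exact ⟨fun h => by simp at h, fun h => by simp at h⟩
  · have := he x
    rwa [Function.update_of_ne hx] at this

/-- cochains. -/
abbrev VV (W : Type v) [AddCommGroup W] (n : ℕ) : Type v := (Fin n → Ch) → WL W n

/-- cochains of degree `j` with values in the family `S`. -/
def Gr (j : ℤ) (S : (Fin n → Ch) → Submodule A (WL W n)) : Submodule A (VV W n) where
  carrier := {y | ∀ σ, (cnt σ = j → y σ ∈ S σ) ∧ (cnt σ ≠ j → y σ = 0)}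
  add_mem' := by
    intro x y hx hy σ
    refine ⟨fun h => add_mem ((hx σ).1 h) ((hy σ).1 h), fun h => ?_⟩
    rw [Pi.add_apply, (hx σ).2 h, (hy σ).2 h, add_zero]
  zero_mem' := fun σ => ⟨fun _ => zero_mem _, fun _ => rfl⟩
  smul_mem' := by
    intro r x hx σ
    refine ⟨fun h => Submodule.smul_mem _ r ((hx σ).1 h), fun h => ?_⟩
    rw [Pi.smul_apply, (hx σ).2 h, smul_zero]


lemma Gr_mono {j : ℤ} {S S' : (Fin n → Ch) → Submodule A (WL W n)} (h : ∀ σ, S σ ≤ S' σ) :
    Gr j S ≤ Gr j S' := fun _ hy σ => ⟨fun e => h σ ((hy σ).1 e), (hy σ).2⟩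

lemma Gr_eq_bot {j : ℤ} (hj : j < 0 ∨ (n : ℤ) < j) (S : (Fin n → Ch) → Submodule A (WL W n)) :
    Gr j S = ⊥ := by
  rw [eq_bot_iff]
  intro y hy
  rw [Submodule.mem_bot]
  funext σ
  refine (hy σ).2 ?_
  have h1 := cnt_nonneg σ
  have h2 := cnt_le σ
  omega

lemma Gr_of_mem {j : ℤ} {S S' : (Fin n → Ch) → Submodule A (WL W n)} {y : VV W n}
    (hy : y ∈ Gr j S) (h : ∀ σ, cnt σ = j → y σ ∈ S' σ) : y ∈ Gr j S' :=
  fun σ => ⟨h σ, (hy σ).2⟩

lemma dC_mem {j : ℤ} {S S' : (Fin n → Ch) → Submodule A (WL W n)}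
    (h : ∀ σ l, σ l = Ch.st → ∀ c, S (Function.update σ l c) ≤ S' σ) {y : VV W n}
    (hy : y ∈ Gr j S) : dC A (WL W n) n y ∈ Gr (j + 1) S' := by
  intro σ
  rw [dC_apply]
  refine ⟨fun hc => Submodule.sum_mem _ fun l _ => ?_, fun hc => Finset.sum_eq_zero fun l _ => ?_⟩
  · rw [dl_apply]
    split_ifs with hl
    · refine zsmul_mem (sub_mem ?_ ?_) _
      · exact h σ l hl _ ((hy _).1 (by rw [cnt_update hl (by decide)]; omega))
      · exact h σ l hl _ ((hy _).1 (by rw [cnt_update hl (by decide)]; omega))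
    · exact zero_mem _
  · rw [dl_apply]
    split_ifs with hl
    · rw [(hy _).2 (by rw [cnt_update hl (by decide)]; omega),
        (hy _).2 (by rw [cnt_update hl (by decide)]; omega), sub_zero, smul_zero]
    · rfl

variable (X : Fin (n + 1) → A)

/-- `F^k` of the chart `σ`, modulo relations. -/
noncomputable def Bk (W : Type v) [AddCommGroup W] [Module A W] (ρ : Fin n → ℤ) (k : ℤ)
    (σ : Fin n → Ch) : Submodule A (WL W n) := WS A W (cs ρ σ ∩ {e | k ≤ e.2}) ⊔ RR X W (cs ρ σ)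

/-- cochains of degree `j`, internal degree `≥ k`, modulo relations. -/
noncomputable def FF (W : Type v) [AddCommGroup W] [Module A W] (ρ : Fin n → ℤ) (k j : ℤ) :
    Submodule A (VV W n) := Gr j (Bk X W ρ k)

/-- relations. -/
noncomputable def ZZ (W : Type v) [AddCommGroup W] [Module A W] (ρ : Fin n → ℤ) (j : ℤ) :
    Submodule A (VV W n) := Gr j (fun σ => RR X W (cs ρ σ))

variable {X}

lemma Bk_le_WS (ρ : Fin n → ℤ) (k : ℤ) (σ : Fin n → Ch) : Bk X W ρ k σ ≤ WS A W (cs ρ σ) :=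
  sup_le (WS_mono Set.inter_subset_left) (RR_le subset_rfl (cs_stable ρ σ))

lemma Bk_update_le (ρ : Fin n → ℤ) (k : ℤ) (σ : Fin n → Ch) (l : Fin n) (h : σ l = Ch.st) (c : Ch) :
    Bk X W ρ k (Function.update σ l c) ≤ Bk X W ρ k σ :=
  sup_le_sup (WS_mono (Set.inter_subset_inter_left _ (cs_update_subset ρ h c)))
    (RR_mono (cs_update_subset ρ h c))

lemma Bk_anti (ρ : Fin n → ℤ) {k k' : ℤ} (h : k ≤ k') (σ : Fin n → Ch) :
    Bk X W ρ k' σ ≤ Bk X W ρ k σ :=
  sup_le_sup_right (WS_mono (Set.inter_subset_inter_right _ fun e (he : k' ≤ e.2) =>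
    (le_trans h he : k ≤ e.2))) _

lemma RR_le_Bk (ρ : Fin n → ℤ) (k : ℤ) (σ : Fin n → Ch) : RR X W (cs ρ σ) ≤ Bk X W ρ k σ :=
  le_sup_right

lemma X_smul_Bk (ρ : Fin n → ℤ) (k : ℤ) (σ : Fin n → Ch) (i : Fin (n + 1)) {y : WL W n}
    (hy : y ∈ Bk X W ρ k σ) : X i • y ∈ Bk X W ρ (k + 1) σ := by
  obtain ⟨a, ha, b, hb, rfl⟩ := Submodule.mem_sup.1 hy
  rw [smul_add]
  refine add_mem ?_ (Submodule.mem_sup_right (Submodule.smul_mem _ _ hb))
  have h1 : X i • a = th A i a + (X i • a - th A i a) := by abel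
  rw [h1]
  refine Submodule.add_mem_sup ?_ (sub_th_mem i (WS_mono Set.inter_subset_left ha))
  refine th_mem (P := cs ρ σ ∩ {e | k ≤ e.2}) ?_ i ha
  rintro e ⟨he1, he2⟩ B
  refine ⟨cs_stable ρ σ e he1 B, ?_⟩
  have : k ≤ e.2 := he2
  show k + 1 ≤ e.2 + 1
  omega

lemma I_smul_Bk (ρ : Fin n → ℤ) (k : ℤ) (σ : Fin n → Ch) :
    (Ideal.span (Set.range X)) • Bk X W ρ k σ ≤ Bk X W ρ (k + 1) σ := by
  rw [Submodule.smul_le]
  intro r hr y hy
  induction hr using Submodule.span_induction with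
  | mem x hx =>
    obtain ⟨i, rfl⟩ := hx
    exact X_smul_Bk ρ k σ i hy
  | zero => rw [zero_smul]; exact zero_mem _
  | add a b _ _ ha hb => rw [add_smul]; exact add_mem ha hb
  | smul a b _ hb => rw [smul_assoc]; exact Submodule.smul_mem _ _ hb

lemma I_pow_smul_Bk (ρ : Fin n → ℤ) (k : ℤ) (σ : Fin n → Ch) (N : ℕ) :
    (Ideal.span (Set.range X)) ^ N • Bk X W ρ k σ ≤ Bk X W ρ (k + N) σ := by
  induction N with
  | zero => simp
  | succ N ih =>
    rw [pow_succ', mul_smul]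
    refine (smul_mono_right _ ih).trans ?_
    refine (I_smul_Bk ρ (k + N) σ).trans (le_of_eq ?_)
    congr 1
    push_cast; ring

lemma smul_WS {r : A} {N : ℕ} {I : Ideal A}
    (hr : ∀ w : W, r • w ∈ I ^ N • (⊤ : Submodule A W)) {P : Set (Ex n)} {y : WL W n}
    (hy : y ∈ WS A W P) : r • y ∈ I ^ N • WS A W P := by
  refine WS_induction (p := fun y => r • y ∈ I ^ N • WS A W P) hy ?_ ?_ ?_
  · rw [smul_zero]; exact zero_mem _
  · intro x y hx hy; rw [smul_add]; exact add_mem hx hy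
  · intro e he w
    have h1 : r • Finsupp.single e w = Finsupp.lsingle (R := A) e (r • w) := by simp
    rw [h1]
    have h2 : (I ^ N • (⊤ : Submodule A W)).map (Finsupp.lsingle (R := A) e) ≤ I ^ N • WS A W P := by
      rw [Submodule.map_smul'']
      refine smul_mono_right _ ?_
      rintro _ ⟨x, _, rfl⟩
      exact single_mem he x
    exact h2 ⟨_, hr w, rfl⟩

lemma FF_raise (r : A) (N : ℕ)
    (hr : ∀ w : W, r • w ∈ (Ideal.span (Set.range X)) ^ N • (⊤ : Submodule A W))
    (ρ : Fin n → ℤ) (k j : ℤ) (y : VV W n) (hy : y ∈ FF X W ρ k j) : r • y ∈ FF X W ρ (k + N) j := by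
  refine Gr_of_mem (Submodule.smul_mem _ r hy) fun σ hσ => ?_
  have h1 := (hy σ).1 hσ
  rw [Pi.smul_apply]
  obtain ⟨a, ha, b, hb, hab⟩ := Submodule.mem_sup.1 h1
  rw [← hab, smul_add]
  refine add_mem ?_ (Submodule.mem_sup_right (Submodule.smul_mem _ _ hb))
  refine I_pow_smul_Bk ρ k σ N ?_
  exact (Submodule.smul_mono le_rfl le_sup_left :
    (Ideal.span (Set.range X)) ^ N • WS A W (cs ρ σ ∩ {e | k ≤ e.2}) ≤
      (Ideal.span (Set.range X)) ^ N • Bk X W ρ k σ) (smul_WS hr ha)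

/-! ### unit ideals -/

/-- the cone of the chart. -/
def Qc (σ : Fin n → Ch) : Set (Ex n) :=
  {e | ∀ l, (σ l = Ch.s → 0 ≤ e.1 l) ∧ (σ l = Ch.t → e.1 l ≤ e.2)}

lemma Qc_add {σ : Fin n → Ch} {e e' : Ex n} (h : e ∈ Qc σ) (h' : e' ∈ Qc σ) : e + e' ∈ Qc σ := by
  intro l
  refine ⟨fun hl => ?_, fun hl => ?_⟩
  · have h1 := (h l).1 hl
    have h2 := (h' l).1 hl
    show 0 ≤ e.1 l + e'.1 l
    omega
  · have h1 := (h l).2 hl
    have h2 := (h' l).2 hl
    show e.1 l + e'.1 l ≤ e.2 + e'.2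
    omega

lemma Qc_cs {ρ : Fin n → ℤ} {σ : Fin n → Ch} {e e' : Ex n} (h : e ∈ Qc σ) (h' : e' ∈ cs ρ σ) :
    e + e' ∈ cs ρ σ := by
  intro l
  refine ⟨fun hl => ?_, fun hl => ?_⟩
  · have h1 := (h l).1 hl
    have h2 := (h' l).1 hl
    show 0 ≤ e.1 l + e'.1 l
    omega
  · have h1 := (h l).2 hl
    have h2 := (h' l).2 hl
    show e.1 l + e'.1 l ≤ e.2 + e'.2 - 1 - ρ l
    omega

/-- the ring of the chart. -/
noncomputable def RQ (σ : Fin n → Ch) : Subring (LL n) where
  carrier := {f | f ∈ Sub (Qc σ)}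
  mul_mem' := by
    intro f g hf hg
    change f ∈ Sub (Qc σ) at hf
    rw [Sub_eq_span] at hf
    show f * g ∈ Sub (Qc σ)
    induction hf using Submodule.span_induction with
    | mem x hx =>
      obtain ⟨e, he, rfl⟩ := hx
      exact mo_mul_mem (P := Qc σ) (fun e' he' => Qc_add he he') hg
    | zero => rw [zero_mul]; exact zero_mem _
    | add x y _ _ hx hy => rw [add_mul]; exact add_mem hx hy
    | smul r x _ hx => rw [smul_mul_assoc]; exact Submodule.smul_mem _ _ hx
  one_mem' := by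
    show (1 : LL n) ∈ Sub (Qc σ)
    rw [← mo_zero]
    exact mo_mem fun l => ⟨fun _ => le_rfl, fun _ => le_rfl⟩
  add_mem' := fun hf hg => (Sub (Qc σ)).add_mem hf hg
  zero_mem' := (Sub (Qc σ)).zero_mem
  neg_mem' := fun hf => (Sub (Qc σ)).neg_mem hf

lemma mem_RQ {σ : Fin n → Ch} {f : LL n} : f ∈ RQ σ ↔ f ∈ Sub (Qc σ) := Iff.rfl

lemma xs_mem_RQ (σ : Fin n → Ch) (i : ℕ) : xs univ i ∈ RQ σ := by
  rw [mem_RQ]
  refine AddMonoidAlgebra.supported_mono ?_ (xs_mem univ i)
  rintro e ⟨he, B, hB⟩ l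
  have h2 := ind_nonneg B l
  have h3 := ind_le B l
  rw [hB, he]
  exact ⟨fun _ => h2, fun _ => h3⟩

lemma exists_bound_LL {m : ℕ} {P : Set (Ex n)} (c : Fin m → LL n) (hc : ∀ i, c i ∈ Sub P) :
    ∃ t : ℕ, ∀ i, c i ∈ Sub (P ∩ {e | -(t : ℤ) ≤ e.2}) := by
  classical
  let s : Finset (Ex n) := Finset.univ.biUnion fun i => (c i).coeff.support
  refine ⟨s.sup fun e => (-e.2).toNat, fun i => ?_⟩
  rw [AddMonoidAlgebra.mem_supported]
  intro e he
  refine ⟨(AddMonoidAlgebra.mem_supported.1 (hc i)) he, ?_⟩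
  have h1 : e ∈ s := Finset.mem_biUnion.2 ⟨i, mem_univ i, he⟩
  have h2 : (-e.2).toNat ≤ s.sup fun e => (-e.2).toNat :=
    Finset.le_sup (f := fun e : Ex n => (-e.2).toNat) h1
  show -_ ≤ e.2
  omega

/-- unit ideal for the powers. -/
lemma unit_pow (σ : Fin n → Ch) (N' : ℕ) : ∃ (M' : ℕ) (c : Fin (n + 1) → LL n),
    (∀ i, c i ∈ Sub (Qc σ ∩ {e | -(M' : ℤ) ≤ e.2})) ∧ ∑ i, c i * xs univ (i : ℕ) ^ N' = 1 := by
  obtain ⟨g, hg, hsum⟩ := unit_chart σ
  let x : Fin (n + 1) → RQ σ := fun i => ⟨xs univ i, xs_mem_RQ σ i⟩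
  have hgR : ∀ i, g i ∈ RQ σ := by
    intro i
    rw [mem_RQ]
    refine AddMonoidAlgebra.supported_mono ?_ (hg i)
    rintro e ⟨he1, he2⟩ l
    refine ⟨(he2 l).1, fun h => ?_⟩
    rw [he1]; exact (he2 l).2 h
  have h1 : Ideal.span (Set.range x) = ⊤ := by
    rw [Ideal.eq_top_iff_one]
    have : (1 : RQ σ) = ∑ i, (⟨g i, hgR i⟩ : RQ σ) * x i := by
      apply Subtype.ext
      rw [AddSubmonoidClass.coe_finsetSum]
      show (1 : LL n) = ∑ i, g i * xs univ i
      rw [← hsum]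
      exact Finset.sum_congr rfl fun i _ => by rw [ev_X, mul_comm]
    rw [this]
    exact Ideal.sum_mem _ fun i _ => Ideal.mul_mem_left _ _ (Ideal.subset_span ⟨i, rfl⟩)
  have h2 := Ideal.span_pow_eq_top _ h1 N'
  rw [← Set.range_comp, Ideal.eq_top_iff_one, Ideal.mem_span_range_iff_exists_fun] at h2
  obtain ⟨c, hc⟩ := h2
  obtain ⟨t, ht⟩ := exists_bound_LL (P := Qc σ) (fun i => (c i : LL n)) (fun i => (c i).2)
  refine ⟨t, fun i => (c i : LL n), ht, ?_⟩
  have h3 := congrArg Subtype.val hc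
  rw [AddSubmonoidClass.coe_finsetSum] at h3
  exact h3

lemma th_pow_sub {P : Set (Ex n)} (hP : Stable P) (i : Fin (n + 1)) (m : ℕ) {z : WL W n}
    (hz : z ∈ WS A W P) : X i ^ m • z - act A W (xs univ i ^ m) z ∈ RR X W P := by
  induction m generalizing z with
  | zero => rw [pow_zero, pow_zero, one_smul, act_one_apply, sub_self]; exact zero_mem _
  | succ m ih =>
    have h1 : th A i z ∈ WS A W P := th_mem (P := P) hP i hz
    have h2 := ih h1
    have h3 := Submodule.smul_mem _ (X i ^ m) (sub_th_mem (X := X) i hz)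
    have h4 := add_mem h3 h2
    convert h4 using 1
    rw [pow_succ (xs univ (i : ℕ)), act_mul_apply, smul_sub, pow_succ, mul_smul]
    show _ - act A W (xs univ (i : ℕ) ^ m) (th A i z) = _
    abel

theorem contr (N' : ℕ) : ∃ (M' : ℕ) (c : Fin (n + 1) → VV W n →ₗ[A] VV W n),
    ∀ ρ : Fin n → ℤ, (∀ ν k j, (FF X W ρ k j).map (c ν) ≤ FF X W ρ (k - M') j) ∧
    (∀ ν j, (ZZ X W ρ j).map (c ν) ≤ ZZ X W ρ j) ∧
    (∀ k j, ∀ y ∈ FF X W ρ k j, (∑ ν, c ν (X ν ^ N' • y)) - y ∈ ZZ X W ρ j) := by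
  classical
  choose M c hc hsum using fun σ : Fin n → Ch => unit_pow σ N'
  let M' : ℕ := Finset.univ.sup M
  have hM : ∀ σ, M σ ≤ M' := fun σ => Finset.le_sup (mem_univ σ)
  refine ⟨M', fun ν => LinearMap.pi fun σ => (act A W (c σ ν)) ∘ₗ LinearMap.proj σ, fun ρ => ⟨?_, ?_, ?_⟩⟩
  · rintro ν k j _ ⟨y, hy, rfl⟩ σ
    refine ⟨fun h => ?_, fun h => ?_⟩
    · show act A W (c σ ν) (y σ) ∈ _
      obtain ⟨a, ha, b, hb, hab⟩ := Submodule.mem_sup.1 ((hy σ).1 h)
      rw [← hab, map_add]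
      refine Submodule.add_mem_sup ?_ ?_
      · refine act_mem (Q := Qc σ ∩ {e | -(M σ : ℤ) ≤ e.2}) (P := cs ρ σ ∩ {e | k ≤ e.2}) ?_ (hc σ ν) ha
        rintro e ⟨he1, he2⟩ x ⟨hx1, hx2⟩
        refine ⟨Qc_cs he1 hx1, ?_⟩
        have h3 : -(M σ : ℤ) ≤ e.2 := he2
        have h4 : k ≤ x.2 := hx2
        have h5 := hM σ
        show k - (M' : ℤ) ≤ e.2 + x.2
        omega
      · exact act_RR (Q := Qc σ ∩ {e | -(M σ : ℤ) ≤ e.2}) (P := cs ρ σ)
          (fun e he x hx => Qc_cs he.1 hx) (hc σ ν) hb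
    · show act A W (c σ ν) (y σ) = 0
      rw [(hy σ).2 h, map_zero]
  · rintro ν j _ ⟨y, hy, rfl⟩ σ
    refine ⟨fun h => ?_, fun h => ?_⟩
    · show act A W (c σ ν) (y σ) ∈ _
      exact act_RR (Q := Qc σ ∩ {e | -(M σ : ℤ) ≤ e.2}) (P := cs ρ σ)
          (fun e he x hx => Qc_cs he.1 hx) (hc σ ν) ((hy σ).1 h)
    · show act A W (c σ ν) (y σ) = 0
      rw [(hy σ).2 h, map_zero]
  · intro k j y hy σ
    have e0 : ((∑ ν, (LinearMap.pi fun σ => (act A W (c σ ν)) ∘ₗ LinearMap.proj σ : VV W n →ₗ[A] VV W n)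
        (X ν ^ N' • y)) - y) σ = (∑ ν, act A W (c σ ν) (X ν ^ N' • y σ)) - y σ := by
      rw [Pi.sub_apply, Finset.sum_apply]; rfl
    rw [e0]
    refine ⟨fun h => ?_, fun h => ?_⟩
    · have hz : y σ ∈ WS A W (cs ρ σ) := Bk_le_WS ρ k σ ((hy σ).1 h)
      have e1 : (∑ ν, act A W (c σ ν) (X ν ^ N' • y σ)) - y σ =
          ∑ ν, act A W (c σ ν) (X ν ^ N' • y σ - act A W (xs univ (ν : ℕ) ^ N') (y σ)) := by
        simp only [map_sub]
        rw [Finset.sum_sub_distrib]
        congr 1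
        simp only [← act_mul_apply]
        rw [← act_sum_apply, hsum, act_one_apply]
      rw [e1]
      refine Submodule.sum_mem _ fun ν _ => ?_
      exact act_RR (Q := Qc σ ∩ {e | -(M σ : ℤ) ≤ e.2}) (P := cs ρ σ)
          (fun e he x hx => Qc_cs he.1 hx) (hc σ ν) (th_pow_sub (cs_stable ρ σ) ν N' hz)
    · rw [(hy σ).2 h]; simp

/-! ### shifts by monomials, affinity and shift fields -/

lemma sh_eq_act (q : Ex n) (x : WL W n) : sh A q x = act A W (mo q.1 q.2) x := by
  rw [act_mo]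

lemma sh_RR {P P' : Set (Ex n)} {q : Ex n} (h : ∀ x ∈ P, q + x ∈ P') {x : WL W n}
    (hx : x ∈ RR X W P) : sh A q x ∈ RR X W P' := by
  rw [sh_eq_act]
  refine act_RR (Q := {q}) (P := P) ?_ (mo_mem rfl) hx
  intro e he x hx
  rw [Set.mem_singleton_iff] at he
  subst he
  exact h x hx

lemma sh_Bk {ρ ρ' : Fin n → ℤ} {σ : Fin n → Ch} {q : Ex n}
    (h : ∀ x ∈ cs ρ σ, q + x ∈ cs ρ' σ) {k : ℤ} {x : WL W n} (hx : x ∈ Bk X W ρ k σ) :
    sh A q x ∈ Bk X W ρ' (k + q.2) σ := by
  obtain ⟨a, ha, b, hb, rfl⟩ := Submodule.mem_sup.1 hx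
  rw [map_add]
  refine Submodule.add_mem_sup (sh_mem (P := cs ρ σ ∩ {e | k ≤ e.2}) ?_ ha) (sh_RR h hb)
  rintro e ⟨he1, he2⟩
  refine ⟨h e he1, ?_⟩
  have : k ≤ e.2 := he2
  show k + q.2 ≤ q.2 + e.2
  omega

lemma sh_sh_neg (q : Ex n) (x : WL W n) : sh A q (sh A (-q) x) = x := by
  rw [← LinearMap.comp_apply, ← sh_add, add_neg_cancel, sh_zero]; rfl

lemma sh_neg_sh (q : Ex n) (x : WL W n) : sh A (-q) (sh A q x) = x := by
  rw [← LinearMap.comp_apply, ← sh_add, neg_add_cancel, sh_zero]; rfl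

variable (A W) in
/-- shift of cochains. -/
noncomputable def ps (q : Ex n) : VV W n →ₗ[A] VV W n :=
  LinearMap.pi fun σ => (sh A q) ∘ₗ LinearMap.proj σ

lemma ps_apply (q : Ex n) (y : VV W n) (σ : Fin n → Ch) : ps A W q y σ = sh A q (y σ) := rfl

lemma ps_dC (q : Ex n) : (ps A W q) ∘ₗ (dC A (WL W n) n) = (dC A (WL W n) n) ∘ₗ (ps A W q) := by
  apply LinearMap.ext
  intro y
  show (fun σ => sh A q (dC A (WL W n) n y σ)) = dC A (WL W n) n (fun σ => sh A q (y σ))
  rw [dC_post]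

lemma ps_Gr {q : Ex n} {j : ℤ} {S S' : (Fin n → Ch) → Submodule A (WL W n)}
    (h : ∀ σ, ∀ x ∈ S σ, sh A q x ∈ S' σ) {y : VV W n} (hy : y ∈ Gr j S) :
    ps A W q y ∈ Gr j S' := by
  intro σ
  rw [ps_apply]
  refine ⟨fun hc => h σ _ ((hy σ).1 hc), fun hc => ?_⟩
  rw [(hy σ).2 hc, map_zero]

/-- the exponent of `u_l`. -/
def ue (l : Fin n) : Ex n := (Pi.single l 1, 0)

lemma cs_upd_subset (ρ : Fin n → ℤ) (l : Fin n) (σ : Fin n → Ch) :
    cs (Function.update ρ l (ρ l + 1)) σ ⊆ cs ρ σ := by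
  intro e he x
  refine ⟨(he x).1, fun h => ?_⟩
  have := (he x).2 h
  by_cases hx : x = l
  · subst hx; rw [Function.update_self] at this; omega
  · rwa [Function.update_of_ne hx] at this

lemma cs_upd_eq (ρ : Fin n → ℤ) {l : Fin n} {σ : Fin n → Ch} (h : σ l ≠ Ch.t) (a : ℤ) :
    cs (Function.update ρ l a) σ = cs ρ σ := by
  ext e
  refine forall_congr' fun x => ?_
  by_cases hx : x = l
  · subst hx; simp [h]
  · rw [Function.update_of_ne hx]

lemma cs_ue (ρ : Fin n → ℤ) (l : Fin n) (σ : Fin n → Ch) :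
    ∀ e ∈ cs (Function.update ρ l (ρ l + 1)) σ, ue l + e ∈ cs ρ σ := by
  intro e he x
  have := he x
  by_cases hx : x = l
  · subst hx
    rw [Function.update_self] at this
    refine ⟨fun h => ?_, fun h => ?_⟩
    · have := this.1 h
      show 0 ≤ (Pi.single x 1 : Fin n → ℤ) x + e.1 x
      rw [Pi.single_eq_same]; omega
    · have := this.2 h
      show (Pi.single x 1 : Fin n → ℤ) x + e.1 x ≤ 0 + e.2 - 1 - ρ x
      rw [Pi.single_eq_same]; omega
  · rw [Function.update_of_ne hx] at this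
    refine ⟨fun h => ?_, fun h => ?_⟩
    · have := this.1 h
      show 0 ≤ (Pi.single l 1 : Fin n → ℤ) x + e.1 x
      rw [Pi.single_eq_of_ne hx]; omega
    · have := this.2 h
      show (Pi.single l 1 : Fin n → ℤ) x + e.1 x ≤ 0 + e.2 - 1 - ρ x
      rw [Pi.single_eq_of_ne hx]; omega

lemma cs_neg_ue (ρ : Fin n → ℤ) {l : Fin n} {σ : Fin n → Ch} (hσ : σ l = Ch.t) :
    ∀ e ∈ cs ρ σ, -ue l + e ∈ cs (Function.update ρ l (ρ l + 1)) σ := by
  intro e he x
  have := he x
  by_cases hx : x = l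
  · subst hx
    rw [Function.update_self, hσ]
    refine ⟨fun h => by simp at h, fun _ => ?_⟩
    have := this.2 hσ
    show -(Pi.single x 1 : Fin n → ℤ) x + e.1 x ≤ -0 + e.2 - 1 - (ρ x + 1)
    rw [Pi.single_eq_same]; omega
  · rw [Function.update_of_ne hx]
    refine ⟨fun h => ?_, fun h => ?_⟩
    · have := this.1 h
      show 0 ≤ -(Pi.single l 1 : Fin n → ℤ) x + e.1 x
      rw [Pi.single_eq_of_ne hx]; omega
    · have := this.2 h
      show -(Pi.single l 1 : Fin n → ℤ) x + e.1 x ≤ -0 + e.2 - 1 - ρ x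
      rw [Pi.single_eq_of_ne hx]; omega

/-- field `aff`. -/
theorem aff (l : Fin n) : ∃ U : VV W n →ₗ[A] VV W n,
    U ∘ₗ dC A (WL W n) n = dC A (WL W n) n ∘ₗ U ∧ ∀ ρ ρ1 ρ2 : Fin n → ℤ,
    ρ1 = Function.update ρ l (ρ l + 1) → ρ2 = Function.update ρ l (ρ l + 2) →
    (∀ k j, FF X W ρ1 k j ≤ FF X W ρ k j) ∧ (∀ j, ZZ X W ρ1 j ≤ ZZ X W ρ j) ∧
    (∀ k j, (FF X W ρ1 k j).map U ≤ FF X W ρ k j) ∧ (∀ j, (ZZ X W ρ1 j).map U ≤ ZZ X W ρ j) ∧
    (∀ k j, ∀ w ∈ FF X W ρ k j, ∃ x ∈ FF X W ρ1 k j, ∃ y ∈ FF X W ρ1 k j, w - (x + U y) ∈ ZZ X W ρ j) ∧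
    (∀ k j, ∀ x ∈ FF X W ρ1 k j, ∀ y ∈ FF X W ρ1 k j, x + U y ∈ ZZ X W ρ j →
      ∃ z ∈ FF X W ρ2 k j, x - U z ∈ ZZ X W ρ1 j ∧ y + z ∈ ZZ X W ρ1 j) ∧
    (∀ k j, ∀ z ∈ FF X W ρ2 k j, U z ∈ ZZ X W ρ1 j → z ∈ ZZ X W ρ1 j → z ∈ ZZ X W ρ2 j) := by
  classical
  refine ⟨ps A W (ue l), ps_dC _, ?_⟩
  intro ρ ρ1 ρ2 h1 h2
  have h2' : ρ2 = Function.update ρ1 l (ρ1 l + 1) := by
    rw [h1, h2, Function.update_idem, Function.update_self]
    congr 1; ring
  have key : ∀ (ρ : Fin n → ℤ) (σ : Fin n → Ch) (k : ℤ) (x : WL W n),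
      x ∈ Bk X W (Function.update ρ l (ρ l + 1)) k σ → sh A (ue l) x ∈ Bk X W ρ k σ := by
    intro ρ σ k x hx
    have := sh_Bk (cs_ue ρ l σ) hx
    simpa [ue] using this
  have keyinv : ∀ (ρ : Fin n → ℤ) (σ : Fin n → Ch) (_ : σ l = Ch.t) (k : ℤ) (x : WL W n),
      x ∈ Bk X W ρ k σ → sh A (-ue l) x ∈ Bk X W (Function.update ρ l (ρ l + 1)) k σ := by
    intro ρ σ hσ k x hx
    have := sh_Bk (cs_neg_ue ρ hσ) hx
    simpa [ue] using this
  refine ⟨?_, ?_, ?_, ?_, ?_, ?_, ?_⟩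
  · intro k j
    rw [h1]
    exact Gr_mono fun σ => sup_le_sup
      (WS_mono (Set.inter_subset_inter_left _ (cs_upd_subset ρ l σ))) (RR_mono (cs_upd_subset ρ l σ))
  · intro j
    rw [h1]
    exact Gr_mono fun σ => RR_mono (cs_upd_subset ρ l σ)
  · rintro k j _ ⟨y, hy, rfl⟩
    rw [h1] at hy
    exact ps_Gr (fun σ x hx => key ρ σ k x hx) hy
  · rintro j _ ⟨y, hy, rfl⟩
    rw [h1] at hy
    exact ps_Gr (fun σ x hx => sh_RR (cs_ue ρ l σ) hx) hy
  · intro k j w hw
    refine ⟨fun σ => if σ l = Ch.t then 0 else w σ, ?_,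
      fun σ => if σ l = Ch.t then sh A (-ue l) (w σ) else 0, ?_, ?_⟩
    · intro σ
      refine ⟨fun hc => ?_, fun hc => ?_⟩
      · dsimp only
        split_ifs with h
        · exact zero_mem _
        · have := (hw σ).1 hc
          rw [h1]
          unfold Bk at this ⊢
          rw [cs_upd_eq ρ h]; exact this
      · dsimp only
        rw [(hw σ).2 hc, ite_self]
    · intro σ
      refine ⟨fun hc => ?_, fun hc => ?_⟩
      · dsimp only
        split_ifs with h
        · rw [h1]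
          exact keyinv ρ σ h k _ ((hw σ).1 hc)
        · exact zero_mem _
      · dsimp only
        rw [(hw σ).2 hc, map_zero, ite_self]
    · have : w - ((fun σ => if σ l = Ch.t then 0 else w σ) +
          ps A W (ue l) (fun σ => if σ l = Ch.t then sh A (-ue l) (w σ) else 0)) = 0 := by
        funext σ
        rw [Pi.sub_apply, Pi.add_apply, ps_apply]
        split_ifs with h
        · rw [sh_sh_neg]; simp
        · simp
      rw [this]; exact zero_mem _
  · intro k j x hx y hy hxy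
    refine ⟨fun σ => if σ l = Ch.t then sh A (-ue l) (x σ) else -(y σ), ?_, ?_, ?_⟩
    · intro σ
      refine ⟨fun hc => ?_, fun hc => ?_⟩
      · dsimp only
        split_ifs with h
        · rw [h2']
          exact keyinv ρ1 σ h k _ ((hx σ).1 hc)
        · have := neg_mem ((hy σ).1 hc)
          rw [h2']
          unfold Bk at this ⊢
          rw [cs_upd_eq ρ1 h]; exact this
      · dsimp only
        rw [(hx σ).2 hc, (hy σ).2 hc, map_zero, neg_zero, ite_self]
    · intro σ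
      rw [Pi.sub_apply, ps_apply]
      refine ⟨fun hc => ?_, fun hc => ?_⟩
      · split_ifs with h
        · rw [sh_sh_neg, sub_self]; exact zero_mem _
        · have := (hxy σ).1 hc
          rw [Pi.add_apply, ps_apply] at this
          rw [map_neg, sub_neg_eq_add]
          show _ ∈ RR X W (cs ρ1 σ)
          rw [h1, cs_upd_eq ρ h]
          exact this
      · rw [(hx σ).2 hc, (hy σ).2 hc, map_zero, neg_zero, ite_self, map_zero, sub_zero]
    · intro σ
      rw [Pi.add_apply]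
      refine ⟨fun hc => ?_, fun hc => ?_⟩
      · split_ifs with h
        · have := (hxy σ).1 hc
          rw [Pi.add_apply, ps_apply] at this
          have h3 := sh_RR (X := X) (cs_neg_ue ρ h) this
          rw [map_add, sh_neg_sh] at h3
          rw [add_comm (y σ)]
          show _ ∈ RR X W (cs ρ1 σ)
          rw [h1]; exact h3
        · rw [add_neg_cancel]; exact zero_mem _
      · rw [(hx σ).2 hc, (hy σ).2 hc, map_zero, neg_zero, ite_self, add_zero]
  · intro k j z hz hUz hz1 σ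
    refine ⟨fun hc => ?_, fun hc => (hz σ).2 hc⟩
    by_cases h : σ l = Ch.t
    · have := (hUz σ).1 hc
      rw [ps_apply] at this
      have h3 := sh_RR (X := X) (cs_neg_ue ρ1 h) this
      rw [sh_neg_sh] at h3
      rw [h2']; exact h3
    · have := (hz1 σ).1 hc
      show _ ∈ RR X W (cs ρ2 σ)
      rw [h2', cs_upd_eq ρ1 h]; exact this

/-- field `shift`. -/
theorem shift : ∃ T T' : VV W n →ₗ[A] VV W n, T ∘ₗ dC A (WL W n) n = dC A (WL W n) n ∘ₗ T ∧
    T' ∘ₗ dC A (WL W n) n = dC A (WL W n) n ∘ₗ T' ∧ T ∘ₗ T' = LinearMap.id ∧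
    T' ∘ₗ T = LinearMap.id ∧
    (∀ ρ k j, (FF X W ρ k j).map T = FF X W (fun l => ρ l + 1) (k + 1) j) ∧
    (∀ ρ j, (ZZ X W ρ j).map T = ZZ X W (fun l => ρ l + 1) j) := by
  let q : Ex n := (0, 1)
  have hTT : (ps A W q : VV W n →ₗ[A] VV W n) ∘ₗ (ps A W (-q) : VV W n →ₗ[A] VV W n)
      = LinearMap.id := by
    apply LinearMap.ext; intro y; funext σ
    exact sh_sh_neg (A := A) q (y σ)
  have hTT' : (ps A W (-q) : VV W n →ₗ[A] VV W n) ∘ₗ (ps A W q : VV W n →ₗ[A] VV W n)
      = LinearMap.id := by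
    apply LinearMap.ext; intro y; funext σ
    exact sh_neg_sh (A := A) q (y σ)
  have c1 : ∀ (ρ : Fin n → ℤ) (σ : Fin n → Ch), ∀ e ∈ cs ρ σ, q + e ∈ cs (fun l => ρ l + 1) σ := by
    intro ρ σ e he l
    refine ⟨fun h => ?_, fun h => ?_⟩
    · have := (he l).1 h
      show 0 ≤ (0 : ℤ) + e.1 l
      omega
    · have := (he l).2 h
      show (0 : ℤ) + e.1 l ≤ 1 + e.2 - 1 - (ρ l + 1)
      omega
  have c2 : ∀ (ρ : Fin n → ℤ) (σ : Fin n → Ch), ∀ e ∈ cs (fun l => ρ l + 1) σ, -q + e ∈ cs ρ σ := by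
    intro ρ σ e he l
    refine ⟨fun h => ?_, fun h => ?_⟩
    · have := (he l).1 h
      show 0 ≤ -(0 : ℤ) + e.1 l
      omega
    · have : e.1 l ≤ e.2 - 1 - (ρ l + 1) := (he l).2 h
      show -(0 : ℤ) + e.1 l ≤ -1 + e.2 - 1 - ρ l
      omega
  refine ⟨ps A W q, ps A W (-q), ps_dC _, ps_dC _, hTT, hTT', ?_, ?_⟩
  · intro ρ k j
    apply le_antisymm
    · rintro _ ⟨y, hy, rfl⟩
      exact ps_Gr (fun σ x hx => sh_Bk (c1 ρ σ) hx) hy
    · intro y hy
      refine ⟨ps A W (-q) y, ?_, LinearMap.congr_fun hTT y⟩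
      refine ps_Gr (fun σ x hx => ?_) hy
      have := sh_Bk (c2 ρ σ) hx
      have e : k + 1 + (-q).2 = k := by show k + 1 + -1 = k; ring
      rw [e] at this
      exact this
  · intro ρ j
    apply le_antisymm
    · rintro _ ⟨y, hy, rfl⟩
      exact ps_Gr (fun σ x hx => sh_RR (c1 ρ σ) hx) hy
    · intro y hy
      exact ⟨ps A W (-q) y, ps_Gr (fun σ x hx => sh_RR (c2 ρ σ) hx) hy, LinearMap.congr_fun hTT y⟩

end gr

end Crest.Agent.R183.KF
end

-- ▼ part R183/KPiece
section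

set_option autoImplicit false

namespace Crest.Agent.R183.KF

open Finset
open scoped Classical

universe u v

section piece

variable {A : Type u} [CommRing A] {W : Type v} [AddCommGroup W] [Module A W] {n : ℕ}

variable (A W) in
/-- restriction of the support. -/
noncomputable def flt (p : Ex n → Prop) : WL W n →ₗ[A] WL W n where
  toFun := Finsupp.filter p
  map_add' _ _ := Finsupp.filter_add
  map_smul' _ _ := Finsupp.filter_smul

lemma flt_apply (p : Ex n → Prop) (x : WL W n) (e : Ex n) :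
    flt A W p x e = if p e then x e else 0 := by
  show Finsupp.filter _ x e = _
  rw [Finsupp.filter_apply]

variable (A W) in
/-- matrix of the contraction in direction `a`. -/
noncomputable def hm (ρ : Fin n → ℤ) (a : Fin n) : Ch → Ch → WL W n →ₗ[A] WL W n
  | Ch.s, Ch.st => flt A W (fun e => 0 ≤ e.1 a)
  | Ch.t, Ch.st => - flt A W (fun e => e.1 a < 0 ∧ e.1 a ≤ e.2 - 1 - ρ a)
  | _, _ => 0

lemma hm_odd (ρ : Fin n → ℤ) (a : Fin n) : Odd' (hm A W ρ a) := by
  intro c c' h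
  cases c <;> cases c' <;> simp_all [sg, hm]

variable (A W) in
/-- contraction in direction `a`. -/
noncomputable def ha (ρ : Fin n → ℤ) (a : Fin n) : VV W n →ₗ[A] VV W n := Op a (hm A W ρ a)

lemma dl_ha {ρ : Fin n → ℤ} {a l : Fin n} (h : l ≠ a) (y : VV W n) :
    dl A (WL W n) n l (ha A W ρ a y) = - ha A W ρ a (dl A (WL W n) n l y) :=
  Op_anti h dm_odd (hm_odd ρ a) (fun _ _ _ _ _ => dm_comm _ _ _ _) y

lemma dC_ha_add (ρ : Fin n → ℤ) (a : Fin n) (y : VV W n) :
    dC A (WL W n) n (ha A W ρ a y) + ha A W ρ a (dC A (WL W n) n y) =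
      dl A (WL W n) n a (ha A W ρ a y) + ha A W ρ a (dl A (WL W n) n a y) := by
  unfold dC
  rw [LinearMap.sum_apply, LinearMap.sum_apply, map_sum, ← Finset.sum_add_distrib,
    Finset.sum_eq_single a]
  · intro l _ hl
    rw [dl_ha hl, neg_add_cancel]
  · intro h; exact absurd (mem_univ _) h

lemma pa_st {ρ : Fin n → ℤ} {a : Fin n} (y : VV W n) {σ : Fin n → Ch} (h : σ a = Ch.st) (e : Ex n) :
    (dC A (WL W n) n (ha A W ρ a y) + ha A W ρ a (dC A (WL W n) n y)) σ e =
      (if 0 ≤ e.1 a then y σ e else 0) +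
        (if e.1 a < 0 ∧ e.1 a ≤ e.2 - 1 - ρ a then y σ e else 0) := by
  rw [dC_ha_add, Pi.add_apply]
  unfold dl ha
  rw [Op_Op_same, Op_Op_same]
  simp only [sum_Ch, h]
  have hu : Function.update σ a Ch.st = σ := by rw [← h]; exact Function.update_eq_self _ _
  simp [dm, hm, hu, flt_apply]
  congr!

lemma pa_s {ρ : Fin n → ℤ} {a : Fin n} (y : VV W n) {σ : Fin n → Ch} (h : σ a = Ch.s) (e : Ex n) :
    (dC A (WL W n) n (ha A W ρ a y) + ha A W ρ a (dC A (WL W n) n y)) σ e =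
      (if 0 ≤ e.1 a then y σ e else 0) -
        (if 0 ≤ e.1 a then y (Function.update σ a Ch.t) e else 0) := by
  rw [dC_ha_add, Pi.add_apply]
  unfold dl ha
  rw [Op_Op_same, Op_Op_same]
  simp only [sum_Ch, h]
  have hu : Function.update σ a Ch.s = σ := by rw [← h]; exact Function.update_eq_self _ _
  simp [dm, hm, hu, flt_apply, sub_eq_add_neg]
  congr!

lemma pa_t {ρ : Fin n → ℤ} {a : Fin n} (y : VV W n) {σ : Fin n → Ch} (h : σ a = Ch.t) (e : Ex n) :
    (dC A (WL W n) n (ha A W ρ a y) + ha A W ρ a (dC A (WL W n) n y)) σ e =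
      (if e.1 a < 0 ∧ e.1 a ≤ e.2 - 1 - ρ a then y σ e else 0) -
        (if e.1 a < 0 ∧ e.1 a ≤ e.2 - 1 - ρ a then y (Function.update σ a Ch.s) e else 0) := by
  rw [dC_ha_add, Pi.add_apply]
  unfold dl ha
  rw [Op_Op_same, Op_Op_same]
  simp only [sum_Ch, h]
  have hu : Function.update σ a Ch.t = σ := by rw [← h]; exact Function.update_eq_self _ _
  simp only [dm, hm, hu, flt_apply, sub_eq_add_neg, LinearMap.zero_apply, map_zero, LinearMap.neg_apply,
    LinearMap.id_apply, map_neg, zero_add, add_zero, neg_neg, Finsupp.add_apply, Finsupp.neg_apply, neg_zero]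
  rw [add_comm]
  congr!

/-- box conditions for the directions in `S`. -/
def bx (ρ : Fin n → ℤ) (S : Finset (Fin n)) (σ : Fin n → Ch) (e : Ex n) : Prop :=
  ∀ l ∈ S, (σ l = Ch.st → e.1 l < 0 ∧ e.2 - 1 - ρ l < e.1 l) ∧
    (σ l ≠ Ch.st → 0 ≤ e.1 l ∧ e.1 l ≤ e.2 - 1 - ρ l)

/-- replace `s` by `t` in the directions of `S`. -/
def tS (S : Finset (Fin n)) (σ : Fin n → Ch) : Fin n → Ch :=
  fun l => if l ∈ S ∧ σ l = Ch.s then Ch.t else σ l

/-- projection to harmonic cochains in the directions of `S`. -/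
noncomputable def PS (ρ : Fin n → ℤ) (S : Finset (Fin n)) (y : VV W n) : VV W n :=
  fun σ => flt ℤ W (bx ρ S σ) (y (tS S σ))

lemma PS_apply (ρ : Fin n → ℤ) (S : Finset (Fin n)) (y : VV W n) (σ : Fin n → Ch) (e : Ex n) :
    PS ρ S y σ e = if bx ρ S σ e then y (tS S σ) e else 0 := by
  unfold PS
  rw [flt_apply]

lemma bx_insert_st {ρ : Fin n → ℤ} {S : Finset (Fin n)} {a : Fin n} {σ : Fin n → Ch}
    (h : σ a = Ch.st) (e : Ex n) : bx ρ (insert a S) σ e ↔
      (e.1 a < 0 ∧ e.2 - 1 - ρ a < e.1 a) ∧ bx ρ S σ e := by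
  unfold bx
  rw [Finset.forall_mem_insert, h]
  simp

lemma bx_insert_ne {ρ : Fin n → ℤ} {S : Finset (Fin n)} {a : Fin n} {σ : Fin n → Ch}
    (h : σ a ≠ Ch.st) (e : Ex n) : bx ρ (insert a S) σ e ↔
      (0 ≤ e.1 a ∧ e.1 a ≤ e.2 - 1 - ρ a) ∧ bx ρ S σ e := by
  unfold bx
  rw [Finset.forall_mem_insert]
  simp [h]

lemma bx_update {ρ : Fin n → ℤ} {S : Finset (Fin n)} {a : Fin n} (ha : a ∉ S) {σ : Fin n → Ch}
    (c : Ch) (e : Ex n) : bx ρ S (Function.update σ a c) e ↔ bx ρ S σ e := by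
  unfold bx
  refine forall₂_congr fun l hl => ?_
  have : l ≠ a := by rintro rfl; exact ha hl
  rw [Function.update_of_ne this]

lemma tS_insert_ne {S : Finset (Fin n)} {a : Fin n} {σ : Fin n → Ch} (h : σ a ≠ Ch.s) :
    tS (insert a S) σ = tS S σ := by
  funext l
  unfold tS
  by_cases hl : l = a
  · subst hl; simp [h]
  · simp [hl]

lemma tS_insert_s {S : Finset (Fin n)} {a : Fin n} (ha : a ∉ S) {σ : Fin n → Ch} (h : σ a = Ch.s) :
    tS (insert a S) σ = tS S (Function.update σ a Ch.t) := by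
  funext l
  unfold tS
  by_cases hl : l = a
  · subst hl; simp [h, ha]
  · simp [hl]

lemma cs_of_bx {ρ : Fin n → ℤ} {S : Finset (Fin n)} {σ : Fin n → Ch} {e : Ex n}
    (h1 : bx ρ S σ e) (h2 : e ∈ cs ρ (tS S σ)) : e ∈ cs ρ σ := by
  intro l
  by_cases hl : l ∈ S
  · have := h1 l hl
    refine ⟨fun h => ?_, fun h => ?_⟩
    · exact (this.2 (by rw [h]; decide)).1
    · exact (this.2 (by rw [h]; decide)).2
  · have := h2 l
    have h3 : tS S σ l = σ l := by simp [tS, hl]
    rwa [h3] at this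

/-- support of cochains. -/
def Sup' (ρ : Fin n → ℤ) (y : VV W n) : Prop := ∀ σ e, y σ e ≠ 0 → e ∈ cs ρ σ

lemma PS_sup {ρ : Fin n → ℤ} {S : Finset (Fin n)} {y : VV W n} (hy : Sup' ρ y) :
    Sup' ρ (PS ρ S y) := by
  intro σ e he
  rw [PS_apply] at he
  split_ifs at he with h
  · exact cs_of_bx h (hy _ _ he)
  · exact absurd rfl he

lemma PS_step {ρ : Fin n → ℤ} {S : Finset (Fin n)} {a : Fin n} (haS : a ∉ S) {y : VV W n}
    (hy : Sup' ρ y) :
    PS ρ S y - (dC A (WL W n) n (ha A W ρ a (PS ρ S y)) + ha A W ρ a (dC A (WL W n) n (PS ρ S y))) =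
      PS ρ (insert a S) y := by
  have hy' := PS_sup (S := S) hy
  funext σ
  ext e
  rw [Pi.sub_apply, Finsupp.sub_apply]
  cases h : σ a
  · -- `s`
    rw [pa_s _ h]
    have h1 : (if 0 ≤ e.1 a then PS ρ S y σ e else 0) = PS ρ S y σ e := by
      by_cases h2 : PS ρ S y σ e = 0
      · simp [h2]
      · rw [if_pos ((hy' σ e h2 a).1 h)]
    rw [h1, sub_sub_cancel, PS_apply, PS_apply, bx_update haS, tS_insert_s haS h]
    rw [if_congr (bx_insert_ne (by rw [h]; decide) e) rfl rfl]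
    by_cases h3 : y (tS S (Function.update σ a Ch.t)) e = 0
    · simp [h3]
    · have h4 := (hy _ _ h3 a).2 (by simp [tS, haS])
      by_cases h5 : 0 ≤ e.1 a <;> by_cases h6 : bx ρ S σ e <;> simp [h4, h5, h6]
  · -- `t`
    rw [pa_t _ h]
    have h1 : (if e.1 a < 0 ∧ e.1 a ≤ e.2 - 1 - ρ a then PS ρ S y (Function.update σ a Ch.s) e
        else 0) = 0 := by
      by_cases h2 : PS ρ S y (Function.update σ a Ch.s) e = 0
      · simp [h2]
      · have h3 := (hy' _ _ h2 a).1 (by simp)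
        rw [if_neg (by omega)]
    rw [h1, sub_zero, PS_apply, PS_apply, tS_insert_ne (by rw [h]; decide)]
    rw [if_congr (bx_insert_ne (by rw [h]; decide) e) rfl rfl]
    by_cases h3 : bx ρ S σ e
    · by_cases h4 : y (tS S σ) e = 0
      · simp [h4]
      · have h5 := (hy' σ e (by rw [PS_apply, if_pos h3]; exact h4) a).2 h
        by_cases h6 : 0 ≤ e.1 a
        · have h7 : ¬ (e.1 a < 0) := by omega
          simp [h3, h5, h6, h7]
        · have h7 : e.1 a < 0 := by omega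
          simp [h3, h5, h6, h7]
    · simp [h3]
  · -- `st`
    rw [pa_st _ h, PS_apply, PS_apply, tS_insert_ne (by rw [h]; decide)]
    rw [if_congr (bx_insert_st h e) rfl rfl]
    by_cases h3 : bx ρ S σ e
    · by_cases h6 : 0 ≤ e.1 a
      · have h7 : ¬ (e.1 a < 0) := by omega
        simp [h3, h6, h7]
      · have h7 : e.1 a < 0 := by omega
        by_cases h8 : e.1 a ≤ e.2 - 1 - ρ a
        · have h9 : ¬ (e.2 - 1 - ρ a < e.1 a) := by omega
          simp [h3, h6, h7, h8, h9]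
        · have h9 : e.2 - 1 - ρ a < e.1 a := by omega
          simp [h3, h6, h7, h8, h9]
    · simp [h3]


/-- homogeneous cochains of degree `j`, internal degree `k`. -/
noncomputable def Cl (A : Type u) [CommRing A] (W : Type v) [AddCommGroup W] [Module A W]
    (ρ : Fin n → ℤ) (k j : ℤ) : Submodule A (VV W n) :=
  Gr j (fun σ => WS A W (cs ρ σ ∩ {e | e.2 = k}))

lemma Cl_sup {ρ : Fin n → ℤ} {k j : ℤ} {y : VV W n} (hy : y ∈ Cl A W ρ k j) : Sup' ρ y := by
  intro σ e he
  by_cases h : cnt σ = j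
  · exact ((hy σ).1 h (Finsupp.mem_support_iff.2 he)).1
  · rw [(hy σ).2 h] at he; exact absurd rfl he

lemma Cl_deg {ρ : Fin n → ℤ} {k j : ℤ} {y : VV W n} (hy : y ∈ Cl A W ρ k j) {σ : Fin n → Ch}
    {e : Ex n} (he : y σ e ≠ 0) : cnt σ = j ∧ e.2 = k := by
  by_cases h : cnt σ = j
  · exact ⟨h, ((hy σ).1 h (Finsupp.mem_support_iff.2 he)).2⟩
  · rw [(hy σ).2 h] at he; exact absurd rfl he

lemma mem_Cl_of {ρ : Fin n → ℤ} {k j : ℤ} {y : VV W n}
    (h : ∀ σ e, y σ e ≠ 0 → cnt σ = j ∧ e.2 = k ∧ e ∈ cs ρ σ) : y ∈ Cl A W ρ k j := by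
  intro σ
  refine ⟨fun _ e he => ?_, fun hc => ?_⟩
  · have := h σ e (Finsupp.mem_support_iff.1 he)
    exact ⟨this.2.2, this.2.1⟩
  · ext e
    by_contra hne
    exact hc (h σ e hne).1

lemma dC_Cl {ρ : Fin n → ℤ} {k j : ℤ} {y : VV W n} (hy : y ∈ Cl A W ρ k j) :
    dC A (WL W n) n y ∈ Cl A W ρ k (j + 1) :=
  dC_mem (fun _ _ h c => WS_mono (Set.inter_subset_inter_left _ (cs_update_subset ρ h c))) hy

lemma ha_Cl {ρ : Fin n → ℤ} {k j : ℤ} (a : Fin n) {y : VV W n} (hy : y ∈ Cl A W ρ k j) :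
    ha A W ρ a y ∈ Cl A W ρ k (j - 1) := by
  refine mem_Cl_of fun σ e he => ?_
  have hs := Cl_sup hy
  unfold ha at he
  rw [Op_apply, sum_Ch] at he
  cases h : σ a
  · rw [h] at he
    simp only [hm, LinearMap.zero_apply, zero_add] at he
    have h1 : y (Function.update σ a Ch.st) e ≠ 0 ∧ 0 ≤ e.1 a := by
      by_contra hcon
      apply he
      rw [Finsupp.smul_apply, flt_apply]
      by_cases h2 : 0 ≤ e.1 a
      · rw [if_pos h2]
        have h3 : y (Function.update σ a Ch.st) e = 0 := by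
          by_contra h4; exact hcon ⟨h4, h2⟩
        rw [h3, smul_zero]
      · rw [if_neg h2, smul_zero]
    obtain ⟨h2, h3⟩ := Cl_deg hy h1.1
    rw [cnt_update' (by rw [h]; decide)] at h2
    refine ⟨by omega, h3, ?_⟩
    intro l
    have h4 := hs _ _ h1.1 l
    by_cases hl : l = a
    · subst hl
      rw [h]
      exact ⟨fun _ => h1.2, fun h5 => by simp at h5⟩
    · rwa [Function.update_of_ne hl] at h4
  · rw [h] at he
    simp only [hm, LinearMap.zero_apply, zero_add, LinearMap.neg_apply] at he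
    have h1 : y (Function.update σ a Ch.st) e ≠ 0 ∧ (e.1 a < 0 ∧ e.1 a ≤ e.2 - 1 - ρ a) := by
      by_contra hcon
      apply he
      rw [Finsupp.smul_apply, Finsupp.neg_apply, flt_apply]
      by_cases h2 : e.1 a < 0 ∧ e.1 a ≤ e.2 - 1 - ρ a
      · rw [if_pos h2]
        have h3 : y (Function.update σ a Ch.st) e = 0 := by
          by_contra h4; exact hcon ⟨h4, h2⟩
        rw [h3, neg_zero, smul_zero]
      · rw [if_neg h2, neg_zero, smul_zero]
    obtain ⟨h2, h3⟩ := Cl_deg hy h1.1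
    rw [cnt_update' (by rw [h]; decide)] at h2
    refine ⟨by omega, h3, ?_⟩
    intro l
    have h4 := hs _ _ h1.1 l
    by_cases hl : l = a
    · subst hl
      rw [h]
      exact ⟨fun h5 => by simp at h5, fun _ => h1.2.2⟩
    · rwa [Function.update_of_ne hl] at h4
  · rw [h] at he
    simp [hm] at he

variable (X : Fin (n + 1) → A)

/-- `(X)`. -/
abbrev IX : Ideal A := Ideal.span (Set.range X)

variable {X}

lemma dC_ICl {ρ : Fin n → ℤ} {k j : ℤ} {y : VV W n} (hy : y ∈ IX X • Cl A W ρ k j) :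
    dC A (WL W n) n y ∈ IX X • Cl A W ρ k (j + 1) := by
  have h1 : (IX X • Cl A W ρ k j).map (dC A (WL W n) n) ≤ IX X • Cl A W ρ k (j + 1) := by
    rw [Submodule.map_smul'']
    refine smul_mono_right _ ?_
    rintro _ ⟨z, hz, rfl⟩
    exact dC_Cl hz
  exact h1 ⟨y, hy, rfl⟩

lemma ha_ICl {ρ : Fin n → ℤ} {k j : ℤ} (a : Fin n) {y : VV W n} (hy : y ∈ IX X • Cl A W ρ k j) :
    ha A W ρ a y ∈ IX X • Cl A W ρ k (j - 1) := by
  have h1 : (IX X • Cl A W ρ k j).map (ha A W ρ a) ≤ IX X • Cl A W ρ k (j - 1) := by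
    rw [Submodule.map_smul'']
    refine smul_mono_right _ ?_
    rintro _ ⟨z, hz, rfl⟩
    exact ha_Cl a hz
  exact h1 ⟨y, hy, rfl⟩

lemma PS_empty (ρ : Fin n → ℤ) (y : VV W n) : PS ρ ∅ y = y := by
  funext σ
  ext e
  have : tS (∅ : Finset (Fin n)) σ = σ := by
    funext l
    simp [tS]
  rw [PS_apply, if_pos (by intro l hl; simp at hl), this]

/-- **main homotopy lemma.** -/
lemma PS_main {ρ : Fin n → ℤ} {k : ℤ} (S : Finset (Fin n)) {j : ℤ} {y : VV W n}
    (hy : y ∈ Cl A W ρ k j) (hdy : dC A (WL W n) n y ∈ IX X • Cl A W ρ k (j + 1)) :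
    PS ρ S y ∈ Cl A W ρ k j ∧ dC A (WL W n) n (PS ρ S y) ∈ IX X • Cl A W ρ k (j + 1) ∧
      ∃ u ∈ Cl A W ρ k (j - 1), y - PS ρ S y - dC A (WL W n) n u ∈ IX X • Cl A W ρ k j := by
  induction S using Finset.induction_on with
  | empty =>
    rw [PS_empty]
    exact ⟨hy, hdy, 0, zero_mem _, by rw [map_zero, sub_self, sub_zero]; exact zero_mem _⟩
  | insert a S haS ih =>
    obtain ⟨h1, h2, u, hu, h3⟩ := ih
    have hstep := PS_step haS (Cl_sup hy) (A := A)
    have k1 : ha A W ρ a (PS ρ S y) ∈ Cl A W ρ k (j - 1) := ha_Cl a h1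
    have k2 : ha A W ρ a (dC A (WL W n) n (PS ρ S y)) ∈ IX X • Cl A W ρ k j := by
      have := ha_ICl a h2
      rwa [add_sub_cancel_right] at this
    have k3 : dC A (WL W n) n (ha A W ρ a (PS ρ S y)) ∈ Cl A W ρ k j := by
      have := dC_Cl k1
      rwa [sub_add_cancel] at this
    have k4 : ha A W ρ a (dC A (WL W n) n (PS ρ S y)) ∈ Cl A W ρ k j := Submodule.smul_le_right k2
    rw [← hstep]
    refine ⟨sub_mem h1 (add_mem k3 k4), ?_, u + ha A W ρ a (PS ρ S y), add_mem hu k1, ?_⟩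
    · rw [map_sub, map_add, dC_dC_apply, zero_add]
      exact sub_mem h2 (dC_ICl k2)
    · have e1 : y - (PS ρ S y - (dC A (WL W n) n (ha A W ρ a (PS ρ S y)) +
          ha A W ρ a (dC A (WL W n) n (PS ρ S y)))) - dC A (WL W n) n (u + ha A W ρ a (PS ρ S y)) =
          (y - PS ρ S y - dC A (WL W n) n u) + ha A W ρ a (dC A (WL W n) n (PS ρ S y)) := by
        rw [map_add]; abel
      rw [e1]
      exact add_mem h3 k2

/-! ### from `FF` to `Cl` -/

lemma exists_Gr_add {j : ℤ} {S S' : (Fin n → Ch) → Submodule A (WL W n)} {y : VV W n}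
    (hy : y ∈ Gr j (fun σ => S σ ⊔ S' σ)) : ∃ y0 ∈ Gr j S, ∃ y1 ∈ Gr j S', y = y0 + y1 := by
  have h : ∀ σ, ∃ a b : WL W n, (cnt σ = j → a ∈ S σ) ∧ (cnt σ = j → b ∈ S' σ) ∧
      (cnt σ ≠ j → a = 0) ∧ (cnt σ ≠ j → b = 0) ∧ y σ = a + b := by
    intro σ
    by_cases hc : cnt σ = j
    · obtain ⟨a, ha, b, hb, hab⟩ := Submodule.mem_sup.1 ((hy σ).1 hc)
      exact ⟨a, b, fun _ => ha, fun _ => hb, fun h => absurd hc h, fun h => absurd hc h, hab.symm⟩
    · exact ⟨0, 0, fun h => absurd h hc, fun h => absurd h hc, fun _ => rfl, fun _ => rfl, by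
        rw [(hy σ).2 hc, add_zero]⟩
  choose a b h1 h2 h3 h4 h5 using h
  exact ⟨a, fun σ => ⟨h1 σ, h3 σ⟩, b, fun σ => ⟨h2 σ, h4 σ⟩, funext h5⟩

lemma Bk_decomp (ρ : Fin n → ℤ) (k : ℤ) (σ : Fin n → Ch) :
    Bk X W ρ k σ ≤ WS A W (cs ρ σ ∩ {e | e.2 = k}) ⊔ Bk X W ρ (k + 1) σ := by
  refine sup_le ?_ ((RR_le_Bk ρ (k + 1) σ).trans le_sup_right)
  intro x hx
  have h1 : x = pr A W k x + (x - pr A W k x) := by abel
  rw [h1]
  refine Submodule.add_mem_sup ?_ (Submodule.mem_sup_left (sub_pr_mem hx))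
  refine WS_mono ?_ (pr_mem k hx)
  rintro e ⟨⟨h2, _⟩, h3⟩
  exact ⟨h2, h3⟩

lemma FF_decomp {ρ : Fin n → ℤ} {k j : ℤ} {y : VV W n} (hy : y ∈ FF X W ρ k j) :
    ∃ y0 ∈ Cl A W ρ k j, ∃ y1 ∈ FF X W ρ (k + 1) j, y = y0 + y1 :=
  exists_Gr_add (Gr_mono (fun σ => Bk_decomp ρ k σ) hy)

lemma smul_Gr_le {I : Ideal A} {j : ℤ} {S : (Fin n → Ch) → Submodule A (WL W n)} :
    I • Gr j S ≤ Gr j (fun σ => I • S σ) := by
  intro y hy σ
  have h1 : y σ ∈ I • (Gr j S).map (LinearMap.proj (R := A) (φ := fun _ : Fin n → Ch => WL W n) σ) := by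
    rw [← Submodule.map_smul'']
    exact ⟨y, hy, rfl⟩
  refine ⟨fun hc => ?_, fun hc => ?_⟩
  · refine (smul_mono_right I ?_ : _ ≤ I • S σ) h1
    rintro _ ⟨z, hz, rfl⟩
    exact (hz σ).1 hc
  · have h2 : (Gr j S).map (LinearMap.proj (R := A) (φ := fun _ : Fin n → Ch => WL W n) σ) = ⊥ := by
      rw [eq_bot_iff]
      rintro _ ⟨z, hz, rfl⟩
      exact (hz σ).2 hc
    rw [h2, Submodule.smul_bot] at h1
    exact h1

lemma Gr_smul_le {I : Ideal A} {j : ℤ} {S : (Fin n → Ch) → Submodule A (WL W n)} :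
    Gr j (fun σ => I • S σ) ≤ I • Gr j S := by
  intro y hy
  have h1 : y = ∑ σ, Pi.single σ (y σ) := (Finset.univ_sum_single y).symm
  rw [h1]
  refine Submodule.sum_mem _ fun σ _ => ?_
  by_cases hc : cnt σ = j
  · have h2 := (hy σ).1 hc
    have h3 : (I • S σ).map (LinearMap.single A (fun _ : Fin n → Ch => WL W n) σ) ≤ I • Gr j S := by
      rw [Submodule.map_smul'']
      refine smul_mono_right _ ?_
      rintro _ ⟨z, hz, rfl⟩ τ
      by_cases h : τ = σ
      · subst h
        refine ⟨fun _ => ?_, fun h4 => absurd hc h4⟩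
        rw [LinearMap.coe_single, Pi.single_eq_same]; exact hz
      · refine ⟨fun _ => ?_, fun _ => ?_⟩
        · rw [LinearMap.coe_single, Pi.single_eq_of_ne h]; exact zero_mem _
        · rw [LinearMap.coe_single, Pi.single_eq_of_ne h]
    exact h3 ⟨_, h2, rfl⟩
  · rw [(hy σ).2 hc, Pi.single_zero]; exact zero_mem _

lemma ICl_le_FF {ρ : Fin n → ℤ} {k j : ℤ} : IX X • Cl A W ρ k j ≤ FF X W ρ (k + 1) j := by
  refine smul_Gr_le.trans (Gr_mono fun σ => ?_)
  refine (smul_mono_right _ ?_ : _ ≤ IX X • Bk X W ρ k σ).trans (I_smul_Bk ρ k σ)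
  refine (WS_mono ?_).trans le_sup_left
  rintro e ⟨h1, h2⟩
  exact ⟨h1, le_of_eq (Eq.symm h2)⟩

lemma Cl_le_FF {ρ : Fin n → ℤ} {k j : ℤ} : Cl A W ρ k j ≤ FF X W ρ k j := by
  refine Gr_mono fun σ => (WS_mono ?_).trans le_sup_left
  rintro e ⟨h1, h2⟩
  exact ⟨h1, le_of_eq (Eq.symm h2)⟩

/-- (K1) for cochains. -/
lemma Cl_inf_FF (hH : H1 X W) {ρ : Fin n → ℤ} {k j : ℤ} {y : VV W n} (hy : y ∈ Cl A W ρ k j)
    (hy' : y ∈ FF X W ρ (k + 1) j) : y ∈ IX X • Cl A W ρ k j := by
  refine Gr_smul_le fun σ => ⟨fun hc => ?_, fun hc => (hy σ).2 hc⟩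
  exact lead hH (cs_stable ρ σ) ((hy σ).1 hc) ((hy' σ).1 hc)

lemma dC_FF {ρ : Fin n → ℤ} {k j : ℤ} {y : VV W n} (hy : y ∈ FF X W ρ k j) :
    dC A (WL W n) n y ∈ FF X W ρ k (j + 1) :=
  dC_mem (fun σ l h c => Bk_update_le ρ k σ l h c) hy

lemma dC_ZZ {ρ : Fin n → ℤ} {j : ℤ} {y : VV W n} (hy : y ∈ ZZ X W ρ j) :
    dC A (WL W n) n y ∈ ZZ X W ρ (j + 1) :=
  dC_mem (fun _ _ h c => RR_mono (cs_update_subset ρ h c)) hy

lemma FF_anti {ρ : Fin n → ℤ} {k k' j : ℤ} (h : k ≤ k') : FF X W ρ k' j ≤ FF X W ρ k j :=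
  Gr_mono fun σ => Bk_anti ρ h σ

/-- harmonic cochains live in degree `J` only. -/
lemma cnt_of_bx {ρ : Fin n → ℤ} {σ : Fin n → Ch} {e : Ex n} (h : bx ρ univ σ e) :
    (∀ l, σ l = Ch.st ↔ e.2 < ρ l) := by
  intro l
  have := h l (mem_univ l)
  constructor
  · intro h1
    have := this.1 h1
    omega
  · intro h1
    by_contra h2
    have := this.2 h2
    omega

lemma cnt_eq_Jd0 {ρ : Fin n → ℤ} {σ : Fin n → Ch} {k : ℤ} (h : ∀ l, σ l = Ch.st ↔ k < ρ l) :
    cnt σ = Jd0 ρ k := by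
  unfold cnt Jd0
  congr 2
  ext l
  simp [h l]

/-- field `piece_null`. -/
theorem piece_null (hH : H1 X W) (ρ : Fin n → ℤ) (k j : ℤ) (hj : j ≠ Jd0 ρ k) (y : VV W n)
    (hy : y ∈ FF X W ρ k j) (hdy : dC A (WL W n) n y ∈ FF X W ρ (k + 1) (j + 1)) :
    ∃ y' ∈ FF X W ρ k (j - 1), y - dC A (WL W n) n y' ∈ FF X W ρ (k + 1) j := by
  obtain ⟨y0, h0, y1, h1, rfl⟩ := FF_decomp hy
  have h2 : dC A (WL W n) n y0 ∈ FF X W ρ (k + 1) (j + 1) := by
    have : dC A (WL W n) n y0 = dC A (WL W n) n (y0 + y1) - dC A (WL W n) n y1 := by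
      rw [map_add]; abel
    rw [this]
    exact sub_mem hdy (dC_FF h1)
  have h3 := Cl_inf_FF hH (dC_Cl h0) h2
  obtain ⟨h4, _, u, hu, h5⟩ := PS_main (X := X) univ h0 h3
  have h6 : PS ρ univ y0 = 0 := by
    funext σ
    ext e
    by_contra hne
    obtain ⟨h7, h8⟩ := Cl_deg h4 hne
    rw [PS_apply] at hne
    have hb : bx ρ univ σ e := by
      by_contra hb
      rw [if_neg hb] at hne
      exact hne rfl
    have h9 := cnt_eq_Jd0 (cnt_of_bx hb)
    rw [h8] at h9
    exact hj (h7.symm.trans h9)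
  rw [h6, sub_zero] at h5
  refine ⟨u, Cl_le_FF hu, ?_⟩
  have : y0 + y1 - dC A (WL W n) n u = (y0 - dC A (WL W n) n u) + y1 := by abel
  rw [this]
  exact add_mem (ICl_le_FF h5) h1

end piece

end Crest.Agent.R183.KF
private theorem rz_70a786a4ad : type_of% @_root_.Crest.Agent.R183.KF.hm.eq_1 := @_root_.Crest.Agent.R183.KF.hm.eq_1 -- L34
end

-- ▼ part R183/KLen
section

set_option autoImplicit false

namespace Crest.Agent.R183.KF

open Finset
open scoped Classical ENNReal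

universe u v

section len

variable {A : Type u} [CommRing A] {W : Type v} [AddCommGroup W] [Module A W] {n : ℕ}

/-- index type of the box. -/
abbrev BT (ρ : Fin n → ℤ) (k : ℤ) : Type := (l : Fin n) → Fin ((k - ρ l).natAbs)

lemma card_BT (ρ : Fin n → ℤ) (k : ℤ) : Fintype.card (BT ρ k) = rk ρ k := by
  rw [Fintype.card_pi]
  simp only [Fintype.card_fin]
  rfl

/-- exponents of the box. -/
def bval {ρ : Fin n → ℤ} {k : ℤ} (b : BT ρ k) : Fin n → ℤ :=
  fun l => if k < ρ l then ((b l : ℕ) : ℤ) - (ρ l - k) else ((b l : ℕ) : ℤ)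

lemma bval_lt {ρ : Fin n → ℤ} {k : ℤ} (b : BT ρ k) {l : Fin n} (h : k < ρ l) :
    bval b l < 0 ∧ k - 1 - ρ l < bval b l := by
  have := (b l).2
  unfold bval
  rw [if_pos h]
  omega

lemma bval_ge {ρ : Fin n → ℤ} {k : ℤ} (b : BT ρ k) {l : Fin n} (h : ¬ k < ρ l) :
    0 ≤ bval b l ∧ bval b l ≤ k - 1 - ρ l := by
  have := (b l).2
  unfold bval
  rw [if_neg h]
  omega

lemma bval_inj {ρ : Fin n → ℤ} {k : ℤ} : Function.Injective (bval (ρ := ρ) (k := k)) := by
  intro b b' h
  funext l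
  have := congrFun h l
  unfold bval at this
  apply Fin.ext
  split_ifs at this <;> omega

lemma exists_bval {ρ : Fin n → ℤ} {k : ℤ} {j : Fin n → ℤ}
    (h : ∀ l, (k < ρ l → j l < 0 ∧ k - 1 - ρ l < j l) ∧ (¬ k < ρ l → 0 ≤ j l ∧ j l ≤ k - 1 - ρ l)) :
    ∃ b : BT ρ k, bval b = j := by
  refine ⟨fun l => ⟨(if k < ρ l then j l + (ρ l - k) else j l).toNat, ?_⟩, ?_⟩
  · have := h l
    split_ifs with h1
    · have := this.1 h1
      omega
    · have := this.2 h1
      omega
  · funext l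
    have := h l
    unfold bval
    split_ifs with h1
    · have := this.1 h1
      dsimp only
      rw [if_pos h1]
      omega
    · have := this.2 h1
      dsimp only
      rw [if_neg h1]
      omega

/-- the condition on the charts. -/
def cond (ρ : Fin n → ℤ) (k : ℤ) (σ : Fin n → Ch) : Prop := ∀ l, σ l = Ch.st ↔ k < ρ l

/-- the reference chart. -/
noncomputable def sstar (ρ : Fin n → ℤ) (k : ℤ) : Fin n → Ch := fun l => if k < ρ l then Ch.st else Ch.t

lemma cond_sstar (ρ : Fin n → ℤ) (k : ℤ) : cond ρ k (sstar ρ k) := by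
  intro l
  unfold sstar
  split_ifs with h <;> simp [h]

variable (A W) in
/-- harmonic cochains. -/
noncomputable def Th (ρ : Fin n → ℤ) (k : ℤ) : (BT ρ k → W) →ₗ[A] VV W n :=
  LinearMap.pi fun σ => if cond ρ k σ then
    ∑ b : BT ρ k, (Finsupp.lsingle (bval b, k)) ∘ₗ LinearMap.proj b else 0

lemma Th_apply_pos {ρ : Fin n → ℤ} {k : ℤ} (w : BT ρ k → W) {σ : Fin n → Ch} (h : cond ρ k σ) :
    Th A W ρ k w σ = ∑ b : BT ρ k, Finsupp.single (bval b, k) (w b) := by
  unfold Th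
  rw [LinearMap.pi_apply, if_pos h, LinearMap.sum_apply]
  rfl

lemma Th_apply_neg {ρ : Fin n → ℤ} {k : ℤ} (w : BT ρ k → W) {σ : Fin n → Ch} (h : ¬ cond ρ k σ) :
    Th A W ρ k w σ = 0 := by
  unfold Th
  rw [LinearMap.pi_apply, if_neg h]
  rfl

lemma Th_eval {ρ : Fin n → ℤ} {k : ℤ} (w : BT ρ k → W) {σ : Fin n → Ch} (h : cond ρ k σ)
    (b : BT ρ k) : Th A W ρ k w σ (bval b, k) = w b := by
  rw [Th_apply_pos w h, Finsupp.finsetSum_apply, Finset.sum_eq_single b]
  · simp
  · intro b' _ hb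
    rw [Finsupp.single_eq_of_ne]
    intro h1
    apply hb
    apply bval_inj
    exact (congrArg Prod.fst h1).symm
  · intro h; exact absurd (mem_univ _) h

lemma Th_ne {ρ : Fin n → ℤ} {k : ℤ} {w : BT ρ k → W} {σ : Fin n → Ch} {e : Ex n}
    (h : Th A W ρ k w σ e ≠ 0) : cond ρ k σ ∧ ∃ b : BT ρ k, e = (bval b, k) := by
  by_cases hc : cond ρ k σ
  · refine ⟨hc, ?_⟩
    rw [Th_apply_pos w hc, Finsupp.finsetSum_apply] at h
    obtain ⟨b, _, hb⟩ := Finset.exists_ne_zero_of_sum_ne_zero h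
    refine ⟨b, ?_⟩
    by_contra hne
    rw [Finsupp.single_eq_of_ne hne] at hb
    exact hb rfl
  · rw [Th_apply_neg w hc] at h
    exact absurd rfl h

lemma Th_mem (ρ : Fin n → ℤ) (k : ℤ) (w : BT ρ k → W) :
    Th A W ρ k w ∈ Cl A W ρ k (Jd0 ρ k) := by
  refine mem_Cl_of fun σ e he => ?_
  obtain ⟨hc, b, rfl⟩ := Th_ne he
  refine ⟨cnt_eq_Jd0 hc, rfl, fun l => ?_⟩
  by_cases h : k < ρ l
  · have := (hc l).2 h
    rw [this]
    exact ⟨fun h => by simp at h, fun h => by simp at h⟩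
  · have := bval_ge b h
    exact ⟨fun _ => this.1, fun _ => this.2⟩

lemma Th_cocycle (ρ : Fin n → ℤ) (k : ℤ) (w : BT ρ k → W) :
    dC A (WL W n) n (Th A W ρ k w) = 0 := by
  funext σ
  rw [dC_apply]
  refine Finset.sum_eq_zero fun l _ => ?_
  rw [dl_apply]
  split_ifs with h
  · have h1 : cond ρ k (Function.update σ l Ch.s) ↔ cond ρ k (Function.update σ l Ch.t) := by
      refine forall_congr' fun x => ?_
      by_cases hx : x = l
      · subst hx; simp
      · rw [Function.update_of_ne hx, Function.update_of_ne hx]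
    by_cases h2 : cond ρ k (Function.update σ l Ch.s)
    · rw [Th_apply_pos w h2, Th_apply_pos w (h1.1 h2), sub_self, smul_zero]
    · rw [Th_apply_neg w h2, Th_apply_neg w (fun h3 => h2 (h1.2 h3)), sub_self, smul_zero]
  · rfl

/-- the harmonic projection of a homogeneous cochain. -/
lemma PS_univ {ρ : Fin n → ℤ} {k j : ℤ} {y : VV W n} (hy : y ∈ Cl A W ρ k j) :
    PS ρ univ y = Th A W ρ k (fun b => y (sstar ρ k) (bval b, k)) := by
  funext σ
  ext e
  rw [PS_apply]
  by_cases hc : cond ρ k σ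
  · have ht : tS univ σ = sstar ρ k := by
      funext l
      unfold tS sstar
      by_cases h : k < ρ l
      · rw [if_pos h, (hc l).2 h]; simp
      · rw [if_neg h]
        have h1 : σ l ≠ Ch.st := fun h2 => h ((hc l).1 h2)
        by_cases h2 : σ l = Ch.s
        · simp [h2]
        · cases h3 : σ l
          · exact absurd h3 h2
          · simp
          · exact absurd h3 h1
    rw [ht]
    by_cases hb : ∃ b : BT ρ k, e = (bval b, k)
    · obtain ⟨b, rfl⟩ := hb
      rw [Th_eval _ hc, if_pos]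
      intro l _
      refine ⟨fun h => ?_, fun h => ?_⟩
      · exact bval_lt b ((hc l).1 h)
      · exact bval_ge b (fun h1 => h ((hc l).2 h1))
    · have h0 : Th A W ρ k (fun b => y (sstar ρ k) (bval b, k)) σ e = 0 := by
        by_contra hne
        exact hb (Th_ne hne).2
      rw [h0]
      split_ifs with h1
      · by_contra hne
        obtain ⟨_, h3⟩ := Cl_deg hy hne
        apply hb
        obtain ⟨b, hb'⟩ := exists_bval (ρ := ρ) (k := k) (j := e.1) (fun l => by
          have h4 := h1 l (mem_univ l)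
          rw [h3] at h4
          exact ⟨fun h => h4.1 ((hc l).2 h), fun h => h4.2 (fun h5 => h ((hc l).1 h5))⟩)
        exact ⟨b, by rw [hb', ← h3]⟩
      · rfl
  · rw [Th_apply_neg _ hc]
    split_ifs with h1
    · show y (tS univ σ) e = 0
      by_contra hne
      obtain ⟨_, h3⟩ := Cl_deg hy hne
      apply hc
      have := cnt_of_bx h1
      rwa [h3] at this
    · rfl

variable {X : Fin (n + 1) → A}

lemma ICl_eval {ρ : Fin n → ℤ} {k j : ℤ} {y : VV W n} (hy : y ∈ IX X • Cl A W ρ k j)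
    (σ : Fin n → Ch) (e : Ex n) : y σ e ∈ IX X • (⊤ : Submodule A W) := by
  have h1 : (IX X • Cl A W ρ k j).map ((Finsupp.lapply e) ∘ₗ
      (LinearMap.proj (R := A) (φ := fun _ : Fin n → Ch => WL W n) σ)) ≤ IX X • (⊤ : Submodule A W) := by
    rw [Submodule.map_smul'']
    exact smul_mono_right _ le_top
  exact h1 ⟨y, hy, rfl⟩

lemma pi_smul_top {ι : Type} [Fintype ι] {I : Ideal A} {w : ι → W}
    (hw : ∀ i, w i ∈ I • (⊤ : Submodule A W)) : w ∈ I • (⊤ : Submodule A (ι → W)) := by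
  have h1 : w = ∑ i, Pi.single i (w i) := (Finset.univ_sum_single w).symm
  rw [h1]
  refine Submodule.sum_mem _ fun i _ => ?_
  have h3 : (I • (⊤ : Submodule A W)).map (LinearMap.single A (fun _ : ι => W) i) ≤
      I • (⊤ : Submodule A (ι → W)) := by
    rw [Submodule.map_smul'']
    exact smul_mono_right _ le_top
  exact h3 ⟨_, hw i, rfl⟩

/-- field `piece_len`. -/
theorem piece_len (Λ : AddLen.{u, v} A) (hH : H1 X W) (ρ : Fin n → ℤ) (k : ℤ) :
    Λ.rel ((FF X W ρ k (Jd0 ρ k - 1)).map (dC A (WL W n) n) ⊔ FF X W ρ (k + 1) (Jd0 ρ k))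
      (FF X W ρ k (Jd0 ρ k) ⊓ (FF X W ρ (k + 1) (Jd0 ρ k + 1)).comap (dC A (WL W n) n)) =
    rk ρ k * Λ.L (W ⧸ ((Ideal.span (Set.range X)) • (⊤ : Submodule A W))) := by
  set J := Jd0 ρ k with hJ
  set S := (FF X W ρ k (J - 1)).map (dC A (WL W n) n) ⊔ FF X W ρ (k + 1) J with hS
  set T := FF X W ρ k J ⊓ (FF X W ρ (k + 1) (J + 1)).comap (dC A (WL W n) n) with hT
  have h1 : T ≤ LinearMap.range (Th A W ρ k) ⊔ S := by
    rintro y ⟨hy, hdy⟩
    obtain ⟨y0, h0, y1, h1, rfl⟩ := FF_decomp hy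
    have h2 : dC A (WL W n) n y0 ∈ FF X W ρ (k + 1) (J + 1) := by
      have : dC A (WL W n) n y0 = dC A (WL W n) n (y0 + y1) - dC A (WL W n) n y1 := by
        rw [map_add]; abel
      rw [this]
      exact sub_mem hdy (dC_FF h1)
    have h3 := Cl_inf_FF hH (dC_Cl h0) h2
    obtain ⟨_, _, u, hu, h5⟩ := PS_main (X := X) univ h0 h3
    have h6 : y0 + y1 = PS ρ univ y0 + (dC A (WL W n) n u +
      ((y0 - PS ρ univ y0 - dC A (WL W n) n u) + y1)) := by abel
    rw [h6]
    refine Submodule.add_mem_sup ?_ (Submodule.add_mem_sup ⟨u, Cl_le_FF hu, rfl⟩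
      (add_mem (ICl_le_FF h5) h1))
    rw [PS_univ h0]
    exact ⟨_, rfl⟩
  have h2 : LinearMap.range (Th A W ρ k) ≤ T := by
    rintro _ ⟨w, rfl⟩
    refine ⟨Cl_le_FF (Th_mem ρ k w), ?_⟩
    show dC A (WL W n) n (Th A W ρ k w) ∈ FF X W ρ (k + 1) (J + 1)
    rw [Th_cocycle]; exact zero_mem _
  have h3 : T ⊔ S = LinearMap.range (Th A W ρ k) ⊔ S :=
    le_antisymm (sup_le h1 le_sup_right) (sup_le_sup_right h2 _)
  have h4 : S.comap (Th A W ρ k) = Submodule.pi Set.univ
      (fun _ : BT ρ k => (Ideal.span (Set.range X)) • (⊤ : Submodule A W)) := by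
    apply le_antisymm
    · intro w hw b _
      rw [Submodule.mem_comap] at hw
      obtain ⟨_, ⟨y, hy, rfl⟩, z, hz, hyz⟩ := Submodule.mem_sup.1 hw
      obtain ⟨y0, h0, y1, h1', rfl⟩ := FF_decomp hy
      have h0' : dC A (WL W n) n y0 ∈ Cl A W ρ k J := by
        have := dC_Cl h0; rwa [sub_add_cancel] at this
      have h1'' : dC A (WL W n) n y1 ∈ FF X W ρ (k + 1) J := by
        have := dC_FF h1'; rwa [sub_add_cancel] at this
      have h5 : Th A W ρ k w - dC A (WL W n) n y0 ∈ FF X W ρ (k + 1) J := by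
        rw [← hyz, map_add]
        have : dC A (WL W n) n y0 + dC A (WL W n) n y1 + z - dC A (WL W n) n y0 =
          dC A (WL W n) n y1 + z := by abel
        rw [this]
        exact add_mem h1'' hz
      have h6 := Cl_inf_FF hH (sub_mem (Th_mem ρ k w) h0') h5
      have h7 := ICl_eval h6 (sstar ρ k) (bval b, k)
      rw [Pi.sub_apply, Finsupp.sub_apply, Th_eval w (cond_sstar ρ k)] at h7
      have h8 : dC A (WL W n) n y0 (sstar ρ k) (bval b, k) = 0 := by
        rw [dC_apply, Finsupp.finsetSum_apply]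
        refine Finset.sum_eq_zero fun l _ => ?_
        rw [dl_apply]
        split_ifs with hl
        · have hkl : k < ρ l := (cond_sstar ρ k l).1 hl
          have hb := bval_lt b hkl
          rw [Finsupp.smul_apply, Finsupp.sub_apply]
          have e1 : y0 (Function.update (sstar ρ k) l Ch.s) (bval b, k) = 0 := by
            by_contra hne
            have := ((Cl_sup h0) _ _ hne l).1 (by simp)
            dsimp only at this
            omega
          have e2 : y0 (Function.update (sstar ρ k) l Ch.t) (bval b, k) = 0 := by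
            by_contra hne
            have := ((Cl_sup h0) _ _ hne l).2 (by simp)
            dsimp only at this
            omega
          rw [e1, e2, sub_zero, smul_zero]
        · rfl
      rw [h8, sub_zero] at h7
      exact h7
    · intro w hw
      rw [Submodule.mem_comap]
      refine Submodule.mem_sup_right (ICl_le_FF ?_)
      have h5 : w ∈ IX X • (⊤ : Submodule A (BT ρ k → W)) :=
        pi_smul_top fun i => (Submodule.mem_pi.1 hw) i (Set.mem_univ i)
      have h6 : (IX X • (⊤ : Submodule A (BT ρ k → W))).map (Th A W ρ k) ≤ IX X • Cl A W ρ k J := by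
        rw [Submodule.map_smul'']
        refine smul_mono_right _ ?_
        rintro _ ⟨z, _, rfl⟩
        exact Th_mem ρ k z
      exact h6 ⟨w, h5, rfl⟩
  rw [← Λ.rel_sup_right, h3, Λ.rel_sup_right, LinearMap.range_eq_map, ← Λ.rel_comap, h4, Λ.rel_top,
    Λ.L_congr (Submodule.quotientPi _), Λ.L_pi_const, card_BT]

end len

end Crest.Agent.R183.KF
end

-- ▼ part R183/KInst
section

set_option autoImplicit false

namespace Crest.Agent.R183.KF

open Finset
open scoped Classical ENNReal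

universe u v

section inst

variable {A : Type u} [CommRing A] {W : Type v} [AddCommGroup W] [Module A W] {n : ℕ}
variable {X : Fin (n + 1) → A}

/-- modulo relations, `Λ` acts through `A`. -/
lemma aeval_sub_mem {P : Set (Ex n)} (hP : Stable P) (p : Lam n) : ∀ z ∈ WS A W P,
    (MvPolynomial.aeval X p : A) • z - act A W (ev p) z ∈ RR X W P := by
  induction p using MvPolynomial.induction_on with
  | C a =>
    intro z _
    have h1 : act A W (ev (MvPolynomial.C a : Lam n)) z = a • z := by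
      rw [← MvPolynomial.algebraMap_eq, AlgHom.commutes, AlgHom.commutes]
      rfl
    rw [h1, ← MvPolynomial.algebraMap_eq, AlgHom.commutes, algebraMap_int_eq, eq_intCast,
      Int.cast_smul_eq_zsmul, sub_self]
    exact zero_mem _
  | add p q hp hq =>
    intro z hz
    have := add_mem (hp z hz) (hq z hz)
    rw [map_add, map_add, act_add_apply, add_smul]
    convert this using 1
    abel
  | mul_X p i hp =>
    intro z hz
    have h1 : th A i z ∈ WS A W P := th_mem (P := P) hP i hz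
    have h2 := hp _ h1
    have h3 := Submodule.smul_mem _ (MvPolynomial.aeval X p : A) (sub_th_mem (X := X) i hz)
    have h4 := add_mem h3 h2
    convert h4 using 1
    rw [map_mul, map_mul, act_mul_apply, MvPolynomial.aeval_X, ev_X, smul_sub, mul_smul]
    show _ - act A W (ev p) (th A i z) = _
    abel

/-- the roots of a staircase. -/
def rs (π : Fin n → ℕ) : Fin n → ℤ := fun l => -(π l : ℤ) - 1

/-- `BB` versus `BT`. -/
noncomputable def fB (π : Fin n → ℕ) : BB π ≃ BT (rs π) 0 :=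
  Equiv.piCongrRight fun l => finCongr (by unfold rs; omega)

lemma bval_fB {π : Fin n → ℕ} (b : BB π) : bval (fB π b) = bexp b := by
  funext l
  unfold bval bexp
  have h : ¬ ((0 : ℤ) < rs π l) := by unfold rs; omega
  rw [if_neg h]
  rfl

lemma cond_rs {π : Fin n → ℕ} {k : ℤ} (hk : 0 ≤ k) (χ : Fin n → Ch) :
    cond (rs π) k χ ↔ cnt χ = 0 := by
  unfold cond cnt
  have h : ∀ l, ¬ (k < rs π l) := by intro l; unfold rs; omega
  rw [Nat.cast_eq_zero, Finset.card_eq_zero, Finset.filter_eq_empty_iff]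
  simp [h]

lemma Jd0_rs {π : Fin n → ℕ} {k : ℤ} (hk : 0 ≤ k) : Jd0 (rs π) k = 0 := by
  unfold Jd0
  rw [Nat.cast_eq_zero, Finset.card_eq_zero, Finset.filter_eq_empty_iff]
  intro l _
  unfold rs; omega

lemma bexp_mem {π : Fin n → ℕ} (b : BB π) (χ : Fin n → Ch) : (bexp b, (0 : ℤ)) ∈ cs (rs π) χ := by
  intro l
  have := (b l).2
  refine ⟨fun _ => ?_, fun _ => ?_⟩
  · show (0 : ℤ) ≤ (b l : ℕ)
    omega
  · show ((b l : ℕ) : ℤ) ≤ 0 - 1 - rs π l
    unfold rs; omega

/-- reduction of a monomial of a staircase to the basis. -/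
lemma single_reduce {π : Fin n → ℕ} {k : ℕ} {j : Fin n → ℤ} {c : BB π → Lam n}
    (hc : Phi c = mo j k) {P : Set (Ex n)} (hP : Stable P) (hb : ∀ b : BB π, (bexp b, (0 : ℤ)) ∈ P)
    (w : W) : Finsupp.single (j, (k : ℤ)) w -
      ∑ b, Finsupp.single (bexp b, (0 : ℤ)) ((MvPolynomial.aeval X (c b) : A) • w) ∈ RR X W P := by
  have h1 : Finsupp.single (j, (k : ℤ)) w = act A W (Phi c) (Finsupp.single 0 w) := by
    rw [hc, act_mo, sh_single, add_zero]
  have h2 : act A W (Phi c) (Finsupp.single 0 w) =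
      ∑ b, act A W (ev (c b)) (Finsupp.single (bexp b, (0 : ℤ)) w) := by
    rw [Phi_apply, act_sum_apply]
    refine Finset.sum_congr rfl fun b _ => ?_
    rw [act_mul_apply, act_mo, sh_single, add_zero]
  rw [h1, h2, ← Finset.sum_sub_distrib]
  refine Submodule.sum_mem _ fun b _ => ?_
  have h3 := neg_mem (aeval_sub_mem (X := X) hP (c b) _ (single_mem (A := A) (hb b) w))
  rw [neg_sub, Finsupp.smul_single] at h3
  exact h3

/-- field `stair`. -/
theorem stair_field (hH : H1 X W) (σ : Equiv.Perm (Fin n)) :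
    ∃ ψ : (Fin n.factorial → W) →ₗ[A] VV W n, ∀ ρ : Fin n → ℤ,
    (∀ l, ρ l = -((σ l : ℕ) : ℤ) - 1) → (∀ w, ψ w ∈ FF X W ρ 0 0) ∧
    (∀ w, dC A (WL W n) n (ψ w) = 0) ∧
    (∀ k : ℤ, 0 ≤ k → ∀ y ∈ FF X W ρ k 0, dC A (WL W n) n y ∈ FF X W ρ (k + 1) 1 →
      ∃ w, y - ψ w ∈ FF X W ρ (k + 1) 0) := by
  set π : Fin n → ℕ := fun l => (σ l : ℕ) with hπd
  have hπ : (univ : Finset (Fin n)).image π = Finset.range n := by
    ext i
    simp only [Finset.mem_image, Finset.mem_univ, true_and, Finset.mem_range, hπd]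
    constructor
    · rintro ⟨l, rfl⟩; exact (σ l).2
    · intro hi
      exact ⟨σ.symm ⟨i, hi⟩, by simp⟩
  let eB : BB π ≃ Fin n.factorial := Fintype.equivFinOfCardEq (card_BB hπ)
  refine ⟨Th A W (rs π) 0 ∘ₗ LinearMap.funLeft A W (fun t => eB ((fB π).symm t)), ?_⟩
  intro ρ hρ
  have hρ' : ρ = rs π := by
    funext l; rw [hρ]; rfl
  subst hρ'
  have hval : ∀ (w : Fin n.factorial → W) (χ : Fin n → Ch), cnt χ = 0 →
      Th A W (rs π) 0 (LinearMap.funLeft A W (fun t => eB ((fB π).symm t)) w) χ =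
        ∑ b : BB π, Finsupp.single (bexp b, (0 : ℤ)) (w (eB b)) := by
    intro w χ hχ
    rw [Th_apply_pos _ ((cond_rs le_rfl χ).2 hχ)]
    refine (Fintype.sum_equiv (fB π) _ _ fun b => ?_).symm
    rw [bval_fB, LinearMap.funLeft_apply, Equiv.symm_apply_apply]
  refine ⟨fun w => ?_, fun w => Th_cocycle _ _ _, ?_⟩
  · have := Cl_le_FF (X := X) (Th_mem (A := A) (rs π) 0
      (LinearMap.funLeft A W (fun t => eB ((fB π).symm t)) w))
    rw [Jd0_rs le_rfl] at this
    exact this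
  · intro k hk y hy hdy
    obtain ⟨y0, h0, y1, h1, rfl⟩ := FF_decomp hy
    have h2 : dC A (WL W n) n y0 ∈ FF X W (rs π) (k + 1) (0 + 1) := by
      have : dC A (WL W n) n y0 = dC A (WL W n) n (y0 + y1) - dC A (WL W n) n y1 := by
        rw [map_add]; abel
      rw [this]
      exact sub_mem hdy (dC_FF h1)
    have h3 := Cl_inf_FF hH (dC_Cl h0) h2
    obtain ⟨_, _, u, hu, h5⟩ := PS_main (X := X) univ h0 h3
    have hu0 : u = 0 := by
      unfold Cl at hu
      rw [Gr_eq_bot (Or.inl (by norm_num))] at hu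
      exact (Submodule.mem_bot A).1 hu
    rw [hu0, map_zero, sub_zero, PS_univ h0] at h5
    set w' : BT (rs π) k → W := fun b => y0 (sstar (rs π) k) (bval b, k) with hw'
    -- reduction of the box to the basis
    obtain ⟨kk, rfl⟩ : ∃ kk : ℕ, k = kk := ⟨k.toNat, by omega⟩
    have hmem : ∀ b : BT (rs π) (kk : ℤ), ∃ c : BB π → Lam n, Phi c = mo (bval b) kk := by
      intro b
      obtain ⟨c, _, hc⟩ := surj hπ (k := kk) (f := mo (bval b) kk) (mo_mem ⟨rfl, fun l => by
        have h4 : ¬ ((kk : ℤ) < rs π l) := by unfold rs; omega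
        have := bval_ge b h4
        refine ⟨this.1, this.2.trans ?_⟩
        unfold rs; omega⟩)
      exact ⟨c, hc⟩
    choose c hc using hmem
    refine ⟨fun i => ∑ b, (MvPolynomial.aeval X (c b (eB.symm i)) : A) • w' b, ?_⟩
    have key : Th A W (rs π) (kk : ℤ) w' - Th A W (rs π) 0 (LinearMap.funLeft A W
        (fun t => eB ((fB π).symm t)) (fun i => ∑ b, (MvPolynomial.aeval X (c b (eB.symm i)) : A) • w' b))
        ∈ ZZ X W (rs π) 0 := by
      intro χ
      rw [Pi.sub_apply]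
      refine ⟨fun hχ => ?_, fun hχ => ?_⟩
      · rw [hval _ χ hχ, Th_apply_pos _ ((cond_rs hk χ).2 hχ)]
        have e1 : ∑ b : BT (rs π) (kk : ℤ), Finsupp.single (bval b, (kk : ℤ)) (w' b) -
            ∑ b : BB π, Finsupp.single (bexp b, (0 : ℤ))
              (∑ b', (MvPolynomial.aeval X (c b' (eB.symm (eB b))) : A) • w' b') =
            ∑ b' : BT (rs π) (kk : ℤ), (Finsupp.single (bval b', (kk : ℤ)) (w' b') -
              ∑ b : BB π, Finsupp.single (bexp b, (0 : ℤ))
                ((MvPolynomial.aeval X (c b' b) : A) • w' b')) := by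
          rw [Finset.sum_sub_distrib, Finset.sum_comm]
          congr 1
          refine Finset.sum_congr rfl fun b _ => ?_
          rw [Equiv.symm_apply_apply, ← Finsupp.singleAddHom_apply, map_sum]
          rfl
        rw [e1]
        exact Submodule.sum_mem _ fun b' _ => single_reduce (hc b') (cs_stable _ χ)
          (fun b => bexp_mem b χ) _
      · rw [Th_apply_neg _ (fun h => hχ ((cond_rs hk χ).1 h)),
          Th_apply_neg _ (fun h => hχ ((cond_rs le_rfl χ).1 h)), sub_zero]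
    have hsum := add_mem (add_mem (ICl_le_FF h5) h1)
      ((Gr_mono fun σ => RR_le_Bk (X := X) (W := W) (rs π) ((kk : ℤ) + 1) σ :
        ZZ X W (rs π) 0 ≤ FF X W (rs π) ((kk : ℤ) + 1) 0) key)
    convert hsum using 1
    rw [LinearMap.comp_apply]
    abel

/-- **the instance**. -/
theorem pkg (Λ : AddLen.{u, v} A) (hH : H1 X W) :
    Pkg Λ W X (VV W n) (dC A (WL W n) n) (FF X W) (ZZ X W) where
  δδ := dC_dC
  δFF := by rintro ρ k j _ ⟨y, hy, rfl⟩; exact dC_FF hy
  δZZ := by rintro ρ j _ ⟨y, hy, rfl⟩; exact dC_ZZ hy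
  anti := fun ρ k j => FF_anti (by omega)
  ZZ_le := fun ρ k j => Gr_mono fun σ => RR_le_Bk ρ k σ
  neg := fun ρ k j hj => Gr_eq_bot (Or.inl hj) _
  gt := fun ρ k j hj => Gr_eq_bot (Or.inr hj) _
  raise := FF_raise
  piece_null := piece_null hH
  piece_len := piece_len Λ hH
  contr := contr
  aff := aff
  shift := shift
  stair := stair_field hH

end inst

end Crest.Agent.R183.KF
end

-- ▼ part R183/KT6

set_option autoImplicit false

namespace Crest.Agent.R183.KT

open KF Res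

universe u

theorem pkgHyp : PkgHyp.{u} := fun _ _ _ Λ _ _ _ X h =>
  ⟨_, _, _, _, _, _, pkg Λ (H1_of_kos X _ h)⟩

/-- **Theorem K.** -/
theorem kHyp (D : ℕ) (β : ℕ → ℕ) (hD : 0 < D) : Core.KHyp.{u} D β := kHyp_of_pkg pkgHyp D β hD

end Crest.Agent.R183.KT
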