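import Crest.Agent.R183.PC1
import Crest.Agent.R183.BInf2

-- ▼ part R183/PC2
section

set_option autoImplicit false
set_option linter.unusedSectionVars false

namespace Crest.Agent.R183.PC

open Module

universe u v w

section basic

variable (p : ℕ) [Fact p.Prime]

lemma pow_p_pow_inj {M : Type*} [CommRing M] [CharP M p] [PerfectRing M p] (n : ℕ) {x y : M}
    (h : x ^ p ^ n = y ^ p ^ n) : x = y := by
  apply (iterateFrobeniusEquiv M p n).injective
  rw [iterateFrobeniusEquiv_def, iterateFrobeniusEquiv_def, h]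

/-- the `p^n`-th root in a perfect ring -/
noncomputable def rt {M : Type*} [CommRing M] [CharP M p] [PerfectRing M p] (n : ℕ) : M ≃+* M :=
  (iterateFrobeniusEquiv M p n).symm

lemma rt_pow {M : Type*} [CommRing M] [CharP M p] [PerfectRing M p] (n : ℕ) (x : M) :
    (rt p n x) ^ p ^ n = x := by
  rw [rt, ← iterateFrobenius_def, ← iterateFrobeniusEquiv_apply, RingEquiv.apply_symm_apply]

lemma rt_unique {M : Type*} [CommRing M] [CharP M p] [PerfectRing M p] (n : ℕ) {x y : M}
    (h : y ^ p ^ n = x) : rt p n x = y :=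
  pow_p_pow_inj p n (by rw [rt_pow, h])

lemma rt_pow_self {M : Type*} [CommRing M] [CharP M p] [PerfectRing M p] (n : ℕ) (x : M) :
    rt p n (x ^ p ^ n) = x := rt_unique p n rfl

lemma rt_rt {M : Type*} [CommRing M] [CharP M p] [PerfectRing M p] (n m : ℕ) (x : M) :
    rt p n (rt p m x) = rt p (n + m) x := by
  symm
  apply rt_unique
  rw [pow_add, pow_mul, rt_pow, rt_pow]

lemma rt_add_pow {M : Type*} [CommRing M] [CharP M p] [PerfectRing M p] (n m : ℕ) (x : M) :
    rt p (n + m) x ^ p ^ m = rt p n x := by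
  rw [add_comm, ← rt_rt, rt_pow]

lemma rt_zero {M : Type*} [CommRing M] [CharP M p] [PerfectRing M p] (x : M) :
    rt p 0 x = x := rt_unique p 0 (by simp)

/-- relation in the perfect closure comes from a power. -/
lemma exists_pow_eq {T W : Type*} [CommRing T] [CommRing W] [CharP T p] [Algebra T W]
    [IsPRadical (algebraMap T W) p] {t t' : T} (h : algebraMap T W t = algebraMap T W t') :
    ∃ k, t ^ p ^ k = t' ^ p ^ k := by
  have h1 : t - t' ∈ RingHom.ker (algebraMap T W) := by
    rw [RingHom.mem_ker, map_sub, h, sub_self]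
  have h2 := IsPRadical.ker_le (algebraMap T W) p h1
  exact (sub_mem_pNilradical_iff_pow_expChar_pow_eq (p := p)).1 h2

omit [Fact p.Prime] in
/-- an element of the perfect closure has a `p^n`-power below, for all large `n`. -/
lemma exists_level {T W : Type*} [CommRing T] [CommRing W] [Algebra T W]
    [IsPRadical (algebraMap T W) p] (x : W) :
    ∃ n0, ∀ n, n0 ≤ n → ∃ t : T, algebraMap T W t = x ^ p ^ n := by
  obtain ⟨n0, t, ht⟩ := IsPRadical.pow_mem (algebraMap T W) p x
  refine ⟨n0, fun n hn => ?_⟩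
  obtain ⟨m, rfl⟩ := Nat.exists_eq_add_of_le hn
  exact ⟨t ^ p ^ m, by rw [map_pow, ht, ← pow_mul, ← pow_add]⟩

end basic

section ext

variable (p : ℕ) [Fact p.Prime]
variable {T : Type*} {B : Type*} (W : Type*) (Bi : Type*) [CommRing T] [CommRing B] [CommRing W]
  [CommRing Bi] [CharP T p] [CharP B p] [CharP W p] [CharP Bi p] [PerfectRing W p]
  [PerfectRing Bi p] [Algebra T W] [Algebra B Bi] [IsPRadical (algebraMap T W) p]

/-- the extension of a Frobenius-compatible map `T → B` to the perfect closures. -/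
noncomputable def ext (f : T → B) (x : W) : Bi :=
  rt p (IsPRadical.pow_mem (algebraMap T W) p x).choose
    (algebraMap B Bi (f (IsPRadical.pow_mem (algebraMap T W) p x).choose_spec.choose))

variable {W Bi}

omit [CharP B p] [CharP W p] [PerfectRing W p] in
lemma ext_spec (f : T → B) (hf : ∀ x, f (x ^ p) = f x ^ p) (x : W) (n : ℕ) (t : T)
    (h : algebraMap T W t = x ^ p ^ n) : (ext p W Bi f x) ^ p ^ n = algebraMap B Bi (f t) := by
  have hf' : ∀ (k : ℕ) (x : T), f (x ^ p ^ k) = f x ^ p ^ k := by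
    intro k
    induction k with
    | zero => simp
    | succ k ih => intro x; rw [pow_succ, pow_mul, hf, ih, ← pow_mul]
  set m := (IsPRadical.pow_mem (algebraMap T W) p x).choose with hm
  set t' := (IsPRadical.pow_mem (algebraMap T W) p x).choose_spec.choose with ht'
  have h' : algebraMap T W t' = x ^ p ^ m :=
    (IsPRadical.pow_mem (algebraMap T W) p x).choose_spec.choose_spec
  have e1 : algebraMap T W (t ^ p ^ m) = algebraMap T W (t' ^ p ^ n) := by
    rw [map_pow, map_pow, h, h', ← pow_mul, ← pow_mul, mul_comm]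
  obtain ⟨k, hk⟩ := exists_pow_eq p e1
  have e2 := congrArg f hk
  rw [hf', hf', hf', hf'] at e2
  have e3 : (ext p W Bi f x) ^ p ^ m = algebraMap B Bi (f t') := rt_pow p m _
  apply pow_p_pow_inj p (m + k)
  calc ((ext p W Bi f x) ^ p ^ n) ^ p ^ (m + k)
      = (((ext p W Bi f x) ^ p ^ m) ^ p ^ n) ^ p ^ k := by
        simp only [← pow_mul, pow_add]; congr 1; ring
    _ = algebraMap B Bi ((f t' ^ p ^ n) ^ p ^ k) := by rw [e3, map_pow, map_pow]
    _ = algebraMap B Bi ((f t ^ p ^ m) ^ p ^ k) := by rw [e2]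
    _ = _ := by rw [map_pow, map_pow, ← pow_mul, ← pow_add]

lemma ext_algebraMap (f : T → B) (hf : ∀ x, f (x ^ p) = f x ^ p) (t : T) :
    ext p W Bi f (algebraMap T W t) = algebraMap B Bi (f t) := by
  have := ext_spec p (W := W) (Bi := Bi) f hf (algebraMap T W t) 0 t (by simp)
  simpa using this


lemma ext_pow (f : T → B) (hf : ∀ x, f (x ^ p) = f x ^ p) (x : W) (m : ℕ) :
    ext p W Bi f (x ^ p ^ m) = (ext p W Bi f x) ^ p ^ m := by
  obtain ⟨n0, hn0⟩ := exists_level p (T := T) x
  obtain ⟨t, ht⟩ := hn0 (m + n0) (Nat.le_add_left _ _)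
  apply pow_p_pow_inj p n0
  rw [ext_spec p f hf (x ^ p ^ m) n0 t (by rw [ht, ← pow_mul, ← pow_add]), ← pow_mul, ← pow_add,
    ext_spec p f hf x (m + n0) t ht]

end ext

section trace

variable {p : ℕ} [Fact p.Prime]
variable {T : Type*} {B : Type*} (W : Type*) (Bi : Type*) [CommRing T] [CommRing B] [CommRing W]
  [CommRing Bi] [CharP T p] [CharP B p] [CharP W p] [CharP Bi p] [PerfectRing W p]
  [PerfectRing Bi p] [Algebra T W] [Algebra B Bi] [IsPRadical (algebraMap T W) p]
  [IsPRadical (algebraMap B Bi) p] [Algebra B T] [Algebra Bi W] [Algebra B W]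
  [IsScalarTower B Bi W] [IsScalarTower B T W]

namespace TrData

variable (D : TrData p B T)

/-- the trace on the perfect closure. -/
noncomputable def tauInf : W →ₗ[Bi] Bi where
  toFun := ext p W Bi D.τ
  map_add' := fun x y => by
    obtain ⟨n1, h1⟩ := exists_level p (T := T) x
    obtain ⟨n2, h2⟩ := exists_level p (T := T) y
    obtain ⟨t, ht⟩ := h1 (max n1 n2) (le_max_left _ _)
    obtain ⟨s, hs⟩ := h2 (max n1 n2) (le_max_right _ _)
    apply pow_p_pow_inj p (max n1 n2)
    rw [ext_spec p D.τ D.frob (x + y) _ (t + s) (by rw [map_add, ht, hs, add_pow_char_pow]),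
      add_pow_char_pow, ext_spec p D.τ D.frob x _ t ht, ext_spec p D.τ D.frob y _ s hs, map_add,
      map_add]
  map_smul' := fun b x => by
    obtain ⟨n1, h1⟩ := exists_level p (T := T) x
    obtain ⟨n2, h2⟩ := exists_level p (T := B) b
    obtain ⟨t, ht⟩ := h1 (max n1 n2) (le_max_left _ _)
    obtain ⟨s, hs⟩ := h2 (max n1 n2) (le_max_right _ _)
    apply pow_p_pow_inj p (max n1 n2)
    have e : algebraMap T W (s • t) = (b • x) ^ p ^ max n1 n2 := by
      rw [Algebra.smul_def, map_mul, ← IsScalarTower.algebraMap_apply B T W,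
        IsScalarTower.algebraMap_apply B Bi W, hs, ht, Algebra.smul_def, mul_pow, map_pow]
    rw [ext_spec p D.τ D.frob (b • x) _ (s • t) e, map_smul, smul_eq_mul, map_mul, hs,
      RingHom.id_apply, smul_eq_mul, mul_pow, ext_spec p D.τ D.frob x _ t ht]


lemma tauInf_pow (x : W) (m : ℕ) : D.tauInf W Bi (x ^ p ^ m) = (D.tauInf W Bi x) ^ p ^ m :=
  ext_pow p D.τ D.frob x m

lemma tauInf_algebraMap (t : T) :
    D.tauInf W Bi (algebraMap T W t) = algebraMap B Bi (D.τ t) :=
  ext_algebraMap p D.τ D.frob t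


/-- the dual identity at infinite level, with `p^e`-th roots. -/
lemma dual_inf (e : ℕ) (x : W) :
    ∑ j, D.tauInf W Bi (x * rt p e (algebraMap T W (D.w' j))) • rt p e (algebraMap T W (D.w j)) =
      rt p e (algebraMap B Bi D.δ) • x := by
  obtain ⟨n0, hn0⟩ := exists_level p (T := T) x
  obtain ⟨t, ht⟩ := hn0 n0 le_rfl
  apply pow_p_pow_inj p (e + n0)
  rw [sum_pow_char_pow, Algebra.smul_def, mul_pow, ← map_pow, pow_add, pow_mul, rt_pow]
  have hx : x ^ (p ^ e * p ^ n0) = algebraMap T W (t ^ p ^ e) := by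
    rw [map_pow, ht, ← pow_mul, mul_comm]
  have hx' : x ^ (p ^ (e + n0)) = algebraMap T W (t ^ p ^ e) := by
    rw [pow_add, hx]
  have key := congrArg (algebraMap T W) (D.dual n0 (t ^ p ^ e))
  rw [map_sum, Algebra.smul_def, map_mul, ← IsScalarTower.algebraMap_apply B T W, ← hx,
    IsScalarTower.algebraMap_apply B Bi W, map_pow] at key
  rw [← key]
  refine Finset.sum_congr rfl fun j _ => ?_
  rw [Algebra.smul_def, mul_pow, ← map_pow, ← pow_add, ← tauInf_pow, mul_pow, hx', pow_add,
    pow_mul (rt p e (algebraMap T W (D.w' j))), rt_pow, pow_mul (rt p e (algebraMap T W (D.w j))),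
    rt_pow, ← map_pow (algebraMap T W) (D.w' j), ← RingHom.map_mul, tauInf_algebraMap,
    Algebra.smul_def, RingHom.map_mul (algebraMap T W), ← IsScalarTower.algebraMap_apply B T W,
    IsScalarTower.algebraMap_apply B Bi W, RingHom.map_pow (algebraMap T W)]

end TrData

end trace

end Crest.Agent.R183.PC
end

-- ▼ part R183/PC3
section

set_option autoImplicit false
set_option linter.unusedSectionVars false

namespace Crest.Agent.R183.PC

open Module TensorProduct

section X

variable {p : ℕ} [Fact p.Prime]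
variable {T : Type*} {B : Type*} (W : Type*) (Bi : Type*) [CommRing T] [CommRing B] [CommRing W]
  [CommRing Bi] [CharP T p] [CharP B p] [CharP W p] [CharP Bi p] [PerfectRing W p]
  [PerfectRing Bi p] [Algebra T W] [Algebra B Bi] [IsPRadical (algebraMap T W) p]
  [IsPRadical (algebraMap B Bi) p] [Algebra B T] [Algebra Bi W] [Algebra B W]
  [IsScalarTower B Bi W] [IsScalarTower B T W]

namespace TrData

variable (D : TrData p B T)

/-- `δ^(1/p^e)` -/
noncomputable def dl (e : ℕ) : Bi := rt p e (algebraMap B Bi D.δ)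

lemma dl_add_pow (e m : ℕ) : D.dl Bi (e + m) ^ p ^ m = D.dl Bi e := rt_add_pow p e m _

lemma dl_zero : D.dl Bi 0 = algebraMap B Bi D.δ := rt_zero p _

lemma dl_dvd {e e' : ℕ} (h : e ≤ e') : D.dl Bi e' ∣ D.dl Bi e := by
  obtain ⟨m, rfl⟩ := Nat.exists_eq_add_of_le h
  rw [← D.dl_add_pow Bi e m]
  exact dvd_pow_self _ (pow_ne_zero _ (Fact.out : p.Prime).ne_zero)

lemma dl_sq_dvd {e : ℕ} : D.dl Bi (e + 1) ^ 2 ∣ D.dl Bi e := by
  rw [← D.dl_add_pow Bi e 1]
  exact pow_dvd_pow _ (by rw [pow_one]; exact (Fact.out : p.Prime).two_le)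

/-- `X = ⋃ δ^(1/p^e) W`. -/
noncomputable def X : Ideal W where
  carrier := {x | ∃ e : ℕ, algebraMap Bi W (D.dl Bi e) ∣ x}
  zero_mem' := ⟨0, dvd_zero _⟩
  add_mem' := by
    rintro x y ⟨e, hx⟩ ⟨e', hy⟩
    refine ⟨max e e', dvd_add ?_ ?_⟩
    · exact ((algebraMap Bi W).map_dvd (D.dl_dvd Bi (le_max_left _ _))).trans hx
    · exact ((algebraMap Bi W).map_dvd (D.dl_dvd Bi (le_max_right _ _))).trans hy
  smul_mem' := by
    rintro c x ⟨e, hx⟩
    exact ⟨e, hx.mul_left c⟩


lemma dl_mul_mem (e : ℕ) (x : W) : algebraMap Bi W (D.dl Bi e) * x ∈ D.X W Bi := ⟨e, dvd_mul_right _ _⟩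

/-- `δ^(1/p^e)` is a nonzerodivisor on `W` -/
lemma dl_reg (hδ : ∀ t : T, D.δ • t = 0 → t = 0) (e : ℕ) (x : W)
    (h : algebraMap Bi W (D.dl Bi e) * x = 0) : x = 0 := by
  have hδ' : ∀ (n : ℕ) (t : T), D.δ ^ n • t = 0 → t = 0 := by
    intro n
    induction n with
    | zero => intro t ht; simpa using ht
    | succ n ih => intro t ht; exact hδ t (ih _ (by rw [smul_smul, ← pow_succ]; exact ht))
  obtain ⟨n, t, ht⟩ := IsPRadical.pow_mem (algebraMap T W) p x
  have h1 : (algebraMap Bi W (D.dl Bi e) * x) ^ p ^ (e + n) =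
      algebraMap T W (D.δ ^ p ^ n • t ^ p ^ e) := by
    rw [mul_pow, ← map_pow, dl, pow_add, pow_mul, rt_pow, Algebra.smul_def, map_mul,
      ← IsScalarTower.algebraMap_apply B T W, IsScalarTower.algebraMap_apply B Bi W, map_pow,
      map_pow, map_pow (algebraMap T W), ht, ← pow_mul, mul_comm (p ^ e) (p ^ n)]
    congr 1
    rw [map_pow]
  rw [h, zero_pow (pow_ne_zero _ (Fact.out : p.Prime).ne_zero), ← map_zero (algebraMap T W)] at h1
  obtain ⟨k, hk⟩ := exists_pow_eq p h1
  rw [zero_pow (pow_ne_zero _ (Fact.out : p.Prime).ne_zero), smul_pow, ← pow_mul] at hk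
  have h2 := hδ' _ _ hk.symm
  rw [← pow_mul, ← pow_add] at h2
  have h3 : x ^ p ^ (n + (e + k)) = 0 := by
    rw [pow_add, pow_mul, ← ht, ← map_pow, h2, map_zero]
  exact pow_p_pow_inj p (n + (e + k))
    (by rw [h3, zero_pow (pow_ne_zero _ (Fact.out : p.Prime).ne_zero)])

/-- `X` is flat over the perfect closure of `B`. -/
theorem flat_X (hδ : ∀ t : T, D.δ • t = 0 → t = 0) : Module.Flat Bi (D.X W Bi) := by
  rw [Module.Flat.iff_forall_isTrivialRelation]
  intro l f x hfx
  -- a common level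
  have hlev : ∃ e : ℕ, ∀ i, ∃ y : W, (x i : W) = algebraMap Bi W (D.dl Bi e) * y := by
    choose e he using fun i => (x i).2
    refine ⟨Finset.univ.sup e, fun i => ?_⟩
    exact ((algebraMap Bi W).map_dvd (D.dl_dvd Bi (Finset.le_sup (Finset.mem_univ i)))).trans
      (he i)
  obtain ⟨e, hy⟩ := hlev
  obtain ⟨c, hc⟩ := D.dl_sq_dvd Bi (e := e)
  -- x i = dl (e+1)^2 * y' i
  have hy' : ∀ i, ∃ y : W, (x i : W) = algebraMap Bi W (D.dl Bi (e + 1)) *
      (algebraMap Bi W (D.dl Bi (e + 1)) * y) := by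
    intro i
    obtain ⟨y, hy⟩ := hy i
    exact ⟨algebraMap Bi W c * y, by rw [hy, hc, map_mul, map_pow]; ring⟩
  choose y hy using hy'
  refine ⟨D.r, fun i j => D.tauInf W Bi (y i * rt p (e + 1) (algebraMap T W (D.w' j))),
    fun j => ⟨algebraMap Bi W (D.dl Bi (e + 1)) * rt p (e + 1) (algebraMap T W (D.w j)),
      D.dl_mul_mem W Bi _ _⟩, fun i => ?_, fun j => ?_⟩
  · apply Subtype.ext
    rw [hy i]
    have := D.dual_inf W Bi (e + 1) (y i)
    rw [← dl, Algebra.smul_def] at this
    rw [← this]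
    simp only [AddSubmonoidClass.coe_finsetSum, Submodule.coe_smul_of_tower, Finset.mul_sum]
    refine Finset.sum_congr rfl fun j _ => ?_
    rw [Algebra.smul_def, Algebra.smul_def]
    ring
  · have h1 : ∑ i, f i • y i = 0 := by
      apply D.dl_reg W Bi hδ (e + 1)
      apply D.dl_reg W Bi hδ (e + 1)
      have := congrArg Subtype.val hfx
      simp only [AddSubmonoidClass.coe_finsetSum, Submodule.coe_smul_of_tower,
        ZeroMemClass.coe_zero] at this
      rw [← this, Finset.mul_sum, Finset.mul_sum]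
      refine Finset.sum_congr rfl fun i _ => ?_
      rw [hy i, Algebra.smul_def, Algebra.smul_def]
      ring
    have h2 : D.tauInf W Bi ((∑ i, f i • y i) * rt p (e + 1) (algebraMap T W (D.w' j))) = 0 := by
      rw [h1, zero_mul, map_zero]
    rw [Finset.sum_mul, map_sum] at h2
    rw [← h2]
    refine Finset.sum_congr rfl fun i _ => ?_
    rw [smul_mul_assoc, map_smul, smul_eq_mul]

/-- the ring map `T ⊗ Bi → W` -/
noncomputable def mu : T ⊗[B] Bi →ₐ[B] W :=
  Algebra.TensorProduct.lift (IsScalarTower.toAlgHom B T W) (IsScalarTower.toAlgHom B Bi W)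
    (fun _ _ => Commute.all _ _)

lemma mu_tmul (t : T) (b : Bi) : mu W Bi (t ⊗ₜ[B] b) = algebraMap T W t * algebraMap Bi W b := by
  simp [mu]

/-- the inverse up to `δ` -/
noncomputable def rho : W →+ T ⊗[B] Bi where
  toFun := fun x => ∑ j, D.w j ⊗ₜ[B] D.tauInf W Bi (x * algebraMap T W (D.w' j))
  map_zero' := by simp
  map_add' := fun x y => by
    simp only [add_mul, map_add, tmul_add, Finset.sum_add_distrib]

lemma mu_rho (x : W) : mu W Bi (D.rho W Bi x) = algebraMap Bi W (algebraMap B Bi D.δ) * x := by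
  have := D.dual_inf W Bi 0 x
  simp only [rt_zero] at this
  rw [Algebra.smul_def] at this
  rw [← this, rho, AddMonoidHom.coe_mk, ZeroHom.coe_mk, map_sum]
  refine Finset.sum_congr rfl fun j _ => ?_
  rw [mu_tmul, Algebra.smul_def, mul_comm]

lemma rho_mu (s : T ⊗[B] Bi) : D.rho W Bi (mu W Bi s) = D.δ • s := by
  induction s using TensorProduct.induction_on with
  | zero => rw [map_zero, map_zero, smul_zero]
  | add x y hx hy => rw [map_add, map_add, hx, hy, smul_add]
  | tmul t b =>
    have h0 : ∑ j, D.τ (t * D.w' j) • D.w j = D.δ • t := by simpa using D.dual 0 t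
    rw [mu_tmul, rho, AddMonoidHom.coe_mk, ZeroHom.coe_mk, smul_tmul', ← h0, sum_tmul]
    refine Finset.sum_congr rfl fun j _ => ?_
    rw [show algebraMap T W t * algebraMap Bi W b * algebraMap T W (D.w' j) =
      b • algebraMap T W (t * D.w' j) by rw [Algebra.smul_def, map_mul]; ring, map_smul,
      tauInf_algebraMap, smul_tmul, smul_eq_mul, Algebra.smul_def, mul_comm]

/-- cokernel of `T ⊗ Bi → W` is killed by `δ` -/
theorem exists_mu_eq (x : W) :
    ∃ s : T ⊗[B] Bi, mu W Bi s = algebraMap Bi W (algebraMap B Bi D.δ) * x :=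
  ⟨_, D.mu_rho W Bi x⟩

/-- kernel of `T ⊗ Bi → W` is killed by `δ` -/
theorem smul_eq_zero_of_mu_eq_zero (s : T ⊗[B] Bi) (h : mu W Bi s = 0) : D.δ • s = 0 := by
  rw [← D.rho_mu W Bi s, h, map_zero]

end TrData

end X

section amplifier

variable {p : ℕ} [Fact p.Prime]
variable {T : Type*} {W : Type*} [CommRing T] [CommRing W] [CharP T p] [CharP W p]
  [PerfectRing W p] [Algebra T W]

/-- **Amplifier in characteristic `p`.**  If `a^(c+1) ≤ (z) a^c` then the image of `a` in a perfect
ring lies in `(z^(1/q))^(q-c)`. -/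
theorem amplifier {ι : Type*} (a : Ideal T) (z : ι → T) (c : ℕ)
    (h : a ^ (c + 1) ≤ Ideal.span (Set.range z) * a ^ c) (e N : ℕ) (hN : N + c ≤ p ^ e) :
    a.map (algebraMap T W) ≤
      (Ideal.span (Set.range fun i => rt p e (algebraMap T W (z i)))) ^ N := by
  -- iterate the reduction
  have h1 : ∀ N, a ^ (c + N) ≤ Ideal.span (Set.range z) ^ N * a ^ c := by
    intro N
    induction N with
    | zero => simp
    | succ N ih =>
      calc a ^ (c + (N + 1)) = a ^ (c + N) * a := by rw [← add_assoc, pow_succ]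
        _ ≤ (Ideal.span (Set.range z) ^ N * a ^ c) * a := Ideal.mul_mono_left ih
        _ = Ideal.span (Set.range z) ^ N * a ^ (c + 1) := by rw [mul_assoc, ← pow_succ]
        _ ≤ Ideal.span (Set.range z) ^ N * (Ideal.span (Set.range z) * a ^ c) :=
          Ideal.mul_mono_right h
        _ = _ := by rw [← mul_assoc, ← pow_succ]
  rw [Ideal.map_le_iff_le_comap]
  intro x hx
  rw [Ideal.mem_comap]
  have hx1 : x ^ p ^ e ∈ Ideal.span (Set.range z) ^ N := by
    have h2 : a ^ (p ^ e) ≤ Ideal.span (Set.range z) ^ N := by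
      refine le_trans (Ideal.pow_le_pow_right (?_ : c + N ≤ p ^ e)) ((h1 N).trans Ideal.mul_le_left)
      rw [add_comm]
      exact hN
    exact h2 (Ideal.pow_mem_pow hx _)
  have hx2 : (algebraMap T W x) ^ p ^ e ∈
      Ideal.span (Set.range fun i => algebraMap T W (z i)) ^ N := by
    rw [← map_pow]
    have := Ideal.mem_map_of_mem (algebraMap T W) hx1
    rwa [Ideal.map_pow, Ideal.map_span, ← Set.range_comp] at this
  have hx3 := Ideal.mem_map_of_mem (rt (M := W) p e) hx2
  rw [Ideal.map_pow, Ideal.map_span, ← Set.range_comp, rt_pow_self] at hx3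
  exact hx3

end amplifier

end Crest.Agent.R183.PC
end

-- ▼ part R183/PC4

set_option autoImplicit false
set_option linter.unusedSectionVars false

namespace Crest.Agent.R183.PC

open Module

/-- `t` is a (finite) `p`-basis of the ring `B` of characteristic `p`, in the strong form: every
element is uniquely `∑ t^α b_α^p`, `0 ≤ α_i < p`. -/
structure PBasis (p : ℕ) {d : ℕ} {B : Type*} [CommRing B] (t : Fin d → B) : Prop where
  surj : ∀ x : B, ∃ b : (Fin d → Fin p) → B, x = ∑ α, (∏ i, t i ^ (α i : ℕ)) * b α ^ p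
  inj : ∀ b : (Fin d → Fin p) → B, ∑ α, (∏ i, t i ^ (α i : ℕ)) * b α ^ p = 0 → ∀ α, b α = 0

section PowerSeries

variable {d p : ℕ} [Fact p.Prime] {K : Type*} [Field K] [CharP K p]

local notation "PS" => MvPowerSeries (Fin d) K

lemma coeff_pow_char (b : PS) (m : Fin d →₀ ℕ) :
    MvPowerSeries.coeff (p • m) (b ^ p) = (MvPowerSeries.coeff m b) ^ p := by
  rw [← MvPowerSeries.map_frobenius_expand p (Fact.out : p.Prime).ne_zero (f := b),
    MvPowerSeries.coeff_map, MvPowerSeries.coeff_expand_smul, frobenius_def]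

lemma coeff_pow_char_of_not_dvd (b : PS) (m : Fin d →₀ ℕ) (i : Fin d) (h : ¬ p ∣ m i) :
    MvPowerSeries.coeff m (b ^ p) = 0 := by
  rw [← MvPowerSeries.map_frobenius_expand p (Fact.out : p.Prime).ne_zero (f := b),
    MvPowerSeries.coeff_map, MvPowerSeries.coeff_expand_of_not_dvd _ _ _ h, map_zero]

/-- `α` as a Finsupp -/
noncomputable def toF (α : Fin d → Fin p) : Fin d →₀ ℕ := Finsupp.equivFunOnFinite.symm fun i => (α i : ℕ)

lemma toF_apply (α : Fin d → Fin p) (i : Fin d) : toF α i = (α i : ℕ) := rfl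

lemma prod_X_pow (α : Fin d → Fin p) :
    (∏ i, (MvPowerSeries.X i : PS) ^ (α i : ℕ)) = MvPowerSeries.monomial (toF α) 1 := by
  rw [MvPowerSeries.monomial_eq', Finsupp.prod_fintype _ _ (fun i => by simp)]
  simp [toF_apply]

lemma coeff_sum (b : (Fin d → Fin p) → PS) (n : Fin d →₀ ℕ) (β : Fin d → Fin p) :
    MvPowerSeries.coeff (p • n + toF β)
      (∑ α, (∏ i, (MvPowerSeries.X i : PS) ^ (α i : ℕ)) * b α ^ p) =
      (MvPowerSeries.coeff n (b β)) ^ p := by
  rw [map_sum, Finset.sum_eq_single β]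
  · rw [prod_X_pow, MvPowerSeries.coeff_monomial_mul, if_pos (le_add_of_nonneg_left zero_le),
      one_mul, add_tsub_cancel_right, coeff_pow_char]
  · intro α _ hα
    rw [prod_X_pow, MvPowerSeries.coeff_monomial_mul]
    split_ifs with h
    · rw [one_mul]
      obtain ⟨i, hi⟩ : ∃ i, α i ≠ β i := by
        by_contra hc
        exact hα (funext fun i => by_contra fun h' => hc ⟨i, h'⟩)
      apply coeff_pow_char_of_not_dvd (b α) _ i
      intro hdvd
      obtain ⟨k, hk⟩ := hdvd
      have hle : (α i : ℕ) ≤ p * n i + (β i : ℕ) := by simpa [toF_apply] using h i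
      rw [Finsupp.tsub_apply, Finsupp.add_apply, Finsupp.smul_apply, smul_eq_mul, toF_apply,
        toF_apply] at hk
      apply hi
      apply Fin.ext
      have h1 : p * n i + (β i : ℕ) = p * k + (α i : ℕ) := by omega
      have h2 := congrArg (· % p) h1
      simp only [Nat.mul_add_mod, Nat.mod_eq_of_lt (β i).2, Nat.mod_eq_of_lt (α i).2] at h2
      exact h2.symm
    · rfl
  · intro h; exact absurd (Finset.mem_univ _) h

lemma exists_decomp (m : Fin d →₀ ℕ) : ∃ (n : Fin d →₀ ℕ) (β : Fin d → Fin p),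
    m = p • n + toF β := by
  refine ⟨Finsupp.equivFunOnFinite.symm fun i => m i / p, fun i => ⟨m i % p,
    Nat.mod_lt _ (Fact.out : p.Prime).pos⟩, ?_⟩
  ext i
  rw [Finsupp.add_apply, Finsupp.smul_apply, smul_eq_mul, toF_apply]
  exact (Nat.div_add_mod _ _).symm

/-- power series over a perfect field: the variables form a `p`-basis. -/
theorem pBasis_mvPowerSeries [PerfectRing K p] :
    PBasis p (fun i : Fin d => (MvPowerSeries.X i : PS)) where
  surj := by
    intro x
    let c : (Fin d → Fin p) → PS :=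
      fun β n => (frobeniusEquiv K p).symm (MvPowerSeries.coeff (p • n + toF β) x)
    refine ⟨c, ?_⟩
    ext m
    obtain ⟨n, β, rfl⟩ := exists_decomp (p := p) m
    rw [coeff_sum c n β]
    change _ = ((frobeniusEquiv K p).symm (MvPowerSeries.coeff (p • n + toF β) x)) ^ p
    rw [frobeniusEquiv_symm_pow_p]
  inj := by
    intro b hb β
    ext n
    have h := coeff_sum b n β
    rw [hb, map_zero] at h
    rw [map_zero]
    exact pow_eq_zero_iff (Fact.out : p.Prime).ne_zero |>.1 h.symm

end PowerSeries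

section perfect

open BInf

variable {d p : ℕ} [hp : Fact p.Prime] {B : Type*} [CommRing B] [CharP B p] (t : Fin d → B)

omit hp [CharP B p] in
lemma algebraMap_BInf_injective : Function.Injective (algebraMap B (BInf p t)) := by
  let z : Gam1 d p := ⟨0, fun i => by simp⟩
  have h1 : ∀ b : B, algebraMap B (BInf p t) b = b • basis p t z := by
    intro b
    rw [basis_apply]
    change _ = b • mon p t 0
    rw [mon_zero]
    exact (Algebra.algebraMap_eq_smul_one b)
  intro a b hab
  rw [h1, h1] at hab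
  have := congrArg (fun v => (basis p t).repr v z) hab
  simpa using this

instance charP_BInf : CharP (BInf p t) p :=
  charP_of_injective_algebraMap (algebraMap_BInf_injective t) p

/-- the Frobenius is surjective on `BInf`. -/
theorem frobenius_surjective (h : PBasis p t) : Function.Surjective (frobenius (BInf p t) p) := by
  have h1 : ∀ b : B, algebraMap B (BInf p t) b ∈ (frobenius (BInf p t) p).range := by
    intro b
    obtain ⟨c, hc⟩ := h.surj b
    rw [hc, map_sum]
    refine Subring.sum_mem _ fun α _ => ?_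
    rw [map_mul]
    refine Subring.mul_mem _ ?_ (RingHom.mem_range.2 ⟨algebraMap _ _ (c α), by
      rw [frobenius_def, map_pow]⟩)
    rw [map_prod]
    refine Subring.prod_mem _ fun i _ => ?_
    rw [map_pow]
    refine Subring.pow_mem _ (RingHom.mem_range.2 ⟨BInf.rt p t hp.out.pos 1 i, ?_⟩) _
    rw [frobenius_def, rt_succ_pow, BInf.rt_zero]
  have h2 : ∀ α : Gam d p, mon p t α ∈ (frobenius (BInf p t) p).range := by
    intro α
    obtain ⟨e, n, rfl⟩ := exists_ex p hp.out.pos α
    rw [mon_ex]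
    refine Subring.prod_mem _ fun i _ => Subring.pow_mem _
      (RingHom.mem_range.2 ⟨BInf.rt p t hp.out.pos (e + 1) i, ?_⟩) _
    rw [frobenius_def, rt_succ_pow]
  intro x
  have hx : x ∈ Submodule.span B (Set.range (basis p t)) := by rw [(basis p t).span_eq]; trivial
  change x ∈ (frobenius (BInf p t) p).range
  induction hx using Submodule.span_induction with
  | mem x hx =>
    obtain ⟨γ, rfl⟩ := hx
    rw [basis_apply]
    exact h2 _
  | zero => exact Subring.zero_mem _
  | add x y _ _ hx hy => exact Subring.add_mem _ hx hy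
  | smul b x _ hx =>
    have e : b • x = algebraMap B (BInf p t) b * x := Algebra.smul_def b x
    rw [e]
    exact Subring.mul_mem _ (h1 b) hx

/-- `x / p` as an exponent -/
noncomputable def dvp (x : NP p) : NP p := ⟨(x : ℚ≥0) / p, by
  obtain ⟨e, n, h⟩ := x.2
  refine ⟨e + 1, n, ?_⟩
  have hp0 : (p : ℚ≥0) ≠ 0 := by exact_mod_cast hp.out.ne_zero
  rw [pow_succ', ← mul_assoc, div_mul_cancel₀ _ hp0, h]⟩

lemma coe_dvp (x : NP p) : ((dvp x : NP p) : ℚ≥0) = (x : ℚ≥0) / p := rfl

/-- the exponent `(β + α)/p`. -/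
noncomputable def fj (β : Gam1 d p) (α : Fin d → Fin p) : Gam1 d p :=
  ⟨fun i => dvp ((β : Gam d p) i + ⟨(α i : ℕ), nat_mem_NP p _⟩), fun i => by
    have hp0 : (0 : ℚ≥0) < p := by exact_mod_cast hp.out.pos
    rw [coe_dvp, div_lt_one hp0, AddSubmonoid.coe_add]
    change ((β : Gam d p) i : ℚ≥0) + ((α i : ℕ) : ℚ≥0) < p
    have h1 := β.2 i
    have h2 : ((α i : ℕ) : ℚ≥0) + 1 ≤ p := by exact_mod_cast (α i).2
    calc ((β : Gam d p) i : ℚ≥0) + ((α i : ℕ) : ℚ≥0) < 1 + ((α i : ℕ) : ℚ≥0) :=
          by gcongr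
      _ ≤ p := by rw [add_comm]; exact h2⟩

lemma fj_eq_iff (β γ : Gam1 d p) (α : Fin d → Fin p) :
    fj β α = γ ↔ frG (p • (γ : Gam d p)) = β ∧ ∀ i, fl ((p • (γ : Gam d p)) i) = (α i : ℕ) := by
  have hp0 : (p : ℚ≥0) ≠ 0 := by exact_mod_cast hp.out.ne_zero
  have key : fj β α = γ ↔ p • (γ : Gam d p) = (β : Gam d p) + natG (fun i => (α i : ℕ)) := by
    constructor
    · rintro rfl
      funext i
      apply Subtype.ext
      rw [Pi.smul_apply, AddSubmonoidClass.coe_nsmul, nsmul_eq_mul]
      change (p : ℚ≥0) * ((((β : Gam d p) i + ⟨(α i : ℕ), nat_mem_NP p _⟩ : NP p) : ℚ≥0) / p) =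
        ((β : Gam d p) i : ℚ≥0) + ((α i : ℕ) : ℚ≥0)
      rw [mul_div_cancel₀ _ hp0]
      rfl
    · intro h
      apply Subtype.ext
      funext i
      apply Subtype.ext
      have h1 := congrArg Subtype.val (congrFun h i)
      rw [Pi.smul_apply, AddSubmonoidClass.coe_nsmul, nsmul_eq_mul] at h1
      change ((((β : Gam d p) i + ⟨(α i : ℕ), nat_mem_NP p _⟩ : NP p) : ℚ≥0) / p) = _
      rw [div_eq_iff hp0, mul_comm]
      exact h1.symm
  rw [key]
  constructor
  · intro h
    refine ⟨?_, fun i => ?_⟩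
    · rw [h, frG_add_natG']
      apply Subtype.ext
      funext i
      exact fr_of_lt_one _ (β.2 i)
    · rw [h, fl_add_natG, fl_of_lt_one _ (β.2 i), zero_add]
  · rintro ⟨h1, h2⟩
    rw [← frG_add_natG (p • (γ : Gam d p)), h1]
    congr 2
    funext i
    exact h2 i

/-- coordinates of a `p`-th power. -/
theorem repr_pow (x : BInf p t) (β : Gam1 d p) :
    (basis p t).repr (x ^ p) β =
      ∑ α : Fin d → Fin p, (∏ i, t i ^ (α i : ℕ)) * ((basis p t).repr x (fj β α)) ^ p := by
  classical
  have hx : x ∈ Submodule.span B (Set.range (basis p t)) := by rw [(basis p t).span_eq]; trivial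
  induction hx using Submodule.span_induction with
  | mem x hx =>
    obtain ⟨γ, rfl⟩ := hx
    have e1 : (basis p t γ) ^ p = (∏ i, t i ^ fl ((p • (γ : Gam d p)) i)) •
        basis p t (frG (p • (γ : Gam d p))) := by
      rw [basis_apply, basis_apply, ← mon_nsmul, mon_eq]
    rw [e1, map_smul, Finsupp.smul_apply, Basis.repr_self, Finsupp.single_apply]
    have e2 : ∀ α : Fin d → Fin p, ((basis p t).repr (basis p t γ) (fj β α)) =
        if fj β α = γ then 1 else 0 := by
      intro α
      rw [Basis.repr_self, Finsupp.single_apply]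
      simp only [eq_comm]
    simp only [e2]
    by_cases hβ : frG (p • (γ : Gam d p)) = β
    · rw [if_pos hβ]
      have hlt : ∀ i, fl ((p • (γ : Gam d p)) i) < p := by
        intro i
        have h1 := γ.2 i
        have h2 : ((fl ((p • (γ : Gam d p)) i) : ℕ) : ℚ≥0) < p := by
          refine lt_of_le_of_lt (fl_le _) ?_
          rw [Pi.smul_apply, AddSubmonoidClass.coe_nsmul, nsmul_eq_mul]
          calc (p : ℚ≥0) * ((γ : Gam d p) i : ℚ≥0) < p * 1 := by
                have hp0 : (0 : ℚ≥0) < p := by exact_mod_cast hp.out.pos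
                gcongr
            _ = p := mul_one _
        exact_mod_cast h2
      rw [Finset.sum_eq_single (fun i => (⟨fl ((p • (γ : Gam d p)) i), hlt i⟩ : Fin p))]
      · rw [if_pos ((fj_eq_iff β γ _).2 ⟨hβ, fun i => rfl⟩), one_pow, mul_one, smul_eq_mul, mul_one]
      · intro α _ hα
        rw [if_neg, zero_pow hp.out.ne_zero, mul_zero]
        intro h
        apply hα
        funext i
        exact Fin.ext (((fj_eq_iff β γ α).1 h).2 i).symm
      · intro h; exact absurd (Finset.mem_univ _) h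
    · rw [if_neg hβ, smul_zero]
      symm
      refine Finset.sum_eq_zero fun α _ => ?_
      rw [if_neg, zero_pow hp.out.ne_zero, mul_zero]
      intro h
      exact hβ ((fj_eq_iff β γ α).1 h).1
  | zero =>
    rw [zero_pow hp.out.ne_zero, map_zero]
    simp [zero_pow hp.out.ne_zero]
  | add x y _ _ hx hy =>
    rw [add_pow_char, map_add, Finsupp.add_apply, hx, hy, ← Finset.sum_add_distrib]
    refine Finset.sum_congr rfl fun α _ => ?_
    rw [map_add, Finsupp.add_apply, add_pow_char, mul_add]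
  | smul b x _ hx =>
    have e : b • x = algebraMap B (BInf p t) b * x := Algebra.smul_def b x
    have e' : (b • x) ^ p = b ^ p • x ^ p := by
      rw [e, mul_pow, ← map_pow]
      exact (Algebra.smul_def (b ^ p) (x ^ p)).symm
    rw [e', map_smul, Finsupp.smul_apply, hx, smul_eq_mul, Finset.mul_sum]
    refine Finset.sum_congr rfl fun α _ => ?_
    rw [map_smul, Finsupp.smul_apply, smul_eq_mul, mul_pow]
    ring

theorem frobenius_injective (h : PBasis p t) : Function.Injective (frobenius (BInf p t) p) := by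
  rw [injective_iff_map_eq_zero]
  intro x hx
  rw [frobenius_def] at hx
  apply (basis p t).repr.injective
  rw [map_zero]
  ext γ
  have h1 := repr_pow t x (frG (p • (γ : Gam d p)))
  rw [hx, map_zero, Finsupp.zero_apply] at h1
  have h2 := h.inj (fun α => (basis p t).repr x (fj (frG (p • (γ : Gam d p))) α)) h1.symm
  have hlt : ∀ i, fl ((p • (γ : Gam d p)) i) < p := by
    intro i
    have h1 := γ.2 i
    have h2 : ((fl ((p • (γ : Gam d p)) i) : ℕ) : ℚ≥0) < p := by
      refine lt_of_le_of_lt (fl_le _) ?_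
      rw [Pi.smul_apply, AddSubmonoidClass.coe_nsmul, nsmul_eq_mul]
      calc (p : ℚ≥0) * ((γ : Gam d p) i : ℚ≥0) < p * 1 := by
            have hp0 : (0 : ℚ≥0) < p := by exact_mod_cast hp.out.pos
            gcongr
        _ = p := mul_one _
    exact_mod_cast h2
  have h3 := h2 (fun i => ⟨fl ((p • (γ : Gam d p)) i), hlt i⟩)
  rw [(fj_eq_iff (frG (p • (γ : Gam d p))) γ _).2 ⟨rfl, fun i => rfl⟩] at h3
  exact h3

theorem perfectRing_BInf (h : PBasis p t) : PerfectRing (BInf p t) p :=
  ⟨frobenius_injective t h, frobenius_surjective t h⟩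

theorem isPRadical_BInf : IsPRadical (algebraMap B (BInf p t)) p where
  pow_mem' := by
    intro x
    have hx : x ∈ Submodule.span B (Set.range (basis p t)) := by rw [(basis p t).span_eq]; trivial
    induction hx using Submodule.span_induction with
    | mem x hx =>
      obtain ⟨γ, rfl⟩ := hx
      obtain ⟨e, n, hn⟩ := exists_ex p hp.out.pos (γ : Gam d p)
      refine ⟨e, ∏ i, t i ^ n i, ?_⟩
      rw [basis_apply, ← mon_nsmul, ← mon_natG]
      congr 1
      rw [hn]
      funext i
      apply Subtype.ext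
      rw [Pi.smul_apply, AddSubmonoidClass.coe_nsmul, nsmul_eq_mul]
      change (n i : ℚ≥0) = ((p ^ e : ℕ) : ℚ≥0) * ((n i : ℚ≥0) / (p : ℚ≥0) ^ e)
      push_cast
      rw [mul_div_cancel₀ _ (pe_ne p hp.out.pos e)]
    | zero => exact ⟨0, 0, by simp⟩
    | add x y _ _ hx hy =>
      obtain ⟨e, a, ha⟩ := hx
      obtain ⟨e', a', ha'⟩ := hy
      refine ⟨e + e', a ^ p ^ e' + a' ^ p ^ e, ?_⟩
      rw [map_add, map_pow, map_pow, ha, ha', add_pow_char_pow, ← pow_mul, ← pow_mul, ← pow_add,
        ← pow_add, add_comm e' e]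
    | smul b x _ hx =>
      obtain ⟨e, a, ha⟩ := hx
      refine ⟨e, b ^ p ^ e * a, ?_⟩
      have e1 : b • x = algebraMap B (BInf p t) b * x := Algebra.smul_def b x
      rw [e1, mul_pow, map_mul, ha, map_pow]
  ker_le' := by
    intro x hx
    have : x = 0 := algebraMap_BInf_injective t (by rw [(RingHom.mem_ker).1 hx, map_zero])
    rw [this]
    exact zero_mem _

end perfect

end Crest.Agent.R183.PC
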