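import Crest.Agent.R183.M2
import Crest.Agent.R183.Z1
import Crest.Agent.R183.Z2
import Mathlib.RingTheory.Ideal.GoingUp

-- ▼ part R183/Z3
section

set_option autoImplicit false

/-! # R183 block [8b]: the Hilbert-Samuel function of `K[[x_1..x_d]]` and of finite modules -/

namespace Crest.Agent.R183.Z

open IsLocalRing MvPowerSeries Crest.Agent.R183.M
open scoped Nat

/-- the set of exponents of degree `< N` -/
noncomputable def expo (d N : ℕ) : Finset (Fin d →₀ ℕ) :=
  (Finset.range N).biUnion fun j => Finset.univ.finsuppAntidiag j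

theorem mem_expo {d N : ℕ} {α : Fin d →₀ ℕ} : α ∈ expo d N ↔ α.degree < N := by
  unfold expo
  rw [Finset.mem_biUnion]
  constructor
  · rintro ⟨j, hj, hα⟩
    rw [Finset.mem_finsuppAntidiag] at hα
    rw [Finsupp.degree_eq_sum, hα.1]
    exact Finset.mem_range.1 hj
  · intro h
    refine ⟨α.degree, Finset.mem_range.2 h, ?_⟩
    rw [Finset.mem_finsuppAntidiag, Finsupp.degree_eq_sum]
    exact ⟨rfl, Finset.subset_univ _⟩

theorem card_expo (d N : ℕ) : (expo d N).card = hcount d N := by
  unfold expo hcount
  rw [Finset.card_biUnion]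
  · refine Finset.sum_congr rfl fun j _ => ?_
    rw [Finset.card_finsuppAntidiag_nat_eq_multichoose, Finset.card_univ, Fintype.card_fin]
  · intro i _ j _ hij
    rw [Function.onFun, Finset.disjoint_left]
    intro α h1 h2
    rw [Finset.mem_finsuppAntidiag] at h1 h2
    exact hij (h1.1.symm.trans h2.1)

section

variable {d : ℕ} {F : Type*} [Field F]

theorem maximalIdeal_eq_XI : maximalIdeal (MvPowerSeries (Fin d) F) = XI (Fin d) F := by
  ext f
  rw [IsLocalRing.mem_maximalIdeal, mem_nonunits_iff, MvPowerSeries.isUnit_iff_constantCoeff,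
    isUnit_iff_ne_zero, not_not]
  have h := mem_XI_pow_iff (σ := Fin d) (N := 1) (f := f)
  rw [pow_one] at h
  rw [h]
  constructor
  · intro h0 α hα
    have : α = 0 := by
      have : α.degree = 0 := by omega
      exact (Finsupp.degree_eq_zero_iff α).1 this
    rw [this]
    exact h0
  · intro h0
    exact h0 0 (by simp)

/-- restriction of the coefficients to the exponents of degree `< N` -/
noncomputable def coeffMap (d : ℕ) (F : Type*) [Field F] (N : ℕ) :
    MvPowerSeries (Fin d) F →ₗ[F] (expo d N → F) :=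
  LinearMap.pi fun α => coeff α.1

theorem coeffMap_surjective (N : ℕ) : Function.Surjective (coeffMap d F N) := by
  classical
  intro g
  refine ⟨fun α => if h : α ∈ expo d N then g ⟨α, h⟩ else 0, ?_⟩
  funext α
  change (if h : α.1 ∈ expo d N then g ⟨α.1, h⟩ else 0) = g α
  rw [dif_pos α.2]

theorem coeffMap_ker (N : ℕ) :
    LinearMap.ker (coeffMap d F N) = (XI (Fin d) F ^ N).restrictScalars F := by
  ext f
  rw [LinearMap.mem_ker, Submodule.restrictScalars_mem, mem_XI_pow_iff]
  constructor
  · intro h α hα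
    exact congrFun h ⟨α, mem_expo.2 hα⟩
  · intro h
    funext α
    exact h α.1 (mem_expo.1 α.2)

/-- `K[[x]]/(x)^N` as a vector space -/
noncomputable def quotEquiv (N : ℕ) :
    (MvPowerSeries (Fin d) F ⧸ (XI (Fin d) F ^ N)) ≃ₗ[F] (expo d N → F) :=
  (Submodule.Quotient.restrictScalarsEquiv F (XI (Fin d) F ^ N)).symm.trans
    ((Submodule.quotEquivOfEq _ _ (coeffMap_ker N).symm).trans
      ((coeffMap d F N).quotKerEquivOfSurjective (coeffMap_surjective N)))

theorem length_quot_XI_pow (N : ℕ) :
    Module.length F (MvPowerSeries (Fin d) F ⧸ (XI (Fin d) F ^ N)) = hcount d N := by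
  rw [(quotEquiv N).length_eq, Module.length_eq_finrank, Module.finrank_fintype_fun_eq_card,
    Fintype.card_coe, card_expo]

theorem residue_C_surjective :
    Function.Surjective (fun a : F => residue (MvPowerSeries (Fin d) F)
      (algebraMap F (MvPowerSeries (Fin d) F) a)) := by
  intro y
  obtain ⟨f, rfl⟩ := residue_surjective y
  refine ⟨constantCoeff f, ?_⟩
  change residue _ _ = residue _ _
  rw [← sub_eq_zero, ← map_sub, residue_eq_zero_iff, mem_maximalIdeal, mem_nonunits_iff,
    MvPowerSeries.isUnit_iff_constantCoeff, isUnit_iff_ne_zero, not_not, map_sub]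
  simp [MvPowerSeries.algebraMap_apply]

theorem hs_PS (N : ℕ) : hs (MvPowerSeries (Fin d) F) (MvPowerSeries (Fin d) F) N = hcount d N := by
  rw [hs_self, maximalIdeal_eq_XI, ← length_restrict_eq F residue_C_surjective,
    length_quot_XI_pow]
  rfl

end

end Crest.Agent.R183.Z
end

-- ▼ part R183/Z4
section

set_option autoImplicit false

/-! # R183 block [8b]: the Hilbert-Samuel function of finite modules over `K[[x_1..x_d]]` -/

namespace Crest.Agent.R183.Z

open IsLocalRing MvPowerSeries Crest.Agent.R183.M Filter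
open scoped Nat Topology

section general

variable {R : Type*} [CommRing R] [IsLocalRing R] [IsNoetherianRing R]

theorem exact_pi (R : Type*) [CommRing R] (ρ : ℕ) :
    ∃ (f : (Fin ρ → R) →ₗ[R] (Fin (ρ + 1) → R)) (g : (Fin (ρ + 1) → R) →ₗ[R] R),
      Function.Injective f ∧ Function.Exact f g ∧ Function.Surjective g := by
  let f : (Fin ρ → R) →ₗ[R] (Fin (ρ + 1) → R) :=
    LinearMap.pi (Fin.cases 0 (fun i => LinearMap.proj i))
  have f0 : ∀ x, f x 0 = 0 := fun x => rfl
  have fs : ∀ x i, f x (Fin.succ i) = x i := fun x i => rfl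
  refine ⟨f, LinearMap.proj 0, ?_, ?_, ?_⟩
  · intro x y h
    funext i
    rw [← fs x i, h, fs]
  · intro y
    constructor
    · intro h
      refine ⟨fun i => y i.succ, ?_⟩
      funext i
      refine Fin.cases ?_ ?_ i
      · rw [f0]
        exact h.symm
      · intro j
        rw [fs]
    · rintro ⟨x, rfl⟩
      exact f0 x
  · intro y
    exact ⟨fun _ => y, rfl⟩

theorem UBf_pi {D : ℕ} {c : ℝ} (h : UBf (hs R R) D c) (ρ : ℕ) :
    UBf (hs R (Fin ρ → R)) D (ρ * c) := by
  induction ρ with
  | zero =>
    have : hs R (Fin 0 → R) = fun _ => 0 := by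
      funext N
      unfold hs lenQ
      rw [Module.length_eq_zero]
      rfl
    rw [this]
    simpa using UBf.zero D
  | succ ρ ih =>
    obtain ⟨f, g, hf, hfg, hg⟩ := exact_pi R ρ
    have := UB_of_exact f g hfg hg ih h
    convert this using 1
    push_cast
    ring

theorem LBf_pi {D : ℕ} {c : ℝ} (h : LBf (hs R R) D c) (ρ : ℕ) :
    LBf (hs R (Fin ρ → R)) D (ρ * c) := by
  induction ρ with
  | zero =>
    simpa using LBf.zero _ D
  | succ ρ ih =>
    obtain ⟨f, g, hf, hfg, hg⟩ := exact_pi R ρ
    have := LB_of_exact f g hf hfg hg ih h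
    convert this using 1
    push_cast
    ring

/-- A finite module mapping to `R^ρ` with image containing `D e_i` has multiplicity `≥ ρ e(R)`. -/
theorem LBf_of_map [IsDomain R] {M : Type*} [AddCommGroup M] [Module R M] [Module.Finite R M]
    {ρ d : ℕ} {c : ℝ} (h : LBf (hs R R) d c) (ph : M →ₗ[R] (Fin ρ → R)) (D : R) (hD : D ≠ 0)
    (hph : ∀ i, ∃ m, ph m = Pi.single i D) : LBf (hs R M) d (ρ * c) := by
  classical
  have hmem : ∀ x : Fin ρ → R, D • x ∈ LinearMap.range ph := by
    intro x
    choose m hm using hph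
    refine ⟨∑ i, x i • m i, ?_⟩
    rw [map_sum]
    funext j
    rw [Finset.sum_apply, Finset.sum_eq_single j]
    · rw [map_smul, hm]
      simp [mul_comm]
    · intro i _ hij
      rw [map_smul, hm]
      simp [Pi.single_apply, hij.symm]
    · intro hj
      exact absurd (Finset.mem_univ j) hj
  let f : (Fin ρ → R) →ₗ[R] LinearMap.range ph :=
    LinearMap.codRestrict (LinearMap.range ph) (LinearMap.lsmul R (Fin ρ → R) D) hmem
  have hf : Function.Injective f := by
    intro x y hxy
    have h1 : D • x = D • y := congrArg Subtype.val hxy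
    funext i
    have h2 : D * x i = D * y i := congrFun h1 i
    exact mul_left_cancel₀ hD h2
  have hr : LBf (hs R (LinearMap.range ph)) d (ρ * c) := by
    have := LB_of_exact f (LinearMap.range f).mkQ hf (LinearMap.exact_map_mkQ_range f)
      (Submodule.mkQ_surjective _) (LBf_pi h ρ) (LBf.zero _ d)
    simpa using this
  refine hr.mono_left fun N => ?_
  have h1 := lenQ_of_surjective ph.rangeRestrict ph.surjective_rangeRestrict (maximalIdeal R ^ N)
  rw [← coe_hs, ← coe_hs] at h1
  exact_mod_cast h1

/-- A finite module with a map from `R^ρ` whose cokernel is killed by a nonzero `D` has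
multiplicity `≤ ρ e(R)`. -/
theorem UBf_of_map [IsDomain R] {M : Type*} [AddCommGroup M] [Module R M] [Module.Finite R M]
    {ρ d : ℕ} {c : ℝ} (hdim : ringKrullDim R ≤ d) (h : UBf (hs R R) d c)
    (ph : (Fin ρ → R) →ₗ[R] M) (D : R) (hD : D ≠ 0)
    (hph : ∀ m, D • m ∈ LinearMap.range ph) : UBf (hs R M) d (ρ * c) := by
  have h0 : UBf (hs R (M ⧸ LinearMap.range ph)) d 0 := by
    apply UB_of_supportDim_lt
    rcases subsingleton_or_nontrivial (M ⧸ LinearMap.range ph) with h1 | h1
    · rw [Module.supportDim_eq_bot_of_subsingleton]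
      exact WithBot.bot_lt_coe _
    · rw [Module.supportDim_eq_ringKrullDim_quotient_annihilator]
      have h2 : Ideal.span {D} ≤ Module.annihilator R (M ⧸ LinearMap.range ph) := by
        rw [Ideal.span_le, Set.singleton_subset_iff, SetLike.mem_coe, Module.mem_annihilator]
        intro m
        obtain ⟨m, rfl⟩ := Submodule.mkQ_surjective _ m
        rw [← map_smul]
        exact (Submodule.Quotient.mk_eq_zero _).2 (hph m)
      have h3 : ringKrullDim (R ⧸ Module.annihilator R (M ⧸ LinearMap.range ph)) ≤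
          ringKrullDim (R ⧸ Ideal.span {D}) :=
        ringKrullDim_le_of_surjective (Ideal.Quotient.factor h2) (Ideal.Quotient.factor_surjective h2)
      have h4 := ringKrullDim_quotient_succ_le_of_nonZeroDivisor (mem_nonZeroDivisors_of_ne_zero hD)
      refine lt_of_le_of_lt h3 ?_
      rcases h5 : ringKrullDim (R ⧸ Ideal.span {D}) with _ | a
      · exact WithBot.bot_lt_coe _
      · rw [h5] at h4
        have h6 : ((a + 1 : ℕ∞) : WithBot ℕ∞) ≤ ((d : ℕ∞) : WithBot ℕ∞) := h4.trans hdim
        have h7 : a + 1 ≤ (d : ℕ∞) := by exact_mod_cast h6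
        have h8 : a < (d : ℕ∞) := by
          have h9 : a ≠ ⊤ := by
            rintro rfl
            simp at h7
          exact lt_of_lt_of_le (ENat.lt_add_one_iff h9 |>.2 le_rfl) h7
        have : ((a : ℕ∞) : WithBot ℕ∞) < ((d : ℕ∞) : WithBot ℕ∞) := by exact_mod_cast h8
        exact this
  have := UB_of_exact ph (LinearMap.range ph).mkQ (LinearMap.exact_map_mkQ_range ph)
      (Submodule.mkQ_surjective _) (UBf_pi h ρ) h0
  simpa using this

end general

section PS

variable (d : ℕ) (F : Type*) [Field F]

theorem LBf_PS : LBf (hs (MvPowerSeries (Fin d) F) (MvPowerSeries (Fin d) F)) d 1 := by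
  intro ε hε
  filter_upwards [eventually_ge_atTop 1] with N hN
  rw [hs_PS]
  have h1 := pow_le_factorial_mul_hcount d N hN
  have h2 : ((N : ℝ)) ^ d ≤ (d ! : ℝ) * (hcount d N : ℝ) := by exact_mod_cast h1
  refine le_trans ?_ h2
  have h3 : 0 ≤ ε * (N : ℝ) ^ d := by positivity
  nlinarith

theorem UBf_PS : UBf (hs (MvPowerSeries (Fin d) F) (MvPowerSeries (Fin d) F)) d 1 := by
  intro ε hε
  have h3 := tendsto_shift_ratio d d
  filter_upwards [(tendsto_order.1 h3).2 (1 + ε) (by linarith), eventually_ge_atTop 1] with N h4 hN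
  rw [hs_PS]
  have h1 := factorial_mul_hcount_le d N
  have h2 : (d ! : ℝ) * (hcount d N : ℝ) ≤ (((N + d : ℕ) : ℝ)) ^ d := by exact_mod_cast h1
  refine le_trans h2 ?_
  have hN0 : (0 : ℝ) < (N : ℝ) ^ d := by
    have : (0 : ℝ) < N := by exact_mod_cast hN
    positivity
  rw [div_lt_iff₀ hN0] at h4
  exact h4.le

theorem ringKrullDim_PS_le : ringKrullDim (MvPowerSeries (Fin d) F) ≤ d := by
  refine (ringKrullDim_le_spanFinrank_maximalIdeal _).trans ?_
  rw [maximalIdeal_eq_XI]
  have : (XI (Fin d) F).spanFinrank ≤ d := by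
    unfold XI
    refine (Submodule.spanFinrank_span_le_ncard_of_finite (Set.finite_range _)).trans ?_
    rw [← Set.image_univ]
    refine (Set.ncard_image_le Set.finite_univ).trans ?_
    simp
  exact_mod_cast this

end PS

end Crest.Agent.R183.Z
end

-- ▼ part R183/Z5

set_option autoImplicit false

/-! # R183 block [8b]: finite local algebras over `K[[x_1..x_d]]` -/

namespace Crest.Agent.R183.Z

open IsLocalRing MvPowerSeries Crest.Agent.R183.M Filter
open scoped Nat Topology

/-- local ring criterion -/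
theorem isLocalRing_of_gen {B R' : Type*} [CommRing B] [IsLocalRing B] [CommRing R'] [Nontrivial R']
    [Algebra B R'] [Module.Finite B R'] (m : Ideal R')
    (h1 : ∀ r : R', ∃ b : B, r - algebraMap B R' b ∈ m) (k : ℕ)
    (h2 : m ^ k ≤ (maximalIdeal B).map (algebraMap B R'))
    (h3 : (maximalIdeal B).map (algebraMap B R') ≤ m) :
    ∃ _ : IsLocalRing R', maximalIdeal R' = m := by
  have key : ∀ M : Ideal R', M.IsMaximal → m ≤ M := by
    intro M hM
    have := Ideal.isMaximal_comap_of_isIntegral_of_isMaximal (R := B) M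
    have h4 : M.comap (algebraMap B R') = maximalIdeal B := IsLocalRing.eq_maximalIdeal this
    have h5 : (maximalIdeal B).map (algebraMap B R') ≤ M := by
      rw [Ideal.map_le_iff_le_comap, h4]
    exact hM.isPrime.le_of_pow_le (h2.trans h5)
  obtain ⟨M0, hM0⟩ := Ideal.exists_maximal R'
  have hmne : m ≠ ⊤ := fun h => hM0.ne_top (top_le_iff.1 (h ▸ key M0 hM0))
  have hmax : m.IsMaximal := by
    rw [Ideal.isMaximal_iff]
    refine ⟨fun h => hmne ((Ideal.eq_top_iff_one _).2 h), fun J x hJ hx hxJ => ?_⟩
    obtain ⟨b, hb⟩ := h1 x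
    have hbu : IsUnit b := by
      by_contra hb'
      have h6 : algebraMap B R' b ∈ m := h3 (Ideal.mem_map_of_mem _ hb')
      apply hx
      have := m.add_mem hb h6
      rwa [sub_add_cancel] at this
    have h7 : algebraMap B R' b ∈ J := by
      have := J.sub_mem hxJ (hJ hb)
      rwa [sub_sub_cancel] at this
    have h8 : IsUnit (algebraMap B R' b) := hbu.map _
    rw [← Ideal.eq_top_iff_one]
    exact Ideal.eq_top_of_isUnit_mem _ h7 h8
  have hloc : IsLocalRing R' := by
    refine IsLocalRing.of_unique_max_ideal ⟨m, hmax, fun M hM => ?_⟩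
    exact (hmax.eq_of_le hM.ne_top (key M hM)).symm
  exact ⟨hloc, (IsLocalRing.eq_maximalIdeal hmax).symm⟩

theorem lenQ_restrict_res {A R M : Type*} [CommRing A] [CommRing R] [IsLocalRing R] [Algebra A R]
    (hres : Function.Surjective (fun a : A => residue R (algebraMap A R a)))
    [AddCommGroup M] [Module R M] [Module A M] [IsScalarTower A R M] (J : Ideal A) :
    lenQ J M = lenQ (J.map (algebraMap A R)) M := by
  unfold lenQ
  have h1 : (J • ⊤ : Submodule A M) =
      ((J.map (algebraMap A R) • ⊤ : Submodule R M)).restrictScalars A := by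
    have := Ideal.smul_restrictScalars J (⊤ : Submodule R M)
    rw [this, Submodule.restrictScalars_top]
  rw [h1, (Submodule.Quotient.restrictScalarsEquiv A
    (J.map (algebraMap A R) • ⊤ : Submodule R M)).length_eq]
  exact length_restrict_eq A hres

section

variable {B R' : Type*} [CommRing B] [IsLocalRing B] [IsNoetherianRing B] [CommRing R']
  [IsLocalRing R'] [Algebra B R'] [Module.Finite B R']

omit [IsNoetherianRing B] [Module.Finite B R'] in
theorem pow_add_le {t : ℕ}
    (ht : maximalIdeal R' ^ (t + 1) ≤ (maximalIdeal B).map (algebraMap B R') * maximalIdeal R' ^ t)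
    (N : ℕ) :
    maximalIdeal R' ^ (N + t) ≤ ((maximalIdeal B).map (algebraMap B R')) ^ N := by
  have : ∀ N, maximalIdeal R' ^ (N + t) ≤
      ((maximalIdeal B).map (algebraMap B R')) ^ N * maximalIdeal R' ^ t := by
    intro N
    induction N with
    | zero => simp
    | succ N ih =>
      calc maximalIdeal R' ^ (N + 1 + t) = maximalIdeal R' * maximalIdeal R' ^ (N + t) := by
            rw [← pow_succ']; congr 1; omega
        _ ≤ maximalIdeal R' * (((maximalIdeal B).map (algebraMap B R')) ^ N * maximalIdeal R' ^ t) :=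
            Ideal.mul_mono_right ih
        _ = ((maximalIdeal B).map (algebraMap B R')) ^ N * maximalIdeal R' ^ (t + 1) := by ring
        _ ≤ ((maximalIdeal B).map (algebraMap B R')) ^ N *
            ((maximalIdeal B).map (algebraMap B R') * maximalIdeal R' ^ t) := Ideal.mul_mono_right ht
        _ = _ := by ring
  exact (this N).trans Ideal.mul_le_left


theorem hs_le_shift {t : ℕ} [IsNoetherianRing R']
    (hres : Function.Surjective (fun a : B => residue R' (algebraMap B R' a)))
    (ht : maximalIdeal R' ^ (t + 1) ≤ (maximalIdeal B).map (algebraMap B R') * maximalIdeal R' ^ t)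
    (N : ℕ) : hs B R' N ≤ hs R' R' (N + t) := by
  have h1 : lenQ (maximalIdeal B ^ N) R' ≤ lenQ (maximalIdeal R' ^ (N + t)) R' := by
    rw [lenQ_restrict_res hres, Ideal.map_pow]
    exact lenQ_mono (pow_add_le ht N)
  rw [← coe_hs, ← coe_hs] at h1
  exact_mod_cast h1

theorem hs_le_of_finite [IsNoetherianRing R']
    (hloc : (maximalIdeal B).map (algebraMap B R') ≤ maximalIdeal R') (N : ℕ) :
    hs R' R' N ≤ hs B R' N := by
  have h1 : lenQ (maximalIdeal R' ^ N) R' ≤ lenQ (maximalIdeal B ^ N) R' := by
    have h2 : ((maximalIdeal B).map (algebraMap B R')) ^ N ≤ maximalIdeal R' ^ N :=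
      Ideal.pow_right_mono hloc N
    refine (lenQ_mono h2).trans ?_
    rw [← Ideal.map_pow]
    unfold lenQ
    have h3 : (maximalIdeal B ^ N • ⊤ : Submodule B R') =
      (((maximalIdeal B ^ N).map (algebraMap B R') • ⊤ : Submodule R' R')).restrictScalars B := by
      have := Ideal.smul_restrictScalars (maximalIdeal B ^ N) (⊤ : Submodule R' R')
      rw [this, Submodule.restrictScalars_top]
    rw [h3, (Submodule.Quotient.restrictScalarsEquiv B
      ((maximalIdeal B ^ N).map (algebraMap B R') • ⊤ : Submodule R' R')).length_eq]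
    exact length_le_length_restrict B
  rw [← coe_hs, ← coe_hs] at h1
  exact_mod_cast h1

omit [IsNoetherianRing B] [Module.Finite B R'] in
/-- dimension bound from above -/
theorem ringKrullDim_le_of_minred {d : ℕ} [IsNoetherianRing R'] (x : Fin d → R') (k : ℕ)
    (hk : maximalIdeal R' ^ k ≤ Ideal.span (Set.range x)) (hx : ∀ i, x i ∈ maximalIdeal R') :
    ringKrullDim R' ≤ d := by
  have h0 : maximalIdeal R' ∈ (Ideal.span (Set.range x)).minimalPrimes := by
    refine ⟨⟨inferInstance, ?_⟩, ?_⟩
    · rw [Ideal.span_le]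
      rintro _ ⟨i, rfl⟩
      exact hx i
    · rintro P ⟨hP, hxP⟩ _
      exact hP.le_of_pow_le (hk.trans hxP)
  have h1 := Ideal.height_le_card_of_mem_minimalPrimes_span (Set.finite_range x) h0
  rw [← IsLocalRing.maximalIdeal_height_eq_ringKrullDim]
  have h2 : (Set.range x).ncard ≤ d := by
    rw [← Set.image_univ]
    refine (Set.ncard_image_le Set.finite_univ).trans ?_
    simp
  have h3 : (maximalIdeal R').height ≤ (d : ℕ∞) := h1.trans (by exact_mod_cast h2)
  exact WithBot.coe_le_coe.2 h3

omit [IsNoetherianRing B] [Module.Finite B R'] in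
/-- dimension bound from below -/
theorem le_ringKrullDim_of_LBf {d : ℕ} [IsNoetherianRing R'] {c : ℝ} (hc : 0 < c)
    (h : LBf (hs R' R') d c) : (d : WithBot ℕ∞) ≤ ringKrullDim R' := by
  by_contra hlt
  push Not at hlt
  have h1 : UBf (hs R' R') d 0 := by
    apply UB_of_supportDim_lt
    rw [Module.supportDim_self_eq_ringKrullDim]
    exact hlt
  exact absurd (h.le_of_UBf h1) (not_le.2 hc)

end

end Crest.Agent.R183.Z
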