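import Mathlib

-- ▼ part R183/PI2
section

set_option autoImplicit false
set_option linter.unusedSectionVars false

namespace Crest.Agent.R183.PI

open Module TensorProduct

universe u v w

section add

variable {Q : Type*} [CommRing Q] [IsDomain Q]

/-- additivity of the rank over a domain. -/
theorem finrank_add_of_exact {V₁ V₂ V₃ : Type*} [AddCommGroup V₁] [AddCommGroup V₂]
    [AddCommGroup V₃] [Module Q V₁] [Module Q V₂] [Module Q V₃] [Module.Finite Q V₂]
    (f : V₁ →ₗ[Q] V₂) (g : V₂ →ₗ[Q] V₃) (hf : Function.Injective f) (hg : Function.Surjective g)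
    (h : Function.Exact f g) : finrank Q V₂ = finrank Q V₁ + finrank Q V₃ := by
  have h1 := Submodule.finrank_quotient_add_finrank (LinearMap.range f)
  have h2 : finrank Q (LinearMap.range f) = finrank Q V₁ :=
    (LinearEquiv.ofInjective f hf).finrank_eq.symm
  have hk : LinearMap.ker g = LinearMap.range f := LinearMap.exact_iff.1 h
  have h3 : finrank Q (V₂ ⧸ LinearMap.range f) = finrank Q V₃ := by
    rw [← hk]
    exact (g.quotKerEquivOfSurjective hg).finrank_eq
  omega

end add

section rk

variable (Q : Type*) [CommRing Q] (H : Type*) [CommRing H] [Algebra Q H]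

/-- the rank over `Q` of a module over the `Q`-algebra `H`. -/
noncomputable def rk (V : Type*) [AddCommGroup V] [Module H V] : ℕ :=
  @finrank Q V _ _ (Module.compHom V (algebraMap Q H))

lemma rk_eq (V : Type*) [AddCommGroup V] [Module H V] [inst : Module Q V] [IsScalarTower Q H V] :
    rk Q H V = finrank Q V := by
  unfold rk
  congr 1
  refine Module.ext' _ _ fun a x => ?_
  exact algebraMap_smul H a x

variable {H}

lemma rk_congr {V W : Type*} [AddCommGroup V] [Module H V] [AddCommGroup W] [Module H W]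
    (e : V ≃ₗ[H] W) : rk Q H V = rk Q H W := by
  let _ : Module Q V := Module.compHom V (algebraMap Q H)
  let _ : Module Q W := Module.compHom W (algebraMap Q H)
  have _ : IsScalarTower Q H V := ⟨fun a c y => by rw [Algebra.smul_def, mul_smul]; rfl⟩
  have _ : IsScalarTower Q H W := ⟨fun a c y => by rw [Algebra.smul_def, mul_smul]; rfl⟩
  rw [rk_eq, rk_eq]
  exact (e.restrictScalars Q).finrank_eq

lemma rk_add [IsDomain Q] [Module.Finite Q H] {V₁ V₂ V₃ : Type*} [AddCommGroup V₁] [AddCommGroup V₂]
    [AddCommGroup V₃] [Module H V₁] [Module H V₂] [Module H V₃] [Module.Finite H V₂]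
    (f : V₁ →ₗ[H] V₂) (g : V₂ →ₗ[H] V₃) (hf : Function.Injective f) (hg : Function.Surjective g)
    (h : Function.Exact f g) : rk Q H V₂ = rk Q H V₁ + rk Q H V₃ := by
  let _ : Module Q V₁ := Module.compHom V₁ (algebraMap Q H)
  let _ : Module Q V₂ := Module.compHom V₂ (algebraMap Q H)
  let _ : Module Q V₃ := Module.compHom V₃ (algebraMap Q H)
  have _ : IsScalarTower Q H V₁ := ⟨fun a c y => by rw [Algebra.smul_def, mul_smul]; rfl⟩
  have _ : IsScalarTower Q H V₂ := ⟨fun a c y => by rw [Algebra.smul_def, mul_smul]; rfl⟩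
  have _ : IsScalarTower Q H V₃ := ⟨fun a c y => by rw [Algebra.smul_def, mul_smul]; rfl⟩
  have _ : Module.Finite Q V₂ := Module.Finite.trans H V₂
  rw [rk_eq, rk_eq, rk_eq]
  exact finrank_add_of_exact (f.restrictScalars Q) (g.restrictScalars Q) hf hg h

lemma rk_le_of_surjective [IsDomain Q] [Module.Finite Q H] {V W : Type*} [AddCommGroup V]
    [Module H V] [AddCommGroup W] [Module H W] [Module.Finite H V] (g : V →ₗ[H] W)
    (hg : Function.Surjective g) : rk Q H W ≤ rk Q H V := by
  have := rk_add Q (LinearMap.ker g).subtype g (Submodule.subtype_injective _) hg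
    (LinearMap.exact_subtype_ker_map g)
  omega

lemma rk_subsingleton (V : Type*) [AddCommGroup V] [Module H V] [Subsingleton V]
    [Nontrivial Q] : rk Q H V = 0 := by
  let _ : Module Q V := Module.compHom V (algebraMap Q H)
  have _ : IsScalarTower Q H V := ⟨fun a c y => by rw [Algebra.smul_def, mul_smul]; rfl⟩
  rw [rk_eq]
  exact Module.finrank_zero_of_subsingleton

end rk

section lemma1

variable {G : Type u} [CommRing G]
variable {Q H : Type*} [CommRing Q] [IsDomain Q] [CommRing H] [Algebra Q H]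
  [Module.Finite Q H] [Algebra G H] [Module.Flat G H]

omit [Module.Finite Q H] [IsDomain Q] [Module.Flat G H] in
lemma rk_tensor_congr {N N' : Type*} [AddCommGroup N] [Module G N] [AddCommGroup N'] [Module G N']
    (e : N ≃ₗ[G] N') : rk Q H (H ⊗[G] N) = rk Q H (H ⊗[G] N') :=
  rk_congr Q (TensorProduct.AlgebraTensorModule.congr (LinearEquiv.refl H H) e)

lemma rk_tensor_add {N₁ N₂ N₃ : Type*} [AddCommGroup N₁] [Module G N₁] [AddCommGroup N₂]
    [Module G N₂] [AddCommGroup N₃] [Module G N₃] [Module.Finite G N₂]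
    (f : N₁ →ₗ[G] N₂) (g : N₂ →ₗ[G] N₃) (hf : Function.Injective f) (hg : Function.Surjective g)
    (h : Function.Exact f g) :
    rk Q H (H ⊗[G] N₂) = rk Q H (H ⊗[G] N₁) + rk Q H (H ⊗[G] N₃) := by
  refine rk_add Q (TensorProduct.AlgebraTensorModule.lTensor H H f)
    (TensorProduct.AlgebraTensorModule.lTensor H H g) ?_ ?_ ?_
  · exact Module.Flat.lTensor_preserves_injective_linearMap f hf
  · exact LinearMap.lTensor_surjective H hg
  · exact lTensor_exact H h hg

/-- the rank of `H/DH` vanishes if `D` is a nonzerodivisor on a module. -/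
lemma rk_tensor_quotient_eq_zero (P p : Ideal G) [P.IsPrime] (hPp : P ≤ p) (D : G)
    (hD : D ∈ p) (hDP : D ∉ P) : rk Q H (H ⊗[G] (G ⧸ p)) = 0 := by
  let f : (G ⧸ P) →ₗ[G] (G ⧸ P) := LinearMap.lsmul G (G ⧸ P) D
  have hf : Function.Injective f := by
    rw [← LinearMap.ker_eq_bot, LinearMap.ker_eq_bot']
    intro x hx
    obtain ⟨x, rfl⟩ := Ideal.Quotient.mk_surjective x
    have h1 : Ideal.Quotient.mk P (D * x) = 0 := hx
    rw [Ideal.Quotient.eq_zero_iff_mem] at h1 ⊢
    exact (‹P.IsPrime›.mem_or_mem h1).resolve_left hDP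
  have h1 := rk_tensor_add (Q := Q) (H := H) f (LinearMap.range f).mkQ hf
    (Submodule.mkQ_surjective _) (LinearMap.exact_map_mkQ_range f)
  have h2 : rk Q H (H ⊗[G] ((G ⧸ P) ⧸ LinearMap.range f)) = 0 := by omega
  have hle : LinearMap.range f ≤ LinearMap.ker (Submodule.factor hPp) := by
    rintro _ ⟨x, rfl⟩
    obtain ⟨x, rfl⟩ := Ideal.Quotient.mk_surjective x
    rw [LinearMap.mem_ker]
    show (Submodule.Quotient.mk (D * x) : G ⧸ p) = 0
    exact (Submodule.Quotient.mk_eq_zero _).2 (p.mul_mem_right x hD)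
  let g : ((G ⧸ P) ⧸ LinearMap.range f) →ₗ[G] (G ⧸ p) :=
    (LinearMap.range f).liftQ (Submodule.factor hPp) hle
  have hg : Function.Surjective g := by
    intro y
    obtain ⟨x, rfl⟩ := Submodule.factor_surjective hPp y
    exact ⟨(LinearMap.range f).mkQ x, rfl⟩
  have h3 := rk_le_of_surjective Q (TensorProduct.AlgebraTensorModule.lTensor H H g)
    (LinearMap.lTensor_surjective H hg)
  omega

end lemma1

section main

variable {G : Type u} [CommRing G] [IsNoetherianRing G]
variable {Q H Q' H' : Type*} [CommRing Q] [IsDomain Q] [CommRing H] [Algebra Q H]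
  [Module.Finite Q H] [Algebra G H] [Module.Flat G H]
  [CommRing Q'] [IsDomain Q'] [CommRing H'] [Algebra Q' H']
  [Module.Finite Q' H'] [Algebra G H'] [Module.Flat G H']

/-- **the rank lemma**. -/
theorem rk_lemma (P : Ideal G) [P.IsPrime] (hP : ∀ x ∈ P, IsNilpotent x)
    (M : Type u) [AddCommGroup M] [Module G M] [hM : Module.Finite G M] :
    rk Q H (H ⊗[G] M) * rk Q' H' (H' ⊗[G] (G ⧸ P)) =
      rk Q' H' (H' ⊗[G] M) * rk Q H (H ⊗[G] (G ⧸ P)) := by
  induction hM using IsNoetherianRing.induction_on_isQuotientEquivQuotientPrime G with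
  | subsingleton N =>
    have : Subsingleton (H ⊗[G] N) := inferInstance
    have : Subsingleton (H' ⊗[G] N) := inferInstance
    rw [rk_subsingleton Q (H ⊗[G] N), rk_subsingleton Q' (H' ⊗[G] N), zero_mul, zero_mul]
  | quotient N p e =>
    rw [rk_tensor_congr (Q := Q) (H := H) e, rk_tensor_congr (Q := Q') (H := H') e]
    have hPp : P ≤ p.1 := by
      intro x hx
      obtain ⟨n, hn⟩ := hP x hx
      exact p.2.mem_of_pow_mem n (by rw [hn]; exact zero_mem _)
    by_cases hp : p.1 ≤ P
    · have : p.1 = P := le_antisymm hp hPp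
      rw [this]
      ring
    · obtain ⟨D, hD, hDP⟩ := Set.not_subset.1 hp
      rw [rk_tensor_quotient_eq_zero (Q := Q) (H := H) P p.1 hPp D hD hDP,
        rk_tensor_quotient_eq_zero (Q := Q') (H := H') P p.1 hPp D hD hDP, zero_mul, zero_mul]
  | exact N₁ N₂ N₃ f g hf hg hfg h₁ h₃ =>
    rw [rk_tensor_add (Q := Q) (H := H) f g hf hg hfg,
      rk_tensor_add (Q := Q') (H := H') f g hf hg hfg, add_mul, add_mul, h₁, h₃]

/-- **the rank lemma**, ring form. -/
theorem rank_lemma (P : Ideal G) [P.IsPrime] (hP : ∀ x ∈ P, IsNilpotent x) :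
    finrank Q H * finrank Q' (H' ⧸ P.map (algebraMap G H')) =
      finrank Q' H' * finrank Q (H ⧸ P.map (algebraMap G H)) := by
  have h1 := rk_lemma (Q := Q) (H := H) (Q' := Q') (H' := H') P hP G
  rw [rk_congr Q (TensorProduct.AlgebraTensorModule.rid G H H),
    rk_congr Q' (TensorProduct.AlgebraTensorModule.rid G H' H'),
    ← rk_congr Q (Algebra.TensorProduct.quotIdealMapEquivTensorQuot H P).toLinearEquiv,
    ← rk_congr Q' (Algebra.TensorProduct.quotIdealMapEquivTensorQuot H' P).toLinearEquiv,
    rk_eq, rk_eq, rk_eq, rk_eq] at h1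
  exact h1

end main

end Crest.Agent.R183.PI
end

-- ▼ part R183/PI3
section

set_option autoImplicit false
set_option linter.unusedSectionVars false

namespace Crest.Agent.R183.PI

open Module TensorProduct

universe u v w

section ker

variable {T S T1 S1 : Type*} [CommRing T] [CommRing S] [CommRing T1] [CommRing S1]
  [Algebra T S] [Algebra T T1] [Algebra S S1] [Algebra T1 S1] [Algebra T S1]
  [IsScalarTower T S S1] [IsScalarTower T T1 S1]

/-- the pushout of a surjection is a surjection with the expected kernel. -/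
theorem ker_pushout [Algebra.IsPushout T T1 S S1]
    (hs : Function.Surjective (algebraMap T S)) :
    Function.Surjective (algebraMap T1 S1) ∧
      RingHom.ker (algebraMap T1 S1) = (RingHom.ker (algebraMap T S)).map (algebraMap T T1) := by
  let J := RingHom.ker (algebraMap T S)
  let eS : (T ⧸ J) ≃ₐ[T] S := Ideal.quotientKerAlgEquivOfSurjective (f := Algebra.ofId T S) hs
  let e1 : (T1 ⧸ J.map (algebraMap T T1)) ≃ₐ[T1] T1 ⊗[T] (T ⧸ J) :=
    Algebra.TensorProduct.quotIdealMapEquivTensorQuot T1 J
  let e2 : T1 ⊗[T] (T ⧸ J) ≃ₐ[T1] T1 ⊗[T] S := Algebra.TensorProduct.congr AlgEquiv.refl eS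
  let e3 : T1 ⊗[T] S ≃ₐ[T1] S1 := Algebra.IsPushout.equiv T T1 S S1
  let E : (T1 ⧸ J.map (algebraMap T T1)) ≃ₐ[T1] S1 := (e1.trans e2).trans e3
  have hE : ∀ x : T1, E (Ideal.Quotient.mk _ x) = algebraMap T1 S1 x := fun x => E.commutes x
  constructor
  · intro y
    obtain ⟨x, hx⟩ := Ideal.Quotient.mk_surjective (E.symm y)
    refine ⟨x, ?_⟩
    rw [← hE, hx, AlgEquiv.apply_symm_apply]
  · ext x
    rw [RingHom.mem_ker, ← hE, EmbeddingLike.map_eq_zero_iff, Ideal.Quotient.eq_zero_iff_mem]

end ker

section rank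

theorem finrank_quotient_pushout {G R1 Q H H1 : Type*} [CommRing G] [CommRing R1]
    [Algebra G R1] [CommRing Q] [CommRing H] [CommRing H1]
    [Algebra Q H] [Algebra G H] [Algebra H H1] [Algebra R1 H1]
    [Algebra G H1] [IsScalarTower G H H1] [IsScalarTower G R1 H1] [Algebra Q H1]
    [IsScalarTower Q H H1] [Algebra.IsPushout G H R1 H1]
    (hs : Function.Surjective (algebraMap G R1)) :
    finrank Q (H ⧸ (RingHom.ker (algebraMap G R1)).map (algebraMap G H)) = finrank Q H1 := by
  obtain ⟨k1, k2⟩ := ker_pushout (T := G) (S := R1) (T1 := H) (S1 := H1) hs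
  let e : (H ⧸ RingHom.ker (algebraMap H H1)) ≃ₐ[H] H1 :=
    Ideal.quotientKerAlgEquivOfSurjective (f := Algebra.ofId H H1) k1
  rw [← k2, ← rk_eq Q H (H ⧸ RingHom.ker (algebraMap H H1)), ← rk_eq Q H H1]
  exact rk_congr Q e.toLinearEquiv

variable {G R1 : Type u} [CommRing G] [IsNoetherianRing G] [CommRing R1] [IsDomain R1]
  [Algebra G R1]
variable {Q H H1 Q' H' H1' : Type*} [CommRing Q] [IsDomain Q] [CommRing H] [CommRing H1]
  [Algebra Q H] [Module.Finite Q H] [Algebra G H] [Module.Flat G H] [Algebra H H1] [Algebra R1 H1]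
  [Algebra G H1] [IsScalarTower G H H1] [IsScalarTower G R1 H1] [Algebra Q H1]
  [IsScalarTower Q H H1] [Algebra.IsPushout G H R1 H1]
  [CommRing Q'] [IsDomain Q'] [CommRing H'] [CommRing H1']
  [Algebra Q' H'] [Module.Finite Q' H'] [Algebra G H'] [Module.Flat G H'] [Algebra H' H1']
  [Algebra R1 H1'] [Algebra G H1'] [IsScalarTower G H' H1'] [IsScalarTower G R1 H1']
  [Algebra Q' H1'] [IsScalarTower Q' H' H1'] [Algebra.IsPushout G H' R1 H1']

/-- **the rank lemma**, pushout form. -/
theorem rank_lemma_pushout (hs : Function.Surjective (algebraMap G R1))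
    (hP : ∀ x, algebraMap G R1 x = 0 → IsNilpotent x) :
    finrank Q H * finrank Q' H1' = finrank Q' H' * finrank Q H1 := by
  have hprime : (RingHom.ker (algebraMap G R1)).IsPrime := RingHom.ker_isPrime _
  have h1 := rank_lemma (Q := Q) (H := H) (Q' := Q') (H' := H')
    (RingHom.ker (algebraMap G R1)) hP
  rw [finrank_quotient_pushout (G := G) (R1 := R1) (H := H) (H1 := H1) hs,
    finrank_quotient_pushout (G := G) (R1 := R1) (H := H') (H1 := H1') hs] at h1
  exact h1

end rank

section pos

variable {Q V : Type*} [CommRing Q] [IsDomain Q] [CommRing V] [Algebra Q V] [Module.Finite Q V]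

theorem finrank_pos_of_injective (h : Function.Injective (algebraMap Q V)) :
    0 < finrank Q V := by
  rw [Nat.pos_iff_ne_zero]
  intro h0
  rw [Module.finrank_eq_zero_iff] at h0
  obtain ⟨a, ha, hax⟩ := h0 1
  rw [Algebra.smul_def, mul_one] at hax
  exact ha (h (by rw [hax, map_zero]))

theorem injective_of_finrank_pos (h : 0 < finrank Q V) :
    Function.Injective (algebraMap Q V) := by
  rw [injective_iff_map_eq_zero]
  intro a ha
  by_contra ha0
  have : finrank Q V = 0 := by
    rw [Module.finrank_eq_zero_iff]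
    intro x
    exact ⟨a, ha0, by rw [Algebra.smul_def, ha, zero_mul]⟩
  omega

end pos

end Crest.Agent.R183.PI
end

-- ▼ part R183/PId

set_option autoImplicit false

namespace Crest.Agent.R183.PI

open Module TensorProduct

section pi

variable {Q : Type*} [CommRing Q] [IsDomain Q]

theorem finrank_prod_of_domain (V W : Type*) [AddCommGroup V] [Module Q V] [Module.Finite Q V]
    [AddCommGroup W] [Module Q W] [Module.Finite Q W] :
    finrank Q (V × W) = finrank Q V + finrank Q W :=
  finrank_add_of_exact (LinearMap.inl Q V W) (LinearMap.snd Q V W) LinearMap.inl_injective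
    LinearMap.snd_surjective (by
      rw [LinearMap.exact_iff, LinearMap.range_inl])

theorem finrank_fin_of_domain (V : Type*) [AddCommGroup V] [Module Q V] [Module.Finite Q V]
    (m : ℕ) : finrank Q (Fin m → V) = m * finrank Q V := by
  induction m with
  | zero =>
    rw [zero_mul]
    exact finrank_zero_of_subsingleton
  | succ m ih =>
    rw [← (Fin.consLinearEquiv Q (fun _ : Fin (m + 1) => V)).finrank_eq,
      finrank_prod_of_domain V (Fin m → V), ih]
    ring

theorem finrank_pi_of_domain (V : Type*) [AddCommGroup V] [Module Q V] [Module.Finite Q V]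
    (ι : Type*) [Fintype ι] : finrank Q (ι → V) = Fintype.card ι * finrank Q V := by
  rw [(LinearEquiv.funCongrLeft Q V (Fintype.equivFin ι)).symm.finrank_eq, finrank_fin_of_domain]

/-- the rank over `Q` of a free module over a finite `Q`-algebra. -/
theorem finrank_of_basis {S H : Type*} [CommRing S] [Algebra Q S] [Module.Finite Q S]
    [AddCommGroup H] [Module Q H] [Module S H] [IsScalarTower Q S H] {ι : Type*} [Fintype ι]
    (b : Basis ι S H) : finrank Q H = Fintype.card ι * finrank Q S := by
  rw [← finrank_pi_of_domain S ι]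
  exact (b.equivFun.restrictScalars Q).finrank_eq

/-- base change of a free algebra: `Sq = Tq ⊗_T S`. -/
theorem finrank_of_isPushout {T S Tq Sq : Type*} [CommRing T] [CommRing S] [CommRing Tq]
    [CommRing Sq] [Algebra T S] [Algebra T Tq] [Algebra T Sq] [Algebra S Sq] [Algebra Tq Sq]
    [IsScalarTower T S Sq] [IsScalarTower T Tq Sq] [Algebra.IsPushout T S Tq Sq]
    [Algebra Q S] [Module.Finite Q S] [Algebra Q Sq] [IsScalarTower Q S Sq] {ι : Type*} [Fintype ι]
    (b : Basis ι T Tq) : finrank Q Sq = Fintype.card ι * finrank Q S :=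
  finrank_of_basis (IsBaseChange.basis b (Algebra.IsPushout.out (R := T) (S := S) (R' := Tq)
    (S' := Sq)))



end pi

end Crest.Agent.R183.PI
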