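import Mathlib

-- ▼ part R183/HSBasic
section

/-!
# Hilbert-Samuel basics for R183 (Lech): counting lemmas

* `cc n N = ∑_{k<N} multichoose n k` = number of monomials of degree `< N` in `n` variables
* `length_quot_eq_add` : `l(R/J) = l(I/J) + l(R/I)`
* `length_quot_pow_le` : `l(R/q^N) ≤ cc n N * l(R/q)` for `q` generated by `n` elements
-/

set_option autoImplicit false

namespace Crest.Agent.R183.HS

open IsLocalRing Finset

universe u

/-- number of monomials of degree `< N` in `n` variables. -/
def cc (n N : ℕ) : ℕ := ∑ k ∈ Finset.range N, n.multichoose k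

@[simp] lemma cc_zero_right (n : ℕ) : cc n 0 = 0 := by simp [cc]

lemma cc_succ (n N : ℕ) : cc n (N + 1) = cc n N + n.multichoose N := by
  simp [cc, Finset.sum_range_succ]

lemma cc_succ_eq (n N : ℕ) : cc n (N + 1) = (n + 1).multichoose N := by
  induction N with
  | zero => simp [cc]
  | succ N ih => rw [cc_succ, ih, Nat.multichoose_succ_succ, add_comm]


lemma factorial_mul_cc (n N : ℕ) : n.factorial * cc n (N + 1) = (N + 1).ascFactorial n := by
  rw [cc_succ_eq, Nat.multichoose_eq, Nat.ascFactorial_eq_factorial_mul_choose']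
  congr 1
  have : n + 1 + N - 1 = n + N := by omega
  rw [this]
  have h2 : N + 1 + n - 1 = n + N := by omega
  rw [h2]
  have := Nat.choose_symm_add (a := n) (b := N)
  exact this.symm

lemma pow_le_factorial_mul_cc (n N : ℕ) (h : 0 < N) : N ^ n ≤ n.factorial * cc n N := by
  obtain ⟨M, rfl⟩ := Nat.exists_eq_succ_of_ne_zero h.ne'
  rw [Nat.succ_eq_add_one, factorial_mul_cc]
  exact Nat.pow_succ_le_ascFactorial _ _

lemma factorial_mul_cc_le (n N : ℕ) : n.factorial * cc n N ≤ (N + n) ^ n := by
  rcases Nat.eq_zero_or_pos N with rfl | h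
  · simp
  obtain ⟨M, rfl⟩ := Nat.exists_eq_succ_of_ne_zero h.ne'
  rw [Nat.succ_eq_add_one, factorial_mul_cc]
  refine (Nat.ascFactorial_le_pow_add M n).trans (Nat.pow_le_pow_left (by omega) _)

section length

variable {R : Type*} [CommRing R]

lemma length_quot_eq_add {J I : Ideal R} (h : J ≤ I) :
    Module.length R (R ⧸ J) =
      Module.length R (Submodule.map (Submodule.mkQ J) I) + Module.length R (R ⧸ I) := by
  have hker : LinearMap.ker (Submodule.factor h) = Submodule.map (Submodule.mkQ J) I := by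
    rw [Submodule.factor, Submodule.mapQ, Submodule.ker_liftQ]
    simp
  rw [Module.length_eq_add_of_exact (LinearMap.ker (Submodule.factor h)).subtype
    (Submodule.factor h) (Submodule.subtype_injective _) (Submodule.factor_surjective h)
    (LinearMap.exact_subtype_ker_map _), hker]

lemma length_quot_mono {J I : Ideal R} (h : J ≤ I) :
    Module.length R (R ⧸ I) ≤ Module.length R (R ⧸ J) :=
  Module.length_le_of_surjective (Submodule.factor h) (Submodule.factor_surjective h)

/-- the linear map `(A → R/q) → M` sending the basis vector `a` to `v a`, when `q • v a = 0` -/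
noncomputable def comb {A : Type*} [Fintype A] (q : Ideal R) {M : Type*} [AddCommGroup M] [Module R M]
    (v : A → M) (hv : ∀ a, ∀ r ∈ q, r • v a = 0) : (A → (R ⧸ q)) →ₗ[R] M :=
  ∑ a, (Submodule.liftQ q (LinearMap.toSpanSingleton R M (v a))
    (fun r hr => by simpa using hv a r hr)).comp (LinearMap.proj a)

lemma comb_mk {A : Type*} [Fintype A] (q : Ideal R) {M : Type*} [AddCommGroup M] [Module R M]
    (v : A → M) (hv : ∀ a, ∀ r ∈ q, r • v a = 0) (f : A → R) :
    comb q v hv (fun a => Submodule.mkQ q (f a)) = ∑ a, f a • v a := by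
  rw [comb, LinearMap.sum_apply]
  refine Finset.sum_congr rfl fun a _ => ?_
  rw [LinearMap.comp_apply, LinearMap.proj_apply, Submodule.mkQ_apply, Submodule.liftQ_apply,
    LinearMap.toSpanSingleton_apply]

lemma range_comb {A : Type*} [Fintype A] (q : Ideal R) {M : Type*} [AddCommGroup M] [Module R M]
    (v : A → M) (hv : ∀ a, ∀ r ∈ q, r • v a = 0) :
    LinearMap.range (comb q v hv) = Submodule.span R (Set.range v) := by
  apply le_antisymm
  · rintro _ ⟨f, rfl⟩
    obtain ⟨g, rfl⟩ : ∃ g : A → R, f = fun a => Submodule.mkQ q (g a) := by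
      choose g hg using fun a => Submodule.mkQ_surjective q (f a)
      exact ⟨g, funext fun a => (hg a).symm⟩
    rw [comb_mk]
    exact Submodule.sum_mem _ fun a _ => Submodule.smul_mem _ _ (Submodule.subset_span ⟨a, rfl⟩)
  · rw [Submodule.span_le]
    rintro _ ⟨a, rfl⟩
    classical
    refine ⟨fun b => Submodule.mkQ q (if b = a then 1 else 0), ?_⟩
    rw [comb_mk]
    simp

/-- length of the span of finitely many elements killed by `q` -/
lemma length_span_le {A : Type*} [Fintype A] (q : Ideal R) {M : Type*} [AddCommGroup M] [Module R M]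
    (v : A → M) (hv : ∀ a, ∀ r ∈ q, r • v a = 0) :
    Module.length R (Submodule.span R (Set.range v)) ≤ Fintype.card A * Module.length R (R ⧸ q) := by
  rw [← range_comb q v hv]
  refine (Module.length_le_of_surjective (comb q v hv).rangeRestrict
    (LinearMap.surjective_rangeRestrict _)).trans ?_
  simp

/-- the monomial `x^s` -/
def mono {n : ℕ} (x : Fin n → R) (s : Fin n →₀ ℕ) : R := ∏ i, x i ^ s i

lemma mono_eq_prod {n : ℕ} (x : Fin n → R) (s : Fin n →₀ ℕ) :
    (s.prod fun i e => x i ^ e) = mono x s := by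
  rw [mono, Finsupp.prod_fintype]
  simp

lemma mono_mem {n : ℕ} (x : Fin n → R) (I : Ideal R) (hx : ∀ i, x i ∈ I) (s : Fin n →₀ ℕ) {k : ℕ}
    (hs : s.degree = k) : mono x s ∈ I ^ k := by
  rw [← hs, Finsupp.degree_eq_sum, mono, ← Finset.prod_pow_eq_pow_sum]
  exact Ideal.prod_mem_prod fun i _ => Ideal.pow_mem_pow (hx i) _

/-- the finite set of exponents of degree `k` -/
abbrev AD (n k : ℕ) : Type := (Finset.finsuppAntidiag (Finset.univ : Finset (Fin n)) k)

lemma card_AD (n k : ℕ) : Fintype.card (AD n k) = n.multichoose k := by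
  simp [AD, Finset.card_finsuppAntidiag_nat_eq_multichoose]

lemma mem_AD {n k : ℕ} {s : Fin n →₀ ℕ} :
    s ∈ (Finset.finsuppAntidiag (Finset.univ : Finset (Fin n)) k) ↔ s.degree = k := by
  simp [Finset.mem_finsuppAntidiag, Finsupp.degree_eq_sum]

/-- monomials of degree `k` generate the `k`-th power -/
lemma span_pow_eq_span_monomials {n : ℕ} (x : Fin n → R) (k : ℕ) :
    Ideal.span (Set.range x) ^ k = Ideal.span (Set.range
      (fun s : AD n k => mono x (s : Fin n →₀ ℕ))) := by
  apply le_antisymm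
  · intro y hy
    obtain ⟨p, hp, rfl⟩ := (Ideal.mem_span_pow_iff_exists_isHomogeneous x y).1 hy
    rw [MvPolynomial.eval_eq']
    refine Ideal.sum_mem _ fun d hd => Ideal.mul_mem_left _ _ (Ideal.subset_span ?_)
    have : d.degree = k := by
      have := hp (MvPolynomial.mem_support_iff.1 hd)
      rwa [Finsupp.degree_eq_weight_one]
    exact ⟨⟨d, mem_AD.2 this⟩, rfl⟩
  · rw [Ideal.span_le]
    rintro _ ⟨s, rfl⟩
    exact mono_mem x _ (fun i => Ideal.subset_span (Set.mem_range_self i)) _ (mem_AD.1 s.2)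

/-- graded pieces -/
lemma length_gr_le {n : ℕ} (x : Fin n → R) (k : ℕ) :
    Module.length R (Submodule.map (Submodule.mkQ (Ideal.span (Set.range x) ^ (k + 1)))
      (Ideal.span (Set.range x) ^ k)) ≤
      n.multichoose k * Module.length R (R ⧸ Ideal.span (Set.range x)) := by
  have h := length_span_le (Ideal.span (Set.range x))
    (M := R ⧸ (Ideal.span (Set.range x) ^ (k + 1)))
    (fun s : AD n k => Submodule.mkQ (Ideal.span (Set.range x) ^ (k + 1)) (mono x (s : Fin n →₀ ℕ)))
    (by
      intro s r hr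
      rw [← map_smul, Submodule.mkQ_apply, Submodule.Quotient.mk_eq_zero, smul_eq_mul, pow_succ',]
      exact Ideal.mul_mem_mul hr
        (mono_mem x _ (fun i => Ideal.subset_span (Set.mem_range_self i)) _ (mem_AD.1 s.2)))
  rw [card_AD] at h
  have h2 : Submodule.map (Submodule.mkQ (Ideal.span (Set.range x) ^ (k + 1)))
      (Ideal.span (Set.range x) ^ k) = Submodule.span R (Set.range fun s : AD n k =>
        (Submodule.mkQ (Ideal.span (Set.range x) ^ (k + 1))) (mono x (s : Fin n →₀ ℕ))) := by
    conv_lhs => rw [span_pow_eq_span_monomials x k]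
    rw [Ideal.span, Submodule.map_span, ← Set.range_comp]
    rfl
  rw [h2]
  exact h

theorem length_quot_pow_le {n : ℕ} (x : Fin n → R) (N : ℕ) :
    Module.length R (R ⧸ Ideal.span (Set.range x) ^ N) ≤
      cc n N * Module.length R (R ⧸ Ideal.span (Set.range x)) := by
  induction N with
  | zero =>
    have : Subsingleton (R ⧸ (Ideal.span (Set.range x) ^ 0)) := by
      rw [pow_zero, Ideal.one_eq_top]
      infer_instance
    simp [Module.length_eq_zero]
  | succ N ih =>
    rw [length_quot_eq_add (Ideal.pow_le_pow_right (Nat.le_succ N)), cc_succ, Nat.cast_add, add_mul,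
      add_comm]
    exact add_le_add ih (length_gr_le x N)


end length

end Crest.Agent.R183.HS
end

-- ▼ part R183/HSRed

set_option autoImplicit false

namespace Crest.Agent.R183.HS

open IsLocalRing Finset

variable {R : Type*} [CommRing R] [IsLocalRing R] [IsNoetherianRing R]

set_option linter.unusedSectionVars false

/-- existence of a system of parameters -/
theorem exists_sop (d : ℕ) (hd : ringKrullDim R = d) :
    ∃ w : Fin d → R, (∀ i, w i ∈ maximalIdeal R) ∧
      ∃ t, maximalIdeal R ^ t ≤ Ideal.span (Set.range w) := by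
  obtain ⟨s, hs, hcard⟩ := Ideal.exists_finset_card_eq_height_of_isNoetherianRing (maximalIdeal R)
  have hc : s.card = d := by
    have h1 := IsLocalRing.maximalIdeal_height_eq_ringKrullDim (R := R)
    rw [hd, ← hcard] at h1
    exact_mod_cast h1
  let e : Fin d ≃ s := (Fintype.equivFinOfCardEq (by simpa using hc)).symm
  have hle : Ideal.span (s : Set R) ≤ maximalIdeal R := hs.1.2
  have hr : Set.range (fun i => (e i : R)) = (s : Set R) := by
    rw [show (fun i => (e i : R)) = Subtype.val ∘ e from rfl, e.surjective.range_comp]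
    simp
  refine ⟨fun i => (e i : R), fun i => hle (Ideal.subset_span (by simp)), ?_⟩
  rw [hr]
  have hrad : (Ideal.span (s : Set R)).radical = maximalIdeal R := by
    rw [Ideal.radical_eq_sInf]
    apply le_antisymm
    · exact sInf_le ⟨hle, inferInstance⟩
    · refine le_sInf ?_
      rintro P ⟨hP1, hP2⟩
      exact hs.2 ⟨hP2, hP1⟩ (IsLocalRing.le_maximalIdeal hP2.ne_top)
  obtain ⟨t, ht⟩ := Ideal.exists_radical_pow_le_of_fg (Ideal.span (s : Set R))
    (IsNoetherian.noetherian _)
  rw [hrad] at ht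
  exact ⟨t, ht⟩

/-- finite length of quotients by `m`-primary ideals -/
lemma length_ne_top_of_pow_le {I : Ideal R} {t : ℕ} (h : maximalIdeal R ^ t ≤ I) :
    Module.length R (R ⧸ I) ≠ ⊤ := by
  obtain ⟨n, x, hx⟩ := Submodule.fg_iff_exists_fin_generating_family.1
    (IsNoetherian.noetherian (maximalIdeal R))
  have hx' : Ideal.span (Set.range x) = maximalIdeal R := hx
  refine ne_top_of_le_ne_top ?_ (length_quot_mono h)
  have h1 := length_quot_pow_le x t
  rw [hx'] at h1
  refine ne_top_of_le_ne_top ?_ h1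
  have : Module.length R (R ⧸ maximalIdeal R) = 1 := by
    have : IsSimpleModule R (R ⧸ maximalIdeal R) := by
      rw [isSimpleModule_iff_isCoatom]
      exact (maximalIdeal.isMaximal R).out
    exact Module.length_eq_one R _
  rw [this, mul_one]
  exact ENat.natCast_ne_top _


/-- growth bound -/
theorem growth {d : ℕ} (hd : ringKrullDim R = d) {J : Ideal R} {t : ℕ} (h : maximalIdeal R ^ t ≤ J) :
    ∃ C : ℕ, ∀ N : ℕ, Module.length R (R ⧸ J ^ (N + 1)) ≤ (C * (N + 1) ^ d : ℕ) := by
  obtain ⟨w, hw, u, hu⟩ := exists_sop d hd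
  have hL := length_ne_top_of_pow_le hu
  obtain ⟨L, hL'⟩ := ENat.ne_top_iff_exists.1 hL
  refine ⟨(t + d) ^ d * L, fun N => ?_⟩
  have h1 : Ideal.span (Set.range w) ^ (t * (N + 1)) ≤ J ^ (N + 1) := by
    rw [pow_mul]
    refine Ideal.pow_right_mono ((Ideal.pow_right_mono ?_ t).trans h) _
    rw [Ideal.span_le]
    rintro _ ⟨i, rfl⟩
    exact hw i
  refine (length_quot_mono h1).trans ((length_quot_pow_le w _).trans ?_)
  rw [← hL', ← Nat.cast_mul]
  refine Nat.cast_le.2 ?_
  have h2 : cc d (t * (N + 1)) ≤ (t + d) ^ d * (N + 1) ^ d := by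
    rw [← mul_pow]
    calc cc d (t * (N + 1)) ≤ d.factorial * cc d (t * (N + 1)) :=
          Nat.le_mul_of_pos_left _ (Nat.factorial_pos d)
      _ ≤ (t * (N + 1) + d) ^ d := factorial_mul_cc_le _ _
      _ ≤ _ := Nat.pow_le_pow_left (by nlinarith) _
  calc cc d (t * (N + 1)) * L ≤ ((t + d) ^ d * (N + 1) ^ d) * L := Nat.mul_le_mul_right _ h2
    _ = _ := by ring

lemma max_smul_mono_eq_zero {n : ℕ} (x : Fin n → R) (r : ℕ) (s : AD n r) :
    ∀ a ∈ maximalIdeal R, a • Submodule.mkQ (maximalIdeal R * Ideal.span (Set.range x) ^ r)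
      (mono x (s : Fin n →₀ ℕ)) = 0 := by
  intro a ha
  rw [← map_smul, Submodule.mkQ_apply, Submodule.Quotient.mk_eq_zero, smul_eq_mul]
  exact Ideal.mul_mem_mul ha
    (mono_mem x _ (fun i => Ideal.subset_span (Set.mem_range_self i)) _ (mem_AD.1 s.2))

/-- the map `κ^{monomials of degree r} → J^r / m J^r ⊆ R / m J^r` -/
noncomputable def Phi {n : ℕ} (x : Fin n → R) (r : ℕ) :
    (AD n r → (R ⧸ maximalIdeal R)) →ₗ[R] (R ⧸ (maximalIdeal R * Ideal.span (Set.range x) ^ r)) :=
  comb (maximalIdeal R) _ (max_smul_mono_eq_zero x r)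

lemma length_residue : Module.length R (R ⧸ maximalIdeal R) = 1 := by
  have : IsSimpleModule R (R ⧸ maximalIdeal R) := by
    rw [isSimpleModule_iff_isCoatom]
    exact (maximalIdeal.isMaximal R).out
  exact Module.length_eq_one R _

lemma length_gr_ge {n : ℕ} (x : Fin n → R) (hx : ∀ i, x i ∈ maximalIdeal R) (r : ℕ)
    (hinj : Function.Injective (Phi x r)) :
    (n.multichoose r : ℕ∞) ≤ Module.length R (Submodule.map
      (Submodule.mkQ (Ideal.span (Set.range x) ^ (r + 1))) (Ideal.span (Set.range x) ^ r)) := by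
  have hle : Ideal.span (Set.range x) ^ (r + 1) ≤
      maximalIdeal R * Ideal.span (Set.range x) ^ r := by
    rw [pow_succ']
    refine Ideal.mul_mono_left ?_
    rw [Ideal.span_le]
    rintro _ ⟨i, rfl⟩
    exact hx i
  have h1 : LinearMap.range (Phi x r) = Submodule.map (Submodule.factor hle)
      (Submodule.map (Submodule.mkQ (Ideal.span (Set.range x) ^ (r + 1)))
        (Ideal.span (Set.range x) ^ r)) := by
    rw [← Submodule.map_comp, Submodule.factor_comp_mk, Phi, range_comb]
    have key : ∀ K : Ideal R, Submodule.map (Submodule.mkQ K) (Ideal.span (Set.range x) ^ r) =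
        Submodule.span R (Set.range fun s : AD n r =>
          (Submodule.mkQ K) (mono x (s : Fin n →₀ ℕ))) := by
      intro K
      rw [span_pow_eq_span_monomials x r, Ideal.span, Submodule.map_span, ← Set.range_comp]
      rfl
    rw [key]
  have h2 : Module.length R (LinearMap.range (Phi x r)) = (n.multichoose r : ℕ∞) := by
    rw [← (LinearEquiv.ofInjective _ hinj).length_eq, Module.length_pi, length_residue, mul_one]
    simp [← card_AD]
  rw [← h2, h1]
  exact Module.length_le_of_surjective (LinearMap.submoduleMap (Submodule.factor hle) _)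
    (LinearMap.submoduleMap_surjective _ _)

/-- if `n > d` the monomials in `n` elements become dependent modulo `m J^r` for some `r` -/
lemma exists_not_injective {d : ℕ} (hd : ringKrullDim R = d) {n : ℕ} (hn : d < n) (x : Fin n → R)
    (hx : ∀ i, x i ∈ maximalIdeal R) {t : ℕ} (h : maximalIdeal R ^ t ≤ Ideal.span (Set.range x)) :
    ∃ r, ¬ Function.Injective (Phi x r) := by
  by_contra hcon
  push Not at hcon
  obtain ⟨C, hC⟩ := growth hd h
  have h1 : ∀ N, (cc n N : ℕ∞) ≤ Module.length R (R ⧸ Ideal.span (Set.range x) ^ N) := by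
    intro N
    induction N with
    | zero => simp
    | succ N ih =>
      rw [length_quot_eq_add (Ideal.pow_le_pow_right (Nat.le_succ N)), cc_succ, Nat.cast_add,
        add_comm]
      exact add_le_add (length_gr_ge x hx N (hcon N)) ih
  have h2 : ∀ N : ℕ, (N + 1) ^ n ≤ n.factorial * (C * (N + 1) ^ d) := by
    intro N
    have h3 := (h1 (N + 1)).trans (hC N)
    have h4 : cc n (N + 1) ≤ C * (N + 1) ^ d := by exact_mod_cast h3
    exact (pow_le_factorial_mul_cc n (N + 1) (Nat.succ_pos N)).trans (Nat.mul_le_mul_left _ h4)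
  obtain ⟨e, rfl⟩ : ∃ e, n = d + 1 + e := ⟨n - (d + 1), by omega⟩
  have h5 := h2 ((d + 1 + e).factorial * C)
  set M := (d + 1 + e).factorial * C with hM
  have h6 : (M + 1) ^ (d + 1 + e) = (M + 1) ^ d * ((M + 1) * (M + 1) ^ e) := by ring
  rw [h6, ← mul_assoc _ C, ← hM, mul_comm M] at h5
  have h7 := Nat.le_of_mul_le_mul_left h5 (by positivity)
  have h8 : M + 1 ≤ (M + 1) * (M + 1) ^ e := Nat.le_mul_of_pos_right _ (by positivity)
  omega


omit [IsNoetherianRing R] in
/-- each monomial is congruent to a multiple of `x_0^r` -/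
lemma mono_sub_mem {n : ℕ} (x c : Fin (n + 1) → R) (J' J : Ideal R) (_hc : c 0 = 1)
    (hxJ : ∀ i, x i ∈ J) (h : ∀ i, x i - c i * x 0 ∈ J') (_hJ' : J' ≤ J) (r : ℕ) :
    ∀ s : Fin (n + 1) →₀ ℕ, s.degree = r → mono x s - mono c s * x 0 ^ r ∈ J' * J ^ (r - 1) := by
  induction r with
  | zero =>
    intro s hs
    have : s = 0 := (Finsupp.degree_eq_zero_iff s).1 hs
    subst this
    simp [mono]
  | succ r ih =>
    intro s hs
    have hne : s ≠ 0 := by
      rintro rfl
      simp at hs
    obtain ⟨i, hi⟩ := Finsupp.ne_iff.1 hne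
    have hi' : 1 ≤ s i := Nat.one_le_iff_ne_zero.2 (by simpa using hi)
    obtain ⟨s', rfl⟩ : ∃ s', s = s' + Finsupp.single i 1 :=
      ⟨s - Finsupp.single i 1, (tsub_add_cancel_of_le (Finsupp.single_le_iff.2 hi')).symm⟩
    have hs' : s'.degree = r := by
      simpa using hs
    have hm : ∀ y : Fin (n + 1) → R, mono y (s' + Finsupp.single i 1) = y i * mono y s' := by
      intro y
      simp only [mono, Finsupp.add_apply, pow_add, Finset.prod_mul_distrib]
      rw [mul_comm]
      congr 1
      rw [Finset.prod_eq_single i]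
      · simp
      · intro b _ hb
        simp [hb.symm]
      · simp
    rw [hm, hm]
    have e1 : x i * mono x s' - c i * mono c s' * x 0 ^ (r + 1) =
        x i * (mono x s' - mono c s' * x 0 ^ r) + (x i - c i * x 0) * (mono c s' * x 0 ^ r) := by
      ring
    rw [e1]
    refine Ideal.add_mem _ ?_ ?_
    · have h1 := Ideal.mul_mem_mul (hxJ i) (ih s' hs')
      rcases Nat.eq_zero_or_pos r with rfl | hr
      · have : s' = 0 := (Finsupp.degree_eq_zero_iff s').1 hs'
        subst this
        simp [mono]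
      · have : J * (J' * J ^ (r - 1)) = J' * J ^ (r + 1 - 1) := by
          rw [Nat.add_sub_cancel]
          conv_rhs => rw [← Nat.sub_add_cancel hr, pow_succ']
          rw [← mul_assoc, mul_comm J J', mul_assoc]
        rwa [this] at h1
    · rw [Nat.add_sub_cancel]
      exact Ideal.mul_mem_mul (h i) (Ideal.mul_mem_left _ _ (Ideal.pow_mem_pow (hxJ 0) r))

/-- lifting along `R → R/m` -/
lemma residue_eq_zero_iff' (a : R) : residue R a = 0 ↔ a ∈ maximalIdeal R :=
  IsLocalRing.residue_eq_zero_iff a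

/-- one reduction step -/
lemma reduce_step [Infinite (ResidueField R)] {n : ℕ} (x : Fin (n + 1) → R) {r : ℕ}
    (hr : ¬ Function.Injective (Phi x r)) :
    ∃ x' : Fin n → R, Ideal.span (Set.range x') ≤ Ideal.span (Set.range x) ∧
      ∃ r', Ideal.span (Set.range x) ^ (r' + 1) =
        Ideal.span (Set.range x') * Ideal.span (Set.range x) ^ r' := by
  classical
  set J := Ideal.span (Set.range x) with hJ
  rw [← LinearMap.ker_eq_bot, Submodule.eq_bot_iff] at hr
  push Not at hr
  obtain ⟨f, hf, hf0⟩ := hr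
  choose g hg using fun s => Submodule.mkQ_surjective (maximalIdeal R) (f s)
  have hfg : f = fun s => Submodule.mkQ (maximalIdeal R) (g s) := funext fun s => (hg s).symm
  have hrel : ∑ s : AD (n + 1) r, g s * mono x (s : Fin (n + 1) →₀ ℕ) ∈ maximalIdeal R * J ^ r := by
    rw [LinearMap.mem_ker, hfg, Phi, comb_mk] at hf
    rw [← Submodule.Quotient.mk_eq_zero, ← Submodule.mkQ_apply, map_sum]
    simpa only [← smul_eq_mul, map_smul] using hf
  -- the polynomial
  let F : MvPolynomial (Fin (n + 1)) (ResidueField R) :=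
    ∑ s : AD (n + 1) r, MvPolynomial.monomial (s : Fin (n + 1) →₀ ℕ) (residue R (g s))
  have hF : F ≠ 0 := by
    intro h0
    apply hf0
    rw [hfg]
    funext s
    have h1 : MvPolynomial.coeff (s : Fin (n + 1) →₀ ℕ) F = residue R (g s) := by
      simp only [F, MvPolynomial.coeff_sum, MvPolynomial.coeff_monomial]
      rw [Finset.sum_eq_single s]
      · simp
      · intro b _ hb
        rw [if_neg]
        exact fun h => hb (Subtype.ext h)
      · simp
    rw [h0, MvPolynomial.coeff_zero] at h1
    simp only [Pi.zero_apply]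
    rw [Submodule.mkQ_apply, Submodule.Quotient.mk_eq_zero, ← residue_eq_zero_iff', ← h1]
  obtain ⟨b, hb⟩ : ∃ b : Fin (n + 1) → ResidueField R, MvPolynomial.eval b (F * MvPolynomial.X 0) ≠ 0 := by
    by_contra hcon
    push Not at hcon
    have : F * MvPolynomial.X 0 = 0 := MvPolynomial.funext fun b => by rw [hcon b, map_zero]
    rcases mul_eq_zero.1 this with h | h
    · exact hF h
    · exact MvPolynomial.X_ne_zero _ h
  rw [map_mul, MvPolynomial.eval_X] at hb
  have hb0 : b 0 ≠ 0 := right_ne_zero_of_mul hb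
  have hbF : MvPolynomial.eval b F ≠ 0 := left_ne_zero_of_mul hb
  choose c' hc' using fun i => IsLocalRing.residue_surjective (R := R) (b i / b 0)
  let c : Fin (n + 1) → R := Function.update c' 0 1
  have hc0 : c 0 = 1 := by simp [c]
  have hcres : ∀ i, residue R (c i) = b i / b 0 := by
    intro i
    by_cases hi : i = 0
    · subst hi
      rw [hc0, map_one, div_self hb0]
    · simp [c, hi, hc']
  -- u
  set u : R := ∑ s : AD (n + 1) r, g s * mono c (s : Fin (n + 1) →₀ ℕ) with hu
  have hu1 : residue R u * b 0 ^ r = MvPolynomial.eval b F := by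
    rw [hu, map_sum, Finset.sum_mul, map_sum]
    refine Finset.sum_congr rfl fun s _ => ?_
    rw [MvPolynomial.eval_monomial, mono_eq_prod, map_mul, mul_assoc]
    congr 1
    have hs := mem_AD.1 s.2
    rw [Finsupp.degree_eq_sum] at hs
    have hb0r : b 0 ^ r = ∏ i, b 0 ^ ((s : Fin (n + 1) →₀ ℕ) i) := by
      rw [Finset.prod_pow_eq_pow_sum, hs]
    rw [hb0r, mono, map_prod, ← Finset.prod_mul_distrib, mono]
    refine Finset.prod_congr rfl fun i _ => ?_
    rw [map_pow, hcres, div_pow, div_mul_cancel₀]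
    exact pow_ne_zero _ hb0
  have huunit : IsUnit u := by
    rw [← IsLocalRing.residue_ne_zero_iff_isUnit]
    intro h0
    rw [h0, zero_mul] at hu1
    exact hbF hu1.symm
  -- the new ideal
  let x' : Fin n → R := fun i => x i.succ - c i.succ * x 0
  have hxJ : ∀ i, x i ∈ J := fun i => Ideal.subset_span (Set.mem_range_self i)
  have hJ'J : Ideal.span (Set.range x') ≤ J := by
    rw [Ideal.span_le]
    rintro _ ⟨i, rfl⟩
    exact Ideal.sub_mem _ (hxJ _) (Ideal.mul_mem_left _ _ (hxJ _))
  have hsub : ∀ i, x i - c i * x 0 ∈ Ideal.span (Set.range x') := by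
    intro i
    refine Fin.cases ?_ (fun i => ?_) i
    · rw [hc0, one_mul, sub_self]
      exact Ideal.zero_mem _
    · exact Ideal.subset_span ⟨i, rfl⟩
  have hmono := mono_sub_mem x c (Ideal.span (Set.range x')) J hc0 hxJ hsub hJ'J r
  have h1 : u * x 0 ^ r ∈ Ideal.span (Set.range x') * J ^ (r - 1) ⊔ maximalIdeal R * J ^ r := by
    have e1 : u * x 0 ^ r = (∑ s : AD (n + 1) r, g s * mono x (s : Fin (n + 1) →₀ ℕ)) -
        ∑ s : AD (n + 1) r, g s * (mono x (s : Fin (n + 1) →₀ ℕ) -
          mono c (s : Fin (n + 1) →₀ ℕ) * x 0 ^ r) := by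
      rw [← Finset.sum_sub_distrib, hu, Finset.sum_mul]
      refine Finset.sum_congr rfl fun s _ => ?_
      ring
    rw [e1]
    refine Ideal.sub_mem _ ?_ ?_
    · exact Ideal.mem_sup_right hrel
    · exact Ideal.mem_sup_left (Ideal.sum_mem _ fun s _ =>
        Ideal.mul_mem_left _ _ (hmono _ (mem_AD.1 s.2)))
  have h2 : x 0 ^ r ∈ Ideal.span (Set.range x') * J ^ (r - 1) ⊔ maximalIdeal R * J ^ r := by
    obtain ⟨v, hv⟩ := huunit.exists_left_inv
    have := Ideal.mul_mem_left _ v h1
    rwa [← mul_assoc, hv, one_mul] at this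
  rcases Nat.eq_zero_or_pos r with rfl | hr
  · -- impossible
    exfalso
    have : u ∈ maximalIdeal R := by
      have h3 : ∑ s : AD (n + 1) 0, g s * mono x (s : Fin (n + 1) →₀ ℕ) = u := by
        rw [hu]
        refine Finset.sum_congr rfl fun s _ => ?_
        have : (s : Fin (n + 1) →₀ ℕ) = 0 := (Finsupp.degree_eq_zero_iff _).1 (mem_AD.1 s.2)
        rw [this]
        simp [mono]
      rw [h3, pow_zero, mul_one] at hrel
      exact hrel
    exact (IsLocalRing.mem_maximalIdeal u).1 this huunit
  · have hle : J ^ r ≤ Ideal.span (Set.range x') * J ^ (r - 1) ⊔ maximalIdeal R • J ^ r := by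
      rw [smul_eq_mul]
      conv_lhs => rw [hJ, span_pow_eq_span_monomials x r]
      rw [Ideal.span_le]
      rintro _ ⟨s, rfl⟩
      have e2 : mono x (s : Fin (n + 1) →₀ ℕ) = (mono x (s : Fin (n + 1) →₀ ℕ) -
          mono c (s : Fin (n + 1) →₀ ℕ) * x 0 ^ r) + mono c (s : Fin (n + 1) →₀ ℕ) * x 0 ^ r := by
        ring
      show mono x (s : Fin (n + 1) →₀ ℕ) ∈ _
      rw [e2]
      exact Ideal.add_mem _ (Ideal.mem_sup_left (hmono _ (mem_AD.1 s.2)))
        (Ideal.mul_mem_left _ _ h2)
    have hle2 : J ^ r ≤ Ideal.span (Set.range x') * J ^ (r - 1) :=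
      Submodule.le_of_le_smul_of_le_jacobson_bot (IsNoetherian.noetherian _)
        (IsLocalRing.maximalIdeal_le_jacobson _) hle
    refine ⟨x', hJ'J, r - 1, ?_⟩
    rw [Nat.sub_add_cancel hr]
    refine le_antisymm hle2 ?_
    conv_rhs => rw [← Nat.sub_add_cancel hr, pow_succ']
    exact Ideal.mul_mono_left hJ'J


/-- `J` is a reduction of `I` -/
def IsRed {R : Type*} [CommRing R] (J I : Ideal R) : Prop := J ≤ I ∧ ∃ c : ℕ, I ^ (c + 1) = J * I ^ c

omit [IsLocalRing R] [IsNoetherianRing R] in
lemma IsRed.refl (I : Ideal R) : IsRed I I := ⟨le_rfl, 0, by simp⟩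

omit [IsLocalRing R] [IsNoetherianRing R] in
lemma IsRed.pow_add {J I : Ideal R} {c : ℕ} (h : I ^ (c + 1) = J * I ^ c) (k : ℕ) :
    I ^ (c + k) = J ^ k * I ^ c := by
  induction k with
  | zero => simp
  | succ k ih =>
    rw [← add_assoc, pow_succ, ih, pow_succ J, mul_assoc, ← pow_succ, h, mul_assoc]

omit [IsLocalRing R] [IsNoetherianRing R] in
lemma IsRed.trans {K J I : Ideal R} (h1 : IsRed K J) (h2 : IsRed J I) : IsRed K I := by
  obtain ⟨hKJ, a, ha⟩ := h1
  obtain ⟨hJI, c, hc⟩ := h2
  refine ⟨hKJ.trans hJI, c + a, ?_⟩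
  apply le_antisymm
  · rw [add_assoc, IsRed.pow_add hc, ha, mul_assoc, ← IsRed.pow_add hc a]
  · rw [pow_succ']
    exact Ideal.mul_mono_left (hKJ.trans hJI)

omit [IsLocalRing R] [IsNoetherianRing R] in
lemma IsRed.pow_le {J I : Ideal R} (h : IsRed J I) {m : Ideal R} {t : ℕ} (ht : m ^ t ≤ I) :
    ∃ t', m ^ t' ≤ J := by
  obtain ⟨_, c, hc⟩ := h
  refine ⟨t * (c + 1), ?_⟩
  rw [pow_mul]
  exact (Ideal.pow_right_mono ht _).trans (hc.le.trans Ideal.mul_le_left)

/-- **Minimal reductions.** `R` Noetherian local of dimension `d`, infinite residue field, `I` an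
`m`-primary ideal: there are `z_1, ..., z_d ∈ I` with `I^(c+1) = (z) I^c`. -/
theorem exists_minimal_reduction [Infinite (ResidueField R)] {d : ℕ} (hd : ringKrullDim R = d)
    {I : Ideal R} (hI : I ≤ maximalIdeal R) {t : ℕ} (ht : maximalIdeal R ^ t ≤ I) :
    ∃ z : Fin d → R, (∀ i, z i ∈ I) ∧ ∃ c : ℕ, I ^ (c + 1) = Ideal.span (Set.range z) * I ^ c := by
  have key : ∀ n : ℕ, ∀ x : Fin n → R, IsRed (Ideal.span (Set.range x)) I →
      ∃ z : Fin d → R, IsRed (Ideal.span (Set.range z)) I := by
    intro n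
    induction n with
    | zero =>
      intro x hx
      refine ⟨fun _ => 0, ?_⟩
      have : Ideal.span (Set.range x) = Ideal.span (Set.range (fun _ : Fin d => (0 : R))) := by
        have h1 : Set.range x = ∅ := Set.range_eq_empty x
        rw [h1, Ideal.span_empty]
        symm
        rw [Ideal.span_eq_bot]
        rintro _ ⟨i, rfl⟩
        rfl
      rwa [← this]
    | succ n ih =>
      intro x hx
      by_cases hn : d < n + 1
      · have hxm : ∀ i, x i ∈ maximalIdeal R := fun i =>
          hI (hx.1 (Ideal.subset_span (Set.mem_range_self i)))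
        obtain ⟨t', ht'⟩ := hx.pow_le ht
        obtain ⟨r, hr⟩ := exists_not_injective hd hn x hxm ht'
        obtain ⟨x', hx'1, r', hx'2⟩ := reduce_step x hr
        exact ih x' (IsRed.trans ⟨hx'1, r', hx'2⟩ hx)
      · push Not at hn
        refine ⟨fun i => if h : (i : ℕ) < n + 1 then x ⟨i, h⟩ else 0, ?_⟩
        have : Ideal.span (Set.range x) = Ideal.span (Set.range (fun i : Fin d =>
            if h : (i : ℕ) < n + 1 then x ⟨i, h⟩ else 0)) := by
          apply le_antisymm
          · rw [Ideal.span_le]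
            rintro _ ⟨i, rfl⟩
            refine Ideal.subset_span ⟨⟨i, lt_of_lt_of_le i.2 hn⟩, ?_⟩
            have h := i.2
            simp only [h, dif_pos]
          · rw [Ideal.span_le]
            rintro _ ⟨i, rfl⟩
            by_cases h : (i : ℕ) < n + 1
            · simp only [h, dif_pos]
              exact Ideal.subset_span (Set.mem_range_self _)
            · simp only [h, dif_neg, not_false_eq_true]
              exact Ideal.zero_mem _
        rwa [← this]
  obtain ⟨n, x, hx⟩ := Submodule.fg_iff_exists_fin_generating_family.1 (IsNoetherian.noetherian I)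
  obtain ⟨z, hz⟩ := key n x (by
    have : Ideal.span (Set.range x) = I := hx
    rw [this]
    exact IsRed.refl I)
  exact ⟨z, fun i => hz.1 (Ideal.subset_span (Set.mem_range_self i)), hz.2⟩

end Crest.Agent.R183.HS
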