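import Crest.Agent.R183.RD8
import Crest.Agent.R183.HSRed
import Crest.Agent.R183.CohenDim

-- ▼ part R183/RD9
section

/-!
# R183, block RD (helper680), part 9: existence of the Cohen factorisation in mixed characteristic
-/

set_option autoImplicit false
set_option linter.unusedSectionVars false

namespace Crest.Agent.R183.RD

open TensorProduct IsLocalRing MvPowerSeries Crest.Agent.R183.M Crest.Agent.R183.Cohen

universe u v w

section PsEquiv

variable (r g : ℕ) (Λ : Type*) [CommRing Λ]

/-- `Λ[[t_1..t_r, y_1..y_g]] ≃ Λ[[y]][[t]]` -/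
noncomputable def psEquiv : MvPowerSeries (Fin (r + g)) Λ ≃+*
    MvPowerSeries (Fin r) (MvPowerSeries (Fin g) Λ) :=
  (renameEquiv Λ finSumFinEquiv.symm).toRingEquiv.trans (sumEquiv (Fin r) (Fin g) Λ)

variable {r g Λ}


theorem psEquiv_X_castAdd (i : Fin r) : psEquiv r g Λ (X (Fin.castAdd g i)) = X i := by
  show sumEquiv (Fin r) (Fin g) Λ (rename finSumFinEquiv.symm (X (Fin.castAdd g i))) = _
  rw [rename_X, finSumFinEquiv_symm_apply_castAdd, sumEquiv_X_inl]

theorem psEquiv_X_natAdd (j : Fin g) : psEquiv r g Λ (X (Fin.natAdd r j)) = C (X j) := by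
  show sumEquiv (Fin r) (Fin g) Λ (rename finSumFinEquiv.symm (X (Fin.natAdd r j))) = _
  rw [rename_X, finSumFinEquiv_symm_apply_natAdd, sumEquiv_X_inr]

theorem psEquiv_symm_X (i : Fin r) : (psEquiv r g Λ).symm (X i) = X (Fin.castAdd g i) := by
  rw [RingEquiv.symm_apply_eq, psEquiv_X_castAdd]


/-- the variables `y_j` of `A' = Λ[[t, y]]` -/
noncomputable def yvar (r g : ℕ) (Λ : Type*) [CommRing Λ] (j : ℕ) :
    MvPowerSeries (Fin (r + g)) Λ :=
  if h : j < g then X (Fin.natAdd r ⟨j, h⟩) else 0

theorem psEquiv_symm_varSeq (j : ℕ) : (psEquiv r g Λ).symm (C (varSeq Λ g j)) = yvar r g Λ j := by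
  rw [RingEquiv.symm_apply_eq, varSeq, yvar]
  split_ifs with h
  · rw [psEquiv_X_natAdd]
  · rw [map_zero, map_zero]

theorem yvar_apply (j : Fin g) : yvar r g Λ j = X (Fin.natAdd r j) := by
  rw [yvar, dif_pos j.2]

end PsEquiv

section Red

/-- the reduction `(z, y)` of `m_T` -/
theorem IsCohenFact.reduction {A R A' T S : Type*} [CommRing A] [CommRing R] [CommRing A']
    [CommRing T] [CommRing S] [Algebra A R] [Algebra A A'] [Algebra A T] [Algebra R T]
    [Algebra A' T] [Algebra R S]
    [IsLocalRing A] [IsLocalRing R] [IsLocalRing A'] [IsLocalRing T] [IsLocalRing S]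
    {g : ℕ} {π : T →+* S} {Y : ℕ → T} (h : IsCohenFact A R A' T S g π Y)
    {d : ℕ} (z : Fin d → R) (c : ℕ)
    (hz : maximalIdeal R ^ (c + 1) ≤ Ideal.span (Set.range z) * maximalIdeal R ^ c) :
    maximalIdeal T ^ (c + 1) ≤
      Ideal.span (Set.range (Fin.append (fun i => algebraMap R T (z i))
        (fun j : Fin g => Y j))) * maximalIdeal T ^ c := by
  refine reduction_T z (fun j : Fin g => Y j) c hz ?_
  rw [← h.max, pr]
  congr 1
  congr 1
  ext x
  simp only [Set.mem_image, Set.mem_Iio, Set.mem_range]
  constructor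
  · rintro ⟨j, hj, rfl⟩
    exact ⟨⟨j, hj⟩, rfl⟩
  · rintro ⟨j, rfl⟩
    exact ⟨j, j.2, rfl⟩

end Red

/-- **Cohen factorisation, mixed characteristic.** -/
theorem exists_mixed (p : ℕ) [Fact p.Prime] (d : ℕ) (R S : Type u) [CommRing R] [IsLocalRing R]
    [IsNoetherianRing R] [IsDomain R] [IsAdicComplete (maximalIdeal R) R]
    [CommRing S] [IsLocalRing S] [IsNoetherianRing S] [IsAdicComplete (maximalIdeal S) S]
    [Algebra R S] [IsLocalHom (algebraMap R S)]
    [CharP (ResidueField S) p] [PerfectRing (ResidueField S) p]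
    (hp0 : (p : R) ≠ 0) (hp : (p : R) ∈ maximalIdeal R)
    (hd : ringKrullDim R = ((d + 1 : ℕ) : WithBot ℕ∞)) :
    ∃ (C₀ : Type u) (_ : CommRing C₀) (_ : IsLocalRing C₀) (_ : IsCohen p C₀) (g : ℕ)
      (_ : Algebra (MvPowerSeries (Fin d) C₀) R)
      (_ : Algebra (MvPowerSeries (Fin d) C₀)
        (MvPowerSeries (Fin (d + g)) (WittVector p (ResidueField S))))
      (T : Type u) (_ : CommRing T) (_ : Algebra (MvPowerSeries (Fin d) C₀) T) (_ : Algebra R T)
      (_ : Algebra (MvPowerSeries (Fin (d + g)) (WittVector p (ResidueField S))) T)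
      (_ : IsScalarTower (MvPowerSeries (Fin d) C₀) R T)
      (_ : IsScalarTower (MvPowerSeries (Fin d) C₀)
        (MvPowerSeries (Fin (d + g)) (WittVector p (ResidueField S))) T)
      (_ : Algebra.IsPushout (MvPowerSeries (Fin d) C₀) R
        (MvPowerSeries (Fin (d + g)) (WittVector p (ResidueField S))) T)
      (_ : IsLocalRing T) (_ : IsNoetherianRing T) (π : T →+* S),
      IsCohenFact (MvPowerSeries (Fin d) C₀) R
        (MvPowerSeries (Fin (d + g)) (WittVector p (ResidueField S))) T S g π
        (fun j => algebraMap (MvPowerSeries (Fin (d + g)) (WittVector p (ResidueField S))) T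
          (yvar d g (WittVector p (ResidueField S)) j)) ∧
      Function.Injective (algebraMap (MvPowerSeries (Fin d) C₀) R) ∧
      (∀ i, algebraMap (MvPowerSeries (Fin d) C₀)
        (MvPowerSeries (Fin (d + g)) (WittVector p (ResidueField S))) (X i) =
          X (Fin.castAdd g i)) := by
  obtain ⟨C₀, _, _, hC, φ, hφ, t, ht, hbij, _, hinj, hfin⟩ := exists_noether_mixed p R hp hp0 d hd
  have hpS : (p : S) ∈ maximalIdeal S := by
    have := mem_maximalIdeal_of_local (algebraMap R S) ‹_› hp
    rwa [map_natCast] at this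
  have hW : IsCohen p (WittVector p (ResidueField S)) := isCohen_witt p (ResidueField S)
  obtain ⟨w, hw⟩ := hW.exists_lift_residue hpS
    ((residueWitt p (ResidueField S)).toRingHom.comp (residue _))
  have hwsurj : Function.Surjective ((residue S).comp w) := by
    rw [hw]
    exact (residueWitt p (ResidueField S)).surjective.comp residue_surjective
  have hwloc : IsLocalHom w := by
    refine ⟨fun a ha => ?_⟩
    have h1 : IsUnit (residue S (w a)) := ha.map _
    have h2 : residue S (w a) = residueWitt p (ResidueField S) (residue _ a) :=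
      RingHom.congr_fun hw a
    rw [h2] at h1
    have h3 : residue (WittVector p (ResidueField S)) a ≠ 0 := by
      intro h
      rw [h, map_zero] at h1
      exact not_isUnit_zero h1
    rwa [Ne, residue_eq_zero_iff, mem_maximalIdeal, mem_nonunits_iff, not_not] at h3
  obtain ⟨g, s, hs, hsgen⟩ := exists_gens S
  have hWc : IsAdicComplete (maximalIdeal (WittVector p (ResidueField S)))
    (WittVector p (ResidueField S)) := hW.complete
  have hWn : IsNoetherianRing (WittVector p (ResidueField S)) := hW.isNoetherianRing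
  have hWd : IsDomain (WittVector p (ResidueField S)) := hW.isDVR_dom
  have hC₀n : IsNoetherianRing C₀ := hC.isNoetherianRing
  have hC₀d := hC.isDVR_dom
  have hC₀v := hC.isDVR
  let ψ : MvPowerSeries (Fin g) (WittVector p (ResidueField S)) →+* S :=
    psEval (maximalIdeal S) w s hs
  have hψ : Function.Surjective ψ := psEval_surjective w hwloc hwsurj s hs hsgen
  have hQc : IsAdicComplete (maximalIdeal (MvPowerSeries (Fin g) (WittVector p (ResidueField S))))
    (MvPowerSeries (Fin g) (WittVector p (ResidueField S))) := isAdicComplete_mv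
  have hpQ : (p : MvPowerSeries (Fin g) (WittVector p (ResidueField S))) ∈
      maximalIdeal (MvPowerSeries (Fin g) (WittVector p (ResidueField S))) := by
    rw [mem_maximalIdeal_mv_iff, map_natCast, hW.maximalIdeal_eq]
    exact Ideal.mem_span_singleton_self _
  obtain ⟨γ, hγ⟩ := hC.exists_lift_of_surjective hpQ ψ hψ ((algebraMap R S).comp φ)
  have hγp : γ (p : C₀) = C (p : WittVector p (ResidueField S)) := by
    rw [map_natCast, map_natCast]
  have hγflat : γ.Flat := by
    let _ : Algebra C₀ (MvPowerSeries (Fin g) (WittVector p (ResidueField S))) := γ.toAlgebra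
    have hinjγ : Function.Injective γ := by
      rw [injective_iff_map_eq_zero]
      intro x hx
      by_contra hx0
      obtain ⟨n, u, rfl⟩ := exists_unit_mul_pow hC.maximalIdeal_eq hx0
      rw [map_mul, map_pow, hγp] at hx
      rcases mul_eq_zero.1 hx with h | h
      · have h2 := eq_zero_of_pow_eq_zero h
        rw [← map_zero C] at h2
        exact hW.natCast_ne_zero (C_injective h2)
      · exact (u.isUnit.map γ).ne_zero h
    have hQd : IsDomain (MvPowerSeries (Fin g) (WittVector p (ResidueField S))) :=
      NoZeroDivisors.to_isDomain _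
    have htf : Module.IsTorsionFree C₀ (MvPowerSeries (Fin g) (WittVector p (ResidueField S))) :=
      Module.isTorsionFree_iff_algebraMap_injective.2 hinjγ
    show Module.Flat C₀ (MvPowerSeries (Fin g) (WittVector p (ResidueField S)))
    infer_instance
  have hφres : ∀ x : R, ∃ c : C₀, x - φ c ∈ maximalIdeal R := by
    intro x
    obtain ⟨y, hy⟩ := hbij.2 (residue R x)
    obtain ⟨c, rfl⟩ := residue_surjective y
    refine ⟨c, ?_⟩
    rw [← residue_eq_zero_iff, map_sub, ← hy, sub_eq_zero]
    rfl
  obtain ⟨i1, i2, T, i3, i4, i5, i6, i7, i8, i9, i10, i11, i12, i13, π, h1, h2, h3, h4, h5⟩ :=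
    exists_T (R := R) (S := S) hW.maximalIdeal_eq hC.maximalIdeal_eq γ hγp hγflat φ hφ hφres t ht
      hfin ψ hψ hγ (psEquiv d g (WittVector p (ResidueField S)))
  have hYf : (fun j => algebraMap (MvPowerSeries (Fin (d + g)) (WittVector p (ResidueField S))) T
      ((psEquiv d g (WittVector p (ResidueField S))).symm
        (C (varSeq (WittVector p (ResidueField S)) g j)))) =
      (fun j => algebraMap (MvPowerSeries (Fin (d + g)) (WittVector p (ResidueField S))) T
          (yvar d g (WittVector p (ResidueField S)) j)) := by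
    funext j
    rw [psEquiv_symm_varSeq]
  rw [hYf] at h1
  refine ⟨C₀, inferInstance, inferInstance, hC, g, i1, i2, T, i3, i4, i5, i6, i7, i8, i9, i12, i13,
    π, h1, ?_, ?_⟩
  · rw [h2]
    exact hinj
  · intro i
    rw [h3]
    show (psEquiv d g (WittVector p (ResidueField S))).symm (MvPowerSeries.map γ (X i)) = _
    rw [map_X, psEquiv_symm_X]

end Crest.Agent.R183.RD
end

-- ▼ part R183/RD10

/-!
# R183, block RD (helper680), part 10: dimension of `T`, regular elements, the reduction `w` of `m_T`
-/

set_option autoImplicit false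
set_option linter.unusedSectionVars false

namespace Crest.Agent.R183.RD

open TensorProduct IsLocalRing MvPowerSeries Crest.Agent.R183.M Crest.Agent.R183.Cohen
open scoped nonZeroDivisors

universe u v w

section Dim

variable {A S : Type*} [CommRing A] [CommRing S] [Algebra A S]

theorem exists_ltSeries_lift [Algebra.IsIntegral A S] (hinj : Function.Injective (algebraMap A S))
    (l : LTSeries (PrimeSpectrum A)) : ∃ L : LTSeries (PrimeSpectrum S), L.length = l.length := by
  obtain ⟨P, -, hP, hPl⟩ := Ideal.exists_ideal_over_prime_of_isIntegral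
    l.head.asIdeal (⊥ : Ideal S) (by
      show RingHom.ker (algebraMap A S) ≤ _
      rw [(RingHom.injective_iff_ker_eq_bot _).1 hinj]; exact bot_le)
  have : P.LiesOver l.head.asIdeal := ⟨hPl.symm⟩
  have : Algebra.HasGoingUp A S := Algebra.HasGoingUp.of_isIntegral
  obtain ⟨L, hL, -, -⟩ := Ideal.exists_ltSeries_of_hasGoingUp l P
  exact ⟨L, hL⟩

/-- an injective integral extension has the same dimension -/
theorem ringKrullDim_eq_of_isIntegral_of_injective [Algebra.IsIntegral A S]
    (hinj : Function.Injective (algebraMap A S)) : ringKrullDim S = ringKrullDim A := by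
  refine le_antisymm ringKrullDim_le_of_isIntegral ?_
  refine iSup_le fun l => ?_
  obtain ⟨L, hL⟩ := exists_ltSeries_lift (S := S) hinj l
  rw [← hL]
  exact le_iSup (fun L : LTSeries (PrimeSpectrum S) => (L.length : WithBot ℕ∞)) L

end Dim

theorem algebraMap_mem_nonZeroDivisors_of_flat {R S : Type*} [CommRing R] [IsDomain R]
    [CommRing S] [Algebra R S] [Module.Flat R S] {r : R} (hr : r ≠ 0) :
    algebraMap R S r ∈ S⁰ := by
  have h2 : IsSMulRegular S r := Module.Flat.isSMulRegular_of_isRegular
    (M := S) (IsRegular.of_ne_zero hr)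
  rw [mem_nonZeroDivisors_iff_right]
  intro x hx
  apply h2
  show r • x = r • 0
  rw [Algebra.smul_def, smul_zero, mul_comm]
  exact hx

section Fact

variable {A R A' T S : Type*} [CommRing A] [CommRing R] [CommRing A']
    [CommRing T] [CommRing S] [Algebra A R] [Algebra A A'] [Algebra A T] [Algebra R T]
    [Algebra A' T] [Algebra R S] [IsScalarTower A R T] [IsScalarTower A A' T]
    [Algebra.IsPushout A R A' T]

include A R in
theorem injective_of_pushout [Module.Flat A A'] (hinj : Function.Injective (algebraMap A R)) :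
    Function.Injective (algebraMap A' T) := by
  have h1 : Function.Injective (LinearMap.lTensor A' (Algebra.linearMap A R)) :=
    Module.Flat.lTensor_preserves_injective_linearMap _ hinj
  have hpo : Algebra.IsPushout A A' R T := Algebra.IsPushout.symm inferInstance
  let e : A' ⊗[A] R ≃ₐ[A'] T := Algebra.IsPushout.equiv A A' R T
  have h2 : ∀ a' : A', algebraMap A' T a' =
      e (LinearMap.lTensor A' (Algebra.linearMap A R) (a' ⊗ₜ[A] 1)) := by
    intro a'
    rw [LinearMap.lTensor_tmul, Algebra.linearMap_apply, map_one]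
    have : (a' ⊗ₜ[A] (1 : R)) = algebraMap A' (A' ⊗[A] R) a' := rfl
    rw [this, AlgEquiv.commutes]
  intro x y hxy
  rw [h2, h2] at hxy
  have h3 := h1 (e.injective hxy)
  have h4 := congrArg (TensorProduct.rid A A') h3
  simpa using h4

variable [IsLocalRing A] [IsLocalRing R] [IsLocalRing A'] [IsLocalRing T] [IsLocalRing S]
    {g : ℕ} {π : T →+* S} {Y : ℕ → T}

include A R in
theorem IsCohenFact.injective_A'T (h : IsCohenFact A R A' T S g π Y)
    (hinj : Function.Injective (algebraMap A R)) : Function.Injective (algebraMap A' T) := by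
  have := h.flat_A'
  exact injective_of_pushout (A := A) (R := R) hinj

theorem IsCohenFact.ringKrullDim_T (h : IsCohenFact A R A' T S g π Y)
    (hinj : Function.Injective (algebraMap A R)) : ringKrullDim T = ringKrullDim A' := by
  have := h.finite_T
  exact ringKrullDim_eq_of_isIntegral_of_injective (h.injective_A'T hinj)


theorem IsCohenFact.Y_mem (h : IsCohenFact A R A' T S g π Y) (j : ℕ) (hj : j < g) :
    Y j ∈ maximalIdeal T := by
  rw [← h.max, pr]
  exact Ideal.mem_sup_right (Ideal.subset_span ⟨j, hj, rfl⟩)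

theorem IsCohenFact.comap_maximalIdeal (h : IsCohenFact A R A' T S g π Y) {r : R}
    (hr : r ∈ maximalIdeal R) : algebraMap R T r ∈ maximalIdeal T :=
  mem_maximalIdeal_of_local _ h.local_T hr

/-- **The reduction `w = (z, Y)` of `m_T`**, with `z` in `R`. -/
theorem IsCohenFact.exists_w [IsNoetherianRing R] [Infinite (ResidueField R)]
    (h : IsCohenFact A R A' T S g π Y) {d : ℕ} (hd : ringKrullDim R = d) :
    ∃ (z : Fin d → R) (c : ℕ), (∀ i, z i ∈ maximalIdeal R) ∧
      maximalIdeal R ^ (c + 1) = Ideal.span (Set.range z) * maximalIdeal R ^ c ∧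
      (∀ i, (Fin.append (fun i => algebraMap R T (z i)) (fun j : Fin g => Y j)) i ∈
        maximalIdeal T) ∧
      maximalIdeal T ^ (c + 1) =
        Ideal.span (Set.range (Fin.append (fun i => algebraMap R T (z i))
          (fun j : Fin g => Y j))) * maximalIdeal T ^ c := by
  obtain ⟨z, hz, c, hc⟩ := HS.exists_minimal_reduction hd (I := maximalIdeal R) le_rfl
    (t := 1) (by rw [pow_one])
  have hw : ∀ i, (Fin.append (fun i => algebraMap R T (z i)) (fun j : Fin g => Y j)) i ∈
        maximalIdeal T := by
    intro i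
    refine Fin.addCases (fun i => ?_) (fun j => ?_) i
    · rw [Fin.append_left]
      exact h.comap_maximalIdeal (hz i)
    · rw [Fin.append_right]
      exact h.Y_mem j j.2
  refine ⟨z, c, hz, hc, hw, le_antisymm (h.reduction z c hc.le) ?_⟩
  rw [pow_succ']
  refine Ideal.mul_mono_left ?_
  rw [Ideal.span_le]
  rintro _ ⟨i, rfl⟩
  exact hw i

end Fact

section Char

/-- residue characteristic -/
theorem charP_residueField {S : Type*} [CommRing S] [IsLocalRing S] (p : ℕ) [Fact p.Prime]
    (hp : (p : S) ∈ maximalIdeal S) : CharP (ResidueField S) p := by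
  refine (CharP.charP_iff_prime_eq_zero Fact.out).2 ?_
  have : residue S (p : S) = 0 := (residue_eq_zero_iff _).2 hp
  rwa [map_natCast] at this

theorem ringKrullDim_mv_witt (p : ℕ) [Fact p.Prime] (K : Type*) [Field K] [CharP K p]
    [PerfectRing K p] (n : ℕ) :
    ringKrullDim (MvPowerSeries (Fin n) (WittVector p K)) = ((n + 1 : ℕ) : WithBot ℕ∞) := by
  have hW : IsCohen p (WittVector p K) := isCohen_witt p K
  have h1 : IsNoetherianRing (WittVector p K) := hW.isNoetherianRing
  rw [ringKrullDim_mvPowerSeries, hW.ringKrullDim_eq]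
  push_cast
  ring

theorem ringKrullDim_mv_field (K : Type*) [Field K] (n : ℕ) :
    ringKrullDim (MvPowerSeries (Fin n) K) = ((n : ℕ) : WithBot ℕ∞) := by
  rw [ringKrullDim_mvPowerSeries, ringKrullDim_eq_zero_of_field, zero_add]

end Char

end Crest.Agent.R183.RD
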