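import Mathlib
import Crest.Agent.R183.CohenStruct

-- ▼ part R183/RD1
section

/-!
# R183, block RD (helper680), part 1: flatness, equational local criterion

* `EqF I M`: equational form of "`M / I M` is flat over `A / I`".
* `EqF.mul` : devissage.
* `flat_of_forall_eqF` : local criterion.
* `flat_of_quotient_flat`: `A → B` Noetherian rings, `x ∈ A` with `x B` in the Jacobson radical of
  `B` and `x` a nonzerodivisor on `B`.  If `B / xB` is flat over `A / xA` then `B` is flat over `A`.
* `flat_of_fibers` : fibre criterion (`R → A → B`, `R` local, `B` flat over `R`,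
  `B / m_R B` flat over `A / m_R A`, `m_R B` in the Jacobson radical ⟹ `B` flat over `A`).
-/

set_option autoImplicit false

namespace Crest.Agent.R183.RD

open TensorProduct

universe u v w

section EqFlat

variable {A : Type u} [CommRing A] {M : Type v} [AddCommGroup M] [Module A M]

/-- Equational form of "`M / I M` is flat over `A / I`". -/
def EqF (I : Ideal A) (M : Type v) [AddCommGroup M] [Module A M] : Prop :=
  ∀ (n : ℕ) (r : Fin n → A) (m : Fin n → M), ∑ i, r i • m i ∈ (I • ⊤ : Submodule A M) →
    ∃ (k : ℕ) (c : Fin n → Fin k → A) (y : Fin k → M),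
      (∀ i, m i - ∑ j, c i j • y j ∈ (I • ⊤ : Submodule A M)) ∧ ∀ j, ∑ i, r i * c i j ∈ I

/-- the same for arbitrary finite index types and a finite system of relations -/
theorem EqF.system {I : Ideal A} (h : EqF I M) (s : ℕ) :
    ∀ {ι : Type} [Fintype ι] (r : Fin s → ι → A) (m : ι → M),
      (∀ l, ∑ i, r l i • m i ∈ (I • ⊤ : Submodule A M)) →
    ∃ (k : ℕ) (c : ι → Fin k → A) (y : Fin k → M),
      (∀ i, m i - ∑ j, c i j • y j ∈ (I • ⊤ : Submodule A M)) ∧
        ∀ l j, ∑ i, r l i * c i j ∈ I := by
  induction s with
  | zero =>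
    intro ι _ r m _
    refine ⟨Fintype.card ι, fun i j => if Fintype.equivFin ι i = j then 1 else 0,
      fun j => m ((Fintype.equivFin ι).symm j), ?_, fun l => l.elim0⟩
    intro i
    simp
  | succ s ih =>
    intro ι _ r m hm
    obtain ⟨k, c, y, h1, h2⟩ := ih (fun l => r l.castSucc) m (fun l => hm l.castSucc)
    -- the last relation, on the `y`
    have h3 : ∑ j, (∑ i, r (Fin.last s) i * c i j) • y j ∈ (I • ⊤ : Submodule A M) := by
      have h4 : ∑ i, r (Fin.last s) i • m i - ∑ i, r (Fin.last s) i • (m i - ∑ j, c i j • y j)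
          = ∑ j, (∑ i, r (Fin.last s) i * c i j) • y j := by
        simp only [smul_sub, Finset.sum_sub_distrib, sub_sub_cancel, Finset.smul_sum, smul_smul,
          Finset.sum_smul]
        exact Finset.sum_comm
      rw [← h4]
      exact sub_mem (hm _) (Submodule.sum_mem _ fun i _ => Submodule.smul_mem _ _ (h1 i))
    obtain ⟨k', d, z, h5, h6⟩ := h k _ y h3
    refine ⟨k', fun i l => ∑ j, c i j * d j l, z, ?_, ?_⟩
    · intro i
      have h7 : m i - ∑ l, (∑ j, c i j * d j l) • z l
          = (m i - ∑ j, c i j • y j) + ∑ j, c i j • (y j - ∑ l, d j l • z l) := by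
        simp only [smul_sub, Finset.sum_sub_distrib, Finset.smul_sum, smul_smul, Finset.sum_smul]
        rw [Finset.sum_comm]
        abel
      rw [h7]
      exact add_mem (h1 i) (Submodule.sum_mem _ fun j _ => Submodule.smul_mem _ _ (h5 j))
    · intro l j
      have h8 : ∀ r' : ι → A, ∑ i, r' i * (∑ j', c i j' * d j' j)
          = ∑ j', (∑ i, r' i * c i j') * d j' j := by
        intro r'
        simp only [Finset.mul_sum, Finset.sum_mul, mul_assoc]
        exact Finset.sum_comm
      rw [h8]
      refine Fin.lastCases ?_ (fun l => ?_) l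
      · exact h6 j
      · exact Ideal.sum_mem _ fun j' _ => Ideal.mul_mem_right _ _ (h2 l j')


theorem mem_smul_top_of_span {I : Ideal A} {s : ℕ} {a : Fin s → A}
    (ha : Ideal.span (Set.range a) = I) {x : M} (hx : x ∈ (I • ⊤ : Submodule A M)) :
    ∃ u : Fin s → M, x = ∑ l, a l • u l := by
  subst ha
  refine Submodule.smul_induction_on hx ?_ ?_
  · intro r hr n _
    obtain ⟨c, rfl⟩ := (Ideal.mem_span_range_iff_exists_fun).1 hr
    refine ⟨fun l => c l • n, ?_⟩
    rw [Finset.sum_smul]
    exact Finset.sum_congr rfl fun l _ => by rw [smul_smul, mul_comm]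
  · rintro x y ⟨u, rfl⟩ ⟨v, rfl⟩
    exact ⟨u + v, by simp [smul_add, Finset.sum_add_distrib]⟩

/-- DEVISSAGE. -/
theorem EqF.mul {I J : Ideal A} {s : ℕ} (a : Fin s → A) (ha : Ideal.span (Set.range a) = J)
    {t : ℕ} (b : Fin t → A) (hb : Ideal.span (Set.range b) = I)
    (H : ∀ u : Fin s → M, ∑ l, a l • u l ∈ ((I * J) • ⊤ : Submodule A M) →
      ∀ l, u l ∈ (I • ⊤ : Submodule A M))
    (hI : EqF I M) (hJ : EqF J M) : EqF (I * J) M := by
  intro n r m hm
  have hIJ : ((I * J) • ⊤ : Submodule A M) ≤ J • ⊤ :=
    Submodule.smul_mono_left Ideal.mul_le_right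
  have haJ : ∀ l, a l ∈ J := fun l => ha ▸ Ideal.subset_span ⟨l, rfl⟩
  have hbI : ∀ l, b l ∈ I := fun l => hb ▸ Ideal.subset_span ⟨l, rfl⟩
  obtain ⟨k, c, y, h1, h2⟩ := hJ n r m (hIJ hm)
  choose m' hm' using fun i => mem_smul_top_of_span ha (h1 i)
  have h3 : ∀ j, ∃ e : Fin s → A, ∑ l, e l * a l = ∑ i, r i * c i j := fun j =>
    (Ideal.mem_span_range_iff_exists_fun).1 (ha ▸ h2 j)
  choose e he using h3
  -- the relations
  have h4 : ∑ l, a l • (∑ j, e j l • y j + ∑ i, r i • m' i l) = ∑ i, r i • m i := by
    have h5 : ∀ i, m i = ∑ j, c i j • y j + ∑ l, a l • m' i l := by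
      intro i
      rw [← hm' i]; abel
    have h6 : ∑ i, r i • m i = ∑ i, r i • (∑ j, c i j • y j + ∑ l, a l • m' i l) :=
      Finset.sum_congr rfl fun i _ => by rw [← h5 i]
    rw [h6]
    simp only [smul_add, Finset.sum_add_distrib, Finset.smul_sum, smul_smul]
    congr 1
    · rw [Finset.sum_comm]
      have h7 : ∑ i, ∑ j, (r i * c i j) • y j = ∑ j, (∑ i, r i * c i j) • y j := by
        rw [Finset.sum_comm]; simp only [Finset.sum_smul]
      rw [h7]
      refine Finset.sum_congr rfl fun j _ => ?_
      rw [← he j, Finset.sum_smul]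
      exact Finset.sum_congr rfl fun l _ => by rw [mul_comm]
    · rw [Finset.sum_comm]
      exact Finset.sum_congr rfl fun i _ => Finset.sum_congr rfl fun l _ => by rw [mul_comm]
  have h5 := H _ (h4 ▸ hm)
  -- solve the system
  let ι := Fin k ⊕ (Fin n × Fin s)
  have h6 : ∀ l : Fin s, ∑ x : ι, (Sum.elim (fun j => e j l)
      (fun p : Fin n × Fin s => if p.2 = l then r p.1 else 0) x) •
      (Sum.elim y (fun p : Fin n × Fin s => m' p.1 p.2) x) ∈ (I • ⊤ : Submodule A M) := by
    intro l
    have h7 := h5 l
    rw [Fintype.sum_sum_type, Fintype.sum_prod_type]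
    simpa only [Sum.elim_inl, Sum.elim_inr, ite_smul, zero_smul, Finset.sum_ite_eq',
      Finset.mem_univ, if_true] using h7
  obtain ⟨K, d, z, h7, h8⟩ := hI.system s (ι := ι) (fun l x => Sum.elim (fun j => e j l)
      (fun p : Fin n × Fin s => if p.2 = l then r p.1 else 0) x)
      (Sum.elim y (fun p : Fin n × Fin s => m' p.1 p.2)) h6
  have h9 : ∀ l w, ∑ j, e j l * d (Sum.inl j) w + ∑ i, r i * d (Sum.inr (i, l)) w ∈ I := by
    intro l w
    have h10 := h8 l w
    rw [Fintype.sum_sum_type, Fintype.sum_prod_type] at h10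
    simpa only [Sum.elim_inl, Sum.elim_inr, ite_mul, zero_mul, Finset.sum_ite_eq',
      Finset.mem_univ, if_true] using h10
  -- leftovers of the `y`
  choose y' hy' using fun j => mem_smul_top_of_span hb (h7 (Sum.inl j))
  let κ := Fin K ⊕ (Fin k × Fin t)
  let C : Fin n → κ → A := fun i => Sum.elim
    (fun w => ∑ j, c i j * d (Sum.inl j) w + ∑ l, a l * d (Sum.inr (i, l)) w)
    (fun p => c i p.1 * b p.2)
  let Z : κ → M := Sum.elim z (fun p => y' p.1 p.2)
  let ε : κ ≃ Fin (Fintype.card κ) := Fintype.equivFin κ
  refine ⟨Fintype.card κ, fun i x => C i (ε.symm x), fun x => Z (ε.symm x), ?_, ?_⟩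
  · intro i
    have h10 : ∑ x, C i (ε.symm x) • Z (ε.symm x) = ∑ x, C i x • Z x :=
      Equiv.sum_comp ε.symm (fun x => C i x • Z x)
    rw [h10, Fintype.sum_sum_type, Fintype.sum_prod_type]
    simp only [C, Z, Sum.elim_inl, Sum.elim_inr]
    have h11 : m i - (∑ w, (∑ j, c i j * d (Sum.inl j) w + ∑ l, a l * d (Sum.inr (i, l)) w) • z w
        + ∑ j, ∑ g, (c i j * b g) • y' j g) = ∑ l, a l • (m' i l - ∑ w, d (Sum.inr (i, l)) w • z w)
        := by
      have e1 : ∀ j, ∑ g, (c i j * b g) • y' j g = c i j • (y j - ∑ w, d (Sum.inl j) w • z w) := by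
        intro j
        have := hy' j
        simp only [Sum.elim_inl] at this
        rw [this, Finset.smul_sum]
        exact Finset.sum_congr rfl fun g _ => by rw [smul_smul]
      simp only [e1]
      have e2 : m i = ∑ j, c i j • y j + ∑ l, a l • m' i l := by
        rw [← hm' i]; abel
      rw [e2]
      simp only [smul_sub, Finset.sum_sub_distrib, add_smul, Finset.sum_add_distrib,
        Finset.smul_sum, smul_smul, Finset.sum_smul]
      rw [Finset.sum_comm (f := fun w j => (c i j * d (Sum.inl j) w) • z w),
        Finset.sum_comm (f := fun w l => (a l * d (Sum.inr (i, l)) w) • z w)]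
      abel
    rw [h11]
    refine Submodule.sum_mem _ fun l _ => ?_
    have h12 := h7 (Sum.inr (i, l))
    simp only [Sum.elim_inr] at h12
    rw [mul_comm I J, ← smul_eq_mul, Submodule.smul_assoc]
    exact Submodule.smul_mem_smul (haJ l) h12
  · intro x
    set x' := ε.symm x with hx'
    show ∑ i, r i * C i x' ∈ I * J
    rcases x' with w | ⟨j, g⟩
    · simp only [C, Sum.elim_inl]
      have h10 : ∑ i, r i * (∑ j, c i j * d (Sum.inl j) w + ∑ l, a l * d (Sum.inr (i, l)) w)
          = ∑ l, (∑ j, e j l * d (Sum.inl j) w + ∑ i, r i * d (Sum.inr (i, l)) w) * a l := by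
        simp only [mul_add, Finset.sum_add_distrib, Finset.mul_sum, add_mul, Finset.sum_mul]
        congr 1
        · rw [Finset.sum_comm]
          have e1 : ∀ j, ∑ i, r i * (c i j * d (Sum.inl j) w)
              = ∑ l, e j l * d (Sum.inl j) w * a l := by
            intro j
            have := he j
            calc ∑ i, r i * (c i j * d (Sum.inl j) w) = (∑ i, r i * c i j) * d (Sum.inl j) w := by
                  rw [Finset.sum_mul]
                  exact Finset.sum_congr rfl fun i _ => by ring
              _ = _ := by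
                  rw [← this, Finset.sum_mul]
                  exact Finset.sum_congr rfl fun l _ => by ring
          simp only [e1]
          exact Finset.sum_comm
        · rw [Finset.sum_comm]
          exact Finset.sum_congr rfl fun l _ => Finset.sum_congr rfl fun i _ => by ring
      rw [h10]
      exact Ideal.sum_mem _ fun l _ => Ideal.mul_mem_mul (h9 l w) (haJ l)
    · simp only [C, Sum.elim_inr]
      have h10 : ∑ i, r i * (c i j * b g) = b g * ∑ i, r i * c i j := by
        rw [Finset.mul_sum]
        exact Finset.sum_congr rfl fun i _ => by ring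
      rw [h10]
      exact Ideal.mul_mem_mul (hbI g) (h2 j)





end EqFlat

section LocalCriterion

variable {A : Type u} {B : Type v} [CommRing A] [CommRing B] [Algebra A B]

/-- LOCAL CRITERION in equational form. -/
theorem flat_of_forall_eqF [IsNoetherianRing A] [IsNoetherianRing B] (I : Ideal A)
    (hI : I.map (algebraMap A B) ≤ Ideal.jacobson ⊥) (h : ∀ n, EqF (I ^ n) B) :
    Module.Flat A B := by
  rw [Module.Flat.iff_rTensor_injective]
  intro J hJ
  rw [injective_iff_map_eq_zero]
  intro x hx
  obtain ⟨n₀, r, m, rfl⟩ : ∃ (n₀ : ℕ) (r : Fin n₀ → J) (m : Fin n₀ → B), x = ∑ i, r i ⊗ₜ[A] m i := by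
    induction x using TensorProduct.induction_on with
    | zero => exact ⟨0, fun i => i.elim0, fun i => i.elim0, by simp⟩
    | tmul a b => exact ⟨1, fun _ => a, fun _ => b, by simp⟩
    | add x y hx' hy' =>
      clear hx
      have hx'' : ∀ x : J ⊗[A] B, ∃ (n₀ : ℕ) (r : Fin n₀ → J) (m : Fin n₀ → B),
          x = ∑ i, r i ⊗ₜ[A] m i := by
        intro x
        induction x using TensorProduct.induction_on with
        | zero => exact ⟨0, fun i => i.elim0, fun i => i.elim0, by simp⟩
        | tmul a b => exact ⟨1, fun _ => a, fun _ => b, by simp⟩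
        | add x y hx hy =>
          obtain ⟨n, r, m, rfl⟩ := hx
          obtain ⟨n', r', m', rfl⟩ := hy
          refine ⟨n + n', Fin.append r r', Fin.append m m', ?_⟩
          rw [Fin.sum_univ_add]
          simp
      exact hx'' _
  have hrel : ∑ i, (r i : A) • m i = 0 := by
    have h1 := congrArg (TensorProduct.lid A B) hx
    rw [map_sum, map_sum, map_zero] at h1
    simpa using h1
  have key : ∀ n : ℕ, (∑ i, r i ⊗ₜ[A] m i) ∈ (I ^ n • ⊤ : Submodule A (J ⊗[A] B)) := by
    intro n
    obtain ⟨k, hk⟩ := I.exists_pow_inf_eq_pow_smul (M := A) J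
    set q := n + k with hq
    have hAR : (I ^ q ⊓ J : Ideal A) ≤ I ^ n * J := by
      have := hk q (by omega)
      rw [show q - k = n by omega] at this
      have h2 : (I ^ q • ⊤ : Submodule A A) = I ^ q := by simp
      rw [h2] at this
      rw [this]
      exact Submodule.smul_mono le_rfl inf_le_right
    have hJn : ∀ z : J, (z : A) ∈ I ^ q → z ∈ (I ^ n • ⊤ : Submodule A J) := by
      intro z hz
      have h5 : (z : A) ∈ I ^ n * J := hAR ⟨hz, z.2⟩
      have h6 : (I ^ n • ⊤ : Submodule A J).map J.subtype = I ^ n • J := by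
        rw [Submodule.map_smul'', Submodule.map_top, Submodule.range_subtype]
      have h7 : (z : A) ∈ (I ^ n • ⊤ : Submodule A J).map J.subtype := by
        rw [h6]; exact h5
      obtain ⟨w, hw, hwz⟩ := h7
      have : w = z := Subtype.ext hwz
      rwa [← this]
    have hmem : ∀ (w : J) (b : B), w ∈ (I ^ n • ⊤ : Submodule A J) → w ⊗ₜ[A] b ∈
        (I ^ n • ⊤ : Submodule A (J ⊗[A] B)) := by
      intro w b hw
      refine Submodule.smul_induction_on hw ?_ ?_
      · intro r hr t _
        rw [← TensorProduct.smul_tmul']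
        exact Submodule.smul_mem_smul hr trivial
      · intro u v hu hv
        rw [TensorProduct.add_tmul]
        exact add_mem hu hv
    obtain ⟨k', c, y, h1, h2⟩ := h q n₀ (fun i => (r i : A)) m (by rw [hrel]; exact zero_mem _)
    have h3 : ∑ i, r i ⊗ₜ[A] m i = ∑ i, r i ⊗ₜ[A] (m i - ∑ j, c i j • y j)
        + ∑ j, (∑ i, c i j • r i) ⊗ₜ[A] y j := by
      simp only [TensorProduct.tmul_sub, Finset.sum_sub_distrib, TensorProduct.tmul_sum,
        TensorProduct.sum_tmul]
      rw [Finset.sum_comm (f := fun j i => (c i j • r i) ⊗ₜ[A] y j)]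
      simp only [TensorProduct.smul_tmul]
      abel
    rw [h3]
    refine add_mem (Submodule.sum_mem _ fun i _ => ?_) (Submodule.sum_mem _ fun j _ => ?_)
    · have h4 : ∀ b ∈ (I ^ q • ⊤ : Submodule A B), r i ⊗ₜ[A] b ∈
          (I ^ n • ⊤ : Submodule A (J ⊗[A] B)) := by
        intro b hb
        refine Submodule.smul_induction_on hb ?_ ?_
        · intro a ha b _
          rw [TensorProduct.tmul_smul]
          exact Submodule.smul_mem_smul (Ideal.pow_le_pow_right (by omega) ha) trivial
        · intro u v hu hv
          rw [TensorProduct.tmul_add]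
          exact add_mem hu hv
      exact h4 _ (h1 i)
    · refine hmem _ _ (hJn _ ?_)
      have := h2 j
      rw [AddSubmonoidClass.coe_finsetSum]
      convert this using 2 with i
      simp [mul_comm]
  have hKrull : (⨅ i : ℕ, (I.map (algebraMap A B)) ^ i • ⊤ : Submodule B (B ⊗[A] J)) = ⊥ := by
    have : Module.Finite A J := Module.Finite.iff_fg.2 hJ
    exact Ideal.iInf_pow_smul_eq_bot_of_le_jacobson _ hI
  have hx2 : TensorProduct.comm A J B (∑ i, r i ⊗ₜ[A] m i) = 0 := by
    rw [← Submodule.mem_bot B, ← hKrull, Submodule.mem_iInf]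
    intro n
    have h9 : ∀ w ∈ (I ^ n • ⊤ : Submodule A (J ⊗[A] B)), TensorProduct.comm A J B w ∈
        ((I.map (algebraMap A B)) ^ n • ⊤ : Submodule B (B ⊗[A] J)) := by
      intro w hw
      refine Submodule.smul_induction_on hw ?_ ?_
      · intro r hr t _
        rw [map_smul, ← algebraMap_smul B r]
        refine Submodule.smul_mem_smul ?_ trivial
        rw [← Ideal.map_pow]
        exact Ideal.mem_map_of_mem _ hr
      · intro u v hu hv
        rw [map_add]
        exact add_mem hu hv
    exact h9 _ (key n)
  rwa [LinearEquiv.map_eq_zero_iff] at hx2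

/-- flatness from a nonzerodivisor -/
theorem flat_of_quotient_flat [IsNoetherianRing A] [IsNoetherianRing B] (x : A)
    (hx : algebraMap A B x ∈ Ideal.jacobson (⊥ : Ideal B)) (hreg : IsSMulRegular B x)
    (h : EqF (Ideal.span {x}) B) : Module.Flat A B := by
  refine flat_of_forall_eqF (Ideal.span {x}) ?_ ?_
  · rw [Ideal.map_span, Set.image_singleton, Ideal.span_singleton_le_iff_mem]
    exact hx
  · intro n
    induction n with
    | zero =>
      intro n r m _
      refine ⟨0, fun _ j => j.elim0, fun j => j.elim0, fun i => ?_, fun j => j.elim0⟩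
      rw [pow_zero, Ideal.one_eq_top, Submodule.top_smul]
      trivial
    | succ n ih =>
      rw [pow_succ']
      refine EqF.mul (s := 1) (fun _ => x ^ n) ?_ (t := 1) (fun _ => x) ?_ ?_ h ih
      · rw [Set.range_const, Ideal.span_singleton_pow]
      · rw [Set.range_const]
      · intro u hu l
        rw [← pow_succ', Ideal.span_singleton_pow] at hu
        obtain ⟨v, hv⟩ := mem_smul_top_of_span (s := 1) (a := fun _ => x ^ (n + 1))
          (by rw [Set.range_const]) hu
        simp only [Finset.univ_unique, Finset.sum_singleton] at hv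
        have hreg' : IsSMulRegular B (x ^ n) := hreg.pow n
        have h1 : u default = x • v default := by
          apply hreg'
          show x ^ n • u default = x ^ n • x • v default
          rw [hv, smul_smul, pow_succ]
        have : l = default := Subsingleton.elim _ _
        rw [this, h1]
        exact Submodule.smul_mem_smul (Ideal.mem_span_singleton_self x) trivial

end LocalCriterion

end Crest.Agent.R183.RD
end

-- ▼ part R183/RD2
section

/-!
# R183, block RD (helper680), part 2: flatness of maps of power series rings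
-/

set_option autoImplicit false

namespace Crest.Agent.R183.RD

open TensorProduct

universe u v w

theorem flat_powerSeries_map {C : Type u} {Q : Type v} [CommRing C] [CommRing Q]
    [IsNoetherianRing C] [IsNoetherianRing Q] (f : C →+* Q) (hf : f.Flat) :
    (PowerSeries.map f).Flat := by
  let _ : Algebra C Q := f.toAlgebra
  have hfl : Module.Flat C Q := hf
  let _ : Algebra (PowerSeries C) (PowerSeries Q) := (PowerSeries.map f).toAlgebra
  show Module.Flat (PowerSeries C) (PowerSeries Q)
  have hsm : ∀ (r : PowerSeries C) (m : PowerSeries Q), r • m = PowerSeries.map f r * m :=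
    fun r m => rfl
  have halg : ∀ r : PowerSeries C, algebraMap (PowerSeries C) (PowerSeries Q) r =
    PowerSeries.map f r := fun r => rfl
  refine flat_of_quotient_flat (PowerSeries.X : PowerSeries C) ?_ ?_ ?_
  · rw [halg, PowerSeries.map_X, Ideal.mem_jacobson_bot]
    intro y
    rw [PowerSeries.isUnit_iff_constantCoeff]
    simp
  · intro x y hxy
    simp only [hsm, PowerSeries.map_X] at hxy
    exact PowerSeries.X_mul_cancel hxy
  · have hmem : ∀ b : PowerSeries Q, b ∈ (Ideal.span {(PowerSeries.X : PowerSeries C)} • ⊤ :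
        Submodule (PowerSeries C) (PowerSeries Q)) ↔ PowerSeries.constantCoeff b = 0 := by
      intro b
      constructor
      · intro hb
        obtain ⟨u, hu⟩ := mem_smul_top_of_span (s := 1) (a := fun _ => PowerSeries.X)
          (by rw [Set.range_const]) hb
        rw [hu]
        simp [hsm]
      · intro hb
        rw [← PowerSeries.X_dvd_iff] at hb
        obtain ⟨c, rfl⟩ := hb
        have : (PowerSeries.X : PowerSeries Q) * c = (PowerSeries.X : PowerSeries C) • c := by
          rw [hsm, PowerSeries.map_X]
        rw [this]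
        exact Submodule.smul_mem_smul (Ideal.mem_span_singleton_self _) trivial
    intro n r m hm
    rw [hmem] at hm
    have hcc : ∀ r : PowerSeries C, PowerSeries.constantCoeff (PowerSeries.map f r) =
        f (PowerSeries.constantCoeff r) := by
      intro r
      rw [← PowerSeries.coeff_zero_eq_constantCoeff_apply, PowerSeries.coeff_map,
        PowerSeries.coeff_zero_eq_constantCoeff_apply]
    have h1 : ∑ i, (PowerSeries.constantCoeff (r i)) • (PowerSeries.constantCoeff (m i)) = 0 := by
      rw [map_sum] at hm
      rw [← hm]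
      refine Finset.sum_congr rfl fun i _ => ?_
      rw [hsm, map_mul, hcc]
      rfl
    obtain ⟨k, c, y, h2, h3⟩ := Module.Flat.isTrivialRelation_of_sum_smul_eq_zero (R := C)
      (M := Q) (f := fun i => PowerSeries.constantCoeff (r i))
      (x := fun i => PowerSeries.constantCoeff (m i)) h1
    refine ⟨k, fun i j => PowerSeries.C (c i j), fun j => PowerSeries.C (y j), ?_, ?_⟩
    · intro i
      have h4 : PowerSeries.constantCoeff (m i) = ∑ j, c i j • y j := h2 i
      rw [hmem, map_sub, map_sum, h4, sub_eq_zero]
      refine Finset.sum_congr rfl fun j _ => ?_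
      rw [hsm, map_mul, hcc, PowerSeries.constantCoeff_C, PowerSeries.constantCoeff_C]
      rfl
    · intro j
      have h4 : ∑ i, PowerSeries.constantCoeff (r i) * c i j = 0 := h3 j
      rw [Ideal.mem_span_singleton, PowerSeries.X_dvd_iff, map_sum, ← h4]
      refine Finset.sum_congr rfl fun i _ => ?_
      rw [map_mul, PowerSeries.constantCoeff_C]

theorem flat_mvPowerSeries_map (n : ℕ) : ∀ {C : Type u} {Q : Type v} [CommRing C] [CommRing Q]
    [IsNoetherianRing C] [IsNoetherianRing Q] (f : C →+* Q) (_ : f.Flat),
    (MvPowerSeries.map (σ := Fin n) f).Flat := by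
  induction n with
  | zero =>
    intro C Q _ _ _ _ f hf
    have h1 : (MvPowerSeries.map (σ := Fin 0) f) =
        (MvPowerSeries.C (σ := Fin 0)).comp (f.comp MvPowerSeries.constantCoeff) := by
      ext x
      have hx : x = MvPowerSeries.C (MvPowerSeries.constantCoeff x) := by
        ext m
        have : m = 0 := Subsingleton.elim _ _
        subst this
        simp
      rw [hx]
      simp
    have hbij : ∀ (D : Type u) [CommRing D], Function.Bijective
        (MvPowerSeries.constantCoeff (σ := Fin 0) (R := D)) := by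
      intro D _
      constructor
      · intro x y hxy
        ext m
        have : m = 0 := Subsingleton.elim _ _
        subst this
        exact hxy
      · intro d
        exact ⟨MvPowerSeries.C d, by simp⟩
    have hbij' : Function.Bijective (MvPowerSeries.C (σ := Fin 0) (R := Q)) := by
      constructor
      · exact MvPowerSeries.C_injective
      · intro x
        refine ⟨MvPowerSeries.constantCoeff x, ?_⟩
        ext m
        have : m = 0 := Subsingleton.elim _ _
        subst this
        simp
    rw [h1]
    exact RingHom.Flat.comp (RingHom.Flat.comp (RingHom.Flat.of_bijective (hbij C)) hf)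
      (RingHom.Flat.of_bijective hbij')
  | succ n ih =>
    intro C Q _ _ _ _ f hf
    have h1 : MvPowerSeries.map (σ := Fin (n + 1)) f =
        ((MvPowerSeries.finSuccEquiv Q n).symm.toRingEquiv.toRingHom).comp
          ((PowerSeries.map (MvPowerSeries.map (σ := Fin n) f)).comp
            (MvPowerSeries.finSuccEquiv C n).toRingEquiv.toRingHom) := by
      refine RingHom.ext fun x => ?_
      have h2 : MvPowerSeries.finSuccEquiv Q n (MvPowerSeries.map f x) =
          PowerSeries.map (MvPowerSeries.map (σ := Fin n) f) (MvPowerSeries.finSuccEquiv C n x) := by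
        ext k m
        rw [MvPowerSeries.coeff_coeff_finSuccEquiv, MvPowerSeries.coeff_map, PowerSeries.coeff_map,
          MvPowerSeries.coeff_map, MvPowerSeries.coeff_coeff_finSuccEquiv]
      have h3 := congrArg (MvPowerSeries.finSuccEquiv Q n).symm h2
      rw [AlgEquiv.symm_apply_apply] at h3
      exact h3
    rw [h1]
    exact RingHom.Flat.comp (RingHom.Flat.comp
      (RingHom.Flat.of_bijective (MvPowerSeries.finSuccEquiv C n).bijective)
      (flat_powerSeries_map _ (ih f hf)))
      (RingHom.Flat.of_bijective (MvPowerSeries.finSuccEquiv Q n).symm.bijective)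

end Crest.Agent.R183.RD
end

-- ▼ part R183/RD3
section

/-!
# R183, block RD (helper680), part 3: fibre criterion of flatness
-/

set_option autoImplicit false

namespace Crest.Agent.R183.RD

open TensorProduct IsLocalRing

universe u v w

/-- minimal generators -/
theorem exists_min_gens {R : Type u} [CommRing R] [IsLocalRing R] (J : Ideal R) (hJ : J.FG) :
    ∃ (s : ℕ) (a : Fin s → R), Ideal.span (Set.range a) = J ∧
      ∀ c : Fin s → R, ∑ l, c l * a l ∈ maximalIdeal R * J → ∀ l, c l ∈ maximalIdeal R := by
  classical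
  have hex : ∃ s : ℕ, ∃ a : Fin s → R, Ideal.span (Set.range a) = J := by
    obtain ⟨S, hS⟩ := hJ
    refine ⟨S.card, fun i => (S.equivFin.symm i : R), ?_⟩
    rw [← hS]
    congr 1
    ext x
    simp only [Set.mem_range, Finset.mem_coe]
    constructor
    · rintro ⟨i, rfl⟩
      exact (S.equivFin.symm i).2
    · intro hx
      exact ⟨S.equivFin ⟨x, hx⟩, by simp⟩
  obtain ⟨a, ha⟩ := Nat.find_spec hex
  refine ⟨Nat.find hex, a, ha, ?_⟩
  intro c hc l
  by_contra hcl
  have hunit : IsUnit (c l) := by
    by_contra h
    exact hcl ((mem_maximalIdeal _).2 h)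
  generalize hs : Nat.find hex = s at a ha c hc l hcl hunit
  cases s with
  | zero => exact l.elim0
  | succ t =>
    have hmin : ¬ ∃ b : Fin t → R, Ideal.span (Set.range b) = J :=
      Nat.find_min hex (by omega)
    apply hmin
    refine ⟨fun i => a (l.succAbove i), ?_⟩
    have h1 : Ideal.span (Set.range fun i => a (l.succAbove i)) ≤ J := by
      rw [← ha]
      apply Ideal.span_mono
      rintro _ ⟨i, rfl⟩
      exact ⟨_, rfl⟩
    refine le_antisymm h1 ?_
    refine Submodule.le_of_le_smul_of_le_jacobson_bot (I := maximalIdeal R) hJ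
      (IsLocalRing.maximalIdeal_le_jacobson ⊥) ?_
    conv_lhs => rw [← ha]
    rw [Ideal.span_le]
    rintro _ ⟨i, rfl⟩
    by_cases hi : i = l
    · subst hi
      obtain ⟨u, hu⟩ := hunit
      have h2 : a i = (↑u⁻¹ : R) * (∑ l, c l * a l) - ∑ j, (↑u⁻¹ * c (i.succAbove j)) *
          a (i.succAbove j) := by
        rw [Fin.sum_univ_succAbove _ i, mul_add, ← mul_assoc, ← hu, Units.inv_mul, one_mul,
          Finset.mul_sum]
        simp only [mul_assoc]
        ring
      rw [h2]
      refine Submodule.sub_mem _ (Submodule.mem_sup_right (Ideal.mul_mem_left _ _ hc)) ?_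
      refine Submodule.mem_sup_left (Ideal.sum_mem _ fun j _ => Ideal.mul_mem_left _ _ ?_)
      exact Ideal.subset_span ⟨j, rfl⟩
    · obtain ⟨j, rfl⟩ := Fin.exists_succAbove_eq hi
      exact Submodule.mem_sup_left (Ideal.subset_span ⟨j, rfl⟩)



end Crest.Agent.R183.RD
end

-- ▼ part R183/RD4

/-!
# R183, block RD (helper680), part 4: the ring `T = R ⊗_A A'`

Abstract setting: `A → R` finite, `A → A'`, everything local Noetherian, `A → R` surjective on
residue fields, `T` a pushout of `R` and `A'` over `A`.
-/

set_option autoImplicit false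

namespace Crest.Agent.R183.RD

open TensorProduct IsLocalRing

universe u v w

section Pushout

variable (A R A' T : Type*) [CommRing A] [CommRing R] [CommRing A'] [CommRing T]
  [Algebra A R] [Algebra A A'] [Algebra A T] [Algebra R T] [Algebra A' T]
  [IsScalarTower A R T] [IsScalarTower A A' T] [Algebra.IsPushout A R A' T]

include A A' in
theorem pushout_flat [Module.Flat A A'] : Module.Flat R T :=
  Module.Flat.of_linearEquiv (Algebra.IsPushout.out (R := A) (S := R) (R' := A') (S' := T)).equiv.symm

include A R in
theorem pushout_finite [Module.Finite A R] : Module.Finite A' T := by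
  have h : Algebra.IsPushout A A' R T := Algebra.IsPushout.symm inferInstance
  exact Module.Finite.equiv h.out.equiv

variable {A R A' T}

include A in
theorem pushout_induction (x : T) {P : T → Prop} (h0 : P 0) (hadd : ∀ x y, P x → P y → P (x + y))
    (hmul : ∀ (r : R) (a : A'), P (algebraMap R T r * algebraMap A' T a)) : P x := by
  have h : IsBaseChange R (IsScalarTower.toAlgHom A A' T).toLinearMap :=
    Algebra.IsPushout.out
  obtain ⟨y, rfl⟩ := h.equiv.surjective x
  induction y using TensorProduct.induction_on with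
  | zero => rw [map_zero]; exact h0
  | add x y hx hy => rw [map_add]; exact hadd _ _ hx hy
  | tmul r a =>
    rw [IsBaseChange.equiv_tmul]
    have : r • (IsScalarTower.toAlgHom A A' T).toLinearMap a =
        algebraMap R T r * algebraMap A' T a := by
      rw [Algebra.smul_def]; rfl
    rw [this]
    exact hmul r a

/-- modulo `m_R T` every element of `T` comes from `A'`. -/
theorem exists_sub_mem [IsLocalRing R]
    (hres : ∀ r : R, ∃ a : A, r - algebraMap A R a ∈ maximalIdeal R) (x : T) :
    ∃ a : A', x - algebraMap A' T a ∈ (maximalIdeal R).map (algebraMap R T) := by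
  refine pushout_induction (A := A) (R := R) (A' := A')
    (P := fun x => ∃ a : A', x - algebraMap A' T a ∈ (maximalIdeal R).map (algebraMap R T))
    x ?_ ?_ ?_
  · exact ⟨0, by simp⟩
  · rintro x y ⟨a, ha⟩ ⟨b, hb⟩
    refine ⟨a + b, ?_⟩
    rw [map_add]
    have : x + y - (algebraMap A' T a + algebraMap A' T b) =
      (x - algebraMap A' T a) + (y - algebraMap A' T b) := by ring
    rw [this]
    exact add_mem ha hb
  · intro r a
    obtain ⟨c, hc⟩ := hres r
    refine ⟨algebraMap A A' c * a, ?_⟩
    have h1 : algebraMap A' T (algebraMap A A' c * a) =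
        algebraMap R T (algebraMap A R c) * algebraMap A' T a := by
      rw [map_mul, ← IsScalarTower.algebraMap_apply A A' T, IsScalarTower.algebraMap_apply A R T]
    rw [h1, ← sub_mul, ← map_sub]
    exact Ideal.mul_mem_right _ _ (Ideal.mem_map_of_mem _ hc)

/-- Hypotheses: `A → R` finite local, surjective on residue fields, `A → A'` local,
and there is a ring hom `π` from `T` to a local ring which is local on `R` and on `A'`. -/
theorem isLocalRing_pushout [IsLocalRing A] [IsLocalRing R] [IsLocalRing A'] [Module.Finite A R]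
    (hres : ∀ r : R, ∃ a : A, r - algebraMap A R a ∈ maximalIdeal R)
    [IsLocalHom (algebraMap A A')]
    {S : Type*} [CommRing S] [IsLocalRing S] (π : T →+* S)
    (hπR : ∀ r ∈ maximalIdeal R, π (algebraMap R T r) ∈ maximalIdeal S)
    (hπA : ∀ r ∈ maximalIdeal A', π (algebraMap A' T r) ∈ maximalIdeal S) :
    ∃ _ : IsLocalRing T, maximalIdeal T = (maximalIdeal R).map (algebraMap R T) ⊔
      (maximalIdeal A').map (algebraMap A' T) := by
  set M : Ideal T := (maximalIdeal R).map (algebraMap R T) ⊔
      (maximalIdeal A').map (algebraMap A' T) with hM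
  have hMne : M ≠ ⊤ := by
    intro h
    have h1 : M ≤ (maximalIdeal S).comap π := by
      rw [hM, sup_le_iff, Ideal.map_le_iff_le_comap, Ideal.map_le_iff_le_comap]
      exact ⟨fun r hr => hπR r hr, fun r hr => hπA r hr⟩
    rw [h, top_le_iff, Ideal.comap_eq_top_iff] at h1
    exact (maximalIdeal.isMaximal S).ne_top h1
  have hunit : ∀ x : T, x ∉ M → ∃ y : T, x * y - 1 ∈ M := by
    intro x hx
    obtain ⟨a, ha⟩ := exists_sub_mem (A := A) (R := R) (A' := A') hres x
    have ha' : a ∉ maximalIdeal A' := by
      intro h
      apply hx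
      have : x = (x - algebraMap A' T a) + algebraMap A' T a := by ring
      rw [this]
      exact add_mem (Ideal.mem_sup_left ha) (Ideal.mem_sup_right (Ideal.mem_map_of_mem _ h))
    have hau : IsUnit a := by
      by_contra h
      exact ha' ((mem_maximalIdeal _).2 h)
    obtain ⟨b, hb⟩ := hau.exists_right_inv
    refine ⟨algebraMap A' T b, ?_⟩
    have : x * algebraMap A' T b - 1 = (x - algebraMap A' T a) * algebraMap A' T b := by
      rw [sub_mul, ← map_mul, hb, map_one]
    rw [this]
    exact Ideal.mul_mem_right _ _ (Ideal.mem_sup_left ha)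
  have hMmax : M.IsMaximal := by
    rw [Ideal.isMaximal_iff]
    refine ⟨fun h => hMne ((Ideal.eq_top_iff_one _).2 h), ?_⟩
    intro I x hMI hxM hxI
    obtain ⟨y, hy⟩ := hunit x hxM
    have : (1 : T) = x * y - (x * y - 1) := by ring
    rw [this]
    exact sub_mem (Ideal.mul_mem_right _ _ hxI) (hMI hy)
  have hfin : Module.Finite A' T := pushout_finite A R A' T
  have hint : Algebra.IsIntegral A' T := inferInstance
  have hintR : Algebra.IsIntegral A R := inferInstance
  have huniq : ∀ I : Ideal T, I.IsMaximal → I = M := by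
    intro I hI
    have hA' : I.comap (algebraMap A' T) = maximalIdeal A' := by
      have : (I.comap (algebraMap A' T)).IsMaximal := Ideal.isMaximal_comap_of_isIntegral_of_isMaximal I
      exact IsLocalRing.eq_maximalIdeal this
    have hR : I.comap (algebraMap R T) = maximalIdeal R := by
      have hprime : (I.comap (algebraMap R T)).IsPrime := Ideal.IsPrime.comap _
      have hmax : ((I.comap (algebraMap R T)).comap (algebraMap A R)).IsMaximal := by
        have h1 : (I.comap (algebraMap R T)).comap (algebraMap A R) = maximalIdeal A := by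
          rw [Ideal.comap_comap, ← IsScalarTower.algebraMap_eq, IsScalarTower.algebraMap_eq A A' T,
            ← Ideal.comap_comap, hA']
          exact ((local_hom_TFAE (algebraMap A A')).out 0 4).1 ‹IsLocalHom (algebraMap A A')›
        rw [h1]
        exact maximalIdeal.isMaximal A
      have := Ideal.isMaximal_of_isIntegral_of_isMaximal_comap (I.comap (algebraMap R T)) hmax
      exact IsLocalRing.eq_maximalIdeal this
    have hle : M ≤ I := by
      rw [hM, sup_le_iff, Ideal.map_le_iff_le_comap, Ideal.map_le_iff_le_comap, hA', hR]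
      exact ⟨le_rfl, le_rfl⟩
    exact (hMmax.eq_of_le hI.ne_top hle).symm
  have hloc : IsLocalRing T := IsLocalRing.of_unique_max_ideal ⟨M, hMmax, fun I hI => huniq I hI⟩
  refine ⟨hloc, ?_⟩
  exact (IsLocalRing.eq_maximalIdeal hMmax).symm

end Pushout

end Crest.Agent.R183.RD
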