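import Crest.Agent.R183.Res3

-- ▼ part R183/Res6
section

/-!
# R183 (Lech), block [4] (R1): minimal free resolutions over a Noetherian local ring
-/

set_option autoImplicit false

namespace Crest.Agent.R183.Res

open IsLocalRing

universe u v w

section Cover

variable {T : Type u} [CommRing T] [IsLocalRing T] [IsNoetherianRing T]

/-- A minimal cover of a finitely generated submodule of a free module. -/
theorem exists_min_cover {ι : Type} [Fintype ι] (K : Submodule T (ι → T)) :
    ∃ (k : ℕ) (D : Matrix ι (Fin k) T), LinearMap.range (act T D) = K ∧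
      ∀ v : Fin k → T, act T D v = 0 → ∀ j, v j ∈ maximalIdeal T := by
  classical
  have hfg : K.FG := IsNoetherian.noetherian K
  have hex : ∃ k : ℕ, ∃ e : Fin k → (ι → T), Submodule.span T (Set.range e) = K := by
    obtain ⟨s, hs⟩ := hfg
    refine ⟨s.card, fun i => (s.equivFin.symm i : ι → T), ?_⟩
    rw [← hs]
    congr 1
    ext x
    constructor
    · rintro ⟨i, rfl⟩
      exact (s.equivFin.symm i).2
    · intro hx
      exact ⟨s.equivFin ⟨x, hx⟩, by simp⟩
  obtain ⟨k, ⟨e, he⟩, hkmin⟩ : ∃ k : ℕ, (∃ e : Fin k → (ι → T),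
      Submodule.span T (Set.range e) = K) ∧ ∀ m < k, ¬ ∃ e : Fin m → (ι → T),
      Submodule.span T (Set.range e) = K :=
    ⟨Nat.find hex, Nat.find_spec hex, fun m hm => Nat.find_min hex hm⟩
  have hact : ∀ v : Fin k → T, act T (Matrix.of (fun i j => e j i)) v = ∑ j, v j • e j := by
    intro v
    funext i
    rw [act_apply, Finset.sum_apply]
    refine Finset.sum_congr rfl (fun j _ => ?_)
    show e j i * v j = v j * e j i
    ring
  refine ⟨k, Matrix.of (fun i j => e j i), ?_, ?_⟩
  · rw [← he]
    ext x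
    constructor
    · rintro ⟨v, rfl⟩
      rw [hact]
      exact Submodule.sum_mem _ (fun j _ => Submodule.smul_mem _ _ (Submodule.subset_span ⟨j, rfl⟩))
    · intro hx
      rw [Submodule.mem_span_range_iff_exists_fun] at hx
      obtain ⟨c, hc⟩ := hx
      exact ⟨c, by rw [hact, hc]⟩
  · intro v hv j
    rw [hact] at hv
    by_contra hj
    have hu : IsUnit (v j) := by
      by_contra h
      exact hj ((mem_maximalIdeal _).mpr h)
    -- the relation allows to remove `e j`
    obtain ⟨m, hm⟩ : ∃ m, k = m + 1 := ⟨k - 1, by have := j.2; omega⟩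
    have hlt : m < k := by omega
    refine hkmin m hlt ?_
    -- work with `Fin k` through the order embedding
    obtain ⟨u, hu'⟩ := hu
    have hej : e j ∈ Submodule.span T (e '' {i | i ≠ j}) := by
      have h1 : v j • e j + ∑ i ∈ Finset.univ.erase j, v i • e i = 0 := by
        rw [Finset.add_sum_erase _ (fun i => v i • e i) (Finset.mem_univ j)]
        exact hv
      have h2 : e j = - ((↑u⁻¹ : T) • ∑ i ∈ Finset.univ.erase j, v i • e i) := by
        have h3 : v j • e j = - ∑ i ∈ Finset.univ.erase j, v i • e i := eq_neg_of_add_eq_zero_left h1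
        have h4 : (↑u⁻¹ : T) • (v j • e j) = e j := by
          rw [smul_smul, ← hu', Units.inv_mul, one_smul]
        rw [← h4, h3, smul_neg]
      rw [h2]
      refine Submodule.neg_mem _ (Submodule.smul_mem _ _ (Submodule.sum_mem _ (fun i hi => ?_)))
      exact Submodule.smul_mem _ _ (Submodule.subset_span ⟨i, (Finset.mem_erase.mp hi).1, rfl⟩)
    have hspan : Submodule.span T (e '' {i | i ≠ j}) = K := by
      rw [← he]
      refine le_antisymm (Submodule.span_mono (Set.image_subset_range _ _)) ?_
      rw [Submodule.span_le]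
      rintro _ ⟨i, rfl⟩
      by_cases h : i = j
      · rw [h]; exact hej
      · exact Submodule.subset_span ⟨i, h, rfl⟩
    -- reindex
    have hcard : Fintype.card {i : Fin k // i ≠ j} = m := by
      rw [Fintype.card_subtype_compl, Fintype.card_fin, Fintype.card_subtype_eq, hm]
      rfl
    let f : Fin m ≃ {i : Fin k // i ≠ j} := (Fintype.equivFinOfCardEq hcard).symm
    refine ⟨fun i => e (f i).1, ?_⟩
    rw [← hspan]
    congr 1
    ext x
    constructor
    · rintro ⟨i, rfl⟩
      exact ⟨(f i).1, (f i).2, rfl⟩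
    · rintro ⟨i, hi, rfl⟩
      exact ⟨f.symm ⟨i, hi⟩, by simp⟩

end Cover

section Resolution

variable {T : Type u} [CommRing T]

theorem act_single {ι κ : Type} [Fintype κ] [DecidableEq κ] (D : Matrix ι κ T) (j : κ) (i : ι) :
    act T D (Pi.single j 1) i = D i j := by
  rw [act_apply, Finset.sum_eq_single j]
  · simp
  · intro b _ hb
    simp [Pi.single_eq_of_ne hb]
  · intro h
    exact absurd (Finset.mem_univ j) h

theorem mul_eq_zero_of_act {ι κ μ : Type} [Fintype κ] [Fintype μ] [DecidableEq μ]
    (D : Matrix ι κ T) (E : Matrix κ μ T) (h : ∀ v, act T D (act T E v) = 0) : D * E = 0 := by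
  ext i j
  rw [← act_single (D * E) j i, act_mul, h]
  rfl

/-- A stage of the construction. -/
structure Stage (T : Type u) [CommRing T] where
  ι : Type
  κ : Type
  fι : Fintype ι
  fκ : Fintype κ
  dι : DecidableEq ι
  dκ : DecidableEq κ
  D : Matrix ι κ T

attribute [instance] Stage.fι Stage.fκ Stage.dι Stage.dκ

variable [IsLocalRing T] [IsNoetherianRing T]

/-- The next stage. -/
noncomputable def Stage.next (s : Stage T) : Stage T where
  ι := s.κ
  κ := Fin (exists_min_cover (LinearMap.ker (act T s.D))).choose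
  fι := s.fκ
  fκ := inferInstance
  dι := s.dκ
  dκ := inferInstance
  D := (exists_min_cover (LinearMap.ker (act T s.D))).choose_spec.choose

theorem Stage.next_range (s : Stage T) :
    LinearMap.range (act T s.next.D) = LinearMap.ker (act T s.D) :=
  (exists_min_cover (LinearMap.ker (act T s.D))).choose_spec.choose_spec.1

theorem Stage.next_min (s : Stage T) (v : s.next.κ → T) (hv : act T s.next.D v = 0) (j : s.next.κ) :
    v j ∈ maximalIdeal T :=
  (exists_min_cover (LinearMap.ker (act T s.D))).choose_spec.choose_spec.2 v hv j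

/-- The sequence of stages. -/
noncomputable def stages (s : Stage T) : ℕ → Stage T
  | 0 => s
  | (n + 1) => (stages s n).next

/-- The complex built from the stages. -/
noncomputable def stageCx (s : Stage T) : MCx T where
  ι := fun n => (stages s n).ι
  fin := fun n => (stages s n).fι
  dec := fun n => (stages s n).dι
  d := fun n => (stages s n).D
  dd := by
    intro n
    have h1 := (stages s n).next_range
    have h2 : ∀ v : (stages s n).next.κ → T,
        act T (stages s n).D (act T (stages s n).next.D v) = 0 := by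
      intro v
      have : act T (stages s n).next.D v ∈ LinearMap.range (act T (stages s n).next.D) := ⟨v, rfl⟩
      rw [h1] at this
      exact this
    exact mul_eq_zero_of_act (stages s n).D (show Matrix (stages s n).κ (stages s n).next.κ T from
      (stages s n).next.D) h2

theorem stageCx_exact (s : Stage T) (n : ℕ) :
    LinearMap.range (act T ((stageCx s).d (n + 1))) = LinearMap.ker (act T ((stageCx s).d n)) :=
  (stages s n).next_range

/-- Exactness in positive degrees over `T` itself. -/
def MCx.Exact (C : MCx T) : Prop :=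
  ∀ n (v : C.ι (n + 1) → T), act T (C.d n) v = 0 → ∃ w, act T (C.d (n + 1)) w = v

theorem stageCx_Exact (s : Stage T) : (stageCx s).Exact := by
  intro n v hv
  have : v ∈ LinearMap.ker (act T ((stageCx s).d n)) := hv
  rw [← stageCx_exact] at this
  exact this

/-- **Existence of the minimal free resolution** of `T/J`. -/
theorem exists_min_resolution (J : Ideal T) (hJ : J ≤ maximalIdeal T) :
    ∃ C : MCx T, C.Exact ∧ C.EntriesIn (maximalIdeal T) ∧ ∃ u : Unique (C.ι 0),
      ∀ v : C.ι 0 → T, (∃ w, act T (C.d 0) w = v) ↔ v u.default ∈ J := by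
  classical
  -- `J` as a submodule of `Unit → T`
  let K : Submodule T (Unit → T) := Submodule.comap (LinearMap.proj (R := T) (φ := fun _ : Unit => T) ()) J
  obtain ⟨k, D, hD, hmin⟩ := exists_min_cover K
  let s : Stage T := ⟨Unit, Fin k, inferInstance, inferInstance, inferInstance, inferInstance, D⟩
  have hmin' : ∀ n (v : (stages s n).κ → T), act T (stages s n).D v = 0 →
      ∀ j, v j ∈ maximalIdeal T := by
    intro n
    cases n with
    | zero => exact hmin
    | succ m => exact (stages s m).next_min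
  refine ⟨stageCx s, stageCx_Exact s, ?_, ?_⟩
  · intro n a b
    cases n with
    | zero =>
      have h1 : act T D (Pi.single b 1) ∈ K := by
        rw [← hD]; exact ⟨_, rfl⟩
      have h2 : D () (show Fin k from b) ∈ J := by
        rw [← act_single D b ()]
        exact h1
      exact hJ h2
    | succ m =>
      have h1 : act T (stages s m).next.D (Pi.single b 1) ∈ LinearMap.ker (act T (stages s m).D) := by
        rw [← (stages s m).next_range]; exact ⟨_, rfl⟩
      have h2 : (stages s m).next.D (show (stages s m).next.ι from a)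
          (show (stages s m).next.κ from b) ∈ maximalIdeal T := by
        rw [← act_single (stages s m).next.D b a]
        exact hmin' m _ h1 a
      exact h2
  · refine ⟨(⟨⟨()⟩, fun _ => rfl⟩ : Unique Unit), ?_⟩
    intro v
    have h1 : (∃ w, act T D w = v) ↔ v ∈ LinearMap.range (act T D) := Iff.rfl
    show (∃ w, act T D w = v) ↔ _
    rw [h1, hD]
    exact Iff.rfl

end Resolution

/-! ## Homotopies on exact complexes -/

section Lift

variable {T : Type u} [CommRing T]

theorem MCx.exists_lift {ι κ μ : Type} [Fintype κ] [Fintype μ] [DecidableEq μ]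
    (D : Matrix ι κ T) (E : Matrix ι μ T) (h : ∀ j, ∃ w, act T D w = fun i => E i j) :
    ∃ F : Matrix κ μ T, D * F = E := by
  choose w hw using h
  refine ⟨Matrix.of (fun i j => w j i), ?_⟩
  ext i j
  rw [Matrix.mul_apply]
  exact congrFun (hw j) i

theorem act_col {ι κ μ : Type} [Fintype κ] [Fintype μ] (D : Matrix ι κ T) (E : Matrix κ μ T) (j : μ) :
    act T D (fun i => E i j) = fun i => (D * E) i j := by
  funext i
  rw [act_apply, Matrix.mul_apply]
  rfl

/-- If `x` kills `H_0` of an exact complex, then `x` is null-homotopic. -/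
theorem MCx.NHom_of_exact (C : MCx T) (hC : C.Exact) (x : T)
    (hx : ∀ v : C.ι 0 → T, ∃ w, act T (C.d 0) w = x • v) : C.NHom x := by
  classical
  -- the inductive step
  have step : ∀ n (s : Matrix (C.ι (n + 1)) (C.ι n) T), C.d n * s * C.d n = x • C.d n →
      ∃ s' : Matrix (C.ι (n + 2)) (C.ι (n + 1)) T,
        C.d (n + 1) * s' = x • (1 : Matrix (C.ι (n + 1)) (C.ι (n + 1)) T) - s * C.d n := by
    intro n s hs
    refine MCx.exists_lift _ _ (fun j => ?_)
    apply hC n
    rw [act_col, Matrix.mul_sub, Matrix.mul_smul, Matrix.mul_one, ← Matrix.mul_assoc, hs, sub_self]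
    rfl
  have next : ∀ n (s : Matrix (C.ι (n + 1)) (C.ι n) T)
      (s' : Matrix (C.ι (n + 2)) (C.ι (n + 1)) T),
      C.d (n + 1) * s' = x • (1 : Matrix (C.ι (n + 1)) (C.ι (n + 1)) T) - s * C.d n →
      C.d (n + 1) * s' * C.d (n + 1) = x • C.d (n + 1) := by
    intro n s s' h
    rw [h, Matrix.sub_mul, Matrix.smul_mul, Matrix.one_mul, Matrix.mul_assoc, C.dd, Matrix.mul_zero,
      sub_zero]
  obtain ⟨s0, hs0⟩ : ∃ s0 : Matrix (C.ι 1) (C.ι 0) T,
      C.d 0 * s0 = x • (1 : Matrix (C.ι 0) (C.ι 0) T) := by
    refine MCx.exists_lift _ _ (fun j => ?_)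
    obtain ⟨w, hw⟩ := hx (fun i => (1 : Matrix (C.ι 0) (C.ι 0) T) i j)
    exact ⟨w, by rw [hw]; rfl⟩
  have hs0' : C.d 0 * s0 * C.d 0 = x • C.d 0 := by
    rw [hs0, Matrix.smul_mul, Matrix.one_mul]
  let seq : ∀ n, {s : Matrix (C.ι (n + 1)) (C.ι n) T // C.d n * s * C.d n = x • C.d n} := fun n =>
    Nat.rec ⟨s0, hs0'⟩ (fun n s => ⟨(step n s.1 s.2).choose,
      next n s.1 _ (step n s.1 s.2).choose_spec⟩) n
  refine ⟨fun n => (seq n).1, hs0, ?_⟩
  intro n
  have h1 : C.d (n + 1) * (seq (n + 1)).1 =
      x • (1 : Matrix (C.ι (n + 1)) (C.ι (n + 1)) T) - (seq n).1 * C.d n :=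
    (step n (seq n).1 (seq n).2).choose_spec
  rw [h1, sub_add_cancel]

end Lift

/-! ## `H_0` with coefficients -/

section H0

variable {T : Type u} [CommRing T] (C : MCx T)

/-- If `range d_0 = J ⊂ T = T^{ι_0}` then `range (d_0 ⊗ M) = J M`. -/
theorem MCx.bdyM_zero_iff {J : Ideal T} (u : Unique (C.ι 0))
    (hu : ∀ v : C.ι 0 → T, (∃ w, act T (C.d 0) w = v) ↔ v u.default ∈ J)
    (M : Type v) [AddCommGroup M] [Module T M] (v : C.ι 0 → M) :
    v ∈ C.bdyM M 0 ↔ v u.default ∈ (J • ⊤ : Submodule T M) := by
  classical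
  have hent : ∀ b, C.d 0 u.default b ∈ J := by
    intro b
    have := (hu _).mp ⟨Pi.single b 1, rfl⟩
    rwa [act_apply, Finset.sum_eq_single b, Pi.single_eq_same, smul_eq_mul, mul_one] at this
    · intro c _ hc
      simp [Pi.single_eq_of_ne hc]
    · intro h
      exact absurd (Finset.mem_univ b) h
  constructor
  · rintro ⟨w, rfl⟩
    show ∑ b, C.d 0 u.default b • w b ∈ _
    exact Submodule.sum_mem _ (fun b _ => Submodule.smul_mem_smul (hent b) trivial)
  · intro hv
    have key : ∀ m : M, m ∈ (J • ⊤ : Submodule T M) →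
        (fun _ : C.ι 0 => m) ∈ C.bdyM M 0 := by
      intro m hm
      refine Submodule.smul_induction_on hm ?_ ?_
      · intro j hj m _
        obtain ⟨w, hw⟩ := (hu (fun _ => j)).mpr hj
        refine ⟨fun b => w b • m, ?_⟩
        funext i
        show ∑ b, C.d 0 i b • (w b • m) = j • m
        have h1 : ∑ b, C.d 0 i b • w b = j := congrFun hw i
        rw [← h1, Finset.sum_smul]
        refine Finset.sum_congr rfl (fun b _ => ?_)
        rw [smul_smul, smul_eq_mul]
      · intro x y hx hy
        exact Submodule.add_mem _ hx hy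
    have h2 : v = fun _ : C.ι 0 => v u.default := by
      funext i
      congr 1
      exact u.uniq i
    rw [h2]
    exact key _ hv

end H0

end Crest.Agent.R183.Res
end

-- ▼ part R183/Res7

/-!
# R183 (Lech), block [4] (R1): the length of the minimal resolution when the closed fibre is regular
-/

set_option autoImplicit false

namespace Crest.Agent.R183.Res

open IsLocalRing TensorProduct

universe u v w

theorem sat_triv {A : Type u} [CommRing A] {M : Type v} [AddCommGroup M] [Module A M]
    (B : Submodule A M) : (NullF.triv A).sat B = B := by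
  refine le_antisymm ?_ ((NullF.triv A).le_sat B)
  intro m hm
  have h1 : col B m = ⊤ := hm
  have h2 : (1 : A) ∈ col B m := by rw [h1]; trivial
  rw [mem_col, one_smul] at h2
  exact h2

section Flat

variable {R T : Type u} [CommRing R] [CommRing T] [Algebra R T]

theorem mem_smul_of_rTensor_zero (J : Ideal T) (N : Type u) [AddCommGroup N] [Module R N]
    (w : T ⊗[R] N) (hw : LinearMap.rTensor N (Ideal.Quotient.mkₐ R J).toLinearMap w = 0) :
    w ∈ (J • ⊤ : Submodule T (T ⊗[R] N)) := by
  have hex : Function.Exact (J.restrictScalars R).subtype (Ideal.Quotient.mkₐ R J).toLinearMap := by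
    intro x
    constructor
    · intro hx
      have : x ∈ J := Ideal.Quotient.eq_zero_iff_mem.mp hx
      exact ⟨⟨x, this⟩, rfl⟩
    · rintro ⟨y, rfl⟩
      exact Ideal.Quotient.eq_zero_iff_mem.mpr y.2
  have hs : Function.Surjective (Ideal.Quotient.mkₐ R J).toLinearMap := Ideal.Quotient.mk_surjective
  obtain ⟨z, rfl⟩ := (rTensor_exact N hex hs w).mp hw
  induction z using TensorProduct.induction_on with
  | zero => rw [map_zero]; exact Submodule.zero_mem _
  | tmul j n =>
    rw [LinearMap.rTensor_tmul]
    have : ((J.restrictScalars R).subtype j : T) ⊗ₜ[R] n = (j : T) • ((1 : T) ⊗ₜ[R] n) := by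
      rw [TensorProduct.smul_tmul', smul_eq_mul, mul_one]
      rfl
    rw [this]
    exact Submodule.smul_mem_smul j.2 trivial
  | add x y hx hy =>
    rw [map_add]
    refine Submodule.add_mem _ (hx ?_) (hy ?_)
    · exact (rTensor_exact N hex hs _).mpr ⟨x, rfl⟩
    · exact (rTensor_exact N hex hs _).mpr ⟨y, rfl⟩

theorem rTensor_zero_of_mem_smul (J : Ideal T) (N : Type u) [AddCommGroup N] [Module R N]
    (w : T ⊗[R] N) (hw : w ∈ (J • ⊤ : Submodule T (T ⊗[R] N))) :
    LinearMap.rTensor N (Ideal.Quotient.mkₐ R J).toLinearMap w = 0 := by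
  refine Submodule.smul_induction_on hw ?_ ?_
  · intro j hj z _
    induction z using TensorProduct.induction_on with
    | zero => rw [smul_zero, map_zero]
    | tmul t n =>
      rw [TensorProduct.smul_tmul', LinearMap.rTensor_tmul]
      have : (Ideal.Quotient.mkₐ R J).toLinearMap (j • t) = 0 := by
        apply Ideal.Quotient.eq_zero_iff_mem.mpr
        exact J.mul_mem_right _ hj
      rw [this, TensorProduct.zero_tmul]
    | add x y hx hy => rw [smul_add, map_add, hx trivial, hy trivial, add_zero]
  · intro x y hx hy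
    rw [map_add, hx, hy, add_zero]

/-- Flatness of `T/J`: `f : N' → N` injective, then `J (T ⊗ N) ∩ (T ⊗ N') = J (T ⊗ N')`. -/
theorem mem_smul_of_flat (J : Ideal T) [Module.Flat R (T ⧸ J)] {N' N : Type u} [AddCommGroup N']
    [Module R N'] [AddCommGroup N] [Module R N] (f : N' →ₗ[R] N) (hf : Function.Injective f)
    (w : T ⊗[R] N') (hw : LinearMap.baseChange T f w ∈ (J • ⊤ : Submodule T (T ⊗[R] N))) :
    w ∈ (J • ⊤ : Submodule T (T ⊗[R] N')) := by
  apply mem_smul_of_rTensor_zero
  have h1 := rTensor_zero_of_mem_smul J N _ hw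
  have h2 : LinearMap.rTensor N (Ideal.Quotient.mkₐ R J).toLinearMap (LinearMap.baseChange T f w) =
      LinearMap.lTensor (T ⧸ J) f
        (LinearMap.rTensor N' (Ideal.Quotient.mkₐ R J).toLinearMap w) := by
    rw [LinearMap.baseChange_eq_ltensor, ← LinearMap.comp_apply, ← LinearMap.comp_apply,
      LinearMap.rTensor_comp_lTensor, LinearMap.lTensor_comp_rTensor]
  rw [h2] at h1
  have hinj := Module.Flat.lTensor_preserves_injective_linearMap (M := T ⧸ J) f hf
  exact hinj (by rw [h1, map_zero])

variable (C : MCx T)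

theorem null_self (hC : C.Exact) (i : ℕ) : C.NullM (NullF.triv T) T (i + 1) := by
  intro v hv
  rw [sat_triv]
  obtain ⟨w, hw⟩ := hC i v hv
  exact ⟨w, hw⟩

variable [IsNoetherianRing R] [Module.Flat R T]

/-- The resolution of an `R`-flat `T/J` stays exact after tensoring with any f.g. `R`-module. -/
theorem null_tensor {J : Ideal T} [Module.Flat R (T ⧸ J)] (hC : C.Exact) (u : Unique (C.ι 0))
    (hu : ∀ v : C.ι 0 → T, (∃ w, act T (C.d 0) w = v) ↔ v u.default ∈ J) :
    ∀ (i : ℕ) (N : Type u) [AddCommGroup N] [Module R N] [Module.Finite R N],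
      C.NullM (NullF.triv T) (T ⊗[R] N) (i + 1) := by
  intro i
  induction i with
  | zero =>
    intro N _ _ _
    obtain ⟨n, f, hf⟩ := Module.Finite.exists_fin' R N
    have hinj : Function.Injective (LinearMap.baseChange T (LinearMap.ker f).subtype) := by
      rw [LinearMap.baseChange_eq_ltensor]
      exact Module.Flat.lTensor_preserves_injective_linearMap _ (Submodule.injective_subtype _)
    have hsurj : Function.Surjective (LinearMap.baseChange T f) := by
      rw [LinearMap.baseChange_eq_ltensor]
      exact LinearMap.lTensor_surjective T hf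
    have hex : Function.Exact (LinearMap.baseChange T (LinearMap.ker f).subtype)
        (LinearMap.baseChange T f) := by
      rw [LinearMap.baseChange_eq_ltensor, LinearMap.baseChange_eq_ltensor]
      exact lTensor_exact T (LinearMap.exact_subtype_ker_map f) hf
    refine MCx.null_of_quot' (NullF.triv T) C hinj hsurj hex 0 ?_ ?_
    · exact MCx.null_congr (NullF.triv T) C (TensorProduct.piScalarRight R T T (Fin n)).symm 1
        (MCx.null_pi (NullF.triv T) C (Fin n) 1 (null_self C hC 0))
    · intro w _ hw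
      rw [sat_triv]
      rw [MCx.bdyM_zero_iff C u hu] at hw ⊢
      exact mem_smul_of_flat J _ (Submodule.injective_subtype _) _ hw
  | succ i ih =>
    intro N _ _ _
    obtain ⟨n, f, hf⟩ := Module.Finite.exists_fin' R N
    have hinj : Function.Injective (LinearMap.baseChange T (LinearMap.ker f).subtype) := by
      rw [LinearMap.baseChange_eq_ltensor]
      exact Module.Flat.lTensor_preserves_injective_linearMap _ (Submodule.injective_subtype _)
    have hsurj : Function.Surjective (LinearMap.baseChange T f) := by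
      rw [LinearMap.baseChange_eq_ltensor]
      exact LinearMap.lTensor_surjective T hf
    have hex : Function.Exact (LinearMap.baseChange T (LinearMap.ker f).subtype)
        (LinearMap.baseChange T f) := by
      rw [LinearMap.baseChange_eq_ltensor, LinearMap.baseChange_eq_ltensor]
      exact lTensor_exact T (LinearMap.exact_subtype_ker_map f) hf
    refine MCx.null_of_quot (NullF.triv T) C hinj hsurj hex (i + 1) ?_ ?_
    · exact MCx.null_congr (NullF.triv T) C (TensorProduct.piScalarRight R T T (Fin n)).symm _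
        (MCx.null_pi (NullF.triv T) C (Fin n) _ (null_self C hC (i + 1)))
    · exact ih (LinearMap.ker f)

/-- The resolution of an `R`-flat `T/J` stays exact modulo `I T`, `I` an ideal of `R`. -/
theorem null_quot_map {J : Ideal T} [Module.Flat R (T ⧸ J)] (hC : C.Exact) (u : Unique (C.ι 0))
    (hu : ∀ v : C.ι 0 → T, (∃ w, act T (C.d 0) w = v) ↔ v u.default ∈ J) (I : Ideal R) (i : ℕ) :
    C.NullM (NullF.triv T) (T ⧸ I.map (algebraMap R T)) (i + 1) := by
  have h1 := null_tensor (R := R) C hC u hu i (R ⧸ I)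
  exact MCx.null_congr (NullF.triv T) C
    (Algebra.TensorProduct.quotIdealMapEquivTensorQuot T I).toLinearEquiv.symm (i + 1) h1

end Flat

section Length

variable {R T : Type u} [CommRing R] [CommRing T] [Algebra R T] (C : MCx T)

/-- One step: kill a regular element. -/
theorem null_quot_sup_span (I : Ideal T) (y : T) (hy : ∀ a, y * a ∈ I → a ∈ I) (i : ℕ)
    (h1 : C.NullM (NullF.triv T) (T ⧸ I) (i + 1)) (h0 : C.NullM (NullF.triv T) (T ⧸ I) i) :
    C.NullM (NullF.triv T) (T ⧸ (I ⊔ Ideal.span {y})) (i + 1) := by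
  let f : (T ⧸ I) →ₗ[T] (T ⧸ I) := LinearMap.lsmul T (T ⧸ I) y
  let g : (T ⧸ I) →ₗ[T] (T ⧸ (I ⊔ Ideal.span {y})) := Submodule.mapQ I (I ⊔ Ideal.span {y})
    LinearMap.id le_sup_left
  refine MCx.null_of_quot (NullF.triv T) C (f := f) (g := g) ?_ ?_ ?_ i h1 h0
  · rw [injective_iff_map_eq_zero]
    intro a ha
    obtain ⟨a, rfl⟩ := Ideal.Quotient.mk_surjective a
    have h2 : (Ideal.Quotient.mk I (y * a)) = 0 := ha
    exact Ideal.Quotient.eq_zero_iff_mem.mpr (hy a (Ideal.Quotient.eq_zero_iff_mem.mp h2))
  · intro a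
    obtain ⟨a, rfl⟩ := Ideal.Quotient.mk_surjective a
    exact ⟨Ideal.Quotient.mk I a, rfl⟩
  · intro a
    obtain ⟨a, rfl⟩ := Ideal.Quotient.mk_surjective a
    constructor
    · intro ha
      have h2 : a ∈ I ⊔ Ideal.span {y} := Ideal.Quotient.eq_zero_iff_mem.mp ha
      obtain ⟨b, hb, c, hc, rfl⟩ := Submodule.mem_sup.mp h2
      obtain ⟨c, rfl⟩ := Ideal.mem_span_singleton'.mp hc
      refine ⟨Ideal.Quotient.mk I c, ?_⟩
      show Ideal.Quotient.mk I (y * c) = Ideal.Quotient.mk I (b + c * y)
      rw [map_add, Ideal.Quotient.eq_zero_iff_mem.mpr hb, zero_add, mul_comm]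
    · rintro ⟨c, hc⟩
      obtain ⟨c, rfl⟩ := Ideal.Quotient.mk_surjective c
      have h2 : Ideal.Quotient.mk I (y * c) = Ideal.Quotient.mk I a := hc
      have h3 : y * c - a ∈ I := Ideal.Quotient.eq.mp h2
      apply Ideal.Quotient.eq_zero_iff_mem.mpr
      have h4 : a = -(y * c - a) + c * y := by ring
      rw [h4]
      exact Submodule.add_mem_sup (I.neg_mem h3) (Ideal.mem_span_singleton'.mpr ⟨c, rfl⟩)

/-- If `H_i(C ⊗ T/m) = 0` for `i > n` and the entries of `C` lie in `m`, then `C` has length `≤ n`. -/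
theorem len_of_null [IsLocalRing T] (n : ℕ) (hent : C.EntriesIn (maximalIdeal T))
    (h : ∀ i, n ≤ i → C.NullM (NullF.triv T) (T ⧸ maximalIdeal T) (i + 1)) : C.Len n := by
  intro i hi
  obtain ⟨i, rfl⟩ : ∃ j, i = j + 1 := ⟨i - 1, by omega⟩
  by_contra hne
  rw [not_isEmpty_iff] at hne
  have hd : ∀ j (v : C.ι (j + 1) → T ⧸ maximalIdeal T), C.dM (T ⧸ maximalIdeal T) j v = 0 := by
    intro j v
    funext a
    show ∑ b, C.d j a b • v b = 0
    refine Finset.sum_eq_zero (fun b _ => ?_)
    obtain ⟨t, ht⟩ := Ideal.Quotient.mk_surjective (v b)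
    rw [← ht]
    show Ideal.Quotient.mk _ (C.d j a b * t) = 0
    exact Ideal.Quotient.eq_zero_iff_mem.mpr (Ideal.mul_mem_right _ _ (hent j a b))
  have h1 := h i (by omega)
  have h2 : (fun _ => 1 : C.ι (i + 1) → T ⧸ maximalIdeal T) ∈
      C.cycM (T ⧸ maximalIdeal T) (i + 1) := hd i _
  have h3 := h1 h2
  rw [sat_triv] at h3
  obtain ⟨w, hw⟩ := h3
  have h4 : C.dM (T ⧸ maximalIdeal T) (i + 1) w = 0 := hd (i + 1) w
  have h5 : (0 : C.ι (i + 1) → T ⧸ maximalIdeal T) = fun _ => 1 := by
    rw [← h4]; exact hw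
  have h6 := congrFun h5 hne.some
  exact zero_ne_one h6

variable [IsNoetherianRing R] [Module.Flat R T] [IsLocalRing R] [IsLocalRing T]

/-- The ideals `m_R T + (Y_0, .., Y_{i-1})`. -/
def prI (R : Type u) [CommRing R] [IsLocalRing R] [Algebra R T] (Y : ℕ → T) (i : ℕ) : Ideal T :=
  (maximalIdeal R).map (algebraMap R T) ⊔ Ideal.span (Y '' Set.Iio i)

omit [IsNoetherianRing R] [Module.Flat R T] [IsLocalRing T] in
theorem prI_succ (Y : ℕ → T) (i : ℕ) : prI R Y (i + 1) = prI R Y i ⊔ Ideal.span {Y i} := by
  unfold prI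
  rw [sup_assoc, ← Ideal.span_union]
  congr 2
  rw [← Set.image_singleton, ← Set.image_union]
  congr 1
  ext j
  simp only [Set.mem_Iio, Set.mem_union, Set.mem_singleton_iff]
  omega

/-- **The minimal resolution of an `R`-flat quotient `T/J` has length `≤ n`** if the closed fibre
`T/m_R T` has its maximal ideal generated by a regular sequence `Y_0, .., Y_{n-1}`. -/
theorem len_of_regular_fibre {J : Ideal T} [Module.Flat R (T ⧸ J)] (hC : C.Exact)
    (u : Unique (C.ι 0))
    (hu : ∀ v : C.ι 0 → T, (∃ w, act T (C.d 0) w = v) ↔ v u.default ∈ J)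
    (hent : C.EntriesIn (maximalIdeal T)) (n : ℕ) (Y : ℕ → T)
    (hreg : ∀ i < n, ∀ a, Y i * a ∈ prI R Y i → a ∈ prI R Y i)
    (hmax : prI R Y n = maximalIdeal T) : C.Len n := by
  have key : ∀ k ≤ n, ∀ i, k ≤ i → C.NullM (NullF.triv T) (T ⧸ prI R Y k) (i + 1) := by
    intro k
    induction k with
    | zero =>
      intro _ i _
      have h0 : prI R Y 0 = (maximalIdeal R).map (algebraMap R T) := by
        unfold prI
        have : Set.Iio 0 = (∅ : Set ℕ) := by ext j; simp
        rw [this, Set.image_empty, Ideal.span_empty, sup_bot_eq]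
      rw [h0]
      exact null_quot_map C hC u hu (maximalIdeal R) i
    | succ k ih =>
      intro hk i hi
      rw [prI_succ]
      obtain ⟨i, rfl⟩ : ∃ j, i = j + 1 := ⟨i - 1, by omega⟩
      exact null_quot_sup_span C _ _ (hreg k (by omega)) (i + 1) (ih (by omega) (i + 1) (by omega))
        (ih (by omega) i (by omega))
  have h1 := key n le_rfl
  rw [hmax] at h1
  exact len_of_null C n hent h1

end Length

/-- **(R1)** The finite minimal free resolution of an `R`-flat quotient `T/J`, in the form used in
the proof of Lech's inequality. -/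
theorem exists_resolution {R T : Type u} [CommRing R] [IsLocalRing R] [IsNoetherianRing R]
    [CommRing T] [IsLocalRing T] [IsNoetherianRing T] [Algebra R T] [Module.Flat R T]
    (J : Ideal T) (hJ : J ≤ maximalIdeal T) [Module.Flat R (T ⧸ J)] (n : ℕ) (Y : ℕ → T)
    (hreg : ∀ i < n, ∀ a, Y i * a ∈ prI R Y i → a ∈ prI R Y i)
    (hmax : prI R Y n = maximalIdeal T) :
    ∃ C : MCx T, C.Len n ∧ C.EntriesIn (maximalIdeal T) ∧ J ≤ C.nhI ∧
      (∃ u : Unique (C.ι 0), ∀ (M : Type u) [AddCommGroup M] [Module T M] (v : C.ι 0 → M),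
        v ∈ C.bdyM M 0 ↔ v u.default ∈ (J • ⊤ : Submodule T M)) := by
  obtain ⟨C, hC, hent, u, hu⟩ := exists_min_resolution J hJ
  refine ⟨C, len_of_regular_fibre (R := R) C hC u hu hent n Y hreg hmax, hent, ?_, u, ?_⟩
  · intro x hx
    refine MCx.NHom_of_exact C hC x (fun v => ?_)
    apply (hu _).mpr
    exact J.mul_mem_right _ hx
  · intro M _ _ v
    exact MCx.bdyM_zero_iff C u hu M v

end Crest.Agent.R183.Res
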