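import Mathlib
import Crest.Agent.R183.RD4
import Crest.Agent.R183.M6
import Crest.Agent.R183.Res7

-- ▼ part R183/RD5
section

/-!
# R183, block RD (helper680), part 5: `MvPowerSeries (σ ⊕ τ) R ≃ MvPowerSeries σ (MvPowerSeries τ R)`
and the ideals `(X_0, …, X_{i-1})` of a power series ring over a domain.
-/

set_option autoImplicit false

namespace Crest.Agent.R183.RD

open MvPowerSeries

universe u v w

section SumEquiv

variable (σ τ R : Type*) [CommRing R]

/-- auxiliary -/
noncomputable def sumFun (p : MvPowerSeries (σ ⊕ τ) R) : MvPowerSeries σ (MvPowerSeries τ R) :=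
  fun x => (show MvPowerSeries τ R from
    fun y => coeff (Finsupp.sumFinsuppAddEquivProdFinsupp.symm (x, y)) p)

/-- auxiliary -/
noncomputable def sumInv (q : MvPowerSeries σ (MvPowerSeries τ R)) : MvPowerSeries (σ ⊕ τ) R :=
  fun z => coeff (Finsupp.sumFinsuppAddEquivProdFinsupp z).2
    (coeff (Finsupp.sumFinsuppAddEquivProdFinsupp z).1 q)

theorem coeff_coeff_sumFun (p : MvPowerSeries (σ ⊕ τ) R) (x : σ →₀ ℕ) (y : τ →₀ ℕ) :
    coeff y (coeff x (sumFun σ τ R p)) =
      coeff (Finsupp.sumFinsuppAddEquivProdFinsupp.symm (x, y)) p := rfl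

theorem coeff_sumInv (q : MvPowerSeries σ (MvPowerSeries τ R)) (z : σ ⊕ τ →₀ ℕ) :
    coeff z (sumInv σ τ R q) = coeff (Finsupp.sumFinsuppAddEquivProdFinsupp z).2
    (coeff (Finsupp.sumFinsuppAddEquivProdFinsupp z).1 q) := rfl

theorem sumFun_mul (p q : MvPowerSeries (σ ⊕ τ) R) :
    sumFun σ τ R (p * q) = sumFun σ τ R p * sumFun σ τ R q := by
  classical
  ext x y
  rw [coeff_coeff_sumFun, coeff_mul, coeff_mul, map_sum]
  simp only [coeff_mul, coeff_coeff_sumFun]
  rw [Finset.sum_sigma']
  refine Finset.sum_nbij'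
    (fun a => ⟨((Finsupp.sumFinsuppAddEquivProdFinsupp a.1).1,
        (Finsupp.sumFinsuppAddEquivProdFinsupp a.2).1),
      ((Finsupp.sumFinsuppAddEquivProdFinsupp a.1).2,
        (Finsupp.sumFinsuppAddEquivProdFinsupp a.2).2)⟩)
    (fun b => (Finsupp.sumFinsuppAddEquivProdFinsupp.symm (b.1.1, b.2.1),
      Finsupp.sumFinsuppAddEquivProdFinsupp.symm (b.1.2, b.2.2))) ?_ ?_ ?_ ?_ ?_
  · rintro ⟨a, b⟩ h
    rw [Finset.HasAntidiagonal.mem_antidiagonal] at h
    have h' : Finsupp.sumFinsuppAddEquivProdFinsupp a + Finsupp.sumFinsuppAddEquivProdFinsupp b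
        = (x, y) := by
      rw [← map_add, h, AddEquiv.apply_symm_apply]
    simp only [Finset.mem_sigma, Finset.HasAntidiagonal.mem_antidiagonal]
    exact ⟨congrArg Prod.fst h', congrArg Prod.snd h'⟩
  · rintro ⟨⟨a, b⟩, ⟨c, d⟩⟩ h
    simp only [Finset.mem_sigma, Finset.HasAntidiagonal.mem_antidiagonal] at h ⊢
    rw [← map_add, Prod.mk_add_mk, h.1, h.2]
  · rintro ⟨a, b⟩ _
    simp
  · rintro ⟨⟨a, b⟩, ⟨c, d⟩⟩ _
    simp
  · rintro ⟨a, b⟩ _
    simp only [Prod.mk.eta, AddEquiv.symm_apply_apply]

/-- power series in two sets of variables -/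
noncomputable def sumEquiv : MvPowerSeries (σ ⊕ τ) R ≃+* MvPowerSeries σ (MvPowerSeries τ R) where
  toFun := sumFun σ τ R
  invFun := sumInv σ τ R
  left_inv p := by
    ext z
    rw [coeff_sumInv, coeff_coeff_sumFun, Prod.mk.eta, AddEquiv.symm_apply_apply]
  right_inv q := by
    ext x y
    rw [coeff_coeff_sumFun, coeff_sumInv, AddEquiv.apply_symm_apply]
  map_add' p q := by
    ext x y
    rw [coeff_coeff_sumFun, map_add, map_add, map_add, coeff_coeff_sumFun, coeff_coeff_sumFun]
  map_mul' := sumFun_mul σ τ R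

variable {σ τ R}

theorem coeff_coeff_sumEquiv (p : MvPowerSeries (σ ⊕ τ) R) (x : σ →₀ ℕ) (y : τ →₀ ℕ) :
    coeff y (coeff x (sumEquiv σ τ R p)) =
      coeff (Finsupp.sumFinsuppAddEquivProdFinsupp.symm (x, y)) p := rfl


theorem sumEquiv_X_inl (s : σ) : sumEquiv σ τ R (X (Sum.inl s)) = X s := by
  classical
  have key : ∀ (x : σ →₀ ℕ) (y : τ →₀ ℕ),
      Finsupp.sumFinsuppAddEquivProdFinsupp.symm (x, y) = Finsupp.single (Sum.inl s) 1 ↔
        x = Finsupp.single s 1 ∧ y = 0 := by
    intro x y
    rw [AddEquiv.symm_apply_eq]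
    have : Finsupp.sumFinsuppAddEquivProdFinsupp (M := ℕ) (Finsupp.single (Sum.inl s : σ ⊕ τ) 1) =
        (Finsupp.single s 1, 0) := by
      ext t
      · simp [Finsupp.single_apply]
      · simp
    rw [this, Prod.mk.injEq]
  ext x y
  rw [coeff_coeff_sumEquiv, coeff_X, coeff_X]
  by_cases hx : x = Finsupp.single s 1
  · rw [if_pos hx]
    by_cases hy : y = 0
    · rw [if_pos ((key x y).2 ⟨hx, hy⟩), hy]
      simp
    · rw [if_neg (fun h => hy ((key x y).1 h).2), ← map_one C, coeff_C, if_neg hy]
  · rw [if_neg hx, if_neg (fun h => hx ((key x y).1 h).1), map_zero]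

theorem sumEquiv_X_inr (t : τ) : sumEquiv σ τ R (X (Sum.inr t)) = C (X t) := by
  classical
  have key : ∀ (x : σ →₀ ℕ) (y : τ →₀ ℕ),
      Finsupp.sumFinsuppAddEquivProdFinsupp.symm (x, y) = Finsupp.single (Sum.inr t) 1 ↔
        x = 0 ∧ y = Finsupp.single t 1 := by
    intro x y
    rw [AddEquiv.symm_apply_eq]
    have : Finsupp.sumFinsuppAddEquivProdFinsupp (M := ℕ) (Finsupp.single (Sum.inr t : σ ⊕ τ) 1) =
        (0, Finsupp.single t 1) := by
      ext t
      · simp
      · simp [Finsupp.single_apply]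
    rw [this, Prod.mk.injEq]
  ext x y
  rw [coeff_coeff_sumEquiv, coeff_X, coeff_C]
  by_cases hx : x = 0
  · rw [if_pos hx, coeff_X]
    by_cases hy : y = Finsupp.single t 1
    · rw [if_pos ((key x y).2 ⟨hx, hy⟩), if_pos hy]
    · rw [if_neg (fun h => hy ((key x y).1 h).2), if_neg hy]
  · rw [if_neg hx, if_neg (fun h => hx ((key x y).1 h).1), map_zero]

end SumEquiv

section VarIdeals

variable {σ K : Type*} [CommRing K]

theorem coeff_eq_zero_of_mem_span_X {s : Set σ} {f : MvPowerSeries σ K}
    (hf : f ∈ Ideal.span (X '' s : Set (MvPowerSeries σ K))) {m : σ →₀ ℕ}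
    (hm : ∀ j ∈ s, m j = 0) : coeff m f = 0 := by
  classical
  refine Submodule.span_induction (p := fun f _ => ∀ m : σ →₀ ℕ, (∀ j ∈ s, m j = 0) →
    coeff m f = 0) ?_ ?_ ?_ ?_ hf m hm
  · rintro _ ⟨j, hj, rfl⟩ m hm
    rw [coeff_X, if_neg]
    rintro rfl
    have := hm j hj
    simp at this
  · intro m _; rw [map_zero]
  · intro f g _ _ hf hg m hm
    rw [map_add, hf m hm, hg m hm, add_zero]
  · intro a f _ hf m hm
    rw [smul_eq_mul, coeff_mul]
    refine Finset.sum_eq_zero ?_
    rintro ⟨u, v⟩ huv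
    rw [Finset.HasAntidiagonal.mem_antidiagonal] at huv
    have : coeff v f = 0 := hf v fun j hj => by
      have h1 := hm j hj
      rw [← huv, Finsupp.add_apply] at h1
      exact (Nat.add_eq_zero_iff.1 h1).2
    rw [this, mul_zero]

theorem mem_span_X_of_coeff (s : Finset σ) : ∀ (f : MvPowerSeries σ K)
    (_ : ∀ m : σ →₀ ℕ, (∀ j ∈ s, m j = 0) → coeff m f = 0),
    f ∈ Ideal.span (X '' (s : Set σ) : Set (MvPowerSeries σ K)) := by
  classical
  induction s using Finset.induction_on with
  | empty =>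
    intro f hf
    have : f = 0 := by
      ext m
      rw [hf m (by simp), map_zero]
    rw [this]; exact zero_mem _
  | insert a s ha ih =>
    intro f hf
    let fa : MvPowerSeries σ K := fun m => if m a = 0 then 0 else coeff m f
    have hfa : ∀ m, coeff m fa = if m a = 0 then 0 else coeff m f := fun m => rfl
    have h1 : X a ∣ fa := by
      rw [X_dvd_iff]
      intro m hm
      rw [hfa, if_pos hm]
    have h2 : f - fa ∈ Ideal.span (X '' (s : Set σ) : Set (MvPowerSeries σ K)) := by
      apply ih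
      intro m hm
      rw [map_sub, hfa]
      by_cases h : m a = 0
      · rw [if_pos h, sub_zero]
        apply hf
        intro j hj
        rw [Finset.mem_insert] at hj
        rcases hj with rfl | hj
        · exact h
        · exact hm j hj
      · rw [if_neg h, sub_self]
    have h3 : f = (f - fa) + fa := by ring
    rw [h3]
    refine add_mem (Ideal.span_mono (Set.image_mono (by simp)) h2) ?_
    obtain ⟨c, hc⟩ := h1
    rw [hc]
    exact Ideal.mul_mem_right _ _ (Ideal.subset_span ⟨a, by simp, rfl⟩)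

theorem mem_span_X_iff [Finite σ] (s : Set σ) (f : MvPowerSeries σ K) :
    f ∈ Ideal.span (X '' s : Set (MvPowerSeries σ K)) ↔
      ∀ m : σ →₀ ℕ, (∀ j ∈ s, m j = 0) → coeff m f = 0 := by
  constructor
  · intro hf m hm
    exact coeff_eq_zero_of_mem_span_X hf hm
  · intro hf
    have := mem_span_X_of_coeff s.toFinite.toFinset f (fun m hm => hf m (fun j hj => hm j (by simpa)))
    simpa using this

theorem isPrime_span_X [Finite σ] [IsDomain K] (s : Set σ) :
    (Ideal.span (X '' s : Set (MvPowerSeries σ K))).IsPrime := by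
  classical
  constructor
  · intro h
    have h1 : (1 : MvPowerSeries σ K) ∈ Ideal.span (X '' s : Set (MvPowerSeries σ K)) := by
      rw [h]; trivial
    have := (mem_span_X_iff s 1).1 h1 0 (by simp)
    simp at this
  · intro f g hfg
    by_contra hcon
    push Not at hcon
    obtain ⟨hf, hg⟩ := hcon
    let r : MvPowerSeries σ K → MvPowerSeries σ K :=
      fun f => fun m => if ∀ j ∈ s, m j = 0 then coeff m f else 0
    have hr : ∀ f m, coeff m (r f) = if ∀ j ∈ s, m j = 0 then coeff m f else 0 := fun f m => rfl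
    have hsub : ∀ f, f - r f ∈ Ideal.span (X '' s : Set (MvPowerSeries σ K)) := by
      intro f
      rw [mem_span_X_iff]
      intro m hm
      rw [map_sub, hr, if_pos hm, sub_self]
    have hne : ∀ f, f ∉ Ideal.span (X '' s : Set (MvPowerSeries σ K)) → r f ≠ 0 := by
      intro f hf h0
      apply hf
      have := hsub f
      rwa [h0, sub_zero] at this
    have hmul : r f * r g = 0 := by
      have h1 : r f * r g ∈ Ideal.span (X '' s : Set (MvPowerSeries σ K)) := by
        have h2 : r f * r g = f * g - (f - r f) * g - r f * (g - r g) := by ring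
        rw [h2]
        exact sub_mem (sub_mem hfg (Ideal.mul_mem_right _ _ (hsub f)))
          (Ideal.mul_mem_left _ _ (hsub g))
      ext m
      rw [map_zero]
      by_cases hm : ∀ j ∈ s, m j = 0
      · exact (mem_span_X_iff s _).1 h1 m hm
      · push Not at hm
        obtain ⟨j, hj, hmj⟩ := hm
        rw [coeff_mul]
        refine Finset.sum_eq_zero ?_
        rintro ⟨u, v⟩ huv
        rw [Finset.HasAntidiagonal.mem_antidiagonal] at huv
        by_cases hu : u j = 0
        · have hv : v j ≠ 0 := by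
            intro hv
            apply hmj
            rw [← huv, Finsupp.add_apply, hu, hv]
          rw [hr g v, if_neg (fun h => hv (h j hj)), mul_zero]
        · rw [hr f u, if_neg (fun h => hu (h j hj)), zero_mul]
    rcases mul_eq_zero.1 hmul with h | h
    · exact hne f hf h
    · exact hne g hg h

theorem X_notMem_span_X [Finite σ] [Nontrivial K] {s : Set σ} {j : σ} (hj : j ∉ s) :
    (X j : MvPowerSeries σ K) ∉ Ideal.span (X '' s : Set (MvPowerSeries σ K)) := by
  classical
  intro h
  have := (mem_span_X_iff s _).1 h (Finsupp.single j 1) (fun i hi => by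
    rw [Finsupp.single_apply, if_neg]
    rintro rfl
    exact hj hi)
  rw [coeff_X, if_pos rfl] at this
  exact one_ne_zero this

/-- the sequence of variables, extended by `0` -/
noncomputable def varSeq (K : Type*) [CommRing K] (g : ℕ) (j : ℕ) : MvPowerSeries (Fin g) K :=
  if h : j < g then X ⟨j, h⟩ else 0

theorem varSeq_image (K : Type*) [CommRing K] (g i : ℕ) (hi : i ≤ g) :
    varSeq K g '' Set.Iio i = X '' {j : Fin g | j.val < i} := by
  ext f
  simp only [Set.mem_image, Set.mem_Iio, Set.mem_ofPred_eq]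
  constructor
  · rintro ⟨j, hj, rfl⟩
    exact ⟨⟨j, by omega⟩, hj, by rw [varSeq, dif_pos]⟩
  · rintro ⟨j, hj, rfl⟩
    exact ⟨j.val, hj, by rw [varSeq, dif_pos j.2]⟩

theorem isPrime_varSeq (K : Type*) [CommRing K] [IsDomain K] (g i : ℕ) (hi : i ≤ g) :
    (Ideal.span (varSeq K g '' Set.Iio i)).IsPrime := by
  rw [varSeq_image K g i hi]
  exact isPrime_span_X _

theorem varSeq_notMem (K : Type*) [CommRing K] [Nontrivial K] (g i : ℕ) (hi : i < g) :
    varSeq K g i ∉ Ideal.span (varSeq K g '' Set.Iio i) := by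
  rw [varSeq_image K g i hi.le, varSeq, dif_pos hi]
  exact X_notMem_span_X (by simp)

theorem mem_span_varSeq_iff (K : Type*) [CommRing K] (g : ℕ) (f : MvPowerSeries (Fin g) K) :
    f ∈ Ideal.span (varSeq K g '' Set.Iio g) ↔ constantCoeff f = 0 := by
  rw [varSeq_image K g g le_rfl, mem_span_X_iff]
  constructor
  · intro h
    rw [← coeff_zero_eq_constantCoeff_apply]
    exact h 0 (by simp)
  · intro h m hm
    have : m = 0 := by
      ext j
      exact hm j j.2
    rw [this, coeff_zero_eq_constantCoeff_apply, h]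

end VarIdeals

end Crest.Agent.R183.RD
end

-- ▼ part R183/RD6

/-!
# R183, block RD (helper680), part 6: the closed fibre of `R → T = R ⊗_A A'`
-/

set_option autoImplicit false

namespace Crest.Agent.R183.RD

open TensorProduct IsLocalRing Crest.Agent.R183.M

universe u v w

section Desc

variable (A R A' T : Type*) [CommRing A] [CommRing R] [CommRing A'] [CommRing T]
  [Algebra A R] [Algebra A A'] [Algebra A T] [Algebra R T] [Algebra A' T]
  [IsScalarTower A R T] [IsScalarTower A A' T] [Algebra.IsPushout A R A' T]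

theorem exists_desc {E : Type*} [CommRing E] (f : R →+* E) (g : A' →+* E)
    (h : f.comp (algebraMap A R) = g.comp (algebraMap A A')) :
    ∃ χ : T →+* E, χ.comp (algebraMap R T) = f ∧ χ.comp (algebraMap A' T) = g := by
  let _ : Algebra A E := (f.comp (algebraMap A R)).toAlgebra
  let f' : R →ₐ[A] E := { f with commutes' := fun a => rfl }
  have hg : ∀ a : A, g (algebraMap A A' a) = algebraMap A E a := fun a =>
    (congrArg (fun k : A →+* E => k a) h).symm
  let g' : A' →ₐ[A] E := { g with commutes' := hg }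
  let e := Algebra.IsPushout.equiv A R A' T
  refine ⟨(Algebra.TensorProduct.productMap f' g').toRingHom.comp e.symm.toRingEquiv.toRingHom,
    ?_, ?_⟩
  · ext r
    show Algebra.TensorProduct.productMap f' g' (e.symm (algebraMap R T r)) = f r
    rw [Algebra.IsPushout.equiv_symm_algebraMap_left, Algebra.TensorProduct.productMap_apply_tmul,
      map_one, mul_one]
    rfl
  · ext r
    show Algebra.TensorProduct.productMap f' g' (e.symm (algebraMap A' T r)) = g r
    rw [Algebra.IsPushout.equiv_symm_algebraMap_right, Algebra.TensorProduct.productMap_apply_tmul,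
      map_one, one_mul]
    rfl

variable {A R A' T}

/-- The descent of `ε : A' → E` (killing `m_A`) to `T`. -/
theorem exists_fibre_hom [IsLocalRing A] [IsLocalRing R] [IsLocalHom (algebraMap A R)]
    (hres : ∀ r : R, ∃ a : A, r - algebraMap A R a ∈ maximalIdeal R)
    {E : Type*} [CommRing E] (ε : A' →+* E)
    (hε : (maximalIdeal A).map (algebraMap A A') ≤ RingHom.ker ε) :
    ∃ χ : T →+* E, χ.comp (algebraMap A' T) = ε ∧
      (maximalIdeal R).map (algebraMap R T) ≤ RingHom.ker χ := by
  have hle : maximalIdeal A ≤ (maximalIdeal R).comap (algebraMap A R) :=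
    ((local_hom_TFAE (algebraMap A R)).out 0 3).1 ‹IsLocalHom (algebraMap A R)›
  let a1 : A ⧸ maximalIdeal A →+* R ⧸ maximalIdeal R := Ideal.quotientMap _ (algebraMap A R) hle
  have ha1 : Function.Bijective a1 := by
    constructor
    · let _ : Field (A ⧸ maximalIdeal A) := Ideal.Quotient.field _
      exact RingHom.injective a1
    · intro x
      obtain ⟨r, rfl⟩ := Ideal.Quotient.mk_surjective x
      obtain ⟨a, ha⟩ := hres r
      refine ⟨Ideal.Quotient.mk _ a, ?_⟩
      show Ideal.Quotient.mk _ (algebraMap A R a) = Ideal.Quotient.mk _ r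
      rw [eq_comm, Ideal.Quotient.eq]
      exact ha
  let e1 := RingEquiv.ofBijective a1 ha1
  let l : A ⧸ maximalIdeal A →+* E := Ideal.Quotient.lift _ (ε.comp (algebraMap A A')) (by
    intro a ha
    exact hε (Ideal.mem_map_of_mem _ ha))
  let ρ : R →+* E := l.comp (e1.symm.toRingHom.comp (Ideal.Quotient.mk (maximalIdeal R)))
  have hρ : ρ.comp (algebraMap A R) = ε.comp (algebraMap A A') := by
    ext a
    show l (e1.symm (Ideal.Quotient.mk _ (algebraMap A R a))) = ε (algebraMap A A' a)
    have : e1.symm (Ideal.Quotient.mk _ (algebraMap A R a)) = Ideal.Quotient.mk _ a := by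
      rw [RingEquiv.symm_apply_eq]
      rfl
    rw [this]
    rfl
  obtain ⟨χ, h1, h2⟩ := exists_desc A R A' T ρ ε hρ
  refine ⟨χ, h2, ?_⟩
  rw [Ideal.map_le_iff_le_comap]
  intro r hr
  rw [Ideal.mem_comap, RingHom.mem_ker]
  have : χ (algebraMap R T r) = ρ r := congrArg (fun k : R →+* E => k r) h1
  rw [this]
  show l (e1.symm (Ideal.Quotient.mk _ r)) = 0
  rw [Ideal.Quotient.eq_zero_iff_mem.2 hr, map_zero, map_zero]

/-- kernel and surjectivity of the descended map -/
theorem ker_fibre_hom [IsLocalRing A] [IsLocalRing R] [IsLocalHom (algebraMap A R)]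
    (hres : ∀ r : R, ∃ a : A, r - algebraMap A R a ∈ maximalIdeal R)
    {E : Type*} [CommRing E] (ε : A' →+* E)
    (hker : RingHom.ker ε = (maximalIdeal A).map (algebraMap A A'))
    (χ : T →+* E) (h1 : χ.comp (algebraMap A' T) = ε)
    (h2 : (maximalIdeal R).map (algebraMap R T) ≤ RingHom.ker χ) :
    RingHom.ker χ = (maximalIdeal R).map (algebraMap R T) := by
  refine le_antisymm ?_ h2
  intro x hx
  obtain ⟨a, ha⟩ := exists_sub_mem (A := A) (R := R) (A' := A') hres x
  have h3 : ε a = 0 := by
    have h4 : χ (x - algebraMap A' T a) = 0 := h2 ha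
    rw [map_sub, RingHom.mem_ker.1 hx, zero_sub, neg_eq_zero] at h4
    rw [← h1]
    exact h4
  have h4 : a ∈ (maximalIdeal A).map (algebraMap A A') := by
    rw [← hker]; exact h3
  have h5 : algebraMap A' T a ∈ (maximalIdeal R).map (algebraMap R T) := by
    have h6 := Ideal.mem_map_of_mem (algebraMap A' T) h4
    rw [Ideal.map_map, ← IsScalarTower.algebraMap_eq, IsScalarTower.algebraMap_eq A R T,
      ← Ideal.map_map] at h6
    refine Ideal.map_mono ?_ h6
    rw [Ideal.map_le_iff_le_comap]
    exact ((local_hom_TFAE (algebraMap A R)).out 0 3).1 ‹IsLocalHom (algebraMap A R)›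
  have : x = (x - algebraMap A' T a) + algebraMap A' T a := by ring
  rw [this]
  exact add_mem ha h5

end Desc

section Chain

variable {R : Type u} {T : Type v} [CommRing R] [IsLocalRing R] [CommRing T] [Algebra R T]
  {κ : Type*} [Field κ] {g : ℕ} (χ : T →+* MvPowerSeries (Fin g) κ)
  (hχ : Function.Surjective χ) (hker : RingHom.ker χ = (maximalIdeal R).map (algebraMap R T))
  (Y : ℕ → T) (hY : ∀ j, χ (Y j) = varSeq κ g j)

include hχ hker hY in
theorem pr_eq_comap (i : ℕ) :
    pr R T Y i = (Ideal.span (varSeq κ g '' Set.Iio i)).comap χ := by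
  have h1 : (Ideal.span (varSeq κ g '' Set.Iio i)) = (Ideal.span (Y '' Set.Iio i)).map χ := by
    rw [Ideal.map_span, ← Set.image_comp]
    congr 1
    refine Set.image_congr fun j _ => (hY j).symm
  rw [h1, Ideal.comap_map_of_surjective χ hχ, ← RingHom.ker_eq_comap_bot, hker, sup_comm]
  rfl

include hχ hker hY in
theorem pr_isPrime (i : ℕ) (hi : i ≤ g) : (pr R T Y i).IsPrime := by
  rw [pr_eq_comap χ hχ hker Y hY i]
  have := isPrime_varSeq κ g i hi
  exact Ideal.IsPrime.comap _

include hχ hker hY in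
theorem Y_notMem_pr (i : ℕ) (hi : i < g) : Y i ∉ pr R T Y i := by
  rw [pr_eq_comap χ hχ hker Y hY i, Ideal.mem_comap, hY]
  exact varSeq_notMem κ g i hi

include hχ hker hY in
theorem pr_eq_maximalIdeal [IsLocalRing T] : pr R T Y g = maximalIdeal T := by
  rw [pr_eq_comap χ hχ hker Y hY g]
  have h1 : Ideal.span (varSeq κ g '' Set.Iio g) =
      RingHom.ker (MvPowerSeries.constantCoeff (σ := Fin g) (R := κ)) := by
    ext f
    rw [mem_span_varSeq_iff, RingHom.mem_ker]
  have h2 : (Ideal.span (varSeq κ g '' Set.Iio g)).IsMaximal := by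
    rw [h1]
    exact RingHom.ker_isMaximal_of_surjective _
      (fun x => ⟨MvPowerSeries.C x, by simp⟩)
  have := h2
  exact IsLocalRing.eq_maximalIdeal (Ideal.comap_isMaximal_of_surjective χ hχ)


end Chain

end Crest.Agent.R183.RD
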