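import Crest.Agent.R183.Res3

/-!
# R183 (Lech), block [4]: application forms of the acyclicity lemma

`C` is a matrix complex over a ring `R`, `W` is a module over `R` and over `A` (commuting actions),
the null filter lives on `A`.
-/

set_option autoImplicit false

namespace Crest.Agent.R183.Res

universe u v w

section App

variable {A : Type u} [CommRing A] (N : NullF A) {R : Type w} [CommRing R]
variable {W : Type v} [AddCommGroup W] [Module A W] [Module R W] [SMulCommClass R A W]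

/-- The differential of `C ⊗_R W` as an `A`-linear map. -/
def MCx.dA (C : MCx R) (A : Type u) [CommRing A] (W : Type v) [AddCommGroup W] [Module A W]
    [Module R W] [SMulCommClass R A W] (n : ℕ) : (C.ι (n + 1) → W) →ₗ[A] (C.ι n → W) where
  toFun v := C.dM W n v
  map_add' := map_add _
  map_smul' := by
    intro a v
    funext i
    show ∑ b, C.d n i b • (a • v b) = a • ∑ b, C.d n i b • v b
    rw [Finset.smul_sum]
    exact Finset.sum_congr rfl (fun b _ => smul_comm _ _ _)

theorem MCx.dA_apply (C : MCx R) (n : ℕ) (v : C.ι (n + 1) → W) : C.dA A W n v = C.dM W n v := rfl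

/-- `H_n(C ⊗_R W)` is null as an `A`-module. -/
def MCx.NullA (N : NullF A) (C : MCx R) (W : Type v) [AddCommGroup W] [Module A W]
    [Module R W] [SMulCommClass R A W] (n : ℕ) : Prop :=
  NullAt N (X := fun n => C.ι n → W) (fun n => C.dA A W n) n

theorem MCx.mem_cyc_dA (C : MCx R) (n : ℕ) (v : C.ι n → W) :
    v ∈ cyc (X := fun n => C.ι n → W) (fun n => C.dA A W n) n ↔ v ∈ C.cycM W n := by
  cases n with
  | zero => exact ⟨fun _ => trivial, fun _ => trivial⟩
  | succ k => exact Iff.rfl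

theorem MCx.mem_bdy_dA (C : MCx R) (n : ℕ) (v : C.ι n → W) :
    v ∈ bdy (X := fun n => C.ι n → W) (fun n => C.dA A W n) n ↔ v ∈ C.bdyM W n := by
  exact Iff.rfl

/-- **Acyclicity, application form.** `l` is a list in `A` such that the Koszul homology of `W`
with respect to `l` is null in positive degrees; each `x ∈ l` acts on `W` as an element of `R`
which is null-homotopic on `C`; `C` has length `≤ l.length`. Then `H_n(C ⊗ W)` is null, `n ≥ 1`. -/
theorem MCx.acyclic_app (C : MCx R) (l : List A) (hlen : C.Len l.length)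
    (hW : ∀ j, 1 ≤ j → (kos l).NullM N W j)
    (hkill : ∀ x ∈ l, ∃ x' : R, C.NHom x' ∧ ∀ w : W, x' • w = x • w) :
    ∀ n, 1 ≤ n → C.NullA N W n := by
  refine acyclic N l (X := fun n => C.ι n → W) (fun n => C.dA A W n) ?_ ?_ ?_ ?_
  · intro n x
    exact C.dM_dM n x
  · intro n hn
    have := hlen n hn
    infer_instance
  · intro n j hj
    exact MCx.null_pi N (kos l) (C.ι n) j (hW j hj)
  · intro n _ x hx v hv
    rw [MCx.mem_cyc_dA] at hv
    obtain ⟨x', hx', hw⟩ := hkill x hx
    have h1 := hx'.kill W n hv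
    have h2 : x • v = x' • v := by
      funext i
      exact (hw (v i)).symm
    rw [h2, MCx.mem_bdy_dA]
    exact h1

omit [Module A W] [SMulCommClass R A W] in
theorem sum_fromCols {ι κ : Type} [Fintype ι] [Fintype κ] [DecidableEq ι] (D : Matrix ι κ R) (y : R)
    (w : κ ⊕ ι → W) (i : ι) :
    ∑ b : κ ⊕ ι, (Matrix.fromCols D (y • (1 : Matrix ι ι R))) i b • w b =
      ∑ b, D i b • w (Sum.inl b) + y • w (Sum.inr i) := by
  rw [Fintype.sum_sum_type]
  congr 1
  simp only [Matrix.fromCols_apply_inr, Matrix.smul_apply, Matrix.one_apply, smul_eq_mul, mul_ite,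
    mul_one, mul_zero, ite_smul, zero_smul]
  rw [Finset.sum_ite_eq]
  simp


omit [Module A W] [SMulCommClass R A W] in
theorem sum_fromBlocks' {ι κ μ ν : Type} [Fintype ι] [Fintype κ] [Fintype μ] [Fintype ν]
    (D : Matrix μ κ R)
    (E : Matrix μ ι R) (F : Matrix ν ι R) (w : κ ⊕ ι → W) (i : ν) :
    ∑ b : κ ⊕ ι, (Matrix.fromBlocks D E (0 : Matrix ν κ R) F) (Sum.inr i) b • w b =
      ∑ b, F i b • w (Sum.inr b) := by
  rw [Fintype.sum_sum_type]
  simp

/-- The null regularity of `y` on `H_0(C ⊗ W)`. -/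
theorem MCx.null_regular_H0 (C : MCx R) (y : R) (h : (C.cone y).NullA N W 1) (v : C.ι 0 → W)
    (hv : y • v ∈ C.bdyM W 0) :
    v ∈ N.sat (LinearMap.range (C.dA A W 0)) := by
  obtain ⟨u, hu⟩ := hv
  have hu' : C.dM W 0 u = y • v := hu
  -- the cycle `(-u, v)` of the cone
  have hc : (Sum.elim (-u) v : C.ι 1 ⊕ C.ι 0 → W) ∈
      cyc (X := fun n => (C.cone y).ι n → W) (fun n => (C.cone y).dA A W n) 1 := by
    show (C.cone y).dA A W 0 (Sum.elim (-u) v : C.ι 1 ⊕ C.ι 0 → W) = 0
    funext i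
    show ∑ b : C.ι 1 ⊕ C.ι 0, (Matrix.fromCols (C.d 0) (y • (1 : Matrix (C.ι 0) (C.ι 0) R))) i b •
      (Sum.elim (-u) v : C.ι 1 ⊕ C.ι 0 → W) b = 0
    refine Eq.trans (sum_fromCols (C.d 0) y _ (show C.ι 0 from i)) ?_
    have h1 : ∑ b, C.d 0 i b • (-u) b = - (y • v) i := by
      rw [← hu']
      show _ = - ∑ b, C.d 0 i b • u b
      simp
    refine Eq.trans (congrArg (· + y • v i) h1) ?_
    exact neg_add_cancel (y • v i)
  have h1 := h hc
  -- project to the second coordinate
  let pr : (C.ι 1 ⊕ C.ι 0 → W) →ₗ[A] (C.ι 0 → W) := LinearMap.funLeft A W Sum.inr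
  have h2 : pr (Sum.elim (-u) v : C.ι 1 ⊕ C.ι 0 → W) ∈ N.sat (LinearMap.range (C.dA A W 0)) := by
    refine N.map_sat (B := bdy (X := fun n => (C.cone y).ι n → W)
      (fun n => (C.cone y).dA A W n) 1) pr ?_ h1
    rintro _ ⟨w, rfl⟩
    refine ⟨-(fun b => w (Sum.inr b)), ?_⟩
    funext i
    refine Eq.trans ?_ (sum_fromBlocks' (C.d 1) (y • (1 : Matrix (C.ι 1) (C.ι 1) R))
      (- C.d 0) w i).symm
    refine Finset.sum_congr rfl (fun b _ => ?_)
    show C.d 0 i b • (- w (Sum.inr b)) = (- C.d 0 i b) • w (Sum.inr b)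
    rw [smul_neg, neg_smul]
  exact h2

/-- `H_0(C ⊗ W) = W / I W`. -/
def MCx.H0 (C : MCx R) (W : Type v) [AddCommGroup W] [Module R W] (I : Ideal R) : Prop :=
  ∃ u : Unique (C.ι 0), ∀ v : C.ι 0 → W, v ∈ C.bdyM W 0 ↔ v u.default ∈ (I • ⊤ : Submodule R W)

theorem MCx.H0.cone {C : MCx R} {I : Ideal R} (h : C.H0 W I) (y : R) :
    (C.cone y).H0 W (I ⊔ Ideal.span {y}) := by
  obtain ⟨u, hu⟩ := h
  refine ⟨u, ?_⟩
  intro v
  have hv : v = fun _ : C.ι 0 => v u.default := by
    funext i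
    congr 1
    exact u.uniq i
  constructor
  · rintro ⟨w, hw⟩
    have h1 : C.dM W 0 (fun b => w (Sum.inl b)) u.default + y • w (Sum.inr u.default) =
        v u.default := by
      rw [← hw]
      exact (sum_fromCols (C.d 0) y w u.default).symm
    have h3 : C.dM W 0 (fun b => w (Sum.inl b)) u.default + y • w (Sum.inr u.default) ∈
        ((I ⊔ Ideal.span {y}) • ⊤ : Submodule R W) := by
      rw [Submodule.sup_smul]
      refine Submodule.add_mem_sup ?_ ?_
      · exact (hu _).mp ⟨_, rfl⟩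
      · exact Submodule.smul_mem_smul (Ideal.mem_span_singleton_self y) trivial
    rw [h1] at h3
    exact h3
  · intro hv2
    rw [Submodule.sup_smul] at hv2
    obtain ⟨w1, hw1, w2, hw2, hw⟩ := Submodule.mem_sup.mp hv2
    rw [Submodule.ideal_span_singleton_smul] at hw2
    obtain ⟨w3, _, rfl⟩ := (Submodule.mem_smul_pointwise_iff_exists _ _ _).mp hw2
    obtain ⟨a, ha⟩ := (hu (fun _ => w1)).mpr hw1
    refine ⟨(Sum.elim a (fun _ => w3) : C.ι 1 ⊕ C.ι 0 → W), ?_⟩
    funext i
    refine Eq.trans (sum_fromCols (C.d 0) y _ (show C.ι 0 from i)) ?_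
    have h1 : ∑ b, C.d 0 i b • a b = w1 := congrFun ha i
    refine Eq.trans (congrArg (· + y • w3) h1) ?_
    refine hw.trans ?_
    exact (congrFun hv i).symm

theorem MCx.H0.cones {C : MCx R} {I : Ideal R} (h : C.H0 W I) :
    ∀ (l : List R), (C.cones l).H0 W (I ⊔ Ideal.span {x | x ∈ l})
  | [] => by
    have : (I ⊔ Ideal.span {x : R | x ∈ ([] : List R)}) = I := by simp
    rw [this]
    exact h
  | (x :: l) => by
    have ih := (MCx.H0.cones h l).cone x
    have : I ⊔ Ideal.span {y | y ∈ l} ⊔ Ideal.span {x} = I ⊔ Ideal.span {y | y ∈ x :: l} := by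
      rw [sup_assoc, ← Ideal.span_union]
      congr 2
      ext y
      simp
    rw [← this]
    exact ih

/-- Null regularity on `W/IW`. -/
theorem MCx.H0.null_regular {C : MCx R} {I : Ideal R} (h0 : C.H0 W I) (y : R)
    (h : (C.cone y).NullA N W 1) {B : Submodule A W}
    (hB : ∀ w : W, w ∈ (I • ⊤ : Submodule R W) → w ∈ B) {w : W}
    (hw : y • w ∈ (I • ⊤ : Submodule R W)) : w ∈ N.sat B := by
  obtain ⟨u, hu⟩ := h0
  have h1 := MCx.null_regular_H0 N C y h (fun _ => w) ((hu _).mpr hw)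
  have := N.map_sat (B' := B) (LinearMap.proj (R := A) (φ := fun _ : C.ι 0 => W) u.default) (by
    rintro x ⟨z, hz⟩
    apply hB
    exact (hu x).mp ⟨z, hz⟩) h1
  exact this

end App

end Crest.Agent.R183.Res
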