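import Crest.Agent.R183.WBound
import Crest.Agent.R183.AddLenInst
import Crest.Agent.R183.Res5

-- ▼ part R183/Core
section

set_option autoImplicit false

namespace Crest.Agent.R183.Core

open scoped ENNReal
open Crest.Agent.R183 Crest.Agent.R183.WG Filter

universe u

section free

variable {A : Type u} [CommRing A] (Λ : AddLen.{u, u} A)

/-- `L (A^c / K A^c) = c L (A / K)`. -/
lemma L_pi_quot (c : ℕ) (K : Ideal A) :
    Λ.L ((Fin c → A) ⧸ (K • (⊤ : Submodule A (Fin c → A)))) = c * Λ.L (A ⧸ K) := by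
  let π : (Fin c → A) →ₗ[A] (Fin c → A ⧸ K) :=
    LinearMap.pi fun i => (Submodule.mkQ K).comp (LinearMap.proj i)
  have hπ : Function.Surjective π := by
    intro v
    choose u hu using fun i => Submodule.mkQ_surjective K (v i)
    exact ⟨u, funext hu⟩
  have hk : LinearMap.ker π = K • (⊤ : Submodule A (Fin c → A)) := by
    ext v
    constructor
    · intro hv
      rw [LinearMap.mem_ker] at hv
      have h1 : ∀ i, v i ∈ K := by
        intro i
        have := congrFun hv i
        exact (Submodule.Quotient.mk_eq_zero K).1 this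
      have h2 : v = ∑ i, v i • (Pi.single i (1 : A) : Fin c → A) := by
        conv_lhs => rw [← Finset.univ_sum_single v]
        refine Finset.sum_congr rfl fun i _ => ?_
        rw [← Pi.single_smul, smul_eq_mul, mul_one]
      rw [h2]
      exact Submodule.sum_mem _ fun i _ => Submodule.smul_mem_smul (h1 i) trivial
    · intro hv
      refine Submodule.smul_induction_on hv ?_ ?_
      · intro a ha v _
        rw [LinearMap.mem_ker]
        funext i
        change (Submodule.Quotient.mk (a • v i) : A ⧸ K) = 0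
        rw [Submodule.Quotient.mk_eq_zero]
        exact K.mul_mem_right _ ha
      · intro x y hx hy
        exact Submodule.add_mem _ hx hy
  have e : ((Fin c → A) ⧸ (K • (⊤ : Submodule A (Fin c → A)))) ≃ₗ[A] (Fin c → A ⧸ K) :=
    (Submodule.quotEquivOfEq _ _ hk.symm).trans (π.quotKerEquivOfSurjective hπ)
  rw [Λ.L_congr e, Λ.L_finset_pi]

/-- `(M / I M) / K (M / I M) = M / (I + K) M`. -/
lemma L_quot_quot {M : Type u} [AddCommGroup M] [Module A M] (I K : Ideal A) :
    Λ.L ((M ⧸ (I • (⊤ : Submodule A M))) ⧸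
        (K • (⊤ : Submodule A (M ⧸ (I • (⊤ : Submodule A M))))))
      = Λ.L (M ⧸ ((I ⊔ K) • (⊤ : Submodule A M))) := by
  let π : M →ₗ[A] ((M ⧸ (I • (⊤ : Submodule A M))) ⧸
      (K • (⊤ : Submodule A (M ⧸ (I • (⊤ : Submodule A M)))))) :=
    (Submodule.mkQ _).comp (Submodule.mkQ _)
  have hπ : Function.Surjective π := (Submodule.mkQ_surjective _).comp (Submodule.mkQ_surjective _)
  have hk : LinearMap.ker π = (I ⊔ K) • (⊤ : Submodule A M) := by
    rw [LinearMap.ker_comp, Submodule.ker_mkQ]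
    have h1 : (K • (⊤ : Submodule A (M ⧸ (I • (⊤ : Submodule A M))))) =
        (K • (⊤ : Submodule A M)).map (I • (⊤ : Submodule A M)).mkQ := by
      rw [Submodule.map_smul'', Submodule.map_top, Submodule.range_mkQ]
    rw [h1, Submodule.comap_map_mkQ, Submodule.sup_smul]
  exact Λ.L_congr ((Submodule.quotEquivOfEq _ _ hk.symm).trans
    (π.quotKerEquivOfSurjective hπ)).symm

end free

section stage

variable {T To C X : Type u} [CommRing T] [CommRing To] [Algebra T To] (Λ : AddLen.{u, u} To)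
  [CommRing C] [Algebra To C] [AddCommGroup X] [Module To X] [Module C X] [IsScalarTower To C X]

lemma powIdeal_map {d : ℕ} (z : Fin d → T) (a : Fin d → ℕ) :
    (powIdeal z a).map (algebraMap T To) = powIdeal (fun i => algebraMap T To (z i)) a := by
  unfold powIdeal
  rw [Ideal.map_span, ← Set.range_comp]
  congr 2
  funext i
  simp

/-- the step `L(X/wX) ≤ q^D L(X/YX)`. -/
lemma L_quot_root_le {D : ℕ} (w : Fin D → To) (Y : Fin D → C) (q : ℕ)
    (hY : ∀ i, Y i ^ q = algebraMap To C (w i)) :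
    Λ.L (X ⧸ (Ideal.span (Set.range w) • (⊤ : Submodule To X)))
      ≤ (q : ℝ≥0∞) ^ D * (Λ.restrict (algebraMap To C)).L
          (X ⧸ (Ideal.span (Set.range Y) • (⊤ : Submodule C X))) := by
  refine le_trans ?_ (L_quot_powIdeal_le (Λ.restrict (algebraMap To C)) Y q)
  rw [Λ.restrict_L (algebraMap To C) _ (fun a x => (algebraMap_smul C a x).symm)]
  -- surjection `X/(Y^q)X → X/wX`
  have hle : ((powIdeal Y (fun _ => q) • (⊤ : Submodule C X)).restrictScalars To) ≤
      Ideal.span (Set.range w) • (⊤ : Submodule To X) := by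
    intro x hx
    rw [Submodule.restrictScalars_mem] at hx
    refine Submodule.smul_induction_on hx ?_ ?_
    · intro a ha v _
      refine Submodule.span_induction (p := fun a _ => ∀ v : X, a • v ∈
        Ideal.span (Set.range w) • (⊤ : Submodule To X)) ?_ ?_ ?_ ?_ ha v
      · rintro _ ⟨i, rfl⟩ v
        dsimp only
        rw [hY i, algebraMap_smul]
        exact Submodule.smul_mem_smul (Ideal.subset_span ⟨i, rfl⟩) trivial
      · intro v; rw [zero_smul]; exact Submodule.zero_mem _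
      · intro a b _ _ ha hb v
        rw [add_smul]; exact Submodule.add_mem _ (ha v) (hb v)
      · intro a b _ hb v
        rw [smul_eq_mul, mul_comm, mul_smul]
        exact hb _
    · intro x y hx hy
      exact Submodule.add_mem _ hx hy
  let φ : (X ⧸ (powIdeal Y (fun _ => q) • (⊤ : Submodule C X))) →ₗ[To]
      (X ⧸ (Ideal.span (Set.range w) • (⊤ : Submodule To X))) :=
    { toFun := fun x => Quotient.liftOn' x
        (fun y => (Submodule.Quotient.mk y : X ⧸ (Ideal.span (Set.range w) • (⊤ : Submodule To X))))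
        (by
          intro y y' h
          rw [Submodule.quotientRel_def] at h
          exact (Submodule.Quotient.eq _).2 (hle h))
      map_add' := by
        intro x y
        induction x using Quotient.inductionOn'
        induction y using Quotient.inductionOn'
        rfl
      map_smul' := by
        intro a x
        induction x using Quotient.inductionOn'
        rfl }
  have hφ : Function.Surjective φ := by
    intro y
    obtain ⟨y, rfl⟩ := Submodule.Quotient.mk_surjective _ y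
    exact ⟨Submodule.Quotient.mk y, rfl⟩
  exact Λ.L_le_of_surjective φ hφ

variable (J0 : Ideal T) {D d : ℕ} (w : Fin D → T) (z : Fin d → T) (Δ : T)

/-- **Core inequality at one stage.** -/
theorem core_stage (hD : 0 < D) (hd : 0 < d) (hcont : Cont Λ)
    (hΛ : ∀ I : Ideal T, Module.length T (T ⧸ I) ≠ ⊤ →
      Λ.L (To ⧸ I.map (algebraMap T To)) = ((Module.length T (T ⧸ I) : ℕ∞) : ℝ≥0∞))
    -- multiplicities
    (rT rS CS CT : ℕ)
    (hrS : ∀ n : ℕ, 0 < n → Module.length T (T ⧸ (J0 ⊔ powIdeal z (fun _ => n)))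
      ≤ ((rS * n ^ d + CS * n ^ (d - 1) : ℕ) : ℕ∞))
    (hrT : ∀ n : ℕ, 0 < n → ((rT * n ^ D : ℕ) : ℕ∞) ≤
      Module.length T (T ⧸ powIdeal w (fun _ => n)))
    (hfin : ∀ n : ℕ, 0 < n → Module.length T (T ⧸ powIdeal w (fun _ => n)) ≠ ⊤)
    -- growth of the junk
    (hgT : ∀ n : ℕ, 0 < n → Module.length T (T ⧸ (Ideal.span {Δ ^ 2} ⊔ powIdeal w (fun _ => n)))
      ≤ ((CT * n ^ (D - 1) : ℕ) : ℕ∞))
    (hgS : ∀ n : ℕ, 0 < n → Module.length T (T ⧸ (J0 ⊔ Ideal.span {Δ} ⊔ powIdeal z (fun _ => n)))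
      ≤ ((CS * n ^ (d - 1) : ℕ) : ℕ∞))
    -- the stage
    (Y : Fin D → C) (q : ℕ) (hY : ∀ i, Y i ^ q = algebraMap To C (algebraMap T To (w i)))
    (c : ℕ) (hc : 0 < c) (f : (Fin c → To) →ₗ[To] X)
    (hΔ : ∀ x : X, algebraMap T To Δ • x ∈ LinearMap.range f)
    (hker : ∀ v, f v = 0 → algebraMap T To Δ • v = 0)
    (hnull : NullReg Λ (fun i => algebraMap T To (z i))
      (X ⧸ (J0.map (algebraMap T To) • (⊤ : Submodule To X))))
    -- output of Theorem K
    (κ : ℝ≥0∞)
    (hK : κ * (Λ.restrict (algebraMap To C)).L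
          (X ⧸ (Ideal.span (Set.range Y) • (⊤ : Submodule C X)))
      ≤ Λ.L (X ⧸ ((J0.map (algebraMap T To) ⊔
          Ideal.span (Set.range fun i => algebraMap T To (z i))) • (⊤ : Submodule To X)))) :
    κ * rT ≤ (q : ℝ≥0∞) ^ D * rS := by
  set J := J0.map (algebraMap T To) with hJ
  set z' := fun i => algebraMap T To (z i) with hz'
  set w' := fun i => algebraMap T To (w i) with hw'
  set δ := algebraMap T To Δ with hδ
  have hc0 : (c : ℝ≥0∞) ≠ 0 := by exact_mod_cast hc.ne'
  have hct : (c : ℝ≥0∞) ≠ ⊤ := ENNReal.natCast_ne_top c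
  -- (1) `L(X/(J,z)X) ≤ c rS`
  have h1 : Λ.L (X ⧸ ((J ⊔ Ideal.span (Set.range z')) • (⊤ : Submodule To X))) ≤ c * rS := by
    rw [← L_quot_quot]
    have hfJ : (J • (⊤ : Submodule To (Fin c → To))) ≤ (J • (⊤ : Submodule To X)).comap f := by
      rw [← Submodule.map_le_iff_le_comap, Submodule.map_smul'']
      exact Submodule.smul_mono le_rfl le_top
    let F := Submodule.mapQ (J • (⊤ : Submodule To (Fin c → To))) (J • (⊤ : Submodule To X)) f hfJ
    refine L_quot_le Λ hd hcont z' hnull F δ ?_ J ?_ (c * rS) (c * CS) CS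
      (ENNReal.mul_ne_top hct (ENNReal.natCast_ne_top _)) (ENNReal.natCast_ne_top _) ?_ ?_
    · intro v
      obtain ⟨x, rfl⟩ := Submodule.Quotient.mk_surjective _ v
      obtain ⟨y, hy⟩ := hΔ x
      refine ⟨Submodule.Quotient.mk y, ?_⟩
      change Submodule.Quotient.mk (f y) = _
      rw [hy]
      rfl
    · intro a ha v
      obtain ⟨x, rfl⟩ := Submodule.Quotient.mk_surjective _ v
      rw [← Submodule.Quotient.mk_smul, Submodule.Quotient.mk_eq_zero]
      exact Submodule.smul_mem_smul ha trivial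
    · intro n hn
      rw [L_quot_quot, L_pi_quot, hJ, hz', ← powIdeal_map, ← Ideal.map_sup, hΛ]
      · have h := hrS n hn
        have h' : ((Module.length T (T ⧸ (J0 ⊔ powIdeal z (fun _ => n))) : ℕ∞) : ℝ≥0∞) ≤
            ((rS * n ^ d + CS * n ^ (d - 1) : ℕ) : ℝ≥0∞) := by
          have := ENat.toENNReal_mono h
          simpa using this
        refine (mul_le_mul_right h' _).trans ?_
        push_cast
        apply le_of_eq
        ring
      · intro htop
        have h := hrS n hn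
        rw [htop, top_le_iff] at h
        exact ENat.natCast_ne_top _ h
    · intro n hn
      have e : J ⊔ Ideal.span {δ} ⊔ powIdeal z' (fun _ => n) =
          (J0 ⊔ Ideal.span {Δ} ⊔ powIdeal z (fun _ => n)).map (algebraMap T To) := by
        rw [Ideal.map_sup, Ideal.map_sup, powIdeal_map, Ideal.map_span, Set.image_singleton]
      rw [e, hΛ]
      · have := ENat.toENNReal_mono (hgS n hn)
        simpa using this
      · intro htop
        have h := hgS n hn
        rw [htop, top_le_iff] at h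
        exact ENat.natCast_ne_top _ h
  -- (2) `c rT ≤ L(X/wX)`
  have h2 : c * rT ≤ Λ.L (X ⧸ (Ideal.span (Set.range w') • (⊤ : Submodule To X))) := by
    refine le_L_quot Λ hD w' f δ hΔ hker (c * rT) (c * CT)
      (ENNReal.mul_ne_top hct (ENNReal.natCast_ne_top _)) ?_ ?_ ?_
    · intro n hn
      rw [L_pi_quot, hw', ← powIdeal_map, hΛ _ (hfin n hn)]
      refine ENNReal.mul_ne_top hct ?_
      rw [Ne, ENat.toENNReal_eq_top]
      exact hfin n hn
    · intro n hn
      rw [L_pi_quot, hw', ← powIdeal_map, hΛ _ (hfin n hn), mul_assoc]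
      refine mul_le_mul_right ?_ _
      have := ENat.toENNReal_mono (hrT n hn)
      simpa using this
    · intro n hn
      have e : Ideal.span {δ ^ 2} ⊔ powIdeal w' (fun _ => n) =
          (Ideal.span {Δ ^ 2} ⊔ powIdeal w (fun _ => n)).map (algebraMap T To) := by
        rw [Ideal.map_sup, powIdeal_map, Ideal.map_span, Set.image_singleton, map_pow]
      rw [L_pi_quot, e, hΛ]
      · rw [mul_assoc]
        refine mul_le_mul_right ?_ _
        have := ENat.toENNReal_mono (hgT n hn)
        simpa using this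
      · intro htop
        have h := hgT n hn
        rw [htop, top_le_iff] at h
        exact ENat.natCast_ne_top _ h
  -- (3) combine
  have h3 := L_quot_root_le (X := X) Λ w' Y q hY
  have h4 : c * (κ * rT) ≤ c * ((q : ℝ≥0∞) ^ D * rS) := by
    calc c * (κ * rT) = κ * (c * rT) := by ring
      _ ≤ κ * ((q : ℝ≥0∞) ^ D * (Λ.restrict (algebraMap To C)).L
          (X ⧸ (Ideal.span (Set.range Y) • (⊤ : Submodule C X)))) :=
          mul_le_mul_right (h2.trans h3) _
      _ = (q : ℝ≥0∞) ^ D * (κ * (Λ.restrict (algebraMap To C)).L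
          (X ⧸ (Ideal.span (Set.range Y) • (⊤ : Submodule C X)))) := by ring
      _ ≤ (q : ℝ≥0∞) ^ D * (c * rS) := mul_le_mul_right (hK.trans h1) _
      _ = _ := by ring
  exact (ENNReal.mul_le_mul_iff_right hc0 hct).1 h4

end stage

/-- **Core inequality, limit.** -/
theorem core_limit {D : ℕ} (rT rS : ℕ) (C : ℝ) (c' : ℕ) (p : ℕ) (hp : 1 < p)
    (h : ∀ e : ℕ, c' < p ^ e → ENNReal.ofReal (((p ^ e - c' : ℕ) : ℝ) ^ D
      - C * ((p ^ e - c' : ℕ) : ℝ) ^ (D - 1)) * rT ≤ ((p ^ e : ℕ) : ℝ≥0∞) ^ D * rS) (hD : 0 < D) :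
    rT ≤ rS := by
  have hR : ∀ e : ℕ, c' < p ^ e →
      (((p ^ e - c' : ℕ) : ℝ) ^ D - C * ((p ^ e - c' : ℕ) : ℝ) ^ (D - 1)) * rT
        ≤ ((p ^ e : ℕ) : ℝ) ^ D * rS := by
    intro e he
    have h1 := h e he
    have h2 : ENNReal.ofReal ((((p ^ e - c' : ℕ) : ℝ) ^ D
      - C * ((p ^ e - c' : ℕ) : ℝ) ^ (D - 1)) * rT) ≤
        ENNReal.ofReal (((p ^ e : ℕ) : ℝ) ^ D * rS) := by
      rw [ENNReal.ofReal_mul' (by positivity), ENNReal.ofReal_mul (by positivity),
        ENNReal.ofReal_pow (by positivity), ENNReal.ofReal_natCast, ENNReal.ofReal_natCast,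
        ENNReal.ofReal_natCast]
      exact h1
    exact (ENNReal.ofReal_le_ofReal_iff (by positivity)).1 h2
  -- with `N = p^e - c'`, `p^e = N + c'`
  have hN : Tendsto (fun e : ℕ => p ^ e - c') atTop atTop :=
    (tendsto_sub_atTop_nat c').comp (tendsto_pow_atTop_atTop_of_one_lt hp)
  have hlim : Tendsto (fun N : ℕ => (1 - C / (N : ℝ)) * (rT : ℝ)) atTop (nhds ((1 - 0) * (rT : ℝ))) := by
    refine Tendsto.mul_const _ (Tendsto.const_sub _ ?_)
    exact tendsto_const_div_atTop_nhds_zero_nat C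
  have hlim2 : Tendsto (fun N : ℕ => (1 + (c' : ℝ) / (N : ℝ)) ^ D * (rS : ℝ)) atTop
      (nhds ((1 + 0) ^ D * (rS : ℝ))) := by
    refine Tendsto.mul_const _ (Tendsto.pow (Tendsto.const_add _ ?_) _)
    exact tendsto_const_div_atTop_nhds_zero_nat (c' : ℝ)
  have key : ((1 - 0) * (rT : ℝ)) ≤ ((1 + 0) ^ D * (rS : ℝ)) := by
    refine le_of_tendsto_of_tendsto (hlim.comp hN) (hlim2.comp hN) ?_
    have hev : ∀ᶠ e : ℕ in atTop, c' < p ^ e :=
      (tendsto_pow_atTop_atTop_of_one_lt hp).eventually_gt_atTop c'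
    filter_upwards [hev] with e he
    have h1 := hR e he
    set N := p ^ e - c' with hNdef
    have hNpos : 0 < N := Nat.sub_pos_of_lt he
    have hpe : ((p ^ e : ℕ) : ℝ) = (N : ℝ) + c' := by
      rw [hNdef, ← Nat.cast_add, Nat.sub_add_cancel he.le]
    have hN0 : (0 : ℝ) < N := by exact_mod_cast hNpos
    rw [hpe] at h1
    simp only [Function.comp_apply]
    rw [← hNdef]
    obtain ⟨k, rfl⟩ : ∃ k, D = k + 1 := ⟨D - 1, by omega⟩
    rw [Nat.add_sub_cancel] at h1
    have h2 : (1 - C / (N : ℝ)) * (rT : ℝ) = (((N : ℝ) ^ (k + 1) - C * (N : ℝ) ^ k) * rT) / (N : ℝ) ^ (k + 1) := by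
      field_simp
      ring
    have h3 : (1 + (c' : ℝ) / (N : ℝ)) ^ (k + 1) * (rS : ℝ) =
        (((N : ℝ) + c') ^ (k + 1) * rS) / (N : ℝ) ^ (k + 1) := by
      rw [show (1 + (c' : ℝ) / (N : ℝ)) = ((N : ℝ) + c') / N by field_simp, div_pow]
      ring
    rw [h2, h3]
    exact div_le_div_of_nonneg_right h1 (by positivity)
  rw [sub_zero, one_mul, add_zero, one_pow, one_mul] at key
  exact_mod_cast key

end Crest.Agent.R183.Core
end

-- ▼ part R183/StageGlue

set_option autoImplicit false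

namespace Crest.Agent.R183.Glue

open scoped ENNReal
open Crest.Agent.R183 Crest.Agent.R183.Res Crest.Agent.R183.WG

universe u v w

section kos

variable {A : Type u} [CommRing A] {M : Type v} [AddCommGroup M] [Module A M]

lemma sat_triv (B : Submodule A M) : (NullF.triv A).sat B = B := by
  ext m
  rw [NullF.mem_sat]
  change col B m = ⊤ ↔ _
  rw [Ideal.eq_top_iff_one, mem_col, one_smul]

/-- exactness of a cone, concrete version. -/
lemma cone_exact (C : MCx A) (x : A)
    (hC : ∀ j, 1 ≤ j → C.cycM M j ≤ C.bdyM M j)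
    (hx : ∀ v : C.ι 0 → M, x • v ∈ C.bdyM M 0 → v ∈ C.bdyM M 0) :
    ∀ j, 1 ≤ j → (C.cone x).cycM M j ≤ (C.cone x).bdyM M j := by
  intro j hj
  match j, hj with
  | 1, _ =>
    intro w hw
    have hw0 : (C.cone x).dM M 0 w = 0 := hw
    set u : C.ι 1 → M := fun b => w (Sum.inl b) with hu
    set v : C.ι 0 → M := fun b => w (Sum.inr b) with hv
    have h1 : C.dM M 0 u + x • v = 0 := by
      funext i
      have := congrFun hw0 i
      exact (sum_fromCols (C.d 0) x w i).symm.trans this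
    obtain ⟨v', hv'⟩ := hx v ⟨-u, by
      rw [map_neg]; exact (eq_neg_of_add_eq_zero_right h1).symm⟩
    have hv'' : C.dM M 0 v' = v := hv'
    have h2 : u + x • v' ∈ C.cycM M 1 := by
      show C.dM M 0 (u + x • v') = 0
      rw [map_add, map_smul, hv'', h1]
    obtain ⟨u', hu'⟩ := hC 1 le_rfl h2
    have hu'' : C.dM M 1 u' = u + x • v' := hu'
    refine ⟨(Sum.elim u' (-v') : C.ι 2 ⊕ C.ι 1 → M), ?_⟩
    funext i
    match i with
    | Sum.inl i =>
      have e1 : ∑ b : C.ι 2 ⊕ C.ι 1, (Matrix.fromBlocks (C.d 1)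
          (x • (1 : Matrix (C.ι 1) (C.ι 1) A)) 0 (- C.d 0)) (Sum.inl i) b •
          (Sum.elim u' (-v') : C.ι 2 ⊕ C.ι 1 → M) b = C.dM M 1 u' i + x • (-v') i :=
        sum_fromCols (C.d 1) x (Sum.elim u' (-v') : C.ι 2 ⊕ C.ι 1 → M) i
      refine e1.trans ?_
      rw [hu'']
      simp only [Pi.add_apply, Pi.smul_apply, Pi.neg_apply, smul_neg, add_neg_cancel_right]
      rfl
    | Sum.inr i =>
      refine (sum_fromBlocks' (C.d 1) (x • (1 : Matrix (C.ι 1) (C.ι 1) A)) (- C.d 0)
        (Sum.elim u' (-v') : C.ι 2 ⊕ C.ι 1 → M) i).trans ?_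
      have : ∑ b : C.ι 1, (- C.d 0) i b • (Sum.elim u' (-v') : C.ι 2 ⊕ C.ι 1 → M) (Sum.inr b)
          = C.dM M 0 v' i := by
        refine Finset.sum_congr rfl fun b _ => ?_
        show (- C.d 0 i b) • (-v') b = C.d 0 i b • v' b
        rw [Pi.neg_apply, smul_neg, neg_smul, neg_neg]
      rw [this, hv'']
  | (n + 2), _ =>
    intro w hw
    have hw0 : (C.cone x).dM M (n + 1) w = 0 := hw
    set u : C.ι (n + 2) → M := fun b => w (Sum.inl b) with hu
    set v : C.ι (n + 1) → M := fun b => w (Sum.inr b) with hv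
    have h1 : C.dM M (n + 1) u + x • v = 0 := by
      funext i
      have := congrFun hw0 (Sum.inl i)
      exact (sum_fromCols (C.d (n + 1)) x w i).symm.trans this
    have h1' : C.dM M n v = 0 := by
      funext i
      have h2 := congrFun hw0 (Sum.inr i)
      have h3 := (sum_fromBlocks' (C.d (n + 1)) (x • (1 : Matrix (C.ι (n + 1)) (C.ι (n + 1)) A))
        (- C.d n) w i).symm.trans h2
      have h4 : ∑ b : C.ι (n + 1), (- C.d n) i b • w (Sum.inr b) = - C.dM M n v i := by
        show _ = - ∑ b, C.d n i b • w (Sum.inr b)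
        rw [← Finset.sum_neg_distrib]
        refine Finset.sum_congr rfl fun b _ => ?_
        show (- C.d n i b) • _ = _
        rw [neg_smul]
      rw [h4] at h3
      exact neg_eq_zero.1 h3
    obtain ⟨v', hv'⟩ := hC (n + 1) (by omega) (show v ∈ C.cycM M (n + 1) from h1')
    have hv'' : C.dM M (n + 1) v' = v := hv'
    have h2 : u + x • v' ∈ C.cycM M (n + 2) := by
      show C.dM M (n + 1) (u + x • v') = 0
      rw [map_add, map_smul, hv'', h1]
    obtain ⟨u', hu'⟩ := hC (n + 2) (by omega) h2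
    have hu'' : C.dM M (n + 2) u' = u + x • v' := hu'
    refine ⟨(Sum.elim u' (-v') : C.ι (n + 3) ⊕ C.ι (n + 2) → M), ?_⟩
    funext i
    match i with
    | Sum.inl i =>
      have e1 : ∑ b : C.ι (n + 3) ⊕ C.ι (n + 2), (Matrix.fromBlocks (C.d (n + 2))
          (x • (1 : Matrix (C.ι (n + 2)) (C.ι (n + 2)) A)) 0 (- C.d (n + 1))) (Sum.inl i) b •
          (Sum.elim u' (-v') : C.ι (n + 3) ⊕ C.ι (n + 2) → M) b =
            C.dM M (n + 2) u' i + x • (-v') i :=
        sum_fromCols (C.d (n + 2)) x (Sum.elim u' (-v') : C.ι (n + 3) ⊕ C.ι (n + 2) → M) i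
      refine e1.trans ?_
      rw [hu'']
      simp only [Pi.add_apply, Pi.smul_apply, Pi.neg_apply, smul_neg, add_neg_cancel_right]
      rfl
    | Sum.inr i =>
      refine (sum_fromBlocks' (C.d (n + 2)) (x • (1 : Matrix (C.ι (n + 2)) (C.ι (n + 2)) A))
        (- C.d (n + 1)) (Sum.elim u' (-v') : C.ι (n + 3) ⊕ C.ι (n + 2) → M) i).trans ?_
      have : ∑ b : C.ι (n + 2), (- C.d (n + 1)) i b •
          (Sum.elim u' (-v') : C.ι (n + 3) ⊕ C.ι (n + 2) → M) (Sum.inr b)
          = C.dM M (n + 1) v' i := by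
        refine Finset.sum_congr rfl fun b _ => ?_
        show (- C.d (n + 1) i b) • (-v') b = C.d (n + 1) i b • v' b
        rw [Pi.neg_apply, smul_neg, neg_smul, neg_neg]
      rw [this, hv'']

/-- `l` is a (weakly) regular sequence on `M`, read from the last entry to the first. -/
def RegL (M : Type v) [AddCommGroup M] [Module A M] : List A → Prop
  | [] => True
  | (x :: l) => RegL M l ∧ ∀ m : M, x • m ∈ (Ideal.span {y | y ∈ l} • (⊤ : Submodule A M)) →
      m ∈ (Ideal.span {y | y ∈ l} • (⊤ : Submodule A M))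

lemma one_H0 : (MCx.one A).H0 M ⊥ := by
  refine ⟨?_, ?_⟩
  · exact (inferInstanceAs (Unique Unit))
  · intro v
    rw [Submodule.bot_smul, Submodule.mem_bot]
    constructor
    · rintro ⟨w, hw⟩
      rw [← hw]
      have : IsEmpty ((MCx.one A).ι 1) := MCx.one_len 1 Nat.zero_lt_one
      show ∑ b : (MCx.one A).ι 1, (MCx.one A).d 0 (show (MCx.one A).ι 0 from ()) b • w b = 0
      rw [Finset.univ_eq_empty, Finset.sum_empty]
    · intro h
      refine ⟨0, ?_⟩
      rw [map_zero]
      funext i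
      have : i = (default : Unit) := rfl
      rw [Pi.zero_apply, ← h]
      rfl

/-- Koszul exactness from regularity. -/
theorem kos_exact (l : List A) (h : RegL M l) : ∀ j, 1 ≤ j → (kos l).cycM M j ≤ (kos l).bdyM M j := by
  induction l with
  | nil =>
    intro j hj v _
    have : IsEmpty ((kos ([] : List A)).ι j) := kos_len [] j hj
    refine ⟨0, ?_⟩
    rw [map_zero]
    funext i
    exact isEmptyElim i
  | cons x l ih =>
    refine cone_exact (kos l) x (ih h.1) ?_
    intro v hv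
    have h0 : (kos l).H0 M (⊥ ⊔ Ideal.span {y | y ∈ l}) := MCx.H0.cones one_H0 l
    obtain ⟨u, hu⟩ := h0
    rw [bot_sup_eq] at hu
    rw [hu] at hv ⊢
    exact h.2 _ hv

lemma kos_nullM (l : List A) (h : RegL M l) (j : ℕ) (hj : 1 ≤ j) :
    (kos l).NullM (NullF.triv A) M j := by
  unfold MCx.NullM
  rw [sat_triv]
  exact kos_exact l h j hj

end kos

section stage

variable {T : Type u} [CommRing T] {X : Type v} [AddCommGroup X] [Module T X]

/-- **(i)** acyclicity of any matrix complex `Q` over `T` of length `≤ D` whose null-homotopy ideal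
contains powers of the `t i`. -/
theorem acyclic_of_regL {D : ℕ} (t : Fin D → T)
    (hreg : ∀ N : ℕ, 0 < N → RegL X ((List.ofFn t).map (· ^ N)))
    (Q : MCx T) (hQ : Q.Len D) (hkill : ∀ i, ∃ N : ℕ, t i ^ N ∈ Q.nhI) :
    ∀ n, 1 ≤ n → Q.cycM X n ≤ Q.bdyM X n := by
  choose N hN using hkill
  obtain ⟨M, hM0, hM⟩ : ∃ M : ℕ, 0 < M ∧ ∀ i, t i ^ M ∈ Q.nhI := by
    refine ⟨(Finset.univ.sup N) + 1, Nat.succ_pos _, fun i => ?_⟩
    have h1 : N i ≤ Finset.univ.sup N + 1 :=
      (Finset.le_sup (f := N) (Finset.mem_univ i)).trans (Nat.le_succ _)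
    obtain ⟨k, hk⟩ := Nat.exists_eq_add_of_le h1
    rw [hk, pow_add]
    exact Ideal.mul_mem_right _ _ (hN i)
  have h := MCx.acyclic_app (NullF.triv T) (W := X) Q ((List.ofFn t).map (· ^ M))
    (by simpa using hQ) (fun j hj => kos_nullM _ (hreg M hM0) j hj) (by
      intro x hx
      rw [List.mem_map] at hx
      obtain ⟨y, hy, rfl⟩ := hx
      rw [List.mem_ofFn] at hy
      obtain ⟨i, rfl⟩ := hy
      exact ⟨t i ^ M, hM i, fun w => rfl⟩)
  intro n hn v hv
  have h1 := h n hn
  unfold MCx.NullA NullAt at h1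
  rw [sat_triv] at h1
  have h2 := h1 ((MCx.mem_cyc_dA (A := T) Q n v).2 hv)
  exact (MCx.mem_bdy_dA (A := T) Q n v).1 h2

/-- **(ii)** the same for a complex over a `T`-algebra `C` acting on `X`. -/
theorem acyclic_of_regL' {C : Type w} [CommRing C] [Algebra T C] [Module C X] [IsScalarTower T C X]
    {D : ℕ} (t : Fin D → T)
    (hreg : ∀ N : ℕ, 0 < N → RegL X ((List.ofFn t).map (· ^ N)))
    (Q : MCx C) (hQ : Q.Len D) (hkill : ∀ i, ∃ N : ℕ, algebraMap T C (t i) ^ N ∈ Q.nhI) :
    ∀ n, 1 ≤ n → Q.cycM X n ≤ Q.bdyM X n := by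
  have : SMulCommClass C T X := by
    refine ⟨fun c t x => ?_⟩
    rw [← algebraMap_smul C t x, ← algebraMap_smul C t (c • x), smul_smul, smul_smul, mul_comm]
  choose N hN using hkill
  obtain ⟨M, hM0, hM⟩ : ∃ M : ℕ, 0 < M ∧ ∀ i, algebraMap T C (t i) ^ M ∈ Q.nhI := by
    refine ⟨(Finset.univ.sup N) + 1, Nat.succ_pos _, fun i => ?_⟩
    have h1 : N i ≤ Finset.univ.sup N + 1 :=
      (Finset.le_sup (f := N) (Finset.mem_univ i)).trans (Nat.le_succ _)
    obtain ⟨k, hk⟩ := Nat.exists_eq_add_of_le h1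
    rw [hk, pow_add]
    exact Ideal.mul_mem_right _ _ (hN i)
  have h := MCx.acyclic_app (NullF.triv T) (W := X) Q ((List.ofFn t).map (· ^ M))
    (by simpa using hQ) (fun j hj => kos_nullM _ (hreg M hM0) j hj) (by
      intro x hx
      rw [List.mem_map] at hx
      obtain ⟨y, hy, rfl⟩ := hx
      rw [List.mem_ofFn] at hy
      obtain ⟨i, rfl⟩ := hy
      exact ⟨algebraMap T C (t i) ^ M, hM i, fun w => by
        rw [← map_pow, algebraMap_smul]⟩)
  intro n hn v hv
  have h1 := h n hn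
  unfold MCx.NullA NullAt at h1
  rw [sat_triv] at h1
  have h2 := h1 ((MCx.mem_cyc_dA (A := T) Q n v).2 hv)
  exact (MCx.mem_bdy_dA (A := T) Q n v).1 h2

/-- **(ii)** Koszul exactness of `Y` on `X`. -/
theorem kosY_exact {C : Type w} [CommRing C] [Algebra T C] [Module C X] [IsScalarTower T C X]
    {D : ℕ} (t : Fin D → T)
    (hreg : ∀ N : ℕ, 0 < N → RegL X ((List.ofFn t).map (· ^ N)))
    (Y : Fin D → C) (hY : ∀ i, ∃ N : ℕ, algebraMap T C (t i) ^ N ∈ Ideal.span (Set.range Y)) :
    ∀ n, 1 ≤ n → (kos (List.ofFn Y)).cycM X n ≤ (kos (List.ofFn Y)).bdyM X n := by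
  refine acyclic_of_regL' t hreg _ ?_ ?_
  · simpa using kos_len (List.ofFn Y)
  · intro i
    obtain ⟨N, hN⟩ := hY i
    refine ⟨N, ?_⟩
    refine (le_sup_right.trans (MCx.nhI_cones (MCx.one C) (List.ofFn Y))) ?_
    convert hN using 2
    ext x
    simp [List.mem_ofFn]

/-- **(iii)** regularity of `y` on `X / I X` for `I = J0 + (l)`. -/
theorem regular_of_acyclic (F : MCx T) (J0 : Ideal T) (h0 : F.H0 X J0) (l : List T) (y : T)
    (hac : ((F.cones l).cone y).cycM X 1 ≤ ((F.cones l).cone y).bdyM X 1) {x : X}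
    (hx : y • x ∈ ((J0 ⊔ Ideal.span {a | a ∈ l}) • (⊤ : Submodule T X))) :
    x ∈ ((J0 ⊔ Ideal.span {a | a ∈ l}) • (⊤ : Submodule T X)) := by
  have h1 : ((F.cones l).cone y).NullA (NullF.triv T) X 1 := by
    unfold MCx.NullA NullAt
    rw [sat_triv]
    intro v hv
    rw [MCx.mem_cyc_dA] at hv
    rw [MCx.mem_bdy_dA]
    exact hac hv
  have h2 := MCx.H0.null_regular (NullF.triv T) (MCx.H0.cones h0 l) y h1
    (B := ((J0 ⊔ Ideal.span {a | a ∈ l}) • (⊤ : Submodule T X))) (fun w hw => hw) hx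
  rwa [sat_triv] at h2

variable {To : Type u} [CommRing To] [Algebra T To] (Λ : AddLen.{u, v} To) [Module To X]
  [IsScalarTower T To X]

lemma mem_map_smul_iff (I : Ideal T) (x : X) :
    x ∈ (I.map (algebraMap T To) • (⊤ : Submodule To X)) ↔ x ∈ (I • (⊤ : Submodule T X)) := by
  have h := Ideal.smul_restrictScalars I (⊤ : Submodule To X)
  rw [Submodule.restrictScalars_top] at h
  rw [← h, Submodule.restrictScalars_mem]

/-- `NullReg` for `X / J0 X` from acyclicity. -/
theorem nullReg_of_regL {D g d : ℕ} (hgd : g + d = D) (t : Fin D → T)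
    (hreg : ∀ N : ℕ, 0 < N → RegL X ((List.ofFn t).map (· ^ N)))
    (F : MCx T) (hF : F.Len g) (J0 : Ideal T) (h0 : F.H0 X J0) (hnh : J0 ≤ F.nhI)
    (z : Fin d → T)
    (hz : ∀ i, ∃ N : ℕ, t i ^ N ∈ J0 ⊔ Ideal.span (Set.range z)) :
    NullReg Λ (fun i => algebraMap T To (z i))
      (X ⧸ (J0.map (algebraMap T To) • (⊤ : Submodule To X))) := by
  intro i a b ha hb
  refine Λ.le0_of_le ?_
  -- the list of the `z_j^{a_j}`, `j ≠ i`
  set l : List T := ((Finset.univ.erase i).toList).map fun j => z j ^ a j with hl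
  have hlen : l.length + 1 = d := by
    rw [hl, List.length_map, Finset.length_toList, Finset.card_erase_of_mem (Finset.mem_univ i),
      Finset.card_univ, Fintype.card_fin]
    have : 0 < d := i.pos
    omega
  have hmeml : ∀ x, x ∈ l ↔ ∃ j, j ≠ i ∧ z j ^ a j = x := by
    intro x
    rw [hl, List.mem_map]
    constructor
    · rintro ⟨j, hj, rfl⟩
      rw [Finset.mem_toList, Finset.mem_erase] at hj
      exact ⟨j, hj.1, rfl⟩
    · rintro ⟨j, hj, rfl⟩
      exact ⟨j, by rw [Finset.mem_toList, Finset.mem_erase]; exact ⟨hj, Finset.mem_univ j⟩, rfl⟩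
  have hspan : Ideal.span {x | x ∈ l} = powIdealNe z a i := by
    unfold powIdealNe
    congr 1
    ext x
    rw [Set.mem_ofPred_eq, hmeml]
    rfl
  -- acyclicity
  have hQlen : ((F.cones l).cone (z i ^ b)).Len D := by
    have h1 := (MCx.Len.cones hF l).cone (z i ^ b)
    have h2 : g + l.length + 1 = D := by omega
    rw [← h2]
    exact h1
  have hkill : ∀ k, ∃ N : ℕ, t k ^ N ∈ ((F.cones l).cone (z i ^ b)).nhI := by
    intro k
    obtain ⟨N, hN⟩ := hz k
    -- a power of `J0 + (z)` lies in `J0 + (l) + (z_i^b)`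
    have hle : J0 ⊔ Ideal.span {x | x ∈ z i ^ b :: l} ≤ ((F.cones l).cone (z i ^ b)).nhI := by
      have h1 := MCx.nhI_cones F (z i ^ b :: l)
      exact (sup_le_sup_right hnh _).trans h1
    have hrad : t k ∈ (J0 ⊔ Ideal.span {x | x ∈ z i ^ b :: l}).radical := by
      have h2 : J0 ⊔ Ideal.span (Set.range z) ≤
          (J0 ⊔ Ideal.span {x | x ∈ z i ^ b :: l}).radical := by
        refine sup_le (le_sup_left.trans Ideal.le_radical) ?_
        rw [Ideal.span_le]
        rintro _ ⟨j, rfl⟩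
        by_cases hj : j = i
        · refine ⟨b, Ideal.mem_sup_right (Ideal.subset_span ?_)⟩
          rw [hj]
          exact List.mem_cons_self
        · refine ⟨a j, Ideal.mem_sup_right (Ideal.subset_span ?_)⟩
          exact List.mem_cons_of_mem _ ((hmeml _).2 ⟨j, hj, rfl⟩)
      have h3 : t k ^ N ∈ (J0 ⊔ Ideal.span {x | x ∈ z i ^ b :: l}).radical := h2 hN
      exact (Ideal.radical_isRadical _) ⟨N, h3⟩
    obtain ⟨N', hN'⟩ := hrad
    exact ⟨N', hle hN'⟩
  have hac := acyclic_of_regL t hreg _ hQlen hkill 1 le_rfl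
  -- the membership statement
  have key : ∀ x : X, z i ^ b • x ∈ ((J0 ⊔ powIdealNe z a i) • (⊤ : Submodule T X)) →
      x ∈ ((J0 ⊔ powIdealNe z a i) • (⊤ : Submodule T X)) := by
    intro x hx
    have := regular_of_acyclic F J0 h0 l (z i ^ b) hac (x := x)
    rw [hspan] at this
    exact this hx
  -- translate to `V = X / J0 X` over `To`
  have hmap : powIdealNe (fun i => algebraMap T To (z i)) a i =
      (powIdealNe z a i).map (algebraMap T To) := by
    unfold powIdealNe
    rw [Ideal.map_span, ← Set.image_comp]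
    congr 1
    refine Set.image_congr fun j _ => ?_
    simp
  have hmem : ∀ x : X, (Submodule.Quotient.mk x :
      X ⧸ (J0.map (algebraMap T To) • (⊤ : Submodule To X))) ∈
        (powIdealNe (fun i => algebraMap T To (z i)) a i • (⊤ : Submodule To
          (X ⧸ (J0.map (algebraMap T To) • (⊤ : Submodule To X))))) ↔
      x ∈ ((J0 ⊔ powIdealNe z a i) • (⊤ : Submodule T X)) := by
    intro x
    rw [hmap, ← mem_map_smul_iff (To := To) (J0 ⊔ powIdealNe z a i) x, Ideal.map_sup]
    have h1 : ((powIdealNe z a i).map (algebraMap T To) • (⊤ : Submodule To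
          (X ⧸ (J0.map (algebraMap T To) • (⊤ : Submodule To X))))) =
        ((powIdealNe z a i).map (algebraMap T To) • (⊤ : Submodule To X)).map
          (J0.map (algebraMap T To) • (⊤ : Submodule To X)).mkQ := by
      rw [Submodule.map_smul'', Submodule.map_top, Submodule.range_mkQ]
    rw [h1, Submodule.sup_smul, ← Submodule.comap_map_mkQ]
    rfl
  intro v hv
  obtain ⟨x, rfl⟩ := Submodule.Quotient.mk_surjective _ v
  rw [Submodule.mem_comap, LinearMap.lsmul_apply, ← Submodule.Quotient.mk_smul] at hv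
  have hv' : (Submodule.Quotient.mk (z i ^ b • x) :
      X ⧸ (J0.map (algebraMap T To) • (⊤ : Submodule To X))) ∈
        (powIdealNe (fun i => algebraMap T To (z i)) a i • (⊤ : Submodule To
          (X ⧸ (J0.map (algebraMap T To) • (⊤ : Submodule To X))))) := by
    convert hv using 2
    rw [← map_pow, algebraMap_smul]
  rw [hmem] at hv' ⊢
  exact key x hv'

end stage

end Crest.Agent.R183.Glue
private theorem rz_b02f45e1c0 : type_of% @_root_.Crest.Agent.R183.Glue.RegL.eq_def := @_root_.Crest.Agent.R183.Glue.RegL.eq_def -- L127
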