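/-
R183 (Lech): the variables of a power series ring form a regular sequence (in the form `RegL`).
helper499
-/
import Crest.Agent.R183.StageGlue

set_option autoImplicit false
set_option linter.unusedSectionVars false

namespace Crest.Agent.R183.PC

open Crest.Agent.R183.Glue

section

variable {n : ℕ} {R : Type*} [CommRing R]

local notation "PS" => MvPowerSeries (Fin n) R

/-- membership in the ideal generated by `X_i^k`, `i ∈ l`. -/
theorem mem_span_X_pow_iff (k : ℕ) (l : List (Fin n)) (f : PS) :
    f ∈ Ideal.span {y : PS | y ∈ l.map (fun i => (MvPowerSeries.X i : PS) ^ k)} ↔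
      ∀ m : Fin n →₀ ℕ, (∀ i ∈ l, m i < k) → MvPowerSeries.coeff m f = 0 := by
  classical
  constructor
  · intro hf
    induction hf using Submodule.span_induction with
    | mem x hx =>
      intro m hm
      obtain ⟨i, hi, rfl⟩ := List.mem_map.1 hx
      exact (MvPowerSeries.X_pow_dvd_iff.1 (dvd_refl _)) m (hm i hi)
    | zero => intro m _; rw [map_zero]
    | add x y _ _ h1 h2 => intro m hm; rw [map_add, h1 m hm, h2 m hm, add_zero]
    | smul a x _ h1 =>
      intro m hm
      rw [smul_eq_mul, MvPowerSeries.coeff_mul]
      refine Finset.sum_eq_zero fun q hq => ?_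
      rw [Finset.HasAntidiagonal.mem_antidiagonal] at hq
      rw [h1 q.2 (fun i hi => lt_of_le_of_lt ?_ (hm i hi)), mul_zero]
      rw [← hq, Finsupp.add_apply]
      exact Nat.le_add_left _ _
  · revert f
    induction l with
    | nil =>
      intro f hf
      have : f = 0 := by
        ext m
        rw [hf m (by simp), map_zero]
      rw [this]
      exact zero_mem _
    | cons i l ih =>
      intro f hf
      let f1 : PS := fun m => if m i < k then 0 else MvPowerSeries.coeff m f
      let f2 : PS := fun m => if m i < k then MvPowerSeries.coeff m f else 0
      have h1 : ∀ m, MvPowerSeries.coeff m f1 = if m i < k then 0 else MvPowerSeries.coeff m f :=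
        fun m => rfl
      have h2 : ∀ m, MvPowerSeries.coeff m f2 = if m i < k then MvPowerSeries.coeff m f else 0 :=
        fun m => rfl
      have e : f = f1 + f2 := by
        ext m
        rw [map_add, h1, h2]
        split_ifs <;> simp
      rw [e]
      refine Ideal.add_mem _ ?_ ?_
      · have h3 : (MvPowerSeries.X i : PS) ^ k ∣ f1 := by
          rw [MvPowerSeries.X_pow_dvd_iff]
          intro m hm
          rw [h1, if_pos hm]
        obtain ⟨g, hg⟩ := h3
        rw [hg]
        exact Ideal.mul_mem_right _ _ (Ideal.subset_span (by simp))
      · have h3 := ih f2 (fun m hm => by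
          rw [h2]
          split_ifs with h
          · apply hf m
            intro j hj
            rcases List.mem_cons.1 hj with rfl | hj
            · exact h
            · exact hm j hj
          · rfl)
        refine Ideal.span_mono ?_ h3
        intro y hy
        exact List.mem_cons_of_mem _ hy

/-- the variables are a regular sequence. -/
theorem regL_X_pow (k : ℕ) (l : List (Fin n)) (hl : l.Nodup) :
    RegL PS (l.map (fun i => (MvPowerSeries.X i : PS) ^ k)) := by
  classical
  induction l with
  | nil => trivial
  | cons i l ih =>
    rw [List.nodup_cons] at hl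
    refine ⟨ih hl.2, ?_⟩
    intro f hf
    rw [smul_eq_mul, smul_eq_mul, Ideal.mul_top, mem_span_X_pow_iff] at *
    intro m hm
    have h1 := hf (m + Finsupp.single i k) (by
      intro j hj
      rw [Finsupp.add_apply, Finsupp.single_apply, if_neg, add_zero]
      · exact hm j hj
      · rintro rfl; exact hl.1 hj)
    beta_reduce at h1
    rw [MvPowerSeries.X_pow_eq, add_comm, MvPowerSeries.coeff_add_monomial_mul, one_mul] at h1
    exact h1

/-- the variables of a power series ring are a regular sequence. -/
theorem regL_mvPowerSeries (k : ℕ) :
    RegL PS ((List.ofFn fun i : Fin n => (MvPowerSeries.X i : PS)).map (· ^ k)) := by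
  have h := regL_X_pow (R := R) k (List.finRange n) (List.nodup_finRange n)
  rw [List.map_ofFn]
  rw [← List.ofFn_eq_map] at h
  exact h


end

end Crest.Agent.R183.PC
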