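import Crest.Agent.R183.G3

-- ▼ part R183/G4
section

/-!
# R183, block RB (helper234), part 4: lengths and dimension under flat local base change
-/

set_option autoImplicit false

namespace Crest.Agent.R183.G

open Ideal TensorProduct IsLocalRing

section length

variable {R S : Type*} [CommRing R] [CommRing S] [Algebra R S]

theorem isLocalHom_of_map_maximalIdeal [IsLocalRing R] [IsLocalRing S]
    (hm : (maximalIdeal R).map (algebraMap R S) = maximalIdeal S) :
    IsLocalHom (algebraMap R S) := by
  apply ((IsLocalRing.local_hom_TFAE (algebraMap R S)).out 0 2).mpr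
  exact hm.le

theorem length_quotient_maximalIdeal [IsLocalRing S] :
    Module.length S (S ⧸ maximalIdeal S) = 1 := by
  have : IsSimpleModule S (S ⧸ maximalIdeal S) := by
    rw [isSimpleModule_iff_isCoatom]
    exact (maximalIdeal.isMaximal S).out
  exact Module.length_eq_one _ _



/-- If `R → S` is flat local with `m S = n` then `dim S = dim R`. -/
theorem ringKrullDim_eq_of_map_maximalIdeal [IsLocalRing R] [IsNoetherianRing R] [IsLocalRing S]
    [IsNoetherianRing S] [Module.Flat R S]
    (hm : (maximalIdeal R).map (algebraMap R S) = maximalIdeal S) :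
    ringKrullDim S = ringKrullDim R := by
  have := isLocalHom_of_map_maximalIdeal hm
  have : (maximalIdeal S).LiesOver (maximalIdeal R) := by
    refine ⟨?_⟩
    exact (IsLocalRing.maximalIdeal_comap (algebraMap R S)).symm
  rw [← IsLocalRing.maximalIdeal_height_eq_ringKrullDim,
    ← IsLocalRing.maximalIdeal_height_eq_ringKrullDim,
    Ideal.height_eq_height_add_of_liesOver_of_hasGoingDown (maximalIdeal R) (maximalIdeal S)]
  rw [hm, Ideal.map_quotient_self]
  have : IsDomain (S ⧸ maximalIdeal S) := Ideal.Quotient.isDomain _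
  rw [Ideal.height_bot, add_zero]

end length

end Crest.Agent.R183.G
end

-- ▼ part R183/G5

/-!
# R183, block RB (helper234), part 5: a flat local map into a complete ring factors flatly through
the completion.
-/

set_option autoImplicit false

namespace Crest.Agent.R183.G

open Ideal TensorProduct IsLocalRing

section

variable {A₀ A B : Type*} [CommRing A₀] [CommRing A] [CommRing B] [Algebra A₀ A] [Algebra A B]
  [Algebra A₀ B] [IsScalarTower A₀ A B] (Q : Type*) [CommRing Q] [Algebra A Q] [Algebra A₀ Q]
  [IsScalarTower A₀ A Q]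

theorem tmul_smul_of_ker (hker : RingHom.ker (algebraMap A Q) =
      (RingHom.ker (algebraMap A₀ Q)).map (algebraMap A₀ A))
    (hsurj : Function.Surjective (algebraMap A₀ Q)) (a : A) (q : Q) (b : B) :
    q ⊗ₜ[A₀] (a • b) = (a • q) ⊗ₜ[A₀] b := by
  have h0 : ∀ z ∈ RingHom.ker (algebraMap A Q), ∀ b : B, q ⊗ₜ[A₀] (z • b) = 0 := by
    intro z hz
    rw [hker] at hz
    refine Submodule.span_induction (p := fun z _ => ∀ b : B, q ⊗ₜ[A₀] (z • b) = 0)
      ?_ ?_ ?_ ?_ hz
    · rintro _ ⟨k, hk, rfl⟩ b
      rw [algebraMap_smul, ← TensorProduct.smul_tmul]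
      have : k • q = 0 := by
        rw [Algebra.smul_def, (RingHom.mem_ker).1 hk, zero_mul]
      rw [this, TensorProduct.zero_tmul]
    · intro b; rw [zero_smul, TensorProduct.tmul_zero]
    · intro x y _ _ hx hy b
      rw [add_smul, TensorProduct.tmul_add, hx, hy, add_zero]
    · intro c x _ hx b
      rw [smul_eq_mul, mul_comm, mul_smul]
      exact hx _
  obtain ⟨r, hr⟩ := hsurj (algebraMap A Q a)
  have h1 : a - algebraMap A₀ A r ∈ RingHom.ker (algebraMap A Q) := by
    rw [RingHom.mem_ker, map_sub, ← IsScalarTower.algebraMap_apply, hr, sub_self]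
  have h2 : a • b = (a - algebraMap A₀ A r) • b + r • b := by
    rw [sub_smul, algebraMap_smul, sub_add_cancel]
  rw [h2, TensorProduct.tmul_add, h0 _ h1, zero_add, ← TensorProduct.smul_tmul,
    Algebra.smul_def, hr, ← Algebra.smul_def]

theorem flat_quotient_of_surjective [Module.Flat A₀ B]
    (hker : RingHom.ker (algebraMap A Q) =
      (RingHom.ker (algebraMap A₀ Q)).map (algebraMap A₀ A))
    (hsurj : Function.Surjective (algebraMap A₀ Q)) : Module.Flat Q (Q ⊗[A] B) := by
  let g : Q →ₗ[Q] B →ₗ[A] (Q ⊗[A₀] B) :=
    { toFun := fun q =>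
        { toFun := fun b => q ⊗ₜ[A₀] b
          map_add' := fun b b' => TensorProduct.tmul_add _ _ _
          map_smul' := fun a b => by
            rw [tmul_smul_of_ker Q hker hsurj]; rfl }
      map_add' := fun q q' => by ext b; exact TensorProduct.add_tmul _ _ _
      map_smul' := fun q q' => by ext b; rfl }
  let F : Q ⊗[A] B →ₗ[Q] Q ⊗[A₀] B := TensorProduct.AlgebraTensorModule.lift g
  let g' : Q →ₗ[Q] B →ₗ[A₀] (Q ⊗[A] B) :=
    { toFun := fun q =>
        { toFun := fun b => q ⊗ₜ[A] b
          map_add' := fun b b' => TensorProduct.tmul_add _ _ _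
          map_smul' := fun a b => by
            rw [← algebraMap_smul A a b, TensorProduct.tmul_smul, algebraMap_smul]; rfl }
      map_add' := fun q q' => by ext b; exact TensorProduct.add_tmul _ _ _
      map_smul' := fun q q' => by ext b; rfl }
  let F' : Q ⊗[A₀] B →ₗ[Q] Q ⊗[A] B := TensorProduct.AlgebraTensorModule.lift g'
  have h1 : F.comp F' = LinearMap.id := by
    ext b; rfl
  have h2 : F'.comp F = LinearMap.id := by
    ext b; rfl
  exact Module.Flat.of_linearEquiv (LinearEquiv.ofLinearMap F F' h1 h2)

end

section complete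

variable {R S : Type*} [CommRing R] [CommRing S] [Algebra R S] [IsLocalRing R] [IsLocalRing S]
  [IsNoetherianRing R] [IsNoetherianRing S] [IsAdicComplete (maximalIdeal S) S]
  [IsLocalHom (algebraMap R S)]

variable (R S) in
omit [IsNoetherianRing R] [IsNoetherianRing S] [IsAdicComplete (maximalIdeal S) S] in
theorem map_maximalIdeal_le :
    (maximalIdeal R).map (algebraMap R S) ≤ maximalIdeal S :=
  ((IsLocalRing.local_hom_TFAE (algebraMap R S)).out 0 2 rfl rfl).mp
    (inferInstance : IsLocalHom (algebraMap R S))

variable (R S) in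
omit [IsNoetherianRing R] [IsNoetherianRing S] [IsAdicComplete (maximalIdeal S) S] in
theorem pow_le_comap (n : ℕ) :
    maximalIdeal R ^ n ≤ (maximalIdeal S ^ n).comap (algebraMap R S) := by
  rw [← Ideal.map_le_iff_le_comap, Ideal.map_pow]
  exact Ideal.pow_right_mono (map_maximalIdeal_le R S) n

variable (R S) in
omit [IsNoetherianRing R] [IsNoetherianRing S] [IsAdicComplete (maximalIdeal S) S] in
theorem fromCompletion_compat {m n : ℕ} (hle : m ≤ n) :
    (Ideal.Quotient.factorPow (maximalIdeal S) hle).comp
      ((Ideal.quotientMap (maximalIdeal S ^ n) (algebraMap R S) (pow_le_comap R S n)).comp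
        (AdicCompletion.evalₐ (maximalIdeal R) n).toRingHom) =
    (Ideal.quotientMap (maximalIdeal S ^ m) (algebraMap R S) (pow_le_comap R S m)).comp
        (AdicCompletion.evalₐ (maximalIdeal R) m).toRingHom := by
  ext x
  induction x using AdicCompletion.induction_on with
  | h a =>
    have h1 := AdicCompletion.Ideal.mk_eq_mk (maximalIdeal R) hle a
    simp only [AlgHom.toRingHom_eq_coe, RingHom.coe_comp, RingHom.coe_coe, Function.comp_apply,
      AdicCompletion.evalₐ_mk, Ideal.quotientMap_mk]
    exact congrArg (Ideal.quotientMap (maximalIdeal S ^ m) (algebraMap R S)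
      (pow_le_comap R S m)) h1

variable (R S) in
/-- The map from the completion of `R` to the complete local ring `S`. -/
noncomputable def fromCompletion : AdicCompletion (maximalIdeal R) R →+* S :=
  IsAdicComplete.liftRingHom (maximalIdeal S)
    (fun n => (Ideal.quotientMap (maximalIdeal S ^ n) (algebraMap R S) (pow_le_comap R S n)).comp
      (AdicCompletion.evalₐ (maximalIdeal R) n).toRingHom)
    (fun hle => fromCompletion_compat R S hle)

theorem fromCompletion_algebraMap (x : R) :
    fromCompletion R S (algebraMap R (AdicCompletion (maximalIdeal R) R) x) = algebraMap R S x := by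
  have h : ∀ n, Ideal.Quotient.mk (maximalIdeal S ^ n)
      (fromCompletion R S (algebraMap R (AdicCompletion (maximalIdeal R) R) x)) =
      Ideal.Quotient.mk (maximalIdeal S ^ n) (algebraMap R S x) := by
    intro n
    rw [fromCompletion, IsAdicComplete.mk_liftRingHom]
    simp only [AlgHom.toRingHom_eq_coe, RingHom.coe_comp, RingHom.coe_coe, Function.comp_apply,
      AlgHom.commutes]
    rfl
  rw [← sub_eq_zero]
  refine IsHausdorff.haus (I := maximalIdeal S) inferInstance _ fun n => ?_
  rw [SModEq.zero, smul_eq_mul, Ideal.mul_top, ← Ideal.Quotient.eq_zero_iff_mem, map_sub, h,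
    sub_self]

/-- If `R → S` is a flat local homomorphism of Noetherian local rings and `S` is complete then the
induced map from the completion of `R` to `S` is flat. -/
theorem flat_fromCompletion [Module.Flat R S] : (fromCompletion R S).Flat := by
  let A := AdicCompletion (maximalIdeal R) R
  letI : Algebra A S := (fromCompletion R S).toAlgebra
  haveI : IsScalarTower R A S := IsScalarTower.of_algebraMap_eq fun x =>
    (fromCompletion_algebraMap x).symm
  have hmA : (maximalIdeal R).map (algebraMap R A) = maximalIdeal A :=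
    AdicCompletion.maximalIdeal_eq_map.symm
  have hfg : (maximalIdeal R).FG := IsNoetherian.noetherian _
  refine flat_of_forall_flat_quotient (A := A) (B := S) (maximalIdeal A) ?_ fun n => ?_
  · rw [← hmA, Ideal.map_map, ← IsScalarTower.algebraMap_eq]
    exact (map_maximalIdeal_le R S).trans (IsLocalRing.maximalIdeal_le_jacobson _)
  · have hn : maximalIdeal A ^ n = (maximalIdeal R ^ n).map (algebraMap R A) := by
      rw [← hmA, Ideal.map_pow]
    have hbij := quotientMap_adicCompletion_bijective (maximalIdeal R) hfg n
    rw [hn]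
    have hker0 : RingHom.ker (algebraMap R (A ⧸ (maximalIdeal R ^ n).map (algebraMap R A))) =
        maximalIdeal R ^ n := by
      ext x
      rw [RingHom.mem_ker]
      have : algebraMap R (A ⧸ (maximalIdeal R ^ n).map (algebraMap R A)) x =
        algebraMap (R ⧸ maximalIdeal R ^ n) (A ⧸ (maximalIdeal R ^ n).map (algebraMap R A))
          (Ideal.Quotient.mk _ x) := rfl
      rw [this, map_eq_zero_iff _ hbij.1, Ideal.Quotient.eq_zero_iff_mem]
    refine flat_quotient_of_surjective (A₀ := R) (A := A) (B := S)
      (A ⧸ (maximalIdeal R ^ n).map (algebraMap R A)) ?_ ?_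
    · rw [hker0, Ideal.Quotient.algebraMap_eq, Ideal.mk_ker]
    · intro y
      obtain ⟨x, hx⟩ := hbij.2 y
      obtain ⟨x, rfl⟩ := Ideal.Quotient.mk_surjective x
      exact ⟨x, hx⟩

theorem isLocalHom_fromCompletion : IsLocalHom (fromCompletion R S) := by
  have hmA : (maximalIdeal R).map (algebraMap R (AdicCompletion (maximalIdeal R) R)) =
    maximalIdeal (AdicCompletion (maximalIdeal R) R) :=
    AdicCompletion.maximalIdeal_eq_map.symm
  refine ((IsLocalRing.local_hom_TFAE (fromCompletion R S)).out 0 2 rfl rfl).mpr ?_
  rw [← hmA, Ideal.map_map]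
  have : (fromCompletion R S).comp (algebraMap R (AdicCompletion (maximalIdeal R) R)) =
    algebraMap R S := RingHom.ext fun x => fromCompletion_algebraMap x
  rw [this]
  exact map_maximalIdeal_le R S

end complete

end Crest.Agent.R183.G
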