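import Mathlib
import Crest.Agent.R183.HSLech

-- ▼ part R183/HSLechUp
section

/-!
# R183 (Lech), block HS: M4-upper

For `y : Fin d → R`, `m^t ≤ (y)`: there are `r, C` with
* `l(R/(y_1^N,…,y_d^N)) ≤ r N^d + C N^(d-1)` for all `N`
* `r * cc d k ≤ l(R/(y)^k)` for all `k` (so `e_d((y);R) ≥ r`).
Hence (with M4-lower) `e_d((y);R) = r = lim l(R/(y^N))/N^d`.
-/

set_option autoImplicit false
set_option linter.unusedSectionVars false

namespace Crest.Agent.R183.HS

open IsLocalRing Finset

open scoped Classical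

universe u

/-! ### counting -/

/-- exponents of degree `k` with all entries `< N` satisfying `P` -/
noncomputable def gd (d k N : ℕ) (P : (Fin d →₀ ℕ) → Prop) : Finset (Fin d →₀ ℕ) :=
  (finsuppAntidiag (univ : Finset (Fin d)) k).filter (fun s => (∀ j, s j < N) ∧ P s)

lemma mem_gd {d k N : ℕ} {P : (Fin d →₀ ℕ) → Prop} {s : Fin d →₀ ℕ} :
    s ∈ gd d k N P ↔ s.degree = k ∧ (∀ j, s j < N) ∧ P s := by
  rw [gd, Finset.mem_filter, mem_AD]

lemma sum_card_gd_le (d K N : ℕ) (P : (Fin d →₀ ℕ) → Prop) (W : Finset (Fin d → ℕ))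
    (hW : ∀ s : Fin d →₀ ℕ, (∀ j, s j < N) → P s → (⇑s : Fin d → ℕ) ∈ W) :
    ∑ k ∈ range K, (gd d k N P).card ≤ W.card := by
  rw [← Finset.card_biUnion]
  · refine Finset.card_le_card_of_injOn (fun s => (⇑s : Fin d → ℕ)) ?_ ?_
    · intro s hs
      rw [Finset.mem_coe, Finset.mem_biUnion] at hs
      obtain ⟨k, -, hs⟩ := hs
      rw [mem_gd] at hs
      exact hW s hs.2.1 hs.2.2
    · intro a _ b _ hab
      exact DFunLike.coe_injective hab
  · intro k _ l _ hkl
    rw [Function.onFun, Finset.disjoint_left]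
    intro s hs hs'
    rw [mem_gd] at hs hs'
    exact hkl (hs.1.symm.trans hs'.1)

lemma sum_card_gd_true (d K N : ℕ) : ∑ k ∈ range K, (gd d k N (fun _ => True)).card ≤ N ^ d := by
  refine (sum_card_gd_le d K N _ (Fintype.piFinset fun _ => range N) ?_).trans ?_
  · intro s hs _
    rw [Fintype.mem_piFinset]
    intro j
    exact Finset.mem_range.2 (hs j)
  · simp [Fintype.card_piFinset]

lemma sum_card_gd_not (d K N : ℕ) (σ : Fin d →₀ ℕ) :
    ∑ k ∈ range K, (gd d k N (fun s => ¬ σ ≤ s)).card ≤ (∑ j, σ j) * N ^ (d - 1) := by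
  refine (sum_card_gd_le d K N _ (univ.biUnion fun j => Fintype.piFinset
    fun i => if i = j then range (σ j) else range N) ?_).trans ?_
  · intro s hs hσ
    rw [Finsupp.le_def] at hσ
    push Not at hσ
    obtain ⟨j, hj⟩ := hσ
    rw [Finset.mem_biUnion]
    refine ⟨j, Finset.mem_univ _, ?_⟩
    rw [Fintype.mem_piFinset]
    intro i
    by_cases h : i = j
    · subst h
      simpa using hj
    · simp [h, hs i]
  · refine Finset.card_biUnion_le.trans ?_
    rw [Finset.sum_mul]
    refine Finset.sum_le_sum fun j _ => ?_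
    rw [Fintype.card_piFinset]
    rw [← Finset.mul_prod_erase univ _ (Finset.mem_univ j)]
    simp only [if_true, Finset.card_range]
    refine Nat.mul_le_mul_left _ ?_
    rw [Finset.prod_congr rfl (g := fun _ => N)]
    · simp
    · intro i hi
      rw [Finset.mem_erase] at hi
      simp [hi.1]

/-! ### one step -/

section step

variable {R : Type u} [CommRing R] [IsLocalRing R] [IsNoetherianRing R] {d : ℕ}

lemma mono_add (y : Fin d → R) (s u : Fin d →₀ ℕ) : mono y (s + u) = mono y s * mono y u := by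
  simp [mono, pow_add, Finset.prod_mul_distrib]

/-- the class of `a y^s` -/
noncomputable def vv (y : Fin d → R) (J : Ideal R) (a : R) (s : Fin d →₀ ℕ) : R ⧸ J :=
  Submodule.mkQ J (a * mono y s)

lemma step_map (y : Fin d → R) (I Q : Ideal R) (a : R) (k : ℕ) :
    Submodule.map (Submodule.mkQ (I * Ideal.span (Set.range y) ^ k ⊔ Q))
      ((I ⊔ Ideal.span {a}) * Ideal.span (Set.range y) ^ k ⊔ Q) =
    Submodule.span R (Set.range fun s : AD d k =>
      vv y (I * Ideal.span (Set.range y) ^ k ⊔ Q) a (s : Fin d →₀ ℕ)) := by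
  have h1 : (I ⊔ Ideal.span {a}) * Ideal.span (Set.range y) ^ k ⊔ Q =
      (I * Ideal.span (Set.range y) ^ k ⊔ Q) ⊔ Ideal.span (Set.range fun s : AD d k =>
        a * mono y (s : Fin d →₀ ℕ)) := by
    rw [Ideal.sup_mul, sup_right_comm]
    congr 1
    rw [span_pow_eq_span_monomials, Ideal.span_mul_span']
    congr 1
    ext x
    simp only [Set.mem_mul, Set.mem_singleton_iff, Set.mem_range]
    constructor
    · rintro ⟨_, rfl, _, ⟨s, rfl⟩, rfl⟩
      exact ⟨s, rfl⟩
    · rintro ⟨s, rfl⟩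
      exact ⟨a, rfl, _, ⟨s, rfl⟩, rfl⟩
  rw [h1, Submodule.map_sup]
  have h2 : Submodule.map (Submodule.mkQ (I * Ideal.span (Set.range y) ^ k ⊔ Q))
      (I * Ideal.span (Set.range y) ^ k ⊔ Q) = ⊥ := Submodule.mkQ_map_self _
  rw [h2, bot_sup_eq, Ideal.span, Submodule.map_span, ← Set.range_comp]
  rfl

lemma step_add (y : Fin d → R) (I Q : Ideal R) (a : R) (k : ℕ) :
    Module.length R (R ⧸ (I * Ideal.span (Set.range y) ^ k ⊔ Q)) =
      Module.length R (Submodule.span R (Set.range fun s : AD d k =>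
        vv y (I * Ideal.span (Set.range y) ^ k ⊔ Q) a (s : Fin d →₀ ℕ))) +
      Module.length R (R ⧸ ((I ⊔ Ideal.span {a}) * Ideal.span (Set.range y) ^ k ⊔ Q)) := by
  rw [← step_map]
  exact length_quot_eq_add (sup_le_sup_right (Ideal.mul_mono_left le_sup_left) _)

/-- the maximal ideal kills `a y^s` -/
lemma step_kill (y : Fin d → R) (I Q : Ideal R) (a : R) (ha : ∀ x ∈ maximalIdeal R, x * a ∈ I)
    (k : ℕ) (s : Fin d →₀ ℕ) (hs : s.degree = k) (x : R) (hx : x ∈ maximalIdeal R) :
    x • vv y (I * Ideal.span (Set.range y) ^ k ⊔ Q) a s = 0 := by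
  rw [vv, ← map_smul, Submodule.mkQ_apply, Submodule.Quotient.mk_eq_zero, smul_eq_mul, ← mul_assoc]
  exact Ideal.mem_sup_left (Ideal.mul_mem_mul (ha x hx)
    (mono_mem y _ (fun i => Ideal.subset_span (Set.mem_range_self i)) _ hs))

/-- no relation among the `a y^s` modulo `I (y)^k` -/
def NoRel (y : Fin d → R) (I : Ideal R) (a : R) : Prop :=
  ∀ k, ∀ f : AD d k → R, ∑ s, f s • (a * mono y (s : Fin d →₀ ℕ)) ∈
    I * Ideal.span (Set.range y) ^ k → ∀ s, f s ∈ maximalIdeal R

lemma step_lower (y : Fin d → R) (I : Ideal R) (a : R) (ha : ∀ x ∈ maximalIdeal R, x * a ∈ I)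
    (h : NoRel y I a) (k : ℕ) :
    (d.multichoose k : ℕ∞) + Module.length R (R ⧸ ((I ⊔ Ideal.span {a}) * Ideal.span (Set.range y) ^ k)) ≤
      Module.length R (R ⧸ (I * Ideal.span (Set.range y) ^ k)) := by
  have h0 := step_add y I ⊥ a k
  rw [sup_bot_eq, sup_bot_eq] at h0
  rw [h0]
  refine add_le_add_left ?_ _
  have hk := step_kill y I ⊥ a ha k
  rw [sup_bot_eq] at hk
  have hv : ∀ s : AD d k, ∀ x ∈ maximalIdeal R,
      x • vv y (I * Ideal.span (Set.range y) ^ k) a (s : Fin d →₀ ℕ) = 0 :=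
    fun s x hx => hk s (mem_AD.1 s.2) x hx
  have hinj : Function.Injective (comb (maximalIdeal R)
      (fun s : AD d k => vv y (I * Ideal.span (Set.range y) ^ k) a (s : Fin d →₀ ℕ)) hv) := by
    rw [← LinearMap.ker_eq_bot, LinearMap.ker_eq_bot']
    intro f hf
    choose g hg using fun a => Submodule.mkQ_surjective (maximalIdeal R) (f a)
    have hfg : f = fun a => Submodule.mkQ (maximalIdeal R) (g a) := funext fun a => (hg a).symm
    rw [hfg, comb_mk] at hf
    have h1 : ∑ s, g s • (a * mono y (s : Fin d →₀ ℕ)) ∈ I * Ideal.span (Set.range y) ^ k := by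
      rw [← Submodule.Quotient.mk_eq_zero (I * Ideal.span (Set.range y) ^ k), ← Submodule.mkQ_apply,
        map_sum, ← hf]
      refine Finset.sum_congr rfl fun s _ => ?_
      rw [map_smul, vv]
    rw [hfg]
    funext s
    rw [Submodule.mkQ_apply, Pi.zero_apply, Submodule.Quotient.mk_eq_zero]
    exact h k g h1 s
  rw [← range_comb (maximalIdeal R) _ hv]
  have h2 : Module.length R (AD d k → R ⧸ maximalIdeal R) = d.multichoose k := by
    rw [Module.length_pi, length_residue, ENat.card_eq_coe_fintype_card, card_AD]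
    simp
  rw [← h2]
  exact Module.length_le_of_injective (LinearMap.rangeRestrict _)
    ((LinearMap.injective_rangeRestrict_iff _).2 hinj)

/-- if `y^s` has an entry `≥ N` then its class is zero modulo `(y^N)`. -/
lemma vv_eq_zero (y : Fin d → R) (J : Ideal R) (a : R) (N : ℕ) (s : Fin d →₀ ℕ)
    (h : ¬ ∀ j, s j < N) (hJ : ∀ j, y j ^ N ∈ J) : vv y J a s = 0 := by
  push Not at h
  obtain ⟨j, hj⟩ := h
  rw [vv, Submodule.mkQ_apply, Submodule.Quotient.mk_eq_zero]
  refine Ideal.mul_mem_left _ _ ?_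
  rw [mono, ← Finset.mul_prod_erase univ _ (Finset.mem_univ j)]
  refine Ideal.mul_mem_right _ _ ?_
  rw [← Nat.add_sub_cancel' hj, pow_add]
  exact Ideal.mul_mem_right _ _ (hJ j)

/-- spanning by the good monomials -/
lemma span_good (y : Fin d → R) (J : Ideal R) (a : R) (N k : ℕ) (hJ : ∀ j, y j ^ N ∈ J)
    (mo : MonomialOrder (Fin d)) (P : (Fin d →₀ ℕ) → Prop)
    (hP : ∀ s : Fin d →₀ ℕ, s.degree = k → ¬ P s →
      vv y J a s ∈ Submodule.span R {v | ∃ s' : Fin d →₀ ℕ, s'.degree = k ∧
        mo.toSyn s' < mo.toSyn s ∧ v = vv y J a s'}) (s : Fin d →₀ ℕ) (hs : s.degree = k) :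
    vv y J a s ∈ Submodule.span R (Set.range fun s : gd d k N P => vv y J a (s : Fin d →₀ ℕ)) := by
  induction h : mo.toSyn s using WellFoundedLT.induction generalizing s with
  | ind z ih =>
    by_cases h1 : ∀ j, s j < N
    · by_cases h2 : P s
      · exact Submodule.subset_span ⟨⟨s, mem_gd.2 ⟨hs, h1, h2⟩⟩, rfl⟩
      · refine Submodule.span_le.2 ?_ (hP s hs h2)
        rintro _ ⟨s', hs', hlt, rfl⟩
        exact ih (mo.toSyn s') (h ▸ hlt) s' hs' rfl
    · rw [vv_eq_zero y J a N s h1 hJ]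
      exact Submodule.zero_mem _

lemma step_upper (y : Fin d → R) (I : Ideal R) (a : R) (ha : ∀ x ∈ maximalIdeal R, x * a ∈ I)
    (N k : ℕ) (mo : MonomialOrder (Fin d)) (P : (Fin d →₀ ℕ) → Prop)
    (hP : ∀ s : Fin d →₀ ℕ, s.degree = k → ¬ P s →
      vv y (I * Ideal.span (Set.range y) ^ k ⊔ Ideal.span (Set.range fun i => y i ^ N)) a s ∈
        Submodule.span R {v | ∃ s' : Fin d →₀ ℕ, s'.degree = k ∧
        mo.toSyn s' < mo.toSyn s ∧ v =
          vv y (I * Ideal.span (Set.range y) ^ k ⊔ Ideal.span (Set.range fun i => y i ^ N)) a s'}) :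
    Module.length R (R ⧸ (I * Ideal.span (Set.range y) ^ k ⊔
        Ideal.span (Set.range fun i => y i ^ N))) ≤
      (gd d k N P).card + Module.length R (R ⧸ ((I ⊔ Ideal.span {a}) * Ideal.span (Set.range y) ^ k ⊔
        Ideal.span (Set.range fun i => y i ^ N))) := by
  rw [step_add]
  refine add_le_add_left ?_ _
  set J := I * Ideal.span (Set.range y) ^ k ⊔ Ideal.span (Set.range fun i => y i ^ N) with hJ
  have h1 : Submodule.span R (Set.range fun s : AD d k => vv y J a (s : Fin d →₀ ℕ)) ≤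
      Submodule.span R (Set.range fun s : gd d k N P => vv y J a (s : Fin d →₀ ℕ)) := by
    rw [Submodule.span_le]
    rintro _ ⟨s, rfl⟩
    exact span_good y J a N k (fun j => Ideal.mem_sup_right (Ideal.subset_span ⟨j, rfl⟩)) mo P hP s
      (mem_AD.1 s.2)
  refine (Module.length_le_of_injective (Submodule.inclusion h1)
    (Submodule.inclusion_injective h1)).trans ?_
  refine (length_span_le (maximalIdeal R) _ ?_).trans ?_
  · intro s x hx
    exact step_kill y I _ a ha k s (mem_gd.1 s.2).1 x hx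
  · rw [length_residue, mul_one, Fintype.card_coe]

/-- a relation gives a forbidden corner -/
lemma exists_corner (y : Fin d → R) (I : Ideal R) (a : R) (ha : ∀ x ∈ maximalIdeal R, x * a ∈ I)
    (h : ¬ NoRel y I a) (mo : MonomialOrder (Fin d)) :
    ∃ σ : Fin d →₀ ℕ, ∀ (Q : Ideal R) (k : ℕ) (s : Fin d →₀ ℕ), s.degree = k → σ ≤ s →
      vv y (I * Ideal.span (Set.range y) ^ k ⊔ Q) a s ∈
        Submodule.span R {v | ∃ s' : Fin d →₀ ℕ, s'.degree = k ∧
        mo.toSyn s' < mo.toSyn s ∧ v = vv y (I * Ideal.span (Set.range y) ^ k ⊔ Q) a s'} := by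
  unfold NoRel at h
  push Not at h
  obtain ⟨k0, f, hf, τ0, hτ0⟩ := h
  obtain ⟨σ, hσ, hmax⟩ := Finset.exists_max_image
    ((univ : Finset (AD d k0)).filter fun τ => f τ ∉ maximalIdeal R)
    (fun τ => mo.toSyn (τ : Fin d →₀ ℕ)) ⟨τ0, by simpa using hτ0⟩
  rw [Finset.mem_filter] at hσ
  refine ⟨σ, fun Q k s hs hσs => ?_⟩
  obtain ⟨u, rfl⟩ := exists_add_of_le hσs
  have hσd : (σ : Fin d →₀ ℕ).degree = k0 := mem_AD.1 σ.2
  have hk : k = k0 + u.degree := by rw [← hs, map_add, hσd]
  set J := I * Ideal.span (Set.range y) ^ k ⊔ Q with hJ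
  have hunit : IsUnit (f σ) := by
    have := hσ.2
    rwa [IsLocalRing.mem_maximalIdeal, mem_nonunits_iff, not_not] at this
  -- the relation multiplied by `y^u`
  have hrel : ∑ τ, f τ • vv y J a ((τ : Fin d →₀ ℕ) + u) = 0 := by
    have h1 : mono y u * ∑ τ, f τ • (a * mono y (τ : Fin d →₀ ℕ)) ∈ J := by
      refine Ideal.mem_sup_left ?_
      rw [hk, pow_add, ← mul_assoc, mul_comm (mono y u)]
      exact Ideal.mul_mem_mul hf
        (mono_mem y _ (fun i => Ideal.subset_span (Set.mem_range_self i)) _ rfl)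
    rw [← Submodule.Quotient.mk_eq_zero, ← Submodule.mkQ_apply, Finset.mul_sum, map_sum] at h1
    rw [← h1]
    refine Finset.sum_congr rfl fun τ _ => ?_
    rw [vv, ← map_smul]
    congr 1
    rw [mono_add, smul_eq_mul, smul_eq_mul]
    ring
  rw [← Finset.add_sum_erase univ _ (Finset.mem_univ σ)] at hrel
  have h2 : f σ • vv y J a ((σ : Fin d →₀ ℕ) + u) ∈
      Submodule.span R {v | ∃ s' : Fin d →₀ ℕ, s'.degree = k ∧
        mo.toSyn s' < mo.toSyn ((σ : Fin d →₀ ℕ) + u) ∧ v = vv y J a s'} := by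
    rw [eq_neg_of_add_eq_zero_left hrel]
    refine Submodule.neg_mem _ (Submodule.sum_mem _ fun τ hτ => ?_)
    have hτd : (τ : Fin d →₀ ℕ).degree = k0 := mem_AD.1 τ.2
    have hτk : ((τ : Fin d →₀ ℕ) + u).degree = k := by rw [map_add, hτd, hk]
    by_cases h3 : f τ ∈ maximalIdeal R
    · rw [hJ, step_kill y I Q a ha k _ hτk _ h3]
      exact Submodule.zero_mem _
    · refine Submodule.smul_mem _ _ (Submodule.subset_span ⟨_, hτk, ?_, rfl⟩)
      rw [map_add, map_add]
      refine add_lt_add_left (lt_of_le_of_ne (hmax τ (by simpa using h3)) ?_) _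
      intro h4
      have h5 : (τ : Fin d →₀ ℕ) = σ := mo.toSyn.injective h4
      exact (Finset.mem_erase.1 hτ).1 (Subtype.ext h5)
  obtain ⟨w, hw⟩ := hunit
  have h3 := Submodule.smul_mem _ ((w⁻¹ : Rˣ) : R) h2
  rwa [← hw, smul_smul, Units.inv_mul, one_smul] at h3

/-- existence of a socle element of `R/I` -/
lemma exists_socle (I : Ideal R) (hI : I ≠ ⊤) {t : ℕ} (ht : maximalIdeal R ^ t ≤ I) :
    ∃ a, a ∉ I ∧ ∀ x ∈ maximalIdeal R, x * a ∈ I := by
  have hex : ∃ t, maximalIdeal R ^ t ≤ I := ⟨t, ht⟩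
  have h0 : Nat.find hex ≠ 0 := by
    intro h
    have := Nat.find_spec hex
    rw [h, pow_zero, Ideal.one_eq_top, top_le_iff] at this
    exact hI this
  obtain ⟨j, hj⟩ := Nat.exists_eq_succ_of_ne_zero h0
  have h1 : ¬ maximalIdeal R ^ j ≤ I := Nat.find_min hex (by omega)
  obtain ⟨a, ha, ha'⟩ := Set.not_subset.1 h1
  refine ⟨a, ha', fun x hx => ?_⟩
  have h2 := Nat.find_spec hex
  rw [hj, pow_succ'] at h2
  exact h2 (Ideal.mul_mem_mul hx ha)

/-- The main induction. -/
theorem main_induction (y : Fin d → R) (q : Ideal R) {t : ℕ} (ht : maximalIdeal R ^ t ≤ q)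
    (I : Ideal R) (hI : q ≤ I) :
    ∃ r C : ℕ, (∀ N : ℕ, ∃ G : ℕ → ℕ,
      (∀ K, ∑ k ∈ range K, G k ≤ r * N ^ d + C * N ^ (d - 1)) ∧
      ∀ k, Module.length R (R ⧸ (I * Ideal.span (Set.range y) ^ k ⊔
        Ideal.span (Set.range fun i => y i ^ N))) ≤
      G k + Module.length R (R ⧸ (Ideal.span (Set.range y) ^ k ⊔
        Ideal.span (Set.range fun i => y i ^ N)))) ∧
      ∀ k, (r * d.multichoose k : ℕ∞) + Module.length R (R ⧸ Ideal.span (Set.range y) ^ k) ≤
        Module.length R (R ⧸ (I * Ideal.span (Set.range y) ^ k)) := by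
  induction h : I using WellFoundedGT.induction generalizing I with
  | ind I' ih =>
    subst h
    by_cases hItop : I = ⊤
    · subst hItop
      refine ⟨0, 0, fun N => ⟨fun _ => 0, by simp, fun k => ?_⟩, fun k => ?_⟩
      · rw [Ideal.top_mul]
        simp
      · rw [Ideal.top_mul]
        simp
    · obtain ⟨a, haI, ha⟩ := exists_socle I hItop (ht.trans hI)
      have hlt : I < I ⊔ Ideal.span {a} := by
        refine lt_of_le_of_ne le_sup_left fun h => haI ?_
        rw [h]
        exact Ideal.mem_sup_right (Ideal.mem_span_singleton_self a)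
      obtain ⟨r, C, h1, h2⟩ := ih _ hlt _ (hI.trans hlt.le) rfl
      by_cases hrel : NoRel y I a
      · refine ⟨r + 1, C, fun N => ?_, fun k => ?_⟩
        · obtain ⟨G, hG, hG'⟩ := h1 N
          refine ⟨fun k => (gd d k N fun _ => True).card + G k, fun K => ?_, fun k => ?_⟩
          · rw [Finset.sum_add_distrib]
            have h3 := sum_card_gd_true d K N
            have h4 := hG K
            nlinarith
          · refine (step_upper y I a ha N k MonomialOrder.lex (fun _ => True) ?_).trans ?_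
            · intro s _ hs
              exact absurd trivial hs
            · push_cast
              rw [add_assoc]
              exact add_le_add_right (hG' k) _
        · refine le_trans ?_ (step_lower y I a ha hrel k)
          push_cast
          rw [add_mul, one_mul, add_comm ((r : ℕ∞) * _), add_assoc]
          exact add_le_add_right (h2 k) _
      · obtain ⟨σ, hσ⟩ := exists_corner y I a ha hrel MonomialOrder.lex
        refine ⟨r, C + ∑ j, σ j, fun N => ?_, fun k => ?_⟩
        · obtain ⟨G, hG, hG'⟩ := h1 N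
          refine ⟨fun k => (gd d k N fun s => ¬ σ ≤ s).card + G k, fun K => ?_, fun k => ?_⟩
          · rw [Finset.sum_add_distrib]
            have h3 := sum_card_gd_not d K N σ
            have h4 := hG K
            nlinarith
          · refine (step_upper y I a ha N k MonomialOrder.lex (fun s => ¬ σ ≤ s) ?_).trans ?_
            · intro s hs hs'
              exact hσ _ k s hs (not_not.1 hs')
            · push_cast
              rw [add_assoc]
              exact add_le_add_right (hG' k) _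
        · refine (h2 k).trans (length_quot_mono (Ideal.mul_mono_left hlt.le))

/-- **M4, upper half** together with the matching lower bound for `l(R/(y)^k)`. -/
theorem exists_rank (y : Fin d → R) {t : ℕ} (ht : maximalIdeal R ^ t ≤ Ideal.span (Set.range y)) :
    ∃ r C : ℕ, (∀ N : ℕ, Module.length R (R ⧸ Ideal.span (Set.range fun i => y i ^ N)) ≤
        (r * N ^ d + C * N ^ (d - 1) : ℕ)) ∧
      ∀ k, (r * cc d k : ℕ∞) ≤ Module.length R (R ⧸ Ideal.span (Set.range y) ^ k) := by
  obtain ⟨r, C, h1, h2⟩ := main_induction y (Ideal.span (Set.range y)) ht _ le_rfl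
  refine ⟨r, C, fun N => ?_, fun k => ?_⟩
  · obtain ⟨G, hG, hG'⟩ := h1 N
    have h3 : ∀ K, Module.length R (R ⧸ (Ideal.span (Set.range y) ^ K ⊔
        Ideal.span (Set.range fun i => y i ^ N))) ≤ (∑ k ∈ range K, G k : ℕ) := by
      intro K
      induction K with
      | zero =>
        have : Subsingleton (R ⧸ (Ideal.span (Set.range y) ^ 0 ⊔
          Ideal.span (Set.range fun i => y i ^ N))) := by
          rw [pow_zero, Ideal.one_eq_top, top_sup_eq]
          infer_instance
        simp [Module.length_eq_zero]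
      | succ K ih =>
        rw [pow_succ', Finset.sum_range_succ, add_comm (∑ k ∈ range K, G k), Nat.cast_add]
        exact (hG' K).trans (add_le_add_right ih _)
    obtain ⟨s, hs⟩ := pow_le_span_pow y (Ideal.span (Set.range y)) (t := 1) (by rw [pow_one]) N
    have h4 := h3 s
    rw [sup_eq_right.2 hs] at h4
    exact h4.trans (by exact_mod_cast hG s)
  · induction k with
    | zero => simp
    | succ k ih =>
      rw [pow_succ', cc_succ, Nat.cast_add, mul_add, add_comm]
      refine le_trans ?_ (h2 k)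
      exact add_le_add_right ih _

end step

end Crest.Agent.R183.HS
end

-- ▼ part R183/HSRank

/-!
# R183 (Lech), block HS: M4

`rank_theorem` : for `y_1..y_d ∈ m` with `m^(c+1) = (y) m^c` there is `r : ℕ` with
`e_d(R) = r` (as `UBf`/`LBf`) and `r N^d ≤ l(R/(y_1^N..y_d^N)) ≤ r N^d + C N^(d-1)`.
-/

set_option autoImplicit false
set_option linter.unusedSectionVars false

namespace Crest.Agent.R183.HS

open IsLocalRing Filter Topology Crest.Agent.R183.M

universe u

variable {R : Type u} [CommRing R] [IsLocalRing R] [IsNoetherianRing R]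

theorem UBf_of_forall {f : ℕ → ℕ} {D : ℕ} {c : ℝ} (h : ∀ ε > (0:ℝ), UBf f D (c + ε)) : UBf f D c := by
  intro ε hε
  filter_upwards [h (ε / 2) (by positivity) (ε / 2) (by positivity)] with N hN
  refine hN.trans (le_of_eq ?_)
  ring


theorem isRed_pow {d : ℕ} (y : Fin d → R) (c : ℕ)
    (hc : maximalIdeal R ^ (c + 1) = Ideal.span (Set.range y) * maximalIdeal R ^ c) (k : ℕ) :
    maximalIdeal R ^ (c + k) = Ideal.span (Set.range y) ^ k * maximalIdeal R ^ c := by
  induction k with
  | zero => simp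
  | succ k ih =>
    have h1 : maximalIdeal R ^ (c + (k + 1)) = maximalIdeal R ^ (c + 1) * maximalIdeal R ^ k := by
      rw [← pow_add]; congr 1; ring
    rw [h1, hc, mul_assoc, ← pow_add, ih, pow_succ']
    rw [mul_assoc]

/-- **M4.** -/
theorem rank_theorem {d : ℕ} (y : Fin d → R) (hy : ∀ i, y i ∈ maximalIdeal R) (c : ℕ)
    (hc : maximalIdeal R ^ (c + 1) = Ideal.span (Set.range y) * maximalIdeal R ^ c) :
    ∃ r C : ℕ, UBf (hs R R) d r ∧ LBf (hs R R) d r ∧
      (∀ N, Module.length R (R ⧸ Ideal.span (Set.range fun i => y i ^ N)) ≤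
        (r * N ^ d + C * N ^ (d - 1) : ℕ)) ∧
      ∀ N, 0 < N → ((r * N ^ d : ℕ) : ℕ∞) ≤
        Module.length R (R ⧸ Ideal.span (Set.range fun i => y i ^ N)) := by
  have ht : maximalIdeal R ^ (c + 1) ≤ Ideal.span (Set.range y) := by
    rw [hc]
    exact Ideal.mul_le_left
  have hred := isRed_pow y c hc
  rcases Nat.eq_zero_or_pos d with rfl | hd
  · have hspan : ∀ z : Fin 0 → R, Ideal.span (Set.range z) = ⊥ := by
      intro z
      rw [Set.range_eq_empty, Ideal.span_empty]
    have hbot : maximalIdeal R ^ (c + 1) = ⊥ := by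
      rw [hc, hspan, Ideal.bot_mul]
    have hlen : ∀ N, c + 1 ≤ N → hs R R N = (Module.length R (R ⧸ (⊥ : Ideal R))).toNat := by
      intro N hN
      rw [hs_self]
      have : maximalIdeal R ^ N = ⊥ := by
        rw [eq_bot_iff, ← hbot]
        exact Ideal.pow_le_pow_right hN
      rw [this]
    have htop : Module.length R (R ⧸ (⊥ : Ideal R)) ≠ ⊤ := by
      rw [← hbot]
      exact length_pow_ne_top _
    refine ⟨(Module.length R (R ⧸ (⊥ : Ideal R))).toNat, 0, ?_, ?_, fun N => ?_, fun N _ => ?_⟩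
    · intro ε hε
      filter_upwards [eventually_ge_atTop (c + 1)] with N hN
      rw [hlen N hN]
      simp [hε.le]
    · intro ε hε
      filter_upwards [eventually_ge_atTop (c + 1)] with N hN
      rw [hlen N hN]
      simp [hε.le]
    · rw [hspan]
      simp only [pow_zero, mul_one, zero_mul, add_zero]
      rw [ENat.natCast_toNat htop]
    · rw [hspan]
      simp only [pow_zero, mul_one]
      rw [ENat.natCast_toNat htop]
  obtain ⟨r, C, hup, hlow⟩ := exists_rank y ht
  have hLB : LBf (hs R R) d r := by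
    have h1 : LBf (fun N => r * cc d N) d r := by
      intro ε hε
      filter_upwards [eventually_gt_atTop 0] with N hN
      have h2 : r * N ^ d ≤ d.factorial * (r * cc d N) := by
        have := pow_le_factorial_mul_cc d N hN
        nlinarith
      have h3 : (r : ℝ) * (N : ℝ) ^ d ≤ (d.factorial : ℝ) * ((r * cc d N : ℕ) : ℝ) := by
        exact_mod_cast h2
      have h4 : (0 : ℝ) ≤ ε * (N : ℝ) ^ d := by positivity
      linarith
    refine h1.of_shift c (Eventually.of_forall fun N => ?_)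
    have h2 : ((r * cc d N : ℕ) : ℕ∞) ≤ (hs R R (N + c) : ℕ∞) := by
      rw [coe_hs_self]
      push_cast
      refine (hlow N).trans (length_quot_mono ?_)
      rw [add_comm, hred N]
      exact Ideal.mul_le_left
    exact_mod_cast h2
  have hUB : UBf (hs R R) d r := by
    refine UBf_of_forall fun ε hε => ?_
    obtain ⟨N, hN⟩ := exists_nat_gt ((C : ℝ) / ε)
    have hN0 : (0 : ℝ) < N := lt_of_le_of_lt (by positivity) hN
    have hN0' : 0 < N := by exact_mod_cast hN0
    have h1 := UB_quot_pow y hy ht hN0'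
    refine h1.mono ?_
    have h2 : (Module.length R (R ⧸ Ideal.span (Set.range fun i => y i ^ N))).toNat ≤
        r * N ^ d + C * N ^ (d - 1) := by
      exact ENat.toNat_le_of_le_natCast (hup N)
    have h3 : ((Module.length R (R ⧸ Ideal.span (Set.range fun i => y i ^ N))).toNat : ℝ) ≤
        r * (N : ℝ) ^ d + C * (N : ℝ) ^ (d - 1) := by exact_mod_cast h2
    rw [div_le_iff₀ (by positivity)]
    refine h3.trans ?_
    rw [add_mul]
    have h4 : (N : ℝ) ^ d = (N : ℝ) * (N : ℝ) ^ (d - 1) := by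
      rw [← pow_succ']
      congr 1
      omega
    have h5 : (C : ℝ) ≤ ε * N := by
      rw [div_lt_iff₀ hε] at hN
      linarith
    have h6 : (C : ℝ) * (N : ℝ) ^ (d - 1) ≤ ε * (N : ℝ) ^ d := by
      rw [h4, ← mul_assoc]
      gcongr
    linarith
  refine ⟨r, C, hUB, hLB, hup, fun N hN => ?_⟩
  have h1 := hLB.le_of_UBf (UB_quot_pow y hy ht hN)
  rw [le_div_iff₀ (by positivity)] at h1
  have h2 : r * N ^ d ≤ (Module.length R (R ⧸ Ideal.span (Set.range fun i => y i ^ N))).toNat := by
    exact_mod_cast h1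
  rw [← ENat.natCast_toNat (length_quot_pow_ne_top y ht N)]
  exact_mod_cast h2


end Crest.Agent.R183.HS
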