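import Crest.Agent.R183.G11
import Crest.Agent.R183.M3
import Mathlib
import Crest.Agent.R183.M6
import Crest.Agent.R183.G5
import Crest.Agent.R183.M7

-- ▼ part R183/G12
section

/-!
# R183, block RB (helper234), part 12: normalisation of the pair `R → S`

It suffices to treat flat local homomorphisms `R₁ → S₁` with `R₁` a complete Noetherian local
domain and `S₁` a complete Noetherian local ring with algebraically closed residue field.
-/

set_option autoImplicit false

namespace Crest.Agent.R183.G

open Ideal IsLocalRing TensorProduct Crest.Agent.R183.M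

universe u v

/-- Step 1: `S` complete with algebraically closed residue field. -/
theorem lechC_of_gonflement (R : Type u) (S : Type v) [CommRing R] [IsLocalRing R]
    [CommRing S] [IsLocalRing S] [IsNoetherianRing S]
    [Algebra R S] [Module.Flat R S] [IsLocalHom (algebraMap R S)] (d d' : ℕ)
    (hd' : ringKrullDim S = d')
    (H : ∀ (S₁ : Type v) [CommRing S₁] [IsLocalRing S₁] [IsNoetherianRing S₁]
      [IsAdicComplete (maximalIdeal S₁) S₁] [Algebra R S₁] [Module.Flat R S₁]
      [IsLocalHom (algebraMap R S₁)] [IsAlgClosed (ResidueField S₁)],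
      ringKrullDim S₁ = d' → LechC R S₁ d d') :
    LechC R S d d' := by
  obtain ⟨S₁, _, _, _, _, _, e, hflat, hm, he⟩ :=
    exists_gonflement S (AlgebraicClosure (ResidueField S))
  let alg : Algebra R S₁ := ((algebraMap S S₁).comp (algebraMap R S)).toAlgebra
  have tower : IsScalarTower R S S₁ := IsScalarTower.of_algebraMap_eq fun x => rfl
  have i1 : Module.Flat R S₁ := Module.Flat.trans R S S₁
  have i2 : IsLocalHom (algebraMap S S₁) := isLocalHom_of_map_maximalIdeal hm
  have i3 : IsLocalHom (algebraMap R S₁) :=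
    RingHom.isLocalHom_comp (algebraMap S S₁) (algebraMap R S)
  have i4 : IsAlgClosed (ResidueField S₁) :=
    IsAlgClosed.of_ringEquiv (AlgebraicClosure (ResidueField S)) (ResidueField S₁) e.symm
  exact LechC.of_flat_right (hs_eq_of_flat S S₁ hm)
    (H S₁ ((ringKrullDim_eq_of_map_maximalIdeal hm).trans hd'))

/-- Step 2: `R` complete. -/
theorem lechC_of_completion' (R : Type u) (S : Type v) [CommRing R] [IsLocalRing R]
    [IsNoetherianRing R] [CommRing S] [IsLocalRing S] [IsNoetherianRing S]
    [IsAdicComplete (maximalIdeal S) S]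
    [Algebra R S] [Module.Flat R S] [IsLocalHom (algebraMap R S)] (d d' : ℕ)
    (hd : ringKrullDim R = d)
    (H : ∀ (R₁ : Type u) [CommRing R₁] [IsLocalRing R₁] [IsNoetherianRing R₁]
      [IsAdicComplete (maximalIdeal R₁) R₁] [Algebra R₁ S] [Module.Flat R₁ S]
      [IsLocalHom (algebraMap R₁ S)] (φ : R →+* R₁), IsLocalHom φ → ringKrullDim R₁ = d →
        LechC R₁ S d d') :
    LechC R S d d' := by
  let R₁ := AdicCompletion (maximalIdeal R) R
  have hm : (maximalIdeal R).map (algebraMap R R₁) = maximalIdeal R₁ :=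
    AdicCompletion.maximalIdeal_eq_map.symm
  have i0 : IsLocalHom (algebraMap R R₁) := isLocalHom_of_map_maximalIdeal hm
  let alg : Algebra R₁ S := (fromCompletion R S).toAlgebra
  have i1 : Module.Flat R₁ S := flat_fromCompletion
  have i2 : IsLocalHom (algebraMap R₁ S) := isLocalHom_fromCompletion
  exact LechC.of_flat_left (hs_eq_of_flat R R₁ hm)
    (H R₁ (algebraMap R R₁) i0 ((ringKrullDim_eq_of_map_maximalIdeal hm).trans hd))


/-- NORMALISATION: `R` a complete Noetherian local domain, `S` complete with algebraically closed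
residue field. The new `R₁` receives a local homomorphism from `R` (so `p = 0` in `R` gives `p = 0`
in `R₁` and the residue field of `R₁` is infinite if that of `R` is). -/
theorem lechC_of_normalized' (R : Type u) (S : Type v) [CommRing R] [IsLocalRing R]
    [IsNoetherianRing R] [CommRing S] [IsLocalRing S] [IsNoetherianRing S]
    [Algebra R S] [Module.Flat R S] [IsLocalHom (algebraMap R S)] (d d' : ℕ)
    (hd : ringKrullDim R = d) (hd' : ringKrullDim S = d')
    (H : ∀ (R₁ : Type u) (S₁ : Type v) [CommRing R₁] [IsLocalRing R₁] [IsNoetherianRing R₁]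
      [IsDomain R₁] [IsAdicComplete (maximalIdeal R₁) R₁]
      [CommRing S₁] [IsLocalRing S₁] [IsNoetherianRing S₁]
      [IsAdicComplete (maximalIdeal S₁) S₁] [Algebra R₁ S₁] [Module.Flat R₁ S₁]
      [IsLocalHom (algebraMap R₁ S₁)] [IsAlgClosed (ResidueField S₁)],
      ∀ φ : R →+* R₁, IsLocalHom φ → ringKrullDim R₁ = d → ringKrullDim S₁ = d' →
        LechC R₁ S₁ d d') :
    LechC R S d d' := by
  refine lechC_of_gonflement R S d d' hd' fun S₁ _ _ _ _ _ _ _ _ hd1 => ?_
  refine lechC_of_completion' R S₁ d d' hd fun R₁ _ _ _ _ _ _ _ φ hφ hdR => ?_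
  refine domain_reduction R₁ S₁ d d' hdR hd1 fun P hP _ _ _ _ hP1 hP2 => ?_
  have j1 : IsAdicComplete (maximalIdeal (R₁ ⧸ P)) (R₁ ⧸ P) := isAdicComplete_quotient R₁ P
  have j2 : IsAdicComplete (maximalIdeal (S₁ ⧸ P.map (algebraMap R₁ S₁)))
      (S₁ ⧸ P.map (algebraMap R₁ S₁)) := isAdicComplete_quotient S₁ _
  have j3 : IsLocalHom (Ideal.Quotient.mk (P.map (algebraMap R₁ S₁))) :=
    IsLocalHom.of_surjective _ Ideal.Quotient.mk_surjective
  have j4 : Function.Bijective (ResidueField.map (Ideal.Quotient.mk (P.map (algebraMap R₁ S₁)))) := by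
    refine ⟨RingHom.injective _, ?_⟩
    intro y
    obtain ⟨y, rfl⟩ := residue_surjective y
    obtain ⟨x, rfl⟩ := Ideal.Quotient.mk_surjective y
    exact ⟨residue _ x, rfl⟩
  have j5 : IsAlgClosed (ResidueField (S₁ ⧸ P.map (algebraMap R₁ S₁))) :=
    IsAlgClosed.of_ringEquiv (ResidueField S₁) _ (RingEquiv.ofBijective _ j4)
  have j6 : IsLocalHom (Ideal.Quotient.mk P) :=
    IsLocalHom.of_surjective _ Ideal.Quotient.mk_surjective
  exact H (R₁ ⧸ P) (S₁ ⧸ P.map (algebraMap R₁ S₁)) ((Ideal.Quotient.mk P).comp φ)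
    (RingHom.isLocalHom_comp _ _) hP1 hP2


end Crest.Agent.R183.G
end

-- ▼ part R183/LocA
section

/-!
# R183, block RE, part A: pointwise inequalities between Hilbert functions

`hf A k = length (A / m^k)`, `sg H k = ∑_{m < k} H (m+1)`.
-/

set_option autoImplicit false

namespace Crest.Agent.R183.RE

open IsLocalRing

universe u v w

/-- Hilbert function of a local ring. -/
noncomputable def hf (A : Type u) [CommRing A] [IsLocalRing A] (k : ℕ) : ℕ∞ :=
  Module.length A (A ⧸ maximalIdeal A ^ k)

/-- Summation operator. -/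
noncomputable def sg (H : ℕ → ℕ∞) (k : ℕ) : ℕ∞ := ∑ m ∈ Finset.range k, H (m + 1)

lemma sg_zero (H : ℕ → ℕ∞) : sg H 0 = 0 := by simp [sg]

lemma sg_succ (H : ℕ → ℕ∞) (k : ℕ) : sg H (k + 1) = sg H k + H (k + 1) := by
  simp [sg, Finset.sum_range_succ]

lemma sg_mono {H H' : ℕ → ℕ∞} (h : ∀ k, H k ≤ H' k) (k : ℕ) : sg H k ≤ sg H' k :=
  Finset.sum_le_sum fun _ _ => h _

lemma sg_iterate_mono {H H' : ℕ → ℕ∞} (h : ∀ k, H k ≤ H' k) (r k : ℕ) :
    sg^[r] H k ≤ sg^[r] H' k := by
  induction r generalizing k with
  | zero => exact h k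
  | succ r ih =>
    rw [Function.iterate_succ_apply', Function.iterate_succ_apply']
    exact sg_mono ih k

/-- Elements of `A'` are unit multiples of elements coming from `A`. -/
def LocLike (A : Type u) (A' : Type v) [CommRing A] [CommRing A'] [Algebra A A'] : Prop :=
  ∀ a' : A', ∃ u : A', IsUnit u ∧ ∃ a : A, algebraMap A A' a = u * a'

lemma locLike_localization (A : Type u) [CommRing A] (S : Submonoid A) (A' : Type v) [CommRing A']
    [Algebra A A'] [IsLocalization S A'] : LocLike A A' := by
  intro a'
  obtain ⟨⟨a, s⟩, h⟩ := IsLocalization.surj S a'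
  exact ⟨algebraMap A A' s, IsLocalization.map_units A' s, a, by rw [mul_comm]; exact h.symm⟩

/-- (L0) `length M' ≤ length (M / xM)`. -/
theorem length_le_length_quot_smul {A : Type u} {A' : Type v} [CommRing A] [IsLocalRing A]
    [CommRing A'] [Algebra A A'] {M : Type w} {M' : Type*} [AddCommGroup M] [Module A M]
    [IsNoetherian A M]
    [AddCommGroup M'] [Module A M'] [Module A' M'] [IsScalarTower A A' M']
    (f : M →ₗ[A] M') (hf : ∀ m' : M', ∃ u : A', IsUnit u ∧ ∃ m, f m = u • m')
    (x : A) (hx : x ∈ maximalIdeal A) (hxu : IsUnit (algebraMap A A' x)) :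
    Module.length A' M' ≤ Module.length A (M ⧸ (Ideal.span {x} • ⊤ : Submodule A M)) := by
  set N0 : Submodule A M := Ideal.span {x} • ⊤ with hN0
  have hN0mem : ∀ m : M, m ∈ N0 ↔ ∃ m0 : M, x • m0 = m := by
    intro m
    rw [hN0, Submodule.ideal_span_singleton_smul]
    constructor
    · intro h
      obtain ⟨m0, -, h0⟩ := Submodule.mem_smul_pointwise_iff_exists _ _ _ |>.1 h
      exact ⟨m0, h0⟩
    · rintro ⟨m0, rfl⟩
      exact Submodule.smul_mem_pointwise_smul _ _ _ trivial
  let φ : Submodule A' M' → Submodule A (M ⧸ N0) := fun L =>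
    Submodule.map N0.mkQ (Submodule.comap f (L.restrictScalars A))
  have hmono : StrictMono φ := by
    intro L L' hLL'
    have hle : Submodule.comap f (L.restrictScalars A) ≤ Submodule.comap f (L'.restrictScalars A) :=
      Submodule.comap_mono (fun z hz => hLL'.le hz)
    refine lt_of_le_of_ne (Submodule.map_mono hle) ?_
    intro heq
    apply hLL'.not_ge
    -- preimage of L' is contained in preimage of L
    set N := Submodule.comap f (L.restrictScalars A) with hN
    set N' := Submodule.comap f (L'.restrictScalars A) with hN'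
    have key : N' ≤ N := by
      have hfg : N'.FG := IsNoetherian.noetherian N'
      refine Submodule.le_of_le_smul_of_le_jacobson_bot (I := Ideal.span {x}) hfg ?_ ?_
      · rw [IsLocalRing.jacobson_eq_maximalIdeal ⊥ bot_ne_top]
        rw [Ideal.span_le]; simpa using hx
      · intro m hm
        have h1 : N0.mkQ m ∈ φ L := by
          have : N0.mkQ m ∈ φ L' := Submodule.mem_map_of_mem hm
          rw [← heq] at this
          exact this
        obtain ⟨n, hn, hnm⟩ := h1
        have h2 : m - n ∈ N0 := by
          rw [← Submodule.Quotient.mk_eq_zero, Submodule.Quotient.mk_sub, sub_eq_zero]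
          exact hnm.symm
        obtain ⟨m0, hm0⟩ := (hN0mem _).1 h2
        have hn' : n ∈ N' := hle hn
        have hm0' : m0 ∈ N' := by
          have h3 : f (x • m0) ∈ L' := by
            rw [hm0, map_sub]
            exact L'.sub_mem hm hn'
          have h4 : algebraMap A A' x • f m0 ∈ L' := by
            rw [algebraMap_smul, ← map_smul]; exact h3
          obtain ⟨ux, hux⟩ := hxu
          have h5 := L'.smul_mem (↑ux⁻¹ : A') h4
          rw [← hux, smul_smul, Units.inv_mul, one_smul] at h5
          exact h5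
        have : m = n + x • m0 := by rw [hm0]; abel
        rw [this]
        refine Submodule.add_mem_sup hn ?_
        exact Submodule.smul_mem_smul (Ideal.mem_span_singleton_self x) hm0'
    intro m' hm'
    obtain ⟨u, hu, m, hm⟩ := hf m'
    have h1 : m ∈ N' := by
      change f m ∈ L'
      rw [hm]; exact L'.smul_mem u hm'
    have h2 : f m ∈ L := key h1
    obtain ⟨uu, huu⟩ := hu
    have h5 := L.smul_mem (↑uu⁻¹ : A') h2
    rw [hm, ← huu, smul_smul, Units.inv_mul, one_smul] at h5
    exact h5
  have := Order.krullDim_le_of_strictMono φ hmono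
  rw [← Module.coe_length, ← Module.coe_length] at this
  exact WithBot.coe_le_coe.1 this


section F1

variable {A : Type u} {A' : Type v} [CommRing A] [IsLocalRing A] [IsNoetherianRing A]
  [CommRing A'] [IsLocalRing A'] [Algebra A A']

/-- symbolic powers -/
noncomputable def symPow (A : Type u) (A' : Type v) [CommRing A] [CommRing A'] [IsLocalRing A']
    [Algebra A A'] (j : ℕ) : Ideal A :=
  Ideal.comap (algebraMap A A') (maximalIdeal A' ^ j)

/-- `nn k = ∑_{j ≤ k} x^(k-j) q^(j)`. -/
noncomputable def nn (A' : Type v) [CommRing A'] [IsLocalRing A'] [Algebra A A'] (x : A) :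
    ℕ → Ideal A
  | 0 => ⊤
  | k + 1 => Ideal.span {x} * nn A' x k ⊔ symPow A A' (k + 1)

omit [IsLocalRing A] [IsNoetherianRing A] in
lemma symPow_antitone (j : ℕ) : symPow A A' (j + 1) ≤ symPow A A' j :=
  Ideal.comap_mono (Ideal.pow_le_pow_right (Nat.le_succ j))

omit [IsLocalRing A] [IsNoetherianRing A] in
lemma symPow_le_nn (x : A) (k : ℕ) : symPow A A' k ≤ nn A' x k := by
  cases k with
  | zero => exact le_top
  | succ k => exact le_sup_right

omit [IsLocalRing A] [IsNoetherianRing A] in
lemma q_mul_symPow (j : ℕ) :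
    symPow A A' 1 * symPow A A' j ≤ symPow A A' (j + 1) := by
  rw [Ideal.mul_le]
  intro a ha b hb
  simp only [symPow, Ideal.mem_comap, pow_one] at ha hb ⊢
  rw [map_mul, pow_succ']
  exact Ideal.mul_mem_mul ha hb

omit [IsLocalRing A] [IsNoetherianRing A] in
lemma q_mul_nn (x : A) (k : ℕ) : symPow A A' 1 * nn A' x k ≤ nn A' x (k + 1) := by
  induction k with
  | zero =>
    rw [nn, Ideal.mul_top]
    exact (symPow_le_nn x 1)
  | succ k ih =>
    rw [nn, Ideal.mul_sup, sup_le_iff]
    constructor
    · rw [← mul_assoc, mul_comm (symPow A A' 1), mul_assoc]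
      exact (Ideal.mul_mono_right ih).trans le_sup_left
    · exact (q_mul_symPow _).trans (symPow_le_nn x _)

omit [IsNoetherianRing A] in
lemma pow_le_nn (x : A) (hm : maximalIdeal A = symPow A A' 1 ⊔ Ideal.span {x}) (k : ℕ) :
    maximalIdeal A ^ k ≤ nn A' x k := by
  induction k with
  | zero => exact le_top
  | succ k ih =>
    rw [pow_succ']
    refine (Ideal.mul_mono_right ih).trans ?_
    conv_lhs => rw [hm]
    rw [Ideal.sup_mul, sup_le_iff]
    exact ⟨q_mul_nn x k, le_sup_left⟩

omit [IsLocalRing A] [IsNoetherianRing A] in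
lemma symPow_mul_mem (x : A) (hxu : IsUnit (algebraMap A A' x)) (j : ℕ) {a : A}
    (h : x * a ∈ symPow A A' j) : a ∈ symPow A A' j := by
  simp only [symPow, Ideal.mem_comap, map_mul] at h ⊢
  exact (Ideal.unit_mul_mem_iff_mem _ hxu).1 h

omit [IsLocalRing A] [IsNoetherianRing A] in
lemma nn_colon (x : A) (hxu : IsUnit (algebraMap A A' x)) (k : ℕ) {s : A}
    (h : x * s ∈ nn A' x (k + 1)) : s ∈ nn A' x k := by
  rw [nn, Submodule.mem_sup] at h
  obtain ⟨y, hy, a, ha, hya⟩ := h
  obtain ⟨n, hn, rfl⟩ := Ideal.mem_span_singleton_mul.1 hy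
  have h1 : x * (s - n) ∈ symPow A A' (k + 1) := by
    have : x * (s - n) = a := by rw [mul_sub, ← hya]; ring
    rw [this]; exact ha
  have h2 := symPow_mul_mem x hxu (k + 1) h1
  have h3 : s - n ∈ nn A' x k := symPow_le_nn x k (symPow_antitone k h2)
  have : s = (s - n) + n := by ring
  rw [this]; exact Ideal.add_mem _ h3 hn

/-- (F1) -/
theorem sg_hf_le_hf (hA : LocLike A A') (x : A) (hx : x ∈ maximalIdeal A)
    (hxu : IsUnit (algebraMap A A' x))
    (hm : maximalIdeal A = symPow A A' 1 ⊔ Ideal.span {x}) (k : ℕ) :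
    sg (hf A') k ≤ hf A k := by
  have key : ∀ k, sg (hf A') k ≤ Module.length A (A ⧸ nn A' x k) := by
    intro k
    induction k with
    | zero => simp [sg]
    | succ k ih =>
      rw [sg_succ]
      -- exact sequence A/N_k -> A/N_{k+1} -> A/(N_{k+1}+x)
      let g : (A ⧸ nn A' x k) →ₗ[A] (A ⧸ nn A' x (k + 1)) :=
        Submodule.mapQ _ _ (LinearMap.mulLeft A x) (by
          intro s hs
          simp only [Submodule.mem_comap, LinearMap.mulLeft_apply]
          exact Ideal.mem_sup_left (Ideal.mul_mem_mul (Ideal.mem_span_singleton_self x) hs))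
      have hg : Function.Injective g := by
        rw [← LinearMap.ker_eq_bot, LinearMap.ker_eq_bot']
        intro m hm0
        obtain ⟨s, rfl⟩ := Submodule.mkQ_surjective _ m
        simp only [g, Submodule.mkQ_apply, Submodule.mapQ_apply, LinearMap.mulLeft_apply,
          Submodule.Quotient.mk_eq_zero] at hm0 ⊢
        exact nn_colon x hxu k hm0
      rw [Module.length_eq_add_of_exact g (LinearMap.range g).mkQ hg
        (Submodule.mkQ_surjective _) (LinearMap.exact_map_mkQ_range g)]
      refine add_le_add ih ?_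
      -- L0 for A / symPow (k+1)
      let M := A ⧸ symPow A A' (k + 1)
      let M' := A' ⧸ maximalIdeal A' ^ (k + 1)
      let f : M →ₗ[A] M' :=
        Submodule.liftQ _ ((Submodule.mkQ (maximalIdeal A' ^ (k+1))).restrictScalars A ∘ₗ
          (Algebra.linearMap A A')) (by
          intro a ha
          exact (Submodule.Quotient.mk_eq_zero _).2 ha)
      have hf' : ∀ m' : M', ∃ u : A', IsUnit u ∧ ∃ m, f m = u • m' := by
        intro m'
        obtain ⟨a', rfl⟩ := Submodule.mkQ_surjective _ m'
        obtain ⟨u, hu, a, ha⟩ := hA a'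
        refine ⟨u, hu, Submodule.Quotient.mk a, ?_⟩
        change Submodule.mkQ (maximalIdeal A' ^ (k+1)) (algebraMap A A' a) = _
        rw [ha, ← smul_eq_mul, map_smul]
      have h1 := length_le_length_quot_smul f hf' x hx hxu
      refine h1.trans ?_
      -- surjection A/N_{k+1} / range g -> M / xM
      let p : (A ⧸ nn A' x (k + 1)) →ₗ[A] (M ⧸ (Ideal.span {x} • ⊤ : Submodule A M)) :=
        Submodule.liftQ _ ((Submodule.mkQ _) ∘ₗ (Submodule.mkQ (symPow A A' (k + 1)))) (by
          intro a ha
          rw [nn, Submodule.mem_sup] at ha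
          obtain ⟨y, hy, b, hb, rfl⟩ := ha
          obtain ⟨n, hn, rfl⟩ := Ideal.mem_span_singleton_mul.1 hy
          rw [LinearMap.mem_ker, map_add, LinearMap.comp_apply, LinearMap.comp_apply]
          have e1 : Submodule.mkQ (symPow A A' (k + 1)) b = 0 :=
            (Submodule.Quotient.mk_eq_zero _).2 hb
          rw [e1, map_zero, add_zero]
          rw [Submodule.mkQ_apply, Submodule.Quotient.mk_eq_zero, ← smul_eq_mul, map_smul]
          exact Submodule.smul_mem_smul (Ideal.mem_span_singleton_self x) trivial)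
      have hp : Function.Surjective p := by
        intro z
        obtain ⟨z1, rfl⟩ := Submodule.mkQ_surjective _ z
        obtain ⟨z2, rfl⟩ := Submodule.mkQ_surjective _ z1
        exact ⟨Submodule.Quotient.mk z2, rfl⟩
      let p' : ((A ⧸ nn A' x (k + 1)) ⧸ LinearMap.range g) →ₗ[A]
          (M ⧸ (Ideal.span {x} • ⊤ : Submodule A M)) :=
        Submodule.liftQ _ p (by
          rintro _ ⟨z, rfl⟩
          obtain ⟨s, rfl⟩ := Submodule.mkQ_surjective _ z
          simp only [g, p, Submodule.mkQ_apply, Submodule.mapQ_apply, LinearMap.mulLeft_apply,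
            LinearMap.mem_ker, Submodule.liftQ_apply, LinearMap.comp_apply]
          rw [Submodule.Quotient.mk_eq_zero, ← smul_eq_mul, map_smul]
          exact Submodule.smul_mem_smul (Ideal.mem_span_singleton_self x) trivial)
      have hp' : Function.Surjective p' := by
        intro z
        obtain ⟨y, rfl⟩ := hp z
        exact ⟨Submodule.Quotient.mk y, rfl⟩
      exact Module.length_le_of_surjective p' hp'
  refine (key k).trans ?_
  rw [hf]
  let r : (A ⧸ maximalIdeal A ^ k) →ₗ[A] (A ⧸ nn A' x k) :=
    Submodule.mapQ _ _ LinearMap.id (pow_le_nn x hm k)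
  refine Module.length_le_of_surjective r ?_
  intro z
  obtain ⟨y, rfl⟩ := Submodule.mkQ_surjective _ z
  exact ⟨Submodule.Quotient.mk y, rfl⟩

end F1

end Crest.Agent.R183.RE
private theorem rz_c9d37a7062 : type_of% @_root_.Crest.Agent.R183.RE.nn.eq_def := @_root_.Crest.Agent.R183.RE.nn.eq_def -- L136
private theorem rz_9386e5dc72 : type_of% @_root_.Crest.Agent.R183.RE.nn.eq_1 := @_root_.Crest.Agent.R183.RE.nn.eq_1 -- L136
end

-- ▼ part R183/LocB
section

/-!
# R183, block RE, part B: upper bound under generation, lower bound under flatness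
-/

set_option autoImplicit false

namespace Crest.Agent.R183.RE

open IsLocalRing TensorProduct

universe u v w

/-- Upper bound for the length of a base change. -/
theorem length_tensor_le {A : Type u} {B : Type v} [CommRing A] [IsLocalRing A]
    [CommRing B] [Algebra A B] (E : Type v) [AddCommGroup E] [Module A E] [Module B E]
    [IsScalarTower A B E]
    (hE : Module.length B (E ⊗[A] (A ⧸ maximalIdeal A)) ≤ 1)
    (M : Type u) [AddCommGroup M] [Module A M] (hM : IsFiniteLength A M) :
    Module.length B (E ⊗[A] M) ≤ Module.length A M := by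
  induction hM with
  | of_subsingleton => simp
  | @of_simple_quotient M _ _ N hs _ ih =>
    have h1 : Module.length A M = Module.length A N + Module.length A (M ⧸ N) :=
      Module.length_eq_add_of_exact N.subtype N.mkQ (Submodule.subtype_injective _)
        (Submodule.mkQ_surjective _) (LinearMap.exact_subtype_mkQ N)
    have h2 : Module.length A (M ⧸ N) = 1 := Module.length_eq_one_iff.2 hs
    let i : E ⊗[A] N →ₗ[B] E ⊗[A] M := TensorProduct.AlgebraTensorModule.lTensor B E N.subtype
    let p : E ⊗[A] M →ₗ[B] E ⊗[A] (M ⧸ N) := TensorProduct.AlgebraTensorModule.lTensor B E N.mkQ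
    have hp : Function.Surjective p :=
      LinearMap.lTensor_surjective E (Submodule.mkQ_surjective N)
    have hex : Function.Exact i p :=
      lTensor_exact E (LinearMap.exact_subtype_mkQ N) (Submodule.mkQ_surjective N)
    have h3 : Module.length B (E ⊗[A] M) ≤
        Module.length B (E ⊗[A] N) + Module.length B (E ⊗[A] (M ⧸ N)) := by
      have e := Module.length_eq_add_of_exact (LinearMap.ker p).subtype p
        (Submodule.subtype_injective _) hp (LinearMap.exact_subtype_ker_map p)
      rw [e]
      refine add_le_add_left ?_ _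
      have hk : LinearMap.ker p = LinearMap.range i := LinearMap.exact_iff.1 hex
      rw [hk]
      exact Module.length_le_of_surjective i.rangeRestrict (LinearMap.surjective_rangeRestrict i)
    refine h3.trans ?_
    rw [h1, h2]
    refine add_le_add ih ?_
    obtain ⟨m, hm, ⟨e⟩⟩ := isSimpleModule_iff_quot_maximal.1 hs
    have hmm : m = maximalIdeal A := IsLocalRing.eq_maximalIdeal hm
    subst hmm
    have e' : E ⊗[A] (M ⧸ N) ≃ₗ[B] E ⊗[A] (A ⧸ maximalIdeal A) :=
      TensorProduct.AlgebraTensorModule.congr (LinearEquiv.refl B E) e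
    rw [e'.length_eq]
    exact hE


section F2

variable {A : Type u} {B : Type v} [CommRing A] [IsLocalRing A] [IsNoetherianRing A]
  [CommRing B] [IsLocalRing B] [Algebra A B]

omit [IsNoetherianRing A] in
lemma length_resid_le (x : B)
    (hm : maximalIdeal B = (maximalIdeal A).map (algebraMap A B) ⊔ Ideal.span {x}) :
    Module.length B ((B ⧸ Ideal.span {x}) ⊗[A] (A ⧸ maximalIdeal A)) ≤ 1 := by
  have hsimple : Module.length B (B ⧸ maximalIdeal B) = 1 := by
    rw [Module.length_eq_one_iff]
    exact isSimpleModule_iff_quot_maximal.2 ⟨maximalIdeal B, inferInstance, ⟨LinearEquiv.refl _ _⟩⟩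
  rw [← hsimple]
  let g : B →ₗ[B] ((B ⧸ Ideal.span {x}) ⊗[A] (A ⧸ maximalIdeal A)) :=
    LinearMap.toSpanSingleton B _ ((Submodule.Quotient.mk 1) ⊗ₜ (Submodule.Quotient.mk 1))
  have hg : ∀ b, g b = (Submodule.Quotient.mk b : B ⧸ Ideal.span {x}) ⊗ₜ[A]
      (Submodule.Quotient.mk 1 : A ⧸ maximalIdeal A) := by
    intro b
    simp only [g, LinearMap.toSpanSingleton_apply, TensorProduct.smul_tmul',
      ← Submodule.Quotient.mk_smul, smul_eq_mul, mul_one]
  have hker : maximalIdeal B ≤ LinearMap.ker g := by
    rw [hm, sup_le_iff]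
    constructor
    · rw [Ideal.map_le_iff_le_comap]
      intro a ha
      rw [Ideal.mem_comap]
      change g _ = 0
      rw [hg]
      have e1 : (Submodule.Quotient.mk (algebraMap A B a) : B ⧸ Ideal.span {x}) =
          a • (Submodule.Quotient.mk (1 : B)) := by
        rw [← Submodule.Quotient.mk_smul, Algebra.smul_def, mul_one]
      rw [e1, TensorProduct.smul_tmul, ← Submodule.Quotient.mk_smul, smul_eq_mul, mul_one,
        (Submodule.Quotient.mk_eq_zero _).2 ha, TensorProduct.tmul_zero]
    · rw [Ideal.span_singleton_le_iff_mem]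
      change g _ = 0
      rw [hg, (Submodule.Quotient.mk_eq_zero _).2 (Ideal.mem_span_singleton_self x),
        TensorProduct.zero_tmul]
  let g' : (B ⧸ maximalIdeal B) →ₗ[B] ((B ⧸ Ideal.span {x}) ⊗[A] (A ⧸ maximalIdeal A)) :=
    Submodule.liftQ _ g hker
  refine Module.length_le_of_surjective g' ?_
  intro z
  induction z with
  | zero => exact ⟨0, map_zero _⟩
  | tmul b a =>
    obtain ⟨b, rfl⟩ := Submodule.Quotient.mk_surjective _ b
    obtain ⟨a, rfl⟩ := Submodule.Quotient.mk_surjective _ a
    refine ⟨Submodule.Quotient.mk (a • b), ?_⟩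
    change g (a • b) = _
    rw [hg, Submodule.Quotient.mk_smul, TensorProduct.smul_tmul, ← Submodule.Quotient.mk_smul,
      smul_eq_mul, mul_one]
  | add z w hz hw =>
    obtain ⟨z', rfl⟩ := hz
    obtain ⟨w', rfl⟩ := hw
    exact ⟨z' + w', map_add _ _ _⟩

lemma isFiniteLength_quot_pow (k : ℕ) : IsFiniteLength A (A ⧸ maximalIdeal A ^ k) := by
  rcases Nat.eq_zero_or_pos k with rfl | hk
  · have : Subsingleton (A ⧸ maximalIdeal A ^ 0) := by
      rw [pow_zero, Ideal.one_eq_top]; infer_instance
    exact IsFiniteLength.of_subsingleton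
  · have hne : maximalIdeal A ^ k ≠ ⊤ := fun h =>
      (maximalIdeal.isMaximal A).ne_top (top_le_iff.1 (h ▸ Ideal.pow_le_self hk.ne'))
    have : Nontrivial (A ⧸ maximalIdeal A ^ k) := Ideal.Quotient.nontrivial_iff.2 hne
    have : IsLocalRing (A ⧸ maximalIdeal A ^ k) :=
      IsLocalRing.of_surjective' (Ideal.Quotient.mk _) Ideal.Quotient.mk_surjective
    have hnil : IsNilpotent (maximalIdeal (A ⧸ maximalIdeal A ^ k)) := by
      refine ⟨k, ?_⟩
      have h1 : maximalIdeal (A ⧸ maximalIdeal A ^ k) ≤
          (maximalIdeal A).map (Ideal.Quotient.mk _) := by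
        intro z hz
        obtain ⟨a, rfl⟩ := Ideal.Quotient.mk_surjective z
        refine Ideal.mem_map_of_mem _ ?_
        rw [mem_maximalIdeal, mem_nonunits_iff] at hz ⊢
        exact fun hu => hz (hu.map _)
      rw [Ideal.zero_eq_bot, eq_bot_iff]
      refine (Ideal.pow_right_mono h1 k).trans ?_
      rw [← Ideal.map_pow, Ideal.map_quotient_self]
    have hart := (isArtinianRing_iff_isNilpotent_maximalIdeal (A ⧸ maximalIdeal A ^ k)).2 hnil
    rw [← Module.length_ne_top_iff, Module.length_eq_of_surjective (S := A)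
      (R := A ⧸ maximalIdeal A ^ k) Ideal.Quotient.mk_surjective]
    exact Module.length_ne_top

omit [IsNoetherianRing A] in
/-- `length (B/(I B + x)) ≤ length (A/I)`. -/
lemma length_quot_sup_le (x : B)
    (hm : maximalIdeal B = (maximalIdeal A).map (algebraMap A B) ⊔ Ideal.span {x}) (I : Ideal A)
    (hI : IsFiniteLength A (A ⧸ I)) :
    Module.length B (B ⧸ (I.map (algebraMap A B) ⊔ Ideal.span {x})) ≤
      Module.length A (A ⧸ I) := by
  refine le_trans ?_ (length_tensor_le (B ⧸ Ideal.span {x}) (length_resid_le x hm) (A ⧸ I) hI)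
  set J := I.map (algebraMap A B) ⊔ Ideal.span {x} with hJ
  let f0 : (B ⧸ Ideal.span {x}) →ₗ[B] (B ⧸ J) := Submodule.mapQ _ _ LinearMap.id le_sup_right
  let g0 : (A ⧸ I) →ₗ[A] Module.End B (B ⧸ J) := Submodule.liftQ _
    (Algebra.lsmul A B (B ⧸ J)).toLinearMap (by
      intro a ha
      rw [LinearMap.mem_ker]
      ext
      simp only [AlgHom.toLinearMap_apply, LinearMap.comp_apply, Submodule.mkQ_apply,
        Algebra.lsmul_coe, LinearMap.zero_apply]
      rw [← Submodule.Quotient.mk_smul, Submodule.Quotient.mk_eq_zero, Algebra.smul_def, mul_one]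
      exact Ideal.mem_sup_left (Ideal.mem_map_of_mem _ ha))
  let T : (B ⧸ Ideal.span {x}) ⊗[A] (A ⧸ I) →ₗ[B] (B ⧸ J) :=
    TensorProduct.AlgebraTensorModule.lift
      { toFun := fun b =>
          { toFun := fun a => g0 a (f0 b)
            map_add' := fun a a' => by rw [map_add, LinearMap.add_apply]
            map_smul' := fun c a => by rw [map_smul]; rfl }
        map_add' := fun b b' => by ext; simp
        map_smul' := fun c b => by ext; simp }
  refine Module.length_le_of_surjective T ?_
  intro z
  obtain ⟨b, rfl⟩ := Submodule.Quotient.mk_surjective _ z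
  refine ⟨(Submodule.Quotient.mk b) ⊗ₜ (Submodule.Quotient.mk 1), ?_⟩
  change g0 (Submodule.Quotient.mk 1) (f0 (Submodule.Quotient.mk b)) = _
  change ((1 : A) • (Submodule.Quotient.mk b : B ⧸ J)) = _
  rw [one_smul]

/-- (F2, upper bound) one step. -/
theorem hf_succ_le (x : B)
    (hm : maximalIdeal B = (maximalIdeal A).map (algebraMap A B) ⊔ Ideal.span {x}) (k : ℕ) :
    hf B (k + 1) ≤ hf B k + hf A (k + 1) := by
  have hx : x ∈ maximalIdeal B := by
    rw [hm]; exact Ideal.mem_sup_right (Ideal.mem_span_singleton_self x)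
  let g : (B ⧸ maximalIdeal B ^ k) →ₗ[B] (B ⧸ maximalIdeal B ^ (k + 1)) :=
    Submodule.mapQ _ _ (LinearMap.mulLeft B x) (by
      intro s hs
      simp only [Submodule.mem_comap, LinearMap.mulLeft_apply]
      rw [pow_succ']
      exact Ideal.mul_mem_mul hx hs)
  let p : (B ⧸ maximalIdeal B ^ (k + 1)) →ₗ[B]
      ((B ⧸ maximalIdeal B ^ (k + 1)) ⧸ LinearMap.range g) := Submodule.mkQ _
  have h1 : Module.length B (B ⧸ maximalIdeal B ^ (k + 1)) =
      Module.length B (LinearMap.range g) +
        Module.length B ((B ⧸ maximalIdeal B ^ (k + 1)) ⧸ LinearMap.range g) :=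
    Module.length_eq_add_of_exact (LinearMap.range g).subtype (LinearMap.range g).mkQ
      (Submodule.subtype_injective _)
      (Submodule.mkQ_surjective _) (LinearMap.exact_subtype_mkQ _)
  rw [hf, h1]
  refine add_le_add ?_ ?_
  · exact Module.length_le_of_surjective g.rangeRestrict (LinearMap.surjective_rangeRestrict g)
  · refine le_trans ?_ (length_quot_sup_le x hm (maximalIdeal A ^ (k + 1))
      (isFiniteLength_quot_pow (k + 1)))
    let q0 : B →ₗ[B] ((B ⧸ maximalIdeal B ^ (k + 1)) ⧸ LinearMap.range g) :=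
      (LinearMap.range g).mkQ ∘ₗ Submodule.mkQ _
    have hq0 : Function.Surjective q0 :=
      (Submodule.mkQ_surjective _).comp (Submodule.mkQ_surjective _)
    let q1 : (B ⧸ ((maximalIdeal A ^ (k + 1)).map (algebraMap A B) ⊔ Ideal.span {x})) →ₗ[B]
        ((B ⧸ maximalIdeal B ^ (k + 1)) ⧸ LinearMap.range g) :=
      Submodule.liftQ _ q0 (by
        rw [sup_le_iff]
        constructor
        · intro b hb
          have hb' : b ∈ maximalIdeal B ^ (k + 1) := by
            rw [Ideal.map_pow] at hb
            refine Ideal.pow_right_mono ?_ _ hb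
            rw [hm]; exact le_sup_left
          rw [LinearMap.mem_ker]
          change (LinearMap.range g).mkQ (Submodule.mkQ _ b) = 0
          rw [Submodule.mkQ_apply (maximalIdeal B ^ (k + 1)),
            (Submodule.Quotient.mk_eq_zero _).2 hb', map_zero]
        · rw [Ideal.span_singleton_le_iff_mem, LinearMap.mem_ker]
          change (LinearMap.range g).mkQ (Submodule.mkQ _ x) = 0
          rw [Submodule.mkQ_apply, Submodule.Quotient.mk_eq_zero]
          refine ⟨Submodule.Quotient.mk 1, ?_⟩
          simp only [g, Submodule.mapQ_apply, LinearMap.mulLeft_apply, mul_one]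
          rfl)
    refine Module.length_le_of_surjective q1 ?_
    intro z
    obtain ⟨b, rfl⟩ := hq0 z
    exact ⟨Submodule.Quotient.mk b, rfl⟩

/-- (F2, upper bound). -/
theorem hf_le_sg (x : B)
    (hm : maximalIdeal B = (maximalIdeal A).map (algebraMap A B) ⊔ Ideal.span {x}) (k : ℕ) :
    hf B k ≤ sg (hf A) k := by
  induction k with
  | zero => simp [hf, sg]
  | succ k ih =>
    rw [sg_succ]
    exact (hf_succ_le x hm k).trans (add_le_add_left ih _)

end F2

section Flat

/-- The Hilbert function does not change under flat local extensions with `m_A C = m_C`. -/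
theorem hf_eq_of_flat {A : Type u} {C : Type v} [CommRing A] [IsLocalRing A]
    [CommRing C] [IsLocalRing C] [Algebra A C] [IsLocalHom (algebraMap A C)] [Module.Flat A C]
    (hm : maximalIdeal C = (maximalIdeal A).map (algebraMap A C)) (k : ℕ) :
    hf C k = hf A k := by
  have h1 := IsLocalRing.length_baseChange A C (A ⧸ maximalIdeal A ^ k)
  have hsimple : Module.length C (C ⧸ (maximalIdeal A).map (algebraMap A C)) = 1 := by
    rw [← hm, Module.length_eq_one_iff]
    exact isSimpleModule_iff_quot_maximal.2 ⟨maximalIdeal C, inferInstance, ⟨LinearEquiv.refl _ _⟩⟩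
  rw [hsimple, mul_one] at h1
  rw [hf, hf, ← h1]
  have e := (Algebra.TensorProduct.quotIdealMapEquivTensorQuot C
    (maximalIdeal A ^ k)).toLinearEquiv
  rw [← e.length_eq, Ideal.map_pow, ← hm]

variable {A : Type u} {B : Type v} [CommRing A] [IsLocalRing A] [IsNoetherianRing A]
  [CommRing B] [IsLocalRing B] [IsNoetherianRing B] [Algebra A B]

omit [IsNoetherianRing A] in
/-- (F2, lower bound). -/
theorem sg_hf_le_of_flat [IsLocalHom (algebraMap A B)] [Module.Flat A B]
    (hprime : ((maximalIdeal A).map (algebraMap A B)).IsPrime)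
    (x : B) (hx : x ∉ (maximalIdeal A).map (algebraMap A B))
    (hm : maximalIdeal B = (maximalIdeal A).map (algebraMap A B) ⊔ Ideal.span {x}) (k : ℕ) :
    sg (hf A) k ≤ hf B k := by
  set q := (maximalIdeal A).map (algebraMap A B) with hq
  let C := Localization.AtPrime q
  have hmC : maximalIdeal C = (maximalIdeal A).map (algebraMap A C) := by
    rw [IsScalarTower.algebraMap_eq A B C, ← Ideal.map_map, ← hq]
    exact (Localization.AtPrime.map_eq_maximalIdeal (I := q)).symm
  have hflat : Module.Flat A C := Module.Flat.trans A B C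
  have hloc : IsLocalHom (algebraMap A C) := by
    refine ((IsLocalRing.local_hom_TFAE (algebraMap A C)).out 0 2).2 ?_
    rw [hmC]
  have h1 : ∀ k, hf C k = hf A k := hf_eq_of_flat hmC
  have h2 : sg (hf C) k = sg (hf A) k := by
    unfold sg; exact Finset.sum_congr rfl fun _ _ => h1 _
  rw [← h2]
  have hcomap : symPow B C 1 = q := by
    rw [symPow, pow_one]
    exact Localization.AtPrime.under_maximalIdeal (I := q)
  refine sg_hf_le_hf (locLike_localization B q.primeCompl C) x ?_ ?_ ?_ k
  · rw [hm]; exact Ideal.mem_sup_right (Ideal.mem_span_singleton_self x)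
  · exact IsLocalization.map_units C (⟨x, hx⟩ : q.primeCompl)
  · rw [hcomap]; exact hm

end Flat

end Crest.Agent.R183.RE
end

-- ▼ part R183/LocC
section

/-!
# R183, block RE, part C: adjoining one variable
-/

set_option autoImplicit false

namespace Crest.Agent.R183.RE

open IsLocalRing Polynomial

universe u v w

section Poly

variable {A : Type u} [CommRing A] (P1 : Ideal A[X]) [P1.IsPrime]

omit [P1.IsPrime] in
lemma exists_gen (hne : P1 ≠ (P1.comap C).map C) :
    ∃ f ∈ P1, f ∉ (P1.comap C).map C ∧ ∃ c : A, C c ∉ P1 ∧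
      ∀ g ∈ P1, ∃ e : ℕ, C c ^ e * g ∈ Ideal.span {f} ⊔ (P1.comap C).map C := by
  classical
  set P := P1.comap C with hP
  have hle : P.map C ≤ P1 := Ideal.map_comap_le
  have hex : ∃ n : ℕ, ∃ f ∈ P1, f ∉ P.map C ∧ f.natDegree = n := by
    by_contra h
    push Not at h
    apply hne
    refine le_antisymm (fun f hf => ?_) hle
    by_contra hf'
    exact h f.natDegree f hf hf' rfl
  obtain ⟨f, hf, hf', hdeg⟩ := Nat.find_spec hex
  have hmin : ∀ g ∈ P1, g.natDegree < Nat.find hex → g ∈ P.map C := by
    intro g hg hlt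
    by_contra hg'
    exact Nat.find_min hex hlt ⟨g, hg, hg', rfl⟩
  set n := Nat.find hex with hn
  have hn0 : 0 < n := by
    rw [Nat.pos_iff_ne_zero]
    intro h0
    rw [h0] at hdeg
    obtain ⟨c, hc⟩ := Polynomial.natDegree_eq_zero.1 hdeg
    apply hf'
    rw [← hc]
    refine Ideal.mem_map_of_mem C ?_
    rw [hP, Ideal.mem_comap, hc]
    exact hf
  set c := f.leadingCoeff with hc
  have hcP : C c ∉ P1 := by
    intro hcP
    have h1 : C c ∈ P.map C := Ideal.mem_map_of_mem C hcP
    have h2 : f.eraseLead + C c * X ^ f.natDegree = f := eraseLead_add_C_mul_X_pow f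
    have h3 : C c * X ^ f.natDegree ∈ P.map C := Ideal.mul_mem_right _ _ h1
    have h4 : f.eraseLead ∈ P1 := by
      have : f.eraseLead = f - C c * X ^ f.natDegree := eq_sub_of_add_eq h2
      rw [this]; exact P1.sub_mem hf (hle h3)
    apply hf'
    rw [← h2]
    refine Ideal.add_mem _ ?_ h3
    rcases eraseLead_natDegree_lt_or_eraseLead_eq_zero f with h | h
    · exact hmin _ h4 (by rw [← hdeg]; exact h)
    · rw [h]; exact Ideal.zero_mem _
  refine ⟨f, hf, hf', c, hcP, ?_⟩
  have key : ∀ m : ℕ, ∀ g ∈ P1, g.natDegree ≤ m → ∃ e : ℕ,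
      C c ^ e * g ∈ Ideal.span {f} ⊔ P.map C := by
    intro m
    induction m with
    | zero =>
      intro g hg hm
      exact ⟨0, by
        rw [pow_zero, one_mul]
        exact Ideal.mem_sup_right (hmin g hg (by omega))⟩
    | succ m ih =>
      intro g hg hm
      by_cases hlt : g.natDegree < n
      · exact ⟨0, by
          rw [pow_zero, one_mul]
          exact Ideal.mem_sup_right (hmin g hg hlt)⟩
      · rw [not_lt] at hlt
        set g' := C c * g - C g.leadingCoeff * X ^ (g.natDegree - n) * f with hg'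
        have hg'mem : g' ∈ P1 := P1.sub_mem (Ideal.mul_mem_left _ _ hg) (Ideal.mul_mem_left _ _ hf)
        have hdeg' : g'.natDegree ≤ m := by
          rw [Polynomial.natDegree_le_iff_coeff_eq_zero]
          intro N hN
          rw [hg', coeff_sub, coeff_C_mul, mul_assoc, coeff_C_mul]
          rw [mul_comm (X ^ _) f, Polynomial.coeff_mul_X_pow']
          by_cases hNn : g.natDegree < N
          · rw [Polynomial.coeff_eq_zero_of_natDegree_lt hNn, mul_zero, if_pos (by omega),
              Polynomial.coeff_eq_zero_of_natDegree_lt (by omega), mul_zero, sub_zero]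
          · have hNe : N = g.natDegree := by omega
            rw [if_pos (by omega), hNe]
            have : g.natDegree - (g.natDegree - n) = f.natDegree := by omega
            rw [this]
            simp only [coeff_natDegree]
            ring
        obtain ⟨e, he⟩ := ih g' hg'mem hdeg'
        refine ⟨e + 1, ?_⟩
        have : C c ^ (e + 1) * g = C c ^ e * g' +
            (C c ^ e * (C g.leadingCoeff * X ^ (g.natDegree - n))) * f := by
          rw [hg']; ring
        rw [this]
        exact Ideal.add_mem _ he (Ideal.mem_sup_left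
          (Ideal.mul_mem_left _ _ (Ideal.mem_span_singleton_self f)))
  intro g hg
  exact key g.natDegree g hg le_rfl


variable [IsNoetherianRing A]

/-- The basic step: adjoining one variable, with a prime `P1` of `A[X]` bigger than the
extension of its contraction. -/
theorem hf_poly (P : Ideal A) [P.IsPrime] (hP : P = P1.comap C) (hne : P1 ≠ P.map C) :
    (∀ k, hf (Localization.AtPrime P1) k ≤ sg (hf (Localization.AtPrime P)) k) ∧
    (∀ k, sg (hf (Localization.AtPrime P)) k ≤ hf (Localization.AtPrime P1) k) := by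
  subst hP
  set P := P1.comap C with hP
  obtain ⟨f, hf1, hf2, c, hc, hgen⟩ := exists_gen P1 hne
  let AP := Localization.AtPrime P
  let B := Localization.AtPrime P1
  let φ : AP →+* B := Localization.localRingHom P P1 C rfl
  let : Algebra AP B := φ.toAlgebra
  have hcomp : ∀ a : A, algebraMap AP B (algebraMap A AP a) = algebraMap A[X] B (C a) :=
    fun a => Localization.localRingHom_to_map P P1 C rfl a
  have hloc : IsLocalHom (algebraMap AP B) := Localization.isLocalHom_localRingHom P P1 C rfl
  have hflat : Module.Flat AP B := by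
    have h0 : (C : A →+* A[X]).Flat := by
      rw [← Polynomial.algebraMap_eq]
      exact RingHom.flat_algebraMap_iff.2 inferInstance
    exact RingHom.Flat.localRingHom h0 P1 P rfl
  have hmap : (maximalIdeal AP).map (algebraMap AP B) = (P.map C).map (algebraMap A[X] B) := by
    have h1 : P.map (algebraMap A AP) = maximalIdeal AP :=
      Localization.AtPrime.map_eq_maximalIdeal (I := P)
    rw [← h1, Ideal.map_map, Ideal.map_map]
    congr 1
    ext a
    exact hcomp a
  have hmB : maximalIdeal B = (maximalIdeal AP).map (algebraMap AP B) ⊔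
      Ideal.span {algebraMap A[X] B f} := by
    rw [hmap]
    have h1 : P1.map (algebraMap A[X] B) = maximalIdeal B :=
      Localization.AtPrime.map_eq_maximalIdeal (I := P1)
    apply le_antisymm
    · rw [← h1, Ideal.map_le_iff_le_comap]
      intro g hg
      obtain ⟨e, he⟩ := hgen g hg
      rw [Ideal.mem_comap]
      have hu : IsUnit (algebraMap A[X] B (C c ^ e)) := by
        rw [map_pow]
        exact (IsLocalization.map_units B (⟨C c, hc⟩ : P1.primeCompl)).pow e
      rw [← Ideal.unit_mul_mem_iff_mem _ hu, ← map_mul]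
      have h2 := Ideal.mem_map_of_mem (algebraMap A[X] B) he
      rw [Ideal.map_sup, Ideal.map_span, Set.image_singleton, sup_comm] at h2
      exact h2
    · rw [sup_le_iff]
      constructor
      · rw [← h1]; exact Ideal.map_mono Ideal.map_comap_le
      · rw [Ideal.span_singleton_le_iff_mem, ← h1]
        exact Ideal.mem_map_of_mem _ hf1
  have hdisj : Disjoint (P1.primeCompl : Set A[X]) (P.map C : Ideal A[X]) := by
    rw [Set.disjoint_left]
    intro g hg hg'
    exact hg (Ideal.map_comap_le hg')
  have hprime0 : (P.map C).IsPrime := inferInstance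
  have hprime : ((maximalIdeal AP).map (algebraMap AP B)).IsPrime := by
    rw [hmap]
    exact IsLocalization.isPrime_of_isPrime_disjoint P1.primeCompl B (P.map C) hprime0 hdisj
  have hx : algebraMap A[X] B f ∉ (maximalIdeal AP).map (algebraMap AP B) := by
    rw [hmap]
    intro h
    apply hf2
    have h3 := IsLocalization.under_map_of_isPrime_disjoint P1.primeCompl B hprime0 hdisj
    rw [← h3]
    exact h
  exact ⟨fun k => hf_le_sg (algebraMap A[X] B f) hmB k,
    fun k => sg_hf_le_of_flat hprime (algebraMap A[X] B f) hx hmB k⟩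

end Poly

end Crest.Agent.R183.RE
end

-- ▼ part R183/LocD
section

/-!
# R183, block RE, part D: adjoining finitely many elements of a local domain
-/

set_option autoImplicit false

namespace Crest.Agent.R183.RE

open IsLocalRing Polynomial

universe u v w

section Chain

variable {W : Type v} [CommRing W] [IsDomain W] [IsLocalRing W]

/-- Hilbert function at the kernel of `φ`. -/
noncomputable def hfQ {A : Type u} [CommRing A] (φ : A →+* W) (k : ℕ) : ℕ∞ :=
  haveI := RingHom.ker_isPrime φ
  hf (Localization.AtPrime (RingHom.ker φ)) k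

/-- Hilbert function at the preimage of the maximal ideal. -/
noncomputable def hfN {A : Type u} [CommRing A] (φ : A →+* W) (k : ℕ) : ℕ∞ :=
  hf (Localization.AtPrime ((maximalIdeal W).comap φ)) k

theorem chain (vs : List W) : ∀ (A : Type u) [CommRing A] [IsNoetherianRing A] (φ : A →+* W),
    (∀ v ∈ vs, (∃ a b : A, φ b ≠ 0 ∧ φ b * v = φ a) ∧ φ.IsIntegralElem v) →
    ∃ (A' : Type u) (_ : CommRing A') (_ : IsNoetherianRing A') (φ' : A' →+* W),
      φ.range ≤ φ'.range ∧ (∀ v ∈ vs, v ∈ φ'.range) ∧
      (∀ k, hfN φ' k ≤ sg^[vs.length] (hfN φ) k) ∧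
      (∀ k, sg^[vs.length] (hfQ φ) k ≤ hfQ φ' k) := by
  induction vs with
  | nil =>
    intro A _ _ φ _
    exact ⟨A, inferInstance, inferInstance, φ, le_rfl, by simp, fun k => le_rfl, fun k => le_rfl⟩
  | cons v vs ih =>
    intro A _ _ φ hφ
    let φ1 : A[X] →+* W := eval₂RingHom φ v
    have hC : ∀ a, φ1 (C a) = φ a := fun a => eval₂_C φ v
    have hX : φ1 X = v := eval₂_X φ v
    obtain ⟨⟨a, b, hb, hab⟩, p, hp, hpv⟩ := hφ v (by simp)
    have h1 : ∀ w ∈ vs, (∃ a b : A[X], φ1 b ≠ 0 ∧ φ1 b * w = φ1 a) ∧ φ1.IsIntegralElem w := by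
      intro w hw
      obtain ⟨⟨a', b', hb', hab'⟩, p', hp', hpv'⟩ := hφ w (by simp [hw])
      refine ⟨⟨C a', C b', by rw [hC]; exact hb', by rw [hC, hC]; exact hab'⟩, ?_⟩
      refine ⟨p'.map C, hp'.map C, ?_⟩
      rw [eval₂_map]
      have : φ1.comp C = φ := by ext a; exact hC a
      rw [this]; exact hpv'
    obtain ⟨A', _, _, φ', hr, hvs, hN, hQ⟩ := ih A[X] φ1 h1
    have hprQ : (RingHom.ker φ).IsPrime := RingHom.ker_isPrime φ
    have hprQ1 : (RingHom.ker φ1).IsPrime := RingHom.ker_isPrime φ1
    have hker : RingHom.ker φ = (RingHom.ker φ1).comap C := by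
      ext a; simp only [RingHom.mem_ker, Ideal.mem_comap, hC]
    have hkerne : RingHom.ker φ1 ≠ (RingHom.ker φ).map C := by
      intro h
      have h2 : (C b * X - C a : A[X]) ∈ RingHom.ker φ1 := by
        rw [RingHom.mem_ker, map_sub, map_mul, hC, hC, hX, hab, sub_self]
      rw [h, Ideal.mem_map_C_iff] at h2
      have h3 := h2 1
      rw [coeff_sub, coeff_C_mul, coeff_X_one, mul_one, coeff_C_succ, sub_zero] at h3
      exact hb h3
    have hNN : (maximalIdeal W).comap φ = ((maximalIdeal W).comap φ1).comap C := by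
      ext a; simp only [Ideal.mem_comap, hC]
    have hNNne : (maximalIdeal W).comap φ1 ≠ ((maximalIdeal W).comap φ).map C := by
      intro h
      have h2 : p ∈ (maximalIdeal W).comap φ1 := by
        rw [Ideal.mem_comap]
        have : φ1 p = 0 := hpv
        rw [this]; exact Ideal.zero_mem _
      rw [h, Ideal.mem_map_C_iff] at h2
      have h3 := h2 p.natDegree
      rw [hp.coeff_natDegree] at h3
      exact (inferInstance : ((maximalIdeal W).comap φ).IsPrime).ne_top
        ((Ideal.eq_top_iff_one _).2 h3)
    obtain ⟨hN1, -⟩ := hf_poly ((maximalIdeal W).comap φ1) ((maximalIdeal W).comap φ) hNN hNNne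
    obtain ⟨-, hQ1⟩ := hf_poly (RingHom.ker φ1) (RingHom.ker φ) hker hkerne
    refine ⟨A', inferInstance, inferInstance, φ', ?_, ?_, ?_, ?_⟩
    · rintro _ ⟨a, rfl⟩
      exact hr ⟨C a, hC a⟩
    · intro w hw
      rcases List.mem_cons.1 hw with rfl | hw
      · exact hr ⟨X, hX⟩
      · exact hvs w hw
    · intro k
      refine (hN k).trans ?_
      rw [List.length_cons, Function.iterate_succ_apply]
      exact sg_iterate_mono hN1 _ k
    · intro k
      refine le_trans ?_ (hQ k)
      rw [List.length_cons, Function.iterate_succ_apply]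
      exact sg_iterate_mono hQ1 _ k

end Chain

end Crest.Agent.R183.RE
end

-- ▼ part R183/LocE
section

/-!
# R183, block RE, part E: the top step when the image is (locally) a DVR
-/

set_option autoImplicit false

namespace Crest.Agent.R183.RE

open IsLocalRing Polynomial

universe u v w

section Top

variable {W : Type v} [CommRing W] [IsDomain W] [IsLocalRing W]

theorem sg_hfQ_le_hfN {A : Type u} [CommRing A] [IsNoetherianRing A] (φ : A →+* W)
    (π : W) (hπ : maximalIdeal W = Ideal.span {π}) (hπ0 : π ≠ 0)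
    (hsurj : ∀ w : W, ∃ a s : A, IsUnit (φ s) ∧ φ s * w = φ a) (k : ℕ) :
    sg (hfQ φ) k ≤ hfN φ k := by
  have hprQ : (RingHom.ker φ).IsPrime := RingHom.ker_isPrime φ
  set Q := RingHom.ker φ with hQ
  set N := (maximalIdeal W).comap φ with hN
  have hQN : Q ≤ N := by
    intro a ha
    rw [hN, Ideal.mem_comap, (RingHom.mem_ker).1 ha]
    exact Ideal.zero_mem _
  let AN := Localization.AtPrime N
  let AQ := Localization.AtPrime Q
  let ψ : AN →+* AQ := IsLocalization.lift (M := N.primeCompl) (g := algebraMap A AQ) (by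
    intro y
    exact IsLocalization.map_units AQ (⟨y.1, fun h => y.2 (hQN h)⟩ : Q.primeCompl))
  let : Algebra AN AQ := ψ.toAlgebra
  have hψ : ∀ a : A, algebraMap AN AQ (algebraMap A AN a) = algebraMap A AQ a := fun a =>
    IsLocalization.lift_eq _ a
  have hLL : LocLike AN AQ := by
    intro a'
    obtain ⟨u, hu, a, ha⟩ := locLike_localization A Q.primeCompl AQ a'
    exact ⟨u, hu, algebraMap A AN a, by rw [hψ]; exact ha⟩
  obtain ⟨a0, s0, hs0, h0⟩ := hsurj π
  have hmapN : N.map (algebraMap A AN) = maximalIdeal AN :=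
    Localization.AtPrime.map_eq_maximalIdeal (I := N)
  have hmapQ : Q.map (algebraMap A AQ) = maximalIdeal AQ :=
    Localization.AtPrime.map_eq_maximalIdeal (I := Q)
  have hπm : π ∈ maximalIdeal W := by rw [hπ]; exact Ideal.mem_span_singleton_self π
  have ha0N : a0 ∈ N := by
    rw [hN, Ideal.mem_comap, ← h0]
    exact Ideal.mul_mem_left _ _ hπm
  have ha0Q : a0 ∉ Q := by
    intro h
    rw [hQ, RingHom.mem_ker, ← h0] at h
    rcases mul_eq_zero.1 h with h | h
    · exact hs0.ne_zero h
    · exact hπ0 h
  have hunitN : ∀ s : A, IsUnit (φ s) → IsUnit (algebraMap A AN s) := fun s hs =>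
    IsLocalization.map_units AN (⟨s, fun h => (mem_nonunits_iff.1 h) hs⟩ : N.primeCompl)
  have hx : algebraMap A AN a0 ∈ maximalIdeal AN := by
    rw [← hmapN]; exact Ideal.mem_map_of_mem _ ha0N
  have hxu : IsUnit (algebraMap AN AQ (algebraMap A AN a0)) := by
    rw [hψ]; exact IsLocalization.map_units AQ (⟨a0, ha0Q⟩ : Q.primeCompl)
  refine sg_hf_le_hf hLL (algebraMap A AN a0) hx hxu ?_ k
  apply le_antisymm
  · rw [← hmapN, Ideal.map_le_iff_le_comap]
    intro a ha
    rw [Ideal.mem_comap]
    have h1 : φ a ∈ maximalIdeal W := ha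
    rw [hπ, Ideal.mem_span_singleton] at h1
    obtain ⟨w, hw⟩ := h1
    obtain ⟨c, s, hs, hsc⟩ := hsurj w
    have h2 : s0 * s * a - a0 * c ∈ Q := by
      rw [hQ, RingHom.mem_ker, map_sub, map_mul, map_mul, map_mul, hw, ← h0, ← hsc]
      ring
    have hu : IsUnit (algebraMap A AN (s0 * s)) := by
      rw [map_mul]; exact (hunitN s0 hs0).mul (hunitN s hs)
    rw [← Ideal.unit_mul_mem_iff_mem _ hu, ← map_mul]
    have h3 : s0 * s * a = (s0 * s * a - a0 * c) + a0 * c := by ring
    rw [h3, map_add]
    refine Ideal.add_mem _ (Ideal.mem_sup_left ?_) (Ideal.mem_sup_right ?_)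
    · rw [symPow, pow_one, Ideal.mem_comap, hψ, ← hmapQ]
      exact Ideal.mem_map_of_mem _ h2
    · rw [map_mul]
      exact Ideal.mul_mem_right _ _ (Ideal.mem_span_singleton_self _)
  · rw [sup_le_iff]
    constructor
    · refine le_maximalIdeal ?_
      intro h
      have h1 : (1 : AN) ∈ symPow AN AQ 1 := h ▸ trivial
      rw [symPow, pow_one, Ideal.mem_comap, map_one] at h1
      exact (mem_nonunits_iff.1 h1) isUnit_one
    · rw [Ideal.span_singleton_le_iff_mem]; exact hx

/-- Combination of the chain with the top step. -/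
theorem main_chain {A : Type u} [CommRing A] [IsNoetherianRing A] (φ : A →+* W)
    (π : W) (hπ : maximalIdeal W = Ideal.span {π}) (hπ0 : π ≠ 0) (vs : List W)
    (hvs : ∀ v ∈ vs, (∃ a b : A, φ b ≠ 0 ∧ φ b * v = φ a) ∧ φ.IsIntegralElem v)
    (V : Subring W) (hV : V ≤ Subring.closure (φ.range ∪ {v | v ∈ vs}))
    (hloc : ∀ w : W, ∃ a ∈ V, ∃ s ∈ V, IsUnit s ∧ s * w = a) (k : ℕ) :
    sg^[vs.length + 1] (hfQ φ) k ≤ sg^[vs.length] (hfN φ) k := by
  obtain ⟨A', _, _, φ', hr, hvs', hN, hQ⟩ := chain vs A φ hvs
  have hVr : V ≤ φ'.range := by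
    refine hV.trans ?_
    rw [Subring.closure_le]
    rintro w (hw | hw)
    · exact hr hw
    · exact hvs' w hw
  have hsurj : ∀ w : W, ∃ a s : A', IsUnit (φ' s) ∧ φ' s * w = φ' a := by
    intro w
    obtain ⟨a, ha, s, hs, hsu, hsw⟩ := hloc w
    obtain ⟨a', rfl⟩ := hVr ha
    obtain ⟨s', rfl⟩ := hVr hs
    exact ⟨a', s', hsu, hsw⟩
  rw [Function.iterate_succ_apply']
  calc sg (sg^[vs.length] (hfQ φ)) k ≤ sg (hfQ φ') k := sg_mono hQ k
    _ ≤ hfN φ' k := sg_hfQ_le_hfN φ' π hπ hπ0 hsurj k
    _ ≤ _ := hN k

end Top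

end Crest.Agent.R183.RE
end

-- ▼ part R183/LocF
section

/-!
# R183, block RE, part F: finiteness of the normalisation of a complete one-dimensional local domain
-/

set_option autoImplicit false

namespace Crest.Agent.R183.RE

open IsLocalRing

universe u v w

section Length

variable {D : Type u} [CommRing D] {M : Type v} [AddCommGroup M] [Module D M]

lemma length_quot_eq (A B : Submodule D M) (h : A ≤ B) :
    Module.length D (M ⧸ A) = Module.length D (B.map A.mkQ) + Module.length D (M ⧸ B) := by
  let g : (M ⧸ A) →ₗ[D] (M ⧸ B) := Submodule.mapQ A B LinearMap.id h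
  have hg : Function.Surjective g := by
    intro z
    obtain ⟨y, rfl⟩ := Submodule.mkQ_surjective _ z
    exact ⟨Submodule.Quotient.mk y, rfl⟩
  have hker : LinearMap.ker g = B.map A.mkQ := by
    ext z
    obtain ⟨y, rfl⟩ := Submodule.mkQ_surjective _ z
    rw [LinearMap.mem_ker]
    change Submodule.Quotient.mk y = 0 ↔ _
    rw [Submodule.Quotient.mk_eq_zero, Submodule.mem_map]
    constructor
    · intro hy; exact ⟨y, hy, rfl⟩
    · rintro ⟨b, hb, hby⟩
      have h1 : b - y ∈ A := (Submodule.Quotient.eq A).1 hby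
      have : y = b - (b - y) := by abel
      rw [this]; exact B.sub_mem hb (h h1)
  rw [Module.length_eq_add_of_exact (LinearMap.ker g).subtype g (Submodule.subtype_injective _) hg
    (LinearMap.exact_subtype_ker_map g), hker]

/-- For a rank one situation: `length (M / xM) ≤ length (D / xD)`. -/
lemma length_quot_smul_le [IsDomain D] (x : D) (e : M)
    (hxM : Function.Injective (fun m : M => x • m)) (he : ∀ d : D, d • e = 0 → d = 0)
    (hfin : Module.length D (M ⧸ (Submodule.span D {e})) ≠ ⊤) :
    Module.length D (M ⧸ (LinearMap.range (LinearMap.lsmul D M x))) ≤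
      Module.length D (D ⧸ Ideal.span {x}) := by
  set N := Submodule.span D {e} with hN
  set X := LinearMap.lsmul D M x with hX
  -- xN
  set xN := N.map X with hxN
  have h1 : xN ≤ N := by
    rintro _ ⟨n, hn, rfl⟩
    exact N.smul_mem x hn
  have h2 : xN ≤ LinearMap.range X := LinearMap.map_le_range
  have e1 := length_quot_eq xN N h1
  have e2 := length_quot_eq xN (LinearMap.range X) h2
  -- range part: iso to M / N
  have e3 : Module.length D ((LinearMap.range X).map xN.mkQ) = Module.length D (M ⧸ N) := by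
    let f : M →ₗ[D] (M ⧸ xN) := xN.mkQ ∘ₗ X
    have hr : LinearMap.range f = (LinearMap.range X).map xN.mkQ := LinearMap.range_comp _ _
    have hk : LinearMap.ker f = N := by
      ext m
      rw [LinearMap.mem_ker, LinearMap.comp_apply, Submodule.mkQ_apply,
        Submodule.Quotient.mk_eq_zero, hxN, Submodule.mem_map]
      constructor
      · rintro ⟨n, hn, hnm⟩
        have : n = m := hxM hnm
        rw [← this]; exact hn
      · intro hm; exact ⟨m, hm, rfl⟩
    rw [← hr, ← hk]
    exact (LinearMap.quotKerEquivRange f).length_eq.symm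
  have e4 : Module.length D (N.map xN.mkQ) = Module.length D (D ⧸ Ideal.span {x}) := by
    let f : D →ₗ[D] (M ⧸ xN) := xN.mkQ ∘ₗ (LinearMap.toSpanSingleton D M e)
    have hr : LinearMap.range f = N.map xN.mkQ := by
      rw [LinearMap.range_comp, LinearMap.range_toSpanSingleton]
    have hk : LinearMap.ker f = Ideal.span {x} := by
      ext d
      rw [LinearMap.mem_ker, LinearMap.comp_apply, Submodule.mkQ_apply,
        Submodule.Quotient.mk_eq_zero, hxN, Submodule.mem_map, Ideal.mem_span_singleton]
      constructor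
      · rintro ⟨n, hn, hnm⟩
        obtain ⟨a, rfl⟩ := Submodule.mem_span_singleton.1 hn
        have h3 : (d - x * a) • e = 0 := by
          rw [sub_smul, sub_eq_zero, mul_smul]
          exact hnm.symm
        exact ⟨a, sub_eq_zero.1 (he _ h3)⟩
      · rintro ⟨a, rfl⟩
        refine ⟨a • e, Submodule.smul_mem _ _ (Submodule.mem_span_singleton_self e), ?_⟩
        rw [hX, LinearMap.lsmul_apply, LinearMap.toSpanSingleton_apply, mul_smul]
    rw [← hr, ← hk]
    exact (LinearMap.quotKerEquivRange f).length_eq.symm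
  rw [e1, e3, e4, add_comm] at e2
  exact le_of_eq (WithTop.add_left_cancel hfin e2).symm

/-- A module all of whose finitely generated submodules have bounded length is finite. -/
lemma finite_of_bounded (L : ℕ∞) (hL : L ≠ ⊤)
    (h : ∀ E : Submodule D M, E.FG → Module.length D E ≤ L) : Module.Finite D M := by
  classical
  let S : Set ℕ := {n | ∃ E : Submodule D M, E.FG ∧ Module.length D E = n}
  have hS0 : S.Nonempty := ⟨0, ⊥, Submodule.fg_bot, by simp⟩
  have hSb : BddAbove S := by
    refine ⟨L.toNat, ?_⟩
    rintro n ⟨E, hE, hn⟩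
    have := h E hE
    rw [hn] at this
    have h2 := ENat.toNat_le_toNat this hL
    simpa using h2
  obtain ⟨E, hE, hn⟩ := Nat.sSup_mem hS0 hSb
  have hmax : ∀ E' : Submodule D M, E ≤ E' → E'.FG → E' = E := by
    intro E' hle hE'
    have h1 : Module.length D E' ≤ Module.length D E := by
      obtain ⟨m, hm⟩ := ENat.ne_top_iff_exists.1 (ne_top_of_le_ne_top hL (h E' hE'))
      rw [← hm, hn]
      exact_mod_cast le_csSup hSb ⟨E', hE', hm.symm⟩
    by_contra hne
    have hlt : E < E' := lt_of_le_of_ne hle (Ne.symm hne)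
    rw [Module.length_submodule, Module.length_submodule] at h1
    have hfin : Order.height E < ⊤ := by
      rw [← Module.length_submodule, hn]; exact ENat.natCast_lt_top _
    exact absurd (Order.height_strictMono hlt hfin) (not_lt.2 h1)
  have htop : E = ⊤ := by
    rw [eq_top_iff]
    intro y _
    have h1 := hmax (E ⊔ Submodule.span D {y}) le_sup_left
      (hE.sup (Submodule.fg_span_singleton y))
    rw [← h1]
    exact Submodule.mem_sup_right (Submodule.mem_span_singleton_self y)
  exact ⟨htop ▸ hE⟩

end Length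

section RankOne

variable {D : Type u} [CommRing D] [IsDomain D] [IsNoetherianRing D] [Ring.KrullDimLE 1 D]

lemma isFiniteLength_quot_of_ne_bot {I : Ideal D} (hI : I ≠ ⊥) : IsFiniteLength D (D ⧸ I) := by
  obtain ⟨x, hx, hx0⟩ := Submodule.exists_mem_ne_zero_of_ne_bot hI
  have h1 := isFiniteLength_quotient_span_singleton D (mem_nonZeroDivisors_of_ne_zero hx0)
  let g : (D ⧸ Ideal.span {x}) →ₗ[D] (D ⧸ I) :=
    Submodule.mapQ _ _ LinearMap.id ((Ideal.span_singleton_le_iff_mem I).2 hx)
  refine h1.of_surjective (f := g) ?_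
  intro z
  obtain ⟨y, rfl⟩ := Submodule.mkQ_surjective _ z
  exact ⟨Submodule.Quotient.mk y, rfl⟩

/-- Finitely generated module killed by `c ≠ 0` has finite length. -/
lemma isFiniteLength_of_smul_eq_zero {M : Type v} [AddCommGroup M] [Module D M] [Module.Finite D M]
    (c : D) (hc : c ≠ 0) (h : ∀ m : M, c • m = 0) : IsFiniteLength D M := by
  have h1 : IsFiniteLength D (D ⧸ Ideal.span {c}) :=
    isFiniteLength_quotient_span_singleton D (mem_nonZeroDivisors_of_ne_zero hc)
  have hart : IsArtinian D (D ⧸ Ideal.span {c}) := (isFiniteLength_iff_isNoetherian_isArtinian.1 h1).2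
  obtain ⟨n, f, hf⟩ := Module.Finite.exists_fin' D M
  have hle : Ideal.span {c} • (⊤ : Submodule D (Fin n → D)) ≤ LinearMap.ker f := by
    rw [Submodule.ideal_span_singleton_smul]
    intro z hz
    obtain ⟨y, -, rfl⟩ := Submodule.mem_smul_pointwise_iff_exists _ _ _ |>.1 hz
    rw [LinearMap.mem_ker, map_smul, h]
  rw [isFiniteLength_iff_isNoetherian_isArtinian]
  refine ⟨inferInstance, ?_⟩
  -- M is a quotient of (D/c)^n
  let v : Fin n → M := fun i => f (Pi.single i 1)
  let g : (Fin n → (D ⧸ Ideal.span {c})) →ₗ[D] M :=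
    LinearMap.lsum D (fun _ : Fin n => (D ⧸ Ideal.span {c})) D
      (fun i => Submodule.liftQ _ (LinearMap.toSpanSingleton D M (v i)) (by
        rw [Ideal.span_singleton_le_iff_mem, LinearMap.mem_ker, LinearMap.toSpanSingleton_apply, h]))
  refine isArtinian_of_surjective _ g ?_
  intro m
  obtain ⟨d, rfl⟩ := hf m
  refine ⟨fun i => Submodule.Quotient.mk (d i), ?_⟩
  simp only [g, LinearMap.lsum_apply, LinearMap.sum_apply, LinearMap.comp_apply,
    LinearMap.proj_apply]
  conv_rhs => rw [pi_eq_sum_univ d, map_sum]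
  refine Finset.sum_congr rfl fun i _ => ?_
  change (d i) • v i = _
  rw [← map_smul]
  congr 1
  ext j
  simp [Pi.single_apply, eq_comm]

/-- `V/xV` is finite over `D` for a torsion free rank one module `V`. -/
lemma finite_quot_smul {V : Type v} [AddCommGroup V] [Module D V] (x : D) (hx : x ≠ 0)
    (htf : ∀ (d : D) (v : V), d ≠ 0 → d • v = 0 → v = 0) (e : V) (he0 : e ≠ 0)
    (hrk : ∀ v : V, ∃ c : D, c ≠ 0 ∧ c • v ∈ Submodule.span D {e}) :
    Module.Finite D (V ⧸ (LinearMap.range (LinearMap.lsmul D V x))) := by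
  classical
  have hL : Module.length D (D ⧸ Ideal.span {x}) ≠ ⊤ :=
    Module.length_ne_top_iff.2
      (isFiniteLength_quotient_span_singleton D (mem_nonZeroDivisors_of_ne_zero hx))
  set X := LinearMap.range (LinearMap.lsmul D V x) with hX
  refine finite_of_bounded _ hL ?_
  intro E hE
  -- lift the generators
  obtain ⟨F, hF, hFE⟩ : ∃ F : Submodule D V, F.FG ∧ F.map X.mkQ = E := by
    obtain ⟨s, hs⟩ := hE
    choose g hg using Submodule.mkQ_surjective X
    refine ⟨Submodule.span D (g '' s), ⟨s.image g, by rw [Finset.coe_image]⟩, ?_⟩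
    rw [Submodule.map_span, ← hs, Set.image_image]
    congr 1
    simp [hg]
  let M : Submodule D V := F ⊔ Submodule.span D {e}
  have hM : M.FG := hF.sup (Submodule.fg_span_singleton e)
  have hMfin : Module.Finite D M := Module.Finite.iff_fg.2 hM
  have heM : e ∈ M := Submodule.mem_sup_right (Submodule.mem_span_singleton_self e)
  -- common denominator
  obtain ⟨c, hc0, hc⟩ : ∃ c : D, c ≠ 0 ∧ ∀ m ∈ M, c • m ∈ Submodule.span D {e} := by
    obtain ⟨s, hs⟩ := hM
    choose cc hcc0 hcc using hrk
    refine ⟨∏ v ∈ s, cc v, Finset.prod_ne_zero_iff.2 fun v _ => hcc0 v, ?_⟩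
    intro m hm
    rw [← hs] at hm
    induction hm using Submodule.span_induction with
    | mem y hy =>
      rw [← Finset.prod_erase_mul s cc hy, mul_smul]
      exact Submodule.smul_mem _ _ (hcc y)
    | zero => rw [smul_zero]; exact Submodule.zero_mem _
    | add y z _ _ hy hz => rw [smul_add]; exact Submodule.add_mem _ hy hz
    | smul d y _ hy => rw [smul_comm]; exact Submodule.smul_mem _ _ hy
  let e' : M := ⟨e, heM⟩
  have hspan : ∀ m : M, (m : V) ∈ Submodule.span D {e} → m ∈ Submodule.span D {e'} := by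
    intro m hm
    obtain ⟨a, ha⟩ := Submodule.mem_span_singleton.1 hm
    exact Submodule.mem_span_singleton.2 ⟨a, Subtype.ext ha⟩
  have hfl : IsFiniteLength D (M ⧸ (Submodule.span D {e'})) := by
    refine isFiniteLength_of_smul_eq_zero c hc0 ?_
    intro z
    obtain ⟨m, rfl⟩ := Submodule.mkQ_surjective _ z
    rw [← map_smul, Submodule.mkQ_apply, Submodule.Quotient.mk_eq_zero]
    exact hspan _ (hc m m.2)
  have h1 := length_quot_smul_le (M := M) x e' (by
      intro m m' h
      have h2 : x • (m - m') = 0 := by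
        rw [smul_sub, sub_eq_zero]; exact h
      have h3 : ((m - m' : M) : V) = 0 := htf x _ hx (by
        rw [← Submodule.coe_smul, h2]; rfl)
      have h4 : m - m' = 0 := Subtype.ext h3
      exact sub_eq_zero.1 h4) (by
      intro d hd
      by_contra hd0
      exact he0 (htf d e hd0 (congrArg Subtype.val hd))) (Module.length_ne_top_iff.2 hfl)
  refine le_trans ?_ h1
  -- surjection from M / xM onto map
  have hEle : E ≤ M.map X.mkQ := by rw [← hFE]; exact Submodule.map_mono le_sup_left
  refine (Module.length_le_of_injective (Submodule.inclusion hEle)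
    (Submodule.inclusion_injective hEle)).trans ?_
  let g0 : M →ₗ[D] (M.map X.mkQ) := (X.mkQ.restrict (p := M) (q := M.map X.mkQ)
    (fun m hm => Submodule.mem_map_of_mem hm))
  let g : (M ⧸ (LinearMap.range (LinearMap.lsmul D M x))) →ₗ[D] (M.map X.mkQ) :=
    Submodule.liftQ _ g0 (by
      rintro _ ⟨m, rfl⟩
      rw [LinearMap.mem_ker]
      refine Subtype.ext ?_
      change X.mkQ (x • (m : V)) = 0
      rw [Submodule.mkQ_apply, Submodule.Quotient.mk_eq_zero]
      exact ⟨m, rfl⟩)
  refine Module.length_le_of_surjective g ?_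
  rintro ⟨_, m, hm, rfl⟩
  exact ⟨Submodule.Quotient.mk ⟨m, hm⟩, rfl⟩

end RankOne

section Complete

lemma isPrecomplete_fin {S : Type u} [CommRing S] (I : Ideal S) [IsPrecomplete I S] (n : ℕ) :
    IsPrecomplete I (Fin n → S) := by
  have hmem : ∀ (J : Ideal S) (v : Fin n → S), v ∈ (J • ⊤ : Submodule S (Fin n → S)) ↔
      ∀ i, v i ∈ J := by
    intro J v
    constructor
    · intro hv i
      have : J • (⊤ : Submodule S (Fin n → S)) ≤ Submodule.comap (LinearMap.proj i) J := by
        rw [Submodule.smul_le]
        intro r hr w _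
        simp only [Submodule.mem_comap, LinearMap.proj_apply, Pi.smul_apply, smul_eq_mul]
        exact J.mul_mem_right _ hr
      exact this hv
    · intro hv
      rw [pi_eq_sum_univ v]
      refine Submodule.sum_mem _ fun i _ => ?_
      exact Submodule.smul_mem_smul (hv i) trivial
  refine ⟨fun f hf => ?_⟩
  have h1 : ∀ i : Fin n, ∃ L : S, ∀ m, f m i ≡ L [SMOD (I ^ m • ⊤ : Submodule S S)] := by
    intro i
    refine IsPrecomplete.prec' (fun m => f m i) ?_
    intro m k hmk
    have h2 := hf hmk
    rw [SModEq.sub_mem, hmem] at h2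
    rw [SModEq.sub_mem]
    simpa using h2 i
  choose L hL using h1
  refine ⟨L, fun m => ?_⟩
  rw [SModEq.sub_mem, hmem]
  intro i
  have := hL i m
  rw [SModEq.sub_mem] at this
  simpa using this

lemma finite_of_isHausdorff {S : Type u} [CommRing S] (I : Ideal S) [IsPrecomplete I S]
    {V : Type v} [AddCommGroup V] [Module S V] [IsHausdorff I V]
    (hfin : Module.Finite S (V ⧸ (I • ⊤ : Submodule S V))) : Module.Finite S V := by
  obtain ⟨n, f, hf⟩ := Module.Finite.exists_fin' S (V ⧸ (I • ⊤ : Submodule S V))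
  obtain ⟨g, hg⟩ := Module.projective_lifting_property (I • ⊤ : Submodule S V).mkQ f
    (Submodule.mkQ_surjective _)
  have := isPrecomplete_fin I n
  have h1 : Function.Surjective g := by
    refine surjective_of_mkQ_comp_surjective (I := I) ?_
    rw [hg]; exact hf
  exact Module.Finite.of_surjective g h1

variable {S : Type u} [CommRing S] [IsLocalRing S] [IsNoetherianRing S]
  [IsPrecomplete (maximalIdeal S) S]
  {D : Type v} [CommRing D] [IsDomain D] [IsLocalRing D] [IsNoetherianRing D]
  [Ring.KrullDimLE 1 D] [Algebra S D]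

omit [IsLocalRing S] [IsNoetherianRing S] [IsPrecomplete (maximalIdeal S) S] [Algebra S D] in
lemma exists_pow_le {I : Ideal D} (hI : I ≠ ⊥) : ∃ n, maximalIdeal D ^ n ≤ I := by
  have h1 := isFiniteLength_quot_of_ne_bot hI
  have hart : IsArtinian D (D ⧸ I) := (isFiniteLength_iff_isNoetherian_isArtinian.1 h1).2
  have : IsArtinianRing (D ⧸ I) :=
    isArtinian_of_tower (R := D) (S := D ⧸ I) (M := D ⧸ I) hart
  exact IsLocalRing.exists_maximalIdeal_pow_le_of_isArtinianRing_quotient I

omit [IsLocalRing S] [IsNoetherianRing S] [IsPrecomplete (maximalIdeal S) S] [Algebra S D] in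
/-- Elements infinitely divisible by `x` in the integral closure vanish. -/
lemma eq_zero_of_divisible {K : Type w} [Field K] [Algebra D K] [IsFractionRing D K] (x : D)
    (hx : x ∈ maximalIdeal D) (hx0 : x ≠ 0) (v : K)
    (h : ∀ n : ℕ, ∃ w : K, IsIntegral D w ∧ algebraMap D K x ^ n * w = v) : v = 0 := by
  by_contra hv
  have hinj : Function.Injective (algebraMap D K) := IsFractionRing.injective D K
  have hxK : algebraMap D K x ≠ 0 := by
    intro h0; exact hx0 (hinj (by rw [h0, map_zero]))
  obtain ⟨b, c, hc, hbc⟩ := IsFractionRing.div_surjective (A := D) v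
  have hc0 : c ≠ 0 := nonZeroDivisors.ne_zero hc
  have hcK : algebraMap D K c ≠ 0 := fun h0 => hc0 (hinj (by rw [h0, map_zero]))
  have hb0 : b ≠ 0 := by
    rintro rfl
    rw [map_zero, zero_div] at hbc
    exact hv hbc.symm
  obtain ⟨N, hN⟩ := exists_pow_le (D := D) (I := Ideal.span {b}) (by
    rw [Ne, Ideal.span_singleton_eq_bot]; exact hb0)
  obtain ⟨b', hb'⟩ := Ideal.mem_span_singleton.1 (hN (Ideal.pow_mem_pow hx N))
  obtain ⟨w, hw, hwv⟩ := h (N + 1)
  -- 1/x = w * c * b'
  have key : algebraMap D K x * (w * algebraMap D K (c * b')) = 1 := by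
    have h1 : algebraMap D K b = v * algebraMap D K c := by
      rw [← hbc]; field_simp
    have h2 : algebraMap D K x ^ N = v * algebraMap D K c * algebraMap D K b' := by
      rw [← h1, ← map_mul, ← hb', map_pow]
    have h3 : algebraMap D K x ^ N * (algebraMap D K x * (w * algebraMap D K (c * b'))) =
        algebraMap D K x ^ N := by
      calc _ = (algebraMap D K x ^ (N + 1) * w) * algebraMap D K c * algebraMap D K b' := by
            rw [map_mul]; ring
        _ = v * algebraMap D K c * algebraMap D K b' := by rw [hwv]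
        _ = _ := h2.symm
    exact mul_left_cancel₀ (pow_ne_zero N hxK) (by rw [h3, mul_one])
  have hint : IsIntegral D (w * algebraMap D K (c * b')) := hw.mul isIntegral_algebraMap
  have hinv : (algebraMap D K x)⁻¹ = w * algebraMap D K (c * b') :=
    (eq_inv_of_mul_eq_one_right key).symm
  have h4 : IsIntegral D (algebraMap D K x)⁻¹ := by rw [hinv]; exact hint
  obtain ⟨p, hp, hpx⟩ := h4
  have h5 : IsUnit x := by
    let := invertibleOfNonzero (inv_ne_zero hxK)
    have h6 : Polynomial.eval₂ (algebraMap D K) (⅟((algebraMap D K x)⁻¹)) p.reverse = 0 :=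
      (Polynomial.eval₂_reverse_eq_zero_iff _ _ _).2 hpx
    rw [invOf_eq_inv, inv_inv, Polynomial.eval₂_at_apply] at h6
    have h7 : Polynomial.eval x p.reverse = 0 := hinj (by rw [h6, map_zero])
    rw [← Polynomial.divX_mul_X_add p.reverse, Polynomial.eval_add, Polynomial.eval_mul,
      Polynomial.eval_X, Polynomial.eval_C, Polynomial.coeff_zero_reverse, hp.leadingCoeff] at h7
    refine IsUnit.of_mul_eq_one (-(Polynomial.eval x p.reverse.divX)) ?_
    linear_combination -h7
  exact (mem_nonunits_iff.1 ((mem_maximalIdeal x).1 hx)) h5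


omit [IsNoetherianRing S] [IsPrecomplete (maximalIdeal S) S] in
/-- The integral closure is `m_S`-adically separated. -/
lemma isHausdorff_integralClosure {K : Type w} [Field K] [Algebra D K] [IsFractionRing D K]
    [Algebra S K] [IsScalarTower S D K]
    (hsurj : Function.Surjective (algebraMap S D)) (x : D) (hx : x ∈ maximalIdeal D)
    (hx0 : x ≠ 0) : IsHausdorff (maximalIdeal S) (integralClosure D K) := by
  have hloc := IsLocalHom.of_surjective (algebraMap S D) hsurj
  have hmS : (maximalIdeal S).map (algebraMap S D) ≤ maximalIdeal D :=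
    map_maximalIdeal_le (algebraMap S D)
  obtain ⟨c, hc⟩ := exists_pow_le (D := D) (I := Ideal.span {x}) (by
    rw [Ne, Ideal.span_singleton_eq_bot]; exact hx0)
  refine ⟨fun v hv => ?_⟩
  refine Subtype.ext ?_
  change (v : K) = 0
  refine eq_zero_of_divisible x hx hx0 (v : K) fun n => ?_
  have h1 := hv (c * n)
  rw [SModEq.zero] at h1
  let Xn : Submodule S (integralClosure D K) :=
    (LinearMap.range (LinearMap.lsmul D (integralClosure D K) (x ^ n))).restrictScalars S
  have h2 : (maximalIdeal S ^ (c * n) • ⊤ : Submodule S (integralClosure D K)) ≤ Xn := by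
    rw [Submodule.smul_le]
    intro r hr w _
    have h3 : algebraMap S D r ∈ Ideal.span {x ^ n} := by
      rw [← Ideal.span_singleton_pow]
      have h4 : algebraMap S D r ∈ (maximalIdeal D ^ c) ^ n := by
        rw [← pow_mul]
        refine Ideal.pow_right_mono hmS _ ?_
        rw [← Ideal.map_pow]
        exact Ideal.mem_map_of_mem _ hr
      exact Ideal.pow_right_mono hc n h4
    obtain ⟨d, hd⟩ := Ideal.mem_span_singleton.1 h3
    refine ⟨d • w, ?_⟩
    rw [LinearMap.lsmul_apply, smul_smul, ← hd]
    refine Subtype.ext ?_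
    change algebraMap S D r • (w : K) = r • (w : K)
    rw [algebraMap_smul]
  obtain ⟨w, hw⟩ := h2 h1
  refine ⟨w, w.2, ?_⟩
  rw [← hw]
  simp [Algebra.smul_def]

/-- Finiteness of the normalisation of a complete one-dimensional Noetherian local domain. -/
theorem finite_integralClosure {K : Type w} [Field K] [Algebra D K] [IsFractionRing D K]
    [Algebra S K] [IsScalarTower S D K]
    (hsurj : Function.Surjective (algebraMap S D)) (x : D) (hx : x ∈ maximalIdeal D)
    (hx0 : x ≠ 0) : Module.Finite D (integralClosure D K) := by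
  have hinj : Function.Injective (algebraMap D K) := IsFractionRing.injective D K
  have hloc := IsLocalHom.of_surjective (algebraMap S D) hsurj
  have := isHausdorff_integralClosure (K := K) hsurj x hx hx0
  have h1 : Module.Finite D ((integralClosure D K) ⧸
      (LinearMap.range (LinearMap.lsmul D (integralClosure D K) x))) := by
    refine finite_quot_smul x hx0 ?_ 1 one_ne_zero ?_
    · intro d v hd hv
      have h2 : algebraMap D K d * (v : K) = 0 := by
        have := congrArg Subtype.val hv
        simpa [Algebra.smul_def] using this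
      rcases mul_eq_zero.1 h2 with h3 | h3
      · exact absurd (hinj (by rw [h3, map_zero])) hd
      · exact Subtype.ext h3
    · intro v
      obtain ⟨b, c, hc, hbc⟩ := IsFractionRing.div_surjective (A := D) (v : K)
      have hc0 : c ≠ 0 := nonZeroDivisors.ne_zero hc
      have hcK : algebraMap D K c ≠ 0 := fun h0 => hc0 (hinj (by rw [h0, map_zero]))
      refine ⟨c, hc0, Submodule.mem_span_singleton.2 ⟨b, ?_⟩⟩
      refine Subtype.ext ?_
      simp only [Algebra.smul_def, MulMemClass.coe_mul, mul_one, Subalgebra.coe_algebraMap]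
      rw [← hbc]; field_simp
  obtain ⟨s, hs⟩ := hsurj x
  have hsm : s ∈ maximalIdeal S := by
    rw [mem_maximalIdeal, mem_nonunits_iff]
    intro hu
    exact (mem_nonunits_iff.1 ((mem_maximalIdeal x).1 hx)) (hs ▸ hu.map (algebraMap S D))
  have h2 : Module.Finite S ((integralClosure D K) ⧸
      (LinearMap.range (LinearMap.lsmul D (integralClosure D K) x))) :=
    haveI : Module.Finite S D := Module.Finite.of_surjective (Algebra.linearMap S D) hsurj
    Module.Finite.trans D _
  set P := LinearMap.range (LinearMap.lsmul D (integralClosure D K) x) with hP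
  have h3 : Module.Finite S ((integralClosure D K) ⧸ (P.restrictScalars S)) :=
    Module.Finite.equiv (Submodule.Quotient.restrictScalarsEquiv S P).symm
  have h4 : P.restrictScalars S ≤ (maximalIdeal S • ⊤ : Submodule S (integralClosure D K)) := by
    rintro _ ⟨w, rfl⟩
    have h5 : LinearMap.lsmul D (integralClosure D K) x w = s • w := by
      rw [LinearMap.lsmul_apply, ← hs]
      refine Subtype.ext ?_
      change algebraMap S D s • (w : K) = s • (w : K)
      rw [algebraMap_smul]
    rw [h5]
    exact Submodule.smul_mem_smul hsm trivial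
  have h6 : Module.Finite S ((integralClosure D K) ⧸
      (maximalIdeal S • ⊤ : Submodule S (integralClosure D K))) := by
    refine Module.Finite.of_surjective
      (Submodule.mapQ (P.restrictScalars S) _ LinearMap.id h4) ?_
    intro z
    obtain ⟨y, rfl⟩ := Submodule.mkQ_surjective _ z
    exact ⟨Submodule.Quotient.mk y, rfl⟩
  have h7 : Module.Finite S (integralClosure D K) := finite_of_isHausdorff (maximalIdeal S) h6
  exact Module.Finite.of_restrictScalars_finite S D _

end Complete

end Crest.Agent.R183.RE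
end

-- ▼ part R183/LocG
section

/-!
# R183, block RE, part G: the localisation inequality
-/

set_option autoImplicit false

namespace Crest.Agent.R183.RE

open IsLocalRing

universe u

section Aux

variable {S D V W : Type u} [CommRing S] [IsNoetherianRing S] [CommRing D] [CommRing V]
  [CommRing W] [IsDomain W] [IsLocalRing W] [Algebra S D] [Algebra D V] [Algebra V W]

theorem loc_aux (hsurj : Function.Surjective (algebraMap S D)) [Module.Finite D V]
    (hfrac : ∀ v : V, ∃ b c : D, algebraMap V W (algebraMap D V c) ≠ 0 ∧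
      algebraMap D V c * v = algebraMap D V b)
    (P : Ideal V) [P.IsPrime] [IsLocalization.AtPrime W P]
    (π : W) (hπ : maximalIdeal W = Ideal.span {π}) (hπ0 : π ≠ 0)
    (φ : S →+* W) (hφ : φ = (algebraMap V W).comp ((algebraMap D V).comp (algebraMap S D))) :
    ∃ r : ℕ, ∀ k, sg^[r + 1] (hfQ φ) k ≤ sg^[r] (hfN φ) k := by
  classical
  obtain ⟨t, ht⟩ := (inferInstance : Module.Finite D V).fg_top
  have hφa : ∀ a, φ a = algebraMap V W (algebraMap D V (algebraMap S D a)) := fun a => by
    rw [hφ]; rfl
  let vs : List W := (t.image (algebraMap V W)).toList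
  have hvs : ∀ v ∈ vs, (∃ a b : S, φ b ≠ 0 ∧ φ b * v = φ a) ∧ φ.IsIntegralElem v := by
    intro v hv
    rw [Finset.mem_toList, Finset.mem_image] at hv
    obtain ⟨v0, hv0, rfl⟩ := hv
    constructor
    · obtain ⟨b, c, hc, hbc⟩ := hfrac v0
      obtain ⟨b', rfl⟩ := hsurj b
      obtain ⟨c', rfl⟩ := hsurj c
      refine ⟨b', c', ?_, ?_⟩
      · rw [hφa]; exact hc
      · rw [hφa, hφa, ← map_mul, hbc]
    · have h1 : IsIntegral D v0 := Algebra.IsIntegral.isIntegral v0
      obtain ⟨p, hp, hpv⟩ := h1
      obtain ⟨p', hp', -, hp'm⟩ := Polynomial.lifts_and_natDegree_eq_and_monic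
        (f := algebraMap S D) ((Polynomial.mem_lifts _).2 (Polynomial.map_surjective _ hsurj p)) hp
      refine ⟨p', hp'm, ?_⟩
      have h2 : Polynomial.eval₂ φ (algebraMap V W v0) p' =
          algebraMap V W (Polynomial.eval₂ (algebraMap D V) v0 (p'.map (algebraMap S D))) := by
        rw [Polynomial.eval₂_map, Polynomial.hom_eval₂, hφ]
      rw [h2, hp', hpv, map_zero]
  refine ⟨vs.length, fun k => main_chain φ π hπ hπ0 vs hvs (algebraMap V W).range ?_ ?_ k⟩
  · rintro _ ⟨v, rfl⟩
    have hv : v ∈ Submodule.span D (t : Set V) := by rw [ht]; trivial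
    induction hv using Submodule.span_induction with
    | mem y hy =>
      refine Subring.subset_closure (Or.inr ?_)
      change algebraMap V W y ∈ vs
      rw [Finset.mem_toList]
      exact Finset.mem_image_of_mem _ hy
    | zero => rw [map_zero]; exact Subring.zero_mem _
    | add y z _ _ hy hz => rw [map_add]; exact Subring.add_mem _ hy hz
    | smul d y _ hy =>
      rw [Algebra.smul_def, map_mul]
      refine Subring.mul_mem _ (Subring.subset_closure (Or.inl ?_)) hy
      obtain ⟨d', rfl⟩ := hsurj d
      exact ⟨d', hφa d'⟩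
  · intro w
    obtain ⟨⟨a, s⟩, h⟩ := IsLocalization.surj P.primeCompl w
    refine ⟨algebraMap V W a, ⟨a, rfl⟩, algebraMap V W s, ⟨s, rfl⟩,
      IsLocalization.map_units W s, ?_⟩
    rw [mul_comm]; exact h

end Aux

lemma hfQ_eq {S W : Type u} [CommRing S] [CommRing W] [IsDomain W] [IsLocalRing W]
    (φ : S →+* W) (q : Ideal S) [q.IsPrime] (h : RingHom.ker φ = q) :
    hfQ φ = hf (Localization.AtPrime q) := by
  subst h; rfl

lemma hfN_eq {S W : Type u} [CommRing S] [IsLocalRing S] [IsNoetherianRing S]
    [CommRing W] [IsDomain W] [IsLocalRing W]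
    (φ : S →+* W) (h : (maximalIdeal W).comap φ = maximalIdeal S) :
    hfN φ = hf S := by
  funext k
  unfold hfN
  have h2 : ∀ (N : Ideal S) [N.IsPrime], N = maximalIdeal S →
      hf (Localization.AtPrime N) k = hf S k := by
    intro N _ hN
    subst hN
    have hm : maximalIdeal (Localization.AtPrime (maximalIdeal S)) =
        (maximalIdeal S).map (algebraMap S (Localization.AtPrime (maximalIdeal S))) :=
      (Localization.AtPrime.map_eq_maximalIdeal (I := maximalIdeal S)).symm
    have hloc : IsLocalHom (algebraMap S (Localization.AtPrime (maximalIdeal S))) := by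
      refine ((IsLocalRing.local_hom_TFAE _).out 0 2).2 ?_
      rw [hm]
    have hflat : Module.Flat S (Localization.AtPrime (maximalIdeal S)) := inferInstance
    exact hf_eq_of_flat hm k
  exact h2 _ h

/-- A discrete valuation ring which is a localisation of the (finite) normalisation. -/
lemma exists_dvr (D K : Type u) [CommRing D] [IsDomain D] [IsLocalRing D] [IsNoetherianRing D]
    [Ring.KrullDimLE 1 D] [Field K] [Algebra D K] [IsFractionRing D K] (x : D)
    (hx : x ∈ maximalIdeal D) (hx0 : x ≠ 0)
    (hfin : Module.Finite D (integralClosure D K)) :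
    ∃ (V : Type u) (_ : CommRing V) (_ : Algebra D V) (_ : Module.Finite D V) (P : Ideal V)
      (_ : P.IsPrime) (W : Type u) (_ : CommRing W) (_ : IsDomain W) (_ : IsLocalRing W)
      (_ : Algebra V W) (_ : IsLocalization.AtPrime W P) (π : W),
      maximalIdeal W = Ideal.span {π} ∧ π ≠ 0 ∧
      (∀ d : D, algebraMap V W (algebraMap D V d) = 0 → d = 0) ∧
      (((maximalIdeal W).comap (algebraMap V W)).comap (algebraMap D V)) = maximalIdeal D ∧
      (∀ v : V, ∃ b c : D, c ≠ 0 ∧ algebraMap D V c * v = algebraMap D V b) := by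
  have hdim : Ring.DimensionLEOne D := ⟨fun {p} hp hpp =>
    Ring.krullDimLE_one_iff_of_noZeroDivisors.1 inferInstance p hp hpp⟩
  have hVnoeth : IsNoetherianRing (integralClosure D K) := IsNoetherianRing.of_finite D _
  have hVdim : Ring.DimensionLEOne (integralClosure D K) := inferInstance
  have hVic : IsIntegrallyClosed (integralClosure D K) :=
    integralClosure.isIntegrallyClosedOfFiniteExtension K
  have hVded : IsDedekindDomain (integralClosure D K) := { }
  have hinjDK : Function.Injective (algebraMap D K) := IsFractionRing.injective D K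
  have hinjDV : Function.Injective (algebraMap D (integralClosure D K)) := by
    intro a b hab
    exact hinjDK (congrArg Subtype.val hab)
  obtain ⟨P, hPmax, hP⟩ : ∃ P : Ideal (integralClosure D K), P.IsMaximal ∧
      P.comap (algebraMap D (integralClosure D K)) = maximalIdeal D := by
    exact Ideal.exists_ideal_over_maximal_of_isIntegral (maximalIdeal D) (by
      rw [(RingHom.injective_iff_ker_eq_bot _).1 hinjDV]; exact bot_le)
  have hPprime : P.IsPrime := hPmax.isPrime
  have hPne : P ≠ ⊥ := by
    intro h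
    have h1 : algebraMap D (integralClosure D K) x ∈ P := by
      have : x ∈ P.comap (algebraMap D (integralClosure D K)) := by rw [hP]; exact hx
      exact this
    rw [h, Ideal.mem_bot] at h1
    exact hx0 (hinjDV (by rw [h1, map_zero]))
  have hWdvr : IsDiscreteValuationRing (Localization.AtPrime P) :=
    IsLocalization.AtPrime.isDiscreteValuationRing_of_dedekind_domain (integralClosure D K) hPne _
  obtain ⟨π, hπ⟩ := IsDiscreteValuationRing.exists_irreducible (Localization.AtPrime P)
  have hπm : maximalIdeal (Localization.AtPrime P) = Ideal.span {π} :=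
    (IsDiscreteValuationRing.irreducible_iff_uniformizer π).1 hπ
  have hinjVW : Function.Injective (algebraMap (integralClosure D K) (Localization.AtPrime P)) :=
    IsLocalization.injective _ (Ideal.primeCompl_le_nonZeroDivisors P)
  have hPc : (maximalIdeal (Localization.AtPrime P)).comap
      (algebraMap (integralClosure D K) (Localization.AtPrime P)) = P :=
    Localization.AtPrime.under_maximalIdeal (I := P)
  refine ⟨integralClosure D K, inferInstance, inferInstance, hfin, P, hPprime,
    Localization.AtPrime P, inferInstance, inferInstance, inferInstance, inferInstance,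
    inferInstance, π, hπm, hπ.ne_zero, ?_, ?_, ?_⟩
  · intro d hd
    exact hinjDV (hinjVW (by rw [hd, map_zero, map_zero]))
  · rw [hPc, hP]
  · intro v0
    obtain ⟨b, c, hc, hbc⟩ := IsFractionRing.div_surjective (A := D) (v0 : K)
    have hc0 : c ≠ 0 := nonZeroDivisors.ne_zero hc
    have hcK : algebraMap D K c ≠ 0 := fun h0 => hc0 (hinjDK (by rw [h0, map_zero]))
    refine ⟨b, c, hc0, ?_⟩
    refine Subtype.ext ?_
    have h2 := (div_eq_iff hcK).1 hbc
    change algebraMap D K c * (v0 : K) = algebraMap D K b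
    rw [mul_comm]; exact h2.symm

/-- Localisation inequality (RE): `S` complete local, `q` a prime with `dim S/q = 1`. -/
theorem localisation_inequality (S : Type u) [CommRing S] [IsLocalRing S] [IsNoetherianRing S]
    [IsPrecomplete (maximalIdeal S) S] (q : Ideal S) [q.IsPrime] (hq : q ≠ maximalIdeal S)
    [Ring.KrullDimLE 1 (S ⧸ q)] :
    ∃ r : ℕ, ∀ k, sg^[r + 1] (hf (Localization.AtPrime q)) k ≤ sg^[r] (hf S) k := by
  have hlocD : IsLocalRing (S ⧸ q) := IsLocalRing.of_surjective' (Ideal.Quotient.mk q)
    Ideal.Quotient.mk_surjective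
  have hsurj : Function.Surjective (algebraMap S (S ⧸ q)) := Ideal.Quotient.mk_surjective
  have hlochom := IsLocalHom.of_surjective (algebraMap S (S ⧸ q)) hsurj
  have hqle : q ≤ maximalIdeal S := le_maximalIdeal (Ideal.IsPrime.ne_top ‹_›)
  -- a nonzero element of the maximal ideal of D
  obtain ⟨s, hs, hsq⟩ : ∃ s ∈ maximalIdeal S, s ∉ q := by
    by_contra h
    push Not at h
    exact hq (le_antisymm hqle h)
  have hx : algebraMap S (S ⧸ q) s ∈ maximalIdeal (S ⧸ q) := by
    have := map_maximalIdeal_le (algebraMap S (S ⧸ q))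
    exact this (Ideal.mem_map_of_mem _ hs)
  have hx0 : algebraMap S (S ⧸ q) s ≠ 0 := by
    intro h
    exact hsq ((Ideal.Quotient.eq_zero_iff_mem).1 h)
  have hfinV : Module.Finite (S ⧸ q) (integralClosure (S ⧸ q) (FractionRing (S ⧸ q))) :=
    finite_integralClosure (S := S) hsurj _ hx hx0
  obtain ⟨V, _, _, _, P, _, W, _, _, _, _, _, π, hπ, hπ0, hinj, hcomap0, hfrac0⟩ :=
    exists_dvr (S ⧸ q) (FractionRing (S ⧸ q)) _ hx hx0 hfinV
  let φ : S →+* W := (algebraMap V W).comp ((algebraMap (S ⧸ q) V).comp (algebraMap S (S ⧸ q)))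
  have hφ : ∀ a : S, φ a = algebraMap V W (algebraMap (S ⧸ q) V (algebraMap S (S ⧸ q) a)) :=
    fun _ => rfl
  have hker : RingHom.ker φ = q := by
    ext a
    rw [RingHom.mem_ker, hφ]
    constructor
    · intro h
      exact (Ideal.Quotient.eq_zero_iff_mem).1 (hinj _ h)
    · intro h
      have : algebraMap S (S ⧸ q) a = 0 := (Ideal.Quotient.eq_zero_iff_mem).2 h
      rw [this, map_zero, map_zero]
  have hcomap : (maximalIdeal W).comap φ = maximalIdeal S := by
    have h2 : (maximalIdeal (S ⧸ q)).comap (algebraMap S (S ⧸ q)) = maximalIdeal S :=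
      IsLocalRing.maximalIdeal_comap (algebraMap S (S ⧸ q))
    rw [← h2, ← hcomap0, Ideal.comap_comap, Ideal.comap_comap]
  have hfrac : ∀ v : V, ∃ b c : (S ⧸ q), algebraMap V W (algebraMap (S ⧸ q) V c) ≠ 0 ∧
      algebraMap (S ⧸ q) V c * v = algebraMap (S ⧸ q) V b := by
    intro v
    obtain ⟨b, c, hc, h⟩ := hfrac0 v
    exact ⟨b, c, fun h0 => hc (hinj _ h0), h⟩
  obtain ⟨r, hr⟩ := loc_aux (V := V) hsurj hfrac P π hπ hπ0 φ rfl
  refine ⟨r, fun k => ?_⟩
  have := hr k
  rw [hfQ_eq φ q hker, hfN_eq φ hcomap] at this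
  exact this

end Crest.Agent.R183.RE
end

-- ▼ part R183/LocH
section

/-!
# R183, block RE, part H: the localisation inequality in terms of `hs` and `Sg`
-/

set_option autoImplicit false

namespace Crest.Agent.R183.RE

open IsLocalRing Crest.Agent.R183.M

universe u

lemma Sg_zero_of {f : ℕ → ℕ} (hf : f 0 = 0) : Sg f 0 = 0 := by simp [Sg, hf]

lemma cast_Sg {f : ℕ → ℕ} (hf : f 0 = 0) (N : ℕ) :
    ((Sg f N : ℕ) : ℕ∞) = sg (fun k => (f k : ℕ∞)) N := by
  unfold Sg sg
  rw [Finset.sum_range_succ', hf, add_zero]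
  push_cast
  rfl

lemma cast_Sg_iterate {f : ℕ → ℕ} (hf : f 0 = 0) (r : ℕ) :
    Sg^[r] f 0 = 0 ∧ ∀ N, ((Sg^[r] f N : ℕ) : ℕ∞) = sg^[r] (fun k => (f k : ℕ∞)) N := by
  induction r with
  | zero => exact ⟨hf, fun _ => rfl⟩
  | succ r ih =>
    rw [Function.iterate_succ_apply']
    refine ⟨Sg_zero_of ih.1, fun N => ?_⟩
    rw [Function.iterate_succ_apply', cast_Sg ih.1, funext ih.2]

/-- Localisation inequality (RE), `ℕ`-valued version: `S` complete local, `q ≠ n` a prime with
`dim S/q ≤ 1`. -/
theorem Sg_hs_localization_le (S : Type u) [CommRing S] [IsLocalRing S] [IsNoetherianRing S]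
    [IsPrecomplete (maximalIdeal S) S] (q : Ideal S) [q.IsPrime] (hq : q ≠ maximalIdeal S)
    [Ring.KrullDimLE 1 (S ⧸ q)] :
    ∃ r : ℕ, ∀ N, Sg^[r + 1] (hs (Localization.AtPrime q) (Localization.AtPrime q)) N ≤
      Sg^[r] (hs S S) N := by
  obtain ⟨r, hr⟩ := localisation_inequality S q hq
  refine ⟨r, fun N => ?_⟩
  have h1 := (cast_Sg_iterate (hs_zero' (Localization.AtPrime q)) (r + 1)).2 N
  have h2 := (cast_Sg_iterate (hs_zero' S) r).2 N
  have e1 : (fun k => ((hs (Localization.AtPrime q) (Localization.AtPrime q) k : ℕ) : ℕ∞)) =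
      hf (Localization.AtPrime q) := funext fun k => coe_hs_self _ k
  have e2 : (fun k => ((hs S S k : ℕ) : ℕ∞)) = hf S := funext fun k => coe_hs_self _ k
  rw [e1] at h1
  rw [e2] at h2
  have := hr N
  rw [← h1, ← h2] at this
  exact_mod_cast this

end Crest.Agent.R183.RE
end

-- ▼ part R183/LocDim
section

/-!
# R183, block RE (helper715): reduction to equal dimension

Induction with completions and localisations: from `R → S` flat local with `dim S = dim R + f` to
`R → S'` flat local, `S'` complete, `dim S' = dim R`, with control of the Hilbert functions, given the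
one-step localisation inequality (`StepHyp`).
-/

set_option autoImplicit false

namespace Crest.Agent.R183.Loc

open IsLocalRing Crest.Agent.R183.M

universe u v

/-- In a Noetherian local ring of dimension `f + 1` there is a prime of height `f` which is maximal
among the non-maximal primes. -/
theorem exists_prime_covBy {F : Type*} [CommRing F] [IsLocalRing F] [IsNoetherianRing F] (f : ℕ)
    (hF : (maximalIdeal F).height = ((f + 1 : ℕ) : ℕ∞)) :
    ∃ q : Ideal F, q.IsPrime ∧ q < maximalIdeal F ∧
      (∀ q' : Ideal F, q'.IsPrime → q < q' → q' = maximalIdeal F) ∧ q.height = (f : ℕ∞) := by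
  have h1 : ¬ (maximalIdeal F).height ≤ (f : ℕ∞) := by
    rw [hF]
    exact not_le.2 (by exact_mod_cast Nat.lt_succ_self f)
  rw [Ideal.height_le_iff_covBy] at h1
  push Not at h1
  obtain ⟨q, hq, hlt, hcov, hle⟩ := h1
  refine ⟨q, hq, hlt, fun q' hq' hqq' => ?_, le_antisymm ?_ hle⟩
  · by_contra hne
    exact hcov q' hq' hqq' (lt_of_le_of_ne (le_maximalIdeal hq'.ne_top) hne)
  · have h2 : q.height + 1 ≤ (maximalIdeal F).height := Ideal.height_add_one_le_of_lt_of_isPrime hlt
    rw [hF] at h2
    have h3 : q.height + 1 ≤ (f : ℕ∞) + 1 := by simpa using h2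
    exact (ENat.add_le_add_iff_right ENat.one_ne_top).1 h3

theorem ringKrullDim_quotient_eq_one {S : Type*} [CommRing S] [IsLocalRing S] (q : Ideal S)
    [hq : q.IsPrime] (hlt : q < maximalIdeal S)
    (hcov : ∀ q' : Ideal S, q'.IsPrime → q < q' → q' = maximalIdeal S) :
    ringKrullDim (S ⧸ q) = 1 := by
  have hloc : IsLocalRing (S ⧸ q) := IsLocalRing.of_surjective' _ Ideal.Quotient.mk_surjective
  refine le_antisymm ?_ ?_
  · have h1 : Ring.KrullDimLE 1 (S ⧸ q) := by
      rw [Ring.krullDimLE_one_iff_of_isPrime_bot]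
      intro I hI hIp
      have hc : (I.comap (Ideal.Quotient.mk q)).IsPrime := Ideal.comap_isPrime _ _
      have hle : q ≤ I.comap (Ideal.Quotient.mk q) := by
        intro x hx
        rw [Ideal.mem_comap, Ideal.Quotient.eq_zero_iff_mem.2 hx]
        exact I.zero_mem
      have hne : q ≠ I.comap (Ideal.Quotient.mk q) := by
        intro he
        apply hI
        rw [eq_bot_iff]
        intro x hx
        obtain ⟨x, rfl⟩ := Ideal.Quotient.mk_surjective x
        have : x ∈ q := by rw [he]; exact hx
        rw [Ideal.Quotient.eq_zero_iff_mem.2 this]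
        exact Ideal.zero_mem _
      have := hcov _ hc (lt_of_le_of_ne hle hne)
      have h2 : I = maximalIdeal (S ⧸ q) := by
        refine le_antisymm (le_maximalIdeal hIp.ne_top) ?_
        intro x hx
        obtain ⟨x, rfl⟩ := Ideal.Quotient.mk_surjective x
        have h3 : x ∈ maximalIdeal S := by
          rw [mem_maximalIdeal] at hx ⊢
          exact fun hu => hx (hu.map _)
        rw [← this] at h3
        exact h3
      rw [h2]
      exact maximalIdeal.isMaximal _
    exact_mod_cast Ring.krullDimLE_iff.1 h1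
  · by_contra hcon
    have h1 : ringKrullDim (S ⧸ q) ≤ 0 := by
      by_contra h0
      apply hcon
      have h0' := lt_of_not_ge h0
      have h5 := (ENat.WithBot.add_one_le_iff (n := 0)).2 (by exact_mod_cast h0')
      simpa using h5
    have h2 : Ring.KrullDimLE 0 (S ⧸ q) := Ring.krullDimLE_iff.2 (by exact_mod_cast h1)
    have h3 : (⊥ : Ideal (S ⧸ q)).IsMaximal := Ring.krullDimLE_zero_iff.1 h2 ⊥ Ideal.isPrime_bot
    have h4 : q.IsMaximal := Ideal.Quotient.maximal_of_isField q
      ((Ring.isField_iff_maximal_bot).2 h3)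
    exact hlt.ne (eq_maximalIdeal h4)

theorem exists_natCast_ringKrullDim (R : Type*) [CommRing R] [IsLocalRing R] [IsNoetherianRing R] :
    ∃ d : ℕ, ringKrullDim R = (d : WithBot ℕ∞) := by
  have h1 : (maximalIdeal R).height ≠ ⊤ := Ideal.height_ne_top_of_isPrime
  obtain ⟨d, hd⟩ := ENat.ne_top_iff_exists.1 h1
  refine ⟨d, ?_⟩
  rw [← IsLocalRing.maximalIdeal_height_eq_ringKrullDim, ← hd]
  rfl

/-- (b2) A prime `q` containing `m S` with `dim S/q = 1` and `dim S_q = dim R + f` if
`dim S = dim R + f + 1`. -/
theorem exists_prime_step (R : Type u) (S : Type v) [CommRing R] [IsLocalRing R]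
    [IsNoetherianRing R] [CommRing S] [IsLocalRing S] [IsNoetherianRing S] [Algebra R S]
    [Module.Flat R S] [IsLocalHom (algebraMap R S)] (f : ℕ)
    (hdim : ringKrullDim S = ringKrullDim R + ((f + 1 : ℕ) : WithBot ℕ∞)) :
    ∃ q : Ideal S, ∃ _ : q.IsPrime, (maximalIdeal R).map (algebraMap R S) ≤ q ∧
      ringKrullDim (S ⧸ q) = 1 ∧
      ringKrullDim (Localization.AtPrime q) = ringKrullDim R + (f : WithBot ℕ∞) := by
  obtain ⟨d, hd⟩ := exists_natCast_ringKrullDim R
  have hle : (maximalIdeal R).map (algebraMap R S) ≤ maximalIdeal S := G.map_maximalIdeal_le R S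
  set I := (maximalIdeal R).map (algebraMap R S) with hI
  have hnt : Nontrivial (S ⧸ I) := Ideal.Quotient.nontrivial_iff.2
    (fun h => (maximalIdeal.isMaximal S).ne_top (top_le_iff.1 (h ▸ hle)))
  have hloc : IsLocalRing (S ⧸ I) := IsLocalRing.of_surjective' _ Ideal.Quotient.mk_surjective
  have h1 := ringKrullDim_eq_add_of_flat R S
  obtain ⟨g, hg⟩ := exists_natCast_ringKrullDim (S ⧸ I)
  rw [← hI, hdim, hg, hd] at h1
  have h2 : d + (f + 1) = d + g := by exact_mod_cast h1
  have h3 : (maximalIdeal (S ⧸ I)).height = ((f + 1 : ℕ) : ℕ∞) := by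
    have h4 := IsLocalRing.maximalIdeal_height_eq_ringKrullDim (R := S ⧸ I)
    rw [hg] at h4
    have h5 : g = f + 1 := by omega
    rw [h5] at h4
    exact_mod_cast h4
  obtain ⟨q, hq, hlt, hcov, hht⟩ := exists_prime_covBy f h3
  have hmax : (maximalIdeal (S ⧸ I)).comap (Ideal.Quotient.mk I) = maximalIdeal S :=
    eq_maximalIdeal (Ideal.comap_isMaximal_of_surjective _ Ideal.Quotient.mk_surjective)
  have hqI : I ≤ q.comap (Ideal.Quotient.mk I) := by
    intro x hx
    rw [Ideal.mem_comap, Ideal.Quotient.eq_zero_iff_mem.2 hx]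
    exact q.zero_mem
  have hqp : (q.comap (Ideal.Quotient.mk I)).IsPrime := Ideal.comap_isPrime _ _
  have hinj := Ideal.comap_injective_of_surjective (Ideal.Quotient.mk I)
    Ideal.Quotient.mk_surjective
  refine ⟨q.comap (Ideal.Quotient.mk I), hqp, hqI, ?_, ?_⟩
  · refine ringKrullDim_quotient_eq_one _ ?_ ?_
    · rw [← hmax]
      exact lt_of_le_of_ne (Ideal.comap_mono hlt.le) (fun h => hlt.ne (hinj h))
    · intro q' hq' hlt'
      have hIq' : I ≤ q' := hqI.trans hlt'.le
      have hker : RingHom.ker (Ideal.Quotient.mk I) ≤ q' := by rwa [Ideal.mk_ker]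
      have h5 : (q'.map (Ideal.Quotient.mk I)).comap (Ideal.Quotient.mk I) = q' := by
        rw [Ideal.comap_map_of_surjective' _ Ideal.Quotient.mk_surjective, Ideal.mk_ker]
        exact sup_eq_left.2 hIq'
      have h6 : (q'.map (Ideal.Quotient.mk I)).IsPrime :=
        Ideal.map_isPrime_of_surjective Ideal.Quotient.mk_surjective hker
      have h7 : q ≤ q'.map (Ideal.Quotient.mk I) := by
        have := Ideal.map_mono (f := Ideal.Quotient.mk I) hlt'.le
        rwa [Ideal.map_comap_of_surjective _ Ideal.Quotient.mk_surjective] at this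
      have h8 : q ≠ q'.map (Ideal.Quotient.mk I) := by
        intro he
        rw [he, h5] at hlt'
        exact lt_irrefl _ hlt'
      have h9 := hcov _ h6 (lt_of_le_of_ne h7 h8)
      rw [← h5, h9, hmax]
  · have hlo : (q.comap (Ideal.Quotient.mk I)).LiesOver (maximalIdeal R) := by
      refine ⟨?_⟩
      rw [Ideal.under_def]
      refine le_antisymm (Ideal.map_le_iff_le_comap.1 hqI) ?_
      exact le_maximalIdeal (Ideal.comap_ne_top _ hqp.ne_top)
    have h5 := Ideal.height_eq_height_add_of_liesOver_of_hasGoingDown (maximalIdeal R)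
      (q.comap (Ideal.Quotient.mk I))
    rw [← hI, Ideal.map_comap_of_surjective _ Ideal.Quotient.mk_surjective, hht] at h5
    rw [IsLocalization.AtPrime.ringKrullDim_eq_height (q.comap (Ideal.Quotient.mk I)), h5,
      ← IsLocalRing.maximalIdeal_height_eq_ringKrullDim]
    rfl

theorem exists_completion_aux (R : Type u) [CommRing R] [IsLocalRing R]
    (S : Type v) [CommRing S] [IsLocalRing S] [Algebra R S]
    [Module.Flat R S] [IsLocalHom (algebraMap R S)] (A : Type v) [CommRing A] [IsLocalRing A]
    [Algebra S A] [Module.Flat S A] [IsLocalHom (algebraMap S A)] :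
    ∃ (_ : Algebra R A) (_ : Module.Flat R A), IsLocalHom (algebraMap R A) := by
  letI : Algebra R A := ((algebraMap S A).comp (algebraMap R S)).toAlgebra
  haveI : IsScalarTower R S A := IsScalarTower.of_algebraMap_eq fun x => rfl
  have hflat' : Module.Flat R A := Module.Flat.trans R S A
  have hl2 : IsLocalHom (algebraMap R A) := by
    have : algebraMap R A = (algebraMap S A).comp (algebraMap R S) := rfl
    rw [this]
    infer_instance
  exact ⟨inferInstance, hflat', hl2⟩

/-- The completion of a flat local extension. -/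
theorem exists_completion (R : Type u) [CommRing R] [IsLocalRing R]
    (S : Type v) [CommRing S] [IsLocalRing S] [IsNoetherianRing S] [Algebra R S]
    [Module.Flat R S] [IsLocalHom (algebraMap R S)] :
    ∃ (S' : Type v) (_ : CommRing S') (_ : IsLocalRing S') (_ : IsNoetherianRing S')
      (_ : IsAdicComplete (maximalIdeal S') S') (_ : Algebra R S') (_ : Module.Flat R S')
      (_ : IsLocalHom (algebraMap R S')), ringKrullDim S' = ringKrullDim S ∧
        hs S' S' = hs S S := by
  let A := AdicCompletion (maximalIdeal S) S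
  have hmA : (maximalIdeal S).map (algebraMap S A) = maximalIdeal A :=
    AdicCompletion.maximalIdeal_eq_map.symm
  have hcomp : IsAdicComplete (maximalIdeal A) A := by
    rw [← hmA]
    exact AdicCompletion.isAdicComplete_self (maximalIdeal S) (IsNoetherian.noetherian _)
  have hflat : Module.Flat S A := AdicCompletion.flat_of_isNoetherian _
  have hl1 : IsLocalHom (algebraMap S A) := G.isLocalHom_of_map_maximalIdeal hmA
  obtain ⟨k1, k2, k3⟩ := exists_completion_aux R S A
  refine ⟨A, inferInstance, inferInstance, inferInstance, hcomp, k1, k2, k3, ?_, ?_⟩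
  · exact G.ringKrullDim_eq_of_map_maximalIdeal hmA
  · exact (hs_eq_of_flat S A hmA).symm

/-- Reduction to equal dimension: from `R → S` flat local with `dim S = dim R + f` to
`R → S'` flat local, `S'` complete, `dim S' = dim R`, with `Sg^[r+f] H_{S'} ≤ Sg^[r] H_S`. -/
theorem exists_equidim (R : Type u) [CommRing R] [IsLocalRing R] [IsNoetherianRing R] (f : ℕ) :
    ∀ (S : Type v) [CommRing S] [IsLocalRing S] [IsNoetherianRing S] [Algebra R S]
      [Module.Flat R S] [IsLocalHom (algebraMap R S)],
      ringKrullDim S = ringKrullDim R + (f : WithBot ℕ∞) →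
      ∃ (S' : Type v) (_ : CommRing S') (_ : IsLocalRing S') (_ : IsNoetherianRing S')
        (_ : IsAdicComplete (maximalIdeal S') S') (_ : Algebra R S') (_ : Module.Flat R S')
        (_ : IsLocalHom (algebraMap R S')), ringKrullDim S' = ringKrullDim R ∧
          ∃ r : ℕ, ∀ N, Sg^[r + f] (hs S' S') N ≤ Sg^[r] (hs S S) N := by
  induction f with
  | zero =>
    intro S _ _ _ _ _ _ hdim
    obtain ⟨S', i1, i2, i3, i4, i5, i6, i7, h1, h2⟩ := exists_completion R S
    refine ⟨S', i1, i2, i3, i4, i5, i6, i7, ?_, 0, fun N => ?_⟩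
    · rw [h1, hdim]
      simp
    · rw [h2]
  | succ f ih =>
    intro S _ _ _ _ _ _ hdim
    obtain ⟨T, i1, i2, i3, i4, i5, i6, i7, h1, h2⟩ := exists_completion R S
    have hdim' : ringKrullDim T = ringKrullDim R + ((f + 1 : ℕ) : WithBot ℕ∞) := by rw [h1, hdim]
    obtain ⟨q, hq, hle, hq1, hq2⟩ := exists_prime_step R T f hdim'
    have hqne : q ≠ maximalIdeal T := by
      intro he
      subst he
      have h3 : ringKrullDim (T ⧸ maximalIdeal T) = 0 :=
        ringKrullDim_eq_zero_of_isField (Ideal.Quotient.field (maximalIdeal T)).toIsField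
      rw [h3] at hq1
      exact absurd hq1 (by norm_num)
    have hK : Ring.KrullDimLE 1 (T ⧸ q) := Ring.krullDimLE_iff.2 (by rw [hq1]; rfl)
    obtain ⟨r, hr⟩ := RE.Sg_hs_localization_le T q hqne
    -- `R → T_q`
    have hflat : Module.Flat R (Localization.AtPrime q) := Module.Flat.trans R T _
    have hunder : q.comap (algebraMap R T) = maximalIdeal R :=
      le_antisymm (le_maximalIdeal (Ideal.comap_ne_top _ hq.ne_top))
        (Ideal.map_le_iff_le_comap.1 hle)
    have hloc : IsLocalHom (algebraMap R (Localization.AtPrime q)) := by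
      apply ((IsLocalRing.local_hom_TFAE (algebraMap R (Localization.AtPrime q))).out 0 2).mpr
      rw [IsScalarTower.algebraMap_eq R T (Localization.AtPrime q), ← Ideal.map_map]
      rw [Ideal.map_le_iff_le_comap, ← Ideal.under_def,
        IsLocalization.AtPrime.under_maximalIdeal (Localization.AtPrime q) q]
      exact hle
    obtain ⟨S', j1, j2, j3, j4, j5, j6, j7, h3, r', hr'⟩ := ih (Localization.AtPrime q) hq2
    refine ⟨S', j1, j2, j3, j4, j5, j6, j7, h3, r + r', fun N => ?_⟩
    have h4 : Sg^[r + r' + (f + 1)] (hs S' S') N ≤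
        Sg^[r + 1 + r'] (hs (Localization.AtPrime q) (Localization.AtPrime q)) N := by
      have e1 : r + r' + (f + 1) = (r + 1) + (r' + f) := by ring
      rw [e1, Function.iterate_add_apply, Function.iterate_add_apply Sg (r + 1) r']
      exact Sg_iterate_mono hr' (r + 1) N
    have h5 : Sg^[r + 1 + r'] (hs (Localization.AtPrime q) (Localization.AtPrime q)) N ≤
        Sg^[r + r'] (hs T T) N := by
      have e1 : r + 1 + r' = r' + (r + 1) := by ring
      have e2 : r + r' = r' + r := by ring
      rw [e1, e2, Function.iterate_add_apply, Function.iterate_add_apply Sg r' r]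
      exact Sg_iterate_mono hr r' N
    rw [← h2]
    exact h4.trans h5

end Crest.Agent.R183.Loc
end

-- ▼ part R183/Top

/-!
# R183 (Lech's conjecture, S0273): the top of the assembly

`result_of_core` : the statement S0273 follows from `Core`, i.e. Lech's inequality for flat local
homomorphisms `R → S` with `dim R = dim S = d`, `R` a complete Noetherian local domain with infinite
residue field and `S` a complete Noetherian local ring with algebraically closed residue field.

`result_of_cases` : the same from the three cases (residue characteristic `0`; `p = 0` in `R`;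
residue characteristic `p` and `p ≠ 0` in `R`), `d ≥ 1`.

`lechC_of_coreEqual` : Lech's inequality for ALL flat local homomorphisms of rings with `p = 0`
from `CoreEqual p`.
-/

set_option autoImplicit false

namespace Crest.Agent.R183.Top

open IsLocalRing Crest.Agent.R183.M

universe u v

/-- Lech's inequality for pairs of complete local rings of the same dimension, `R` a domain, the
residue field of `S` algebraically closed. -/
def Core : Prop :=
  ∀ (d : ℕ) (R : Type u) (S : Type v) [CommRing R] [IsLocalRing R] [IsNoetherianRing R]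
    [IsDomain R] [IsAdicComplete (maximalIdeal R) R]
    [CommRing S] [IsLocalRing S] [IsNoetherianRing S]
    [IsAdicComplete (maximalIdeal S) S] [Algebra R S] [Module.Flat R S]
    [IsLocalHom (algebraMap R S)] [IsAlgClosed (ResidueField S)] [Infinite (ResidueField R)],
    ringKrullDim R = d → ringKrullDim S = d → LechC R S d d

/-- The core in equal characteristic `p > 0`, dimension `d + 1`. -/
def CoreEqual (p : ℕ) : Prop :=
  ∀ (d : ℕ) (R : Type u) (S : Type v) [CommRing R] [IsLocalRing R] [IsNoetherianRing R]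
    [IsDomain R] [IsAdicComplete (maximalIdeal R) R] [CharP R p]
    [CommRing S] [IsLocalRing S] [IsNoetherianRing S]
    [IsAdicComplete (maximalIdeal S) S] [Algebra R S] [Module.Flat R S]
    [IsLocalHom (algebraMap R S)] [IsAlgClosed (ResidueField S)] [Infinite (ResidueField R)],
    ringKrullDim R = ((d + 1 : ℕ) : WithBot ℕ∞) → ringKrullDim S = ((d + 1 : ℕ) : WithBot ℕ∞) →
      LechC R S (d + 1) (d + 1)

/-- The core in mixed characteristic `(0, p)`, dimension `d + 1`. -/
def CoreMixed (p : ℕ) : Prop :=
  ∀ (d : ℕ) (R : Type u) (S : Type v) [CommRing R] [IsLocalRing R] [IsNoetherianRing R]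
    [IsDomain R] [IsAdicComplete (maximalIdeal R) R]
    [CommRing S] [IsLocalRing S] [IsNoetherianRing S]
    [IsAdicComplete (maximalIdeal S) S] [Algebra R S] [Module.Flat R S]
    [IsLocalHom (algebraMap R S)] [IsAlgClosed (ResidueField S)] [Infinite (ResidueField R)],
    (p : R) ≠ 0 → (p : R) ∈ maximalIdeal R →
    ringKrullDim R = ((d + 1 : ℕ) : WithBot ℕ∞) → ringKrullDim S = ((d + 1 : ℕ) : WithBot ℕ∞) →
      LechC R S (d + 1) (d + 1)

/-- The core in residue characteristic `0`, dimension `d + 1`. -/
def CoreZero : Prop :=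
  ∀ (d : ℕ) (R : Type u) (S : Type v) [CommRing R] [IsLocalRing R] [IsNoetherianRing R]
    [IsDomain R] [IsAdicComplete (maximalIdeal R) R]
    [CommRing S] [IsLocalRing S] [IsNoetherianRing S]
    [IsAdicComplete (maximalIdeal S) S] [Algebra R S] [Module.Flat R S]
    [IsLocalHom (algebraMap R S)] [IsAlgClosed (ResidueField S)] [Infinite (ResidueField R)]
    [CharZero (ResidueField S)] [CharZero (ResidueField R)],
    ringKrullDim R = ((d + 1 : ℕ) : WithBot ℕ∞) → ringKrullDim S = ((d + 1 : ℕ) : WithBot ℕ∞) →
      LechC R S (d + 1) (d + 1)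

/-- Dimension zero. -/
theorem lechC_zero (R : Type u) (S : Type v) [CommRing R] [IsLocalRing R] [IsDomain R]
    [CommRing S] [IsLocalRing S] [IsNoetherianRing S]
    (hd : ringKrullDim R = 0) : LechC R S 0 0 := by
  have hR : maximalIdeal R = ⊥ := by
    have h1 : Ring.KrullDimLE 0 R := (Ring.krullDimLE_iff).2 hd.le
    exact (eq_maximalIdeal (Ideal.isPrime_bot.isMaximal')).symm
  have hR1 : ∀ N, 1 ≤ N → hs R R N = 1 := by
    intro N hN
    have h1 : maximalIdeal R ^ N = maximalIdeal R := by
      rw [hR, ← Ideal.zero_eq_bot, zero_pow (by omega)]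
    rw [hs_self, h1]
    have h2 : Module.length R (R ⧸ maximalIdeal R) = 1 := G.length_quotient_maximalIdeal
    rw [h2]; rfl
  have hS1 : ∀ N, 1 ≤ N → 1 ≤ hs S S N := by
    intro N hN
    rw [hs_self]
    have h1 : Module.length S (S ⧸ maximalIdeal S ^ N) ≠ ⊤ := HS.length_ne_top_of_pow_le le_rfl
    have h2 : Module.length S (S ⧸ maximalIdeal S ^ N) ≠ 0 := by
      rw [Ne, Module.length_eq_zero_iff, not_subsingleton_iff_nontrivial]
      refine Ideal.Quotient.nontrivial_iff.2 fun h => ?_
      have h3 : maximalIdeal S ^ N ≤ maximalIdeal S := Ideal.pow_le_self (by omega)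
      rw [h, top_le_iff] at h3
      exact (maximalIdeal.isMaximal S).ne_top h3
    have h3 : (Module.length S (S ⧸ maximalIdeal S ^ N)).toNat ≠ 0 := by
      rw [Ne, ENat.toNat_eq_zero, not_or]
      exact ⟨h2, h1⟩
    omega
  refine ⟨1, ?_, ?_⟩
  · intro ε hε
    filter_upwards [Filter.eventually_ge_atTop 1] with N hN
    rw [hR1 N hN]
    simp only [Nat.factorial_zero, Nat.cast_one, mul_one, pow_zero]
    linarith
  · intro ε hε
    filter_upwards [Filter.eventually_ge_atTop 1] with N hN
    have h1 : (1 : ℝ) ≤ hs S S N := by exact_mod_cast hS1 N hN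
    simp only [Nat.factorial_zero, Nat.cast_one, mul_one, pow_zero, one_mul]
    linarith

theorem core_of_cases (h0 : CoreZero.{u, v}) (h1 : ∀ p : ℕ, p.Prime → CoreEqual.{u, v} p)
    (h2 : ∀ p : ℕ, p.Prime → CoreMixed.{u, v} p) : Core.{u, v} := by
  intro d R S _ _ _ _ _ _ _ _ _ _ _ _ _ _ hd hd'
  rcases d with _ | d
  · exact lechC_zero R S hd
  obtain ⟨p, hp⟩ := CharP.exists (ResidueField S)
  rcases CharP.char_is_prime_or_zero (ResidueField S) p with hpp | rfl
  · have h3 : (p : R) ∈ maximalIdeal R := by
      rw [mem_maximalIdeal, mem_nonunits_iff]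
      intro h4
      have h5 : IsUnit (p : S) := by
        have := h4.map (algebraMap R S)
        rwa [map_natCast] at this
      have h6 : IsUnit ((p : ℕ) : ResidueField S) := by
        have := h5.map (residue S)
        rwa [map_natCast] at this
      rw [CharP.cast_eq_zero] at h6
      exact not_isUnit_zero h6
    by_cases h4 : (p : R) = 0
    · have : Fact p.Prime := ⟨hpp⟩
      have h5 : CharP R p := (CharP.charP_iff_prime_eq_zero hpp).2 h4
      exact h1 p hpp d R S hd hd'
    · exact h2 p hpp d R S h4 h3 hd hd'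
  · have h3 : CharZero (ResidueField S) := CharP.charP_to_charZero _
    have h4 : CharZero (ResidueField R) :=
      (ResidueField.map (algebraMap R S)).charZero
    exact h0 d R S hd hd'

/-- From the core to arbitrary flat local homomorphisms, general form: a property `P` of rings
inherited by algebras; `R` with infinite residue field. -/
theorem lechC_of_core_infinite (P : ∀ (R : Type u) [CommRing R], Prop)
    (hP : ∀ (R R₁ : Type u) [CommRing R] [CommRing R₁], (R →+* R₁) → P R → P R₁)
    (H : ∀ (d : ℕ) (R : Type u) (S : Type v) [CommRing R] [IsLocalRing R] [IsNoetherianRing R]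
      [IsDomain R] [IsAdicComplete (maximalIdeal R) R]
      [CommRing S] [IsLocalRing S] [IsNoetherianRing S]
      [IsAdicComplete (maximalIdeal S) S] [Algebra R S] [Module.Flat R S]
      [IsLocalHom (algebraMap R S)] [IsAlgClosed (ResidueField S)] [Infinite (ResidueField R)],
      P R → ringKrullDim R = d → ringKrullDim S = d → LechC R S d d)
    (R : Type u) (S : Type v) [CommRing R] [IsLocalRing R]
    [IsNoetherianRing R] [CommRing S] [IsLocalRing S] [IsNoetherianRing S] [Algebra R S]
    [Module.Flat R S] [IsLocalHom (algebraMap R S)] [Infinite (ResidueField R)]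
    (hR : P R) (d d' : ℕ)
    (hd : ringKrullDim R = d) (hd' : ringKrullDim S = d') : LechC R S d d' := by
  -- the dimension of the closed fibre
  have hne : (maximalIdeal R).map (algebraMap R S) ≠ ⊤ :=
    (IsLocalRing.map_maximalIdeal_lt_top (algebraMap R S)).ne
  have : Nontrivial (S ⧸ (maximalIdeal R).map (algebraMap R S)) :=
    Ideal.Quotient.nontrivial_iff.2 hne
  have : IsLocalRing (S ⧸ (maximalIdeal R).map (algebraMap R S)) :=
    IsLocalRing.of_surjective' _ Ideal.Quotient.mk_surjective
  obtain ⟨f, hf⟩ := Loc.exists_natCast_ringKrullDim (S ⧸ (maximalIdeal R).map (algebraMap R S))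
  have hdim := ringKrullDim_eq_add_of_flat R S
  rw [hf] at hdim
  have hdd : d' = d + f := by
    rw [hd', hd] at hdim
    exact_mod_cast hdim
  -- reduction to equal dimensions
  obtain ⟨S', _, _, _, _, _, _, _, hS', r, hr⟩ := Loc.exists_equidim R f S hdim
  -- normalisation and the core
  have hL : LechC R S' d d := G.lechC_of_normalized' R S' d d hd (hS'.trans hd)
    fun R₁ S₁ _ _ _ _ _ _ _ _ _ _ _ _ _ φ hφ h1 h2 => by
      have : Infinite (ResidueField R₁) :=
        Infinite.of_injective (ResidueField.map φ) (RingHom.injective _)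
      exact H d R₁ S₁ (hP R R₁ φ hR) h1 h2
  obtain ⟨c, hc, hc'⟩ := hL
  obtain ⟨e, heU, heL⟩ := exists_mult S hd'
  subst hdd
  exact ⟨e, hc.mono (le_of_Sg_iterate_le hr hc' heU), heL⟩

/-- From the core to arbitrary flat local homomorphisms, general form: a property `P` of rings
inherited by algebras. -/
theorem lechC_of_core' (P : ∀ (R : Type u) [CommRing R], Prop)
    (hP : ∀ (R R₁ : Type u) [CommRing R] [CommRing R₁], (R →+* R₁) → P R → P R₁)
    (H : ∀ (d : ℕ) (R : Type u) (S : Type v) [CommRing R] [IsLocalRing R] [IsNoetherianRing R]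
      [IsDomain R] [IsAdicComplete (maximalIdeal R) R]
      [CommRing S] [IsLocalRing S] [IsNoetherianRing S]
      [IsAdicComplete (maximalIdeal S) S] [Algebra R S] [Module.Flat R S]
      [IsLocalHom (algebraMap R S)] [IsAlgClosed (ResidueField S)] [Infinite (ResidueField R)],
      P R → ringKrullDim R = d → ringKrullDim S = d → LechC R S d d)
    (R : Type u) (S : Type v) [CommRing R] [IsLocalRing R]
    [IsNoetherianRing R] [CommRing S] [IsLocalRing S] [IsNoetherianRing S] [Algebra R S]
    [Module.Flat R S] [IsLocalHom (algebraMap R S)] (hR : P R) (d d' : ℕ)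
    (hd : ringKrullDim R = d) (hd' : ringKrullDim S = d') : LechC R S d d' := by
  let alg : Algebra (RX R) (RX S) := (RXmap R S).toAlgebra
  have i1 : Module.Flat (RX R) (RX S) := RXmap_flat R S
  have i2 : IsLocalHom (algebraMap (RX R) (RX S)) := RXmap_isLocalHom R S
  have h := lechC_of_core_infinite P hP H (RX R) (RX S) (hP R (RX R) (algebraMap R (RX R)) hR) d d'
    ((ringKrullDim_RX R).trans hd) ((ringKrullDim_RX S).trans hd')
  exact LechC.of_flat_left (hs_RX R).symm (LechC.of_flat_right (hs_RX S).symm h)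

/-- From the core to arbitrary flat local homomorphisms. -/
theorem lechC_of_core (H : Core.{u, v}) (R : Type u) (S : Type v) [CommRing R] [IsLocalRing R]
    [IsNoetherianRing R] [CommRing S] [IsLocalRing S] [IsNoetherianRing S] [Algebra R S]
    [Module.Flat R S] [IsLocalHom (algebraMap R S)] (d d' : ℕ) (hd : ringKrullDim R = d)
    (hd' : ringKrullDim S = d') : LechC R S d d' :=
  lechC_of_core' (fun _ _ => True) (fun _ _ _ _ _ _ => trivial)
    (fun d R S _ _ _ _ _ _ _ _ _ _ _ _ _ _ _ h1 h2 => H d R S h1 h2) R S trivial d d' hd hd'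

/-- Lech's inequality for all flat local homomorphisms in equal characteristic `p`. -/
theorem lechC_of_coreEqual (p : ℕ) (hp : p.Prime) (H : CoreEqual.{u, v} p) (R : Type u)
    (S : Type v) [CommRing R] [IsLocalRing R]
    [IsNoetherianRing R] [CommRing S] [IsLocalRing S] [IsNoetherianRing S] [Algebra R S]
    [Module.Flat R S] [IsLocalHom (algebraMap R S)] (hR : (p : R) = 0) (d d' : ℕ)
    (hd : ringKrullDim R = d) (hd' : ringKrullDim S = d') : LechC R S d d' :=
  lechC_of_core' (fun R _ => (p : R) = 0)
    (fun R R₁ _ _ φ h => by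
      have := congrArg φ h
      rwa [map_natCast, map_zero] at this)
    (fun d R S _ _ _ _ _ _ _ _ _ _ _ _ _ _ h h1 h2 => by
      rcases d with _ | d
      · exact lechC_zero R S h1
      have h5 : CharP R p := (CharP.charP_iff_prime_eq_zero hp).2 h
      exact H d R S h1 h2) R S hR d d' hd hd'

/-- The statement of S0273 from the core. -/
theorem result_of_core (H : Core.{0, 0}) (R S : Type) [CommRing R]
    [CommRing S] [IsNoetherianRing R] [IsNoetherianRing S] [IsLocalRing R] [IsLocalRing S]
    (f : R →+* S) (hf : IsLocalHom f) (hflat : f.Flat) (d d' : ℕ) (hd : ringKrullDim R = d)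
    (hd' : ringKrullDim S = d') (e e' : ℝ)
    (he : Filter.Tendsto (fun N : ℕ => (Nat.factorial d : ℝ) *
        ((Module.length R (R ⧸ IsLocalRing.maximalIdeal R ^ N)).toNat : ℝ) / (N : ℝ) ^ d)
      Filter.atTop (nhds e))
    (he' : Filter.Tendsto (fun N : ℕ => (Nat.factorial d' : ℝ) *
        ((Module.length S (S ⧸ IsLocalRing.maximalIdeal S ^ N)).toNat : ℝ) / (N : ℝ) ^ d')
      Filter.atTop (nhds e')) :
    e ≤ e' := by
  let alg : Algebra R S := f.toAlgebra
  have i1 : Module.Flat R S := hflat
  have i2 : IsLocalHom (algebraMap R S) := hf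
  exact le_of_LechC (lechC_of_core H R S d d' hd hd') he he'

/-- The statement of S0273 from the three cases. -/
theorem result_of_cases (h0 : CoreZero.{0, 0}) (h1 : ∀ p : ℕ, p.Prime → CoreEqual.{0, 0} p)
    (h2 : ∀ p : ℕ, p.Prime → CoreMixed.{0, 0} p) (R S : Type) [CommRing R]
    [CommRing S] [IsNoetherianRing R] [IsNoetherianRing S] [IsLocalRing R] [IsLocalRing S]
    (f : R →+* S) (hf : IsLocalHom f) (hflat : f.Flat) (d d' : ℕ) (hd : ringKrullDim R = d)
    (hd' : ringKrullDim S = d') (e e' : ℝ)
    (he : Filter.Tendsto (fun N : ℕ => (Nat.factorial d : ℝ) *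
        ((Module.length R (R ⧸ IsLocalRing.maximalIdeal R ^ N)).toNat : ℝ) / (N : ℝ) ^ d)
      Filter.atTop (nhds e))
    (he' : Filter.Tendsto (fun N : ℕ => (Nat.factorial d' : ℝ) *
        ((Module.length S (S ⧸ IsLocalRing.maximalIdeal S ^ N)).toNat : ℝ) / (N : ℝ) ^ d')
      Filter.atTop (nhds e')) :
    e ≤ e' :=
  result_of_core (core_of_cases h0 h1 h2) R S f hf hflat d d' hd hd' e e' he he'

end Crest.Agent.R183.Top
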