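import Crest.Agent.R183.Mix5
import Crest.Agent.R183.KT6
import Crest.Agent.R183.PI1_Mg
import Crest.Agent.R183.PId_Mg
import Crest.Agent.R183.RD10
import Crest.Agent.R183.PC1
import Mathlib
import Crest.Agent.R183.G3
import Crest.Agent.R183.G10
import Crest.Agent.R183.RD4
import Crest.Agent.R183.RD6
import Crest.Agent.R183.PC4
import Crest.Agent.R183.CoreMain
import Crest.Agent.R183.RegPS
import Crest.Agent.R183.CoreA
import Crest.Agent.R183.BInf3b
import Crest.Agent.R183.CohenDim
import Crest.Agent.R183.CohenStruct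
import Crest.Agent.R183.Cic
import Crest.Agent.R183.Top

-- ▼ part R183/Mix6
section

/-!
R183 / Mix6 (helper902) : `CoreMixed`.
-/

set_option autoImplicit false

namespace Crest.Agent.R183.Mix

universe u

/-- **The mixed characteristic core theorem.** -/
theorem coreMixed (p : ℕ) (hp : p.Prime) : Top.CoreMixed.{u, u} p := by
  have : Fact p.Prime := ⟨hp⟩
  exact CoreM.coreMixed_of_stage p (fun D β hD => KT.kHyp D β hD) (mixStage p)

end Crest.Agent.R183.Mix
end

-- ▼ part R183/CoreJ
section

set_option autoImplicit false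

namespace Crest.Agent.R183.CoreJ

open scoped ENNReal nonZeroDivisors
open Crest.Agent.R183 Crest.Agent.R183.Res Crest.Agent.R183.WG Crest.Agent.R183.Glue
open Crest.Agent.R183.PI
open IsLocalRing Crest.Agent.R183.M

universe u

/-- an integral map of local rings is local -/
theorem isLocalHom_of_isIntegral {T T1 : Type*} [CommRing T] [CommRing T1] [IsLocalRing T]
    [IsLocalRing T1] [Algebra T T1] [Algebra.IsIntegral T T1] : IsLocalHom (algebraMap T T1) := by
  have h : ((maximalIdeal T1).comap (algebraMap T T1)).IsMaximal :=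
    Ideal.isMaximal_comap_of_isIntegral_of_isMaximal (maximalIdeal T1)
  exact ((local_hom_TFAE (algebraMap T T1)).out 0 4).2 (IsLocalRing.eq_maximalIdeal h)


/-- the closed fibre of an integral map of local rings. -/
theorem exists_pow_le_map (T T1 : Type*) [CommRing T] [CommRing T1] [IsLocalRing T]
    [IsLocalRing T1] [IsNoetherianRing T1] [Algebra T T1] [Algebra.IsIntegral T T1] :
    ∃ a : ℕ, maximalIdeal T1 ^ a ≤ (maximalIdeal T).map (algebraMap T T1) := by
  refine Ideal.exists_pow_le_of_le_radical_of_fg ?_ (IsNoetherian.noetherian _)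
  rw [Ideal.radical_eq_sInf]
  refine le_sInf ?_
  rintro P ⟨hP, hPp⟩
  have h1 : maximalIdeal T ≤ P.comap (algebraMap T T1) := Ideal.map_le_iff_le_comap.1 hP
  have h2 : (P.comap (algebraMap T T1)) = maximalIdeal T :=
    ((maximalIdeal.isMaximal T).eq_of_le (Ideal.IsPrime.ne_top inferInstance) h1).symm
  have h3 : (P.comap (algebraMap T T1)).IsMaximal := by rw [h2]; infer_instance
  have h4 : P.IsMaximal := Ideal.isMaximal_of_isIntegral_of_isMaximal_comap P h3
  exact (IsLocalRing.eq_maximalIdeal h4).ge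

theorem map_maximalIdeal_PS {n : ℕ} {K : Type u} [Field K] (T : Type*) [CommRing T]
    [Algebra (MvPowerSeries (Fin n) K) T] :
    (maximalIdeal (MvPowerSeries (Fin n) K)).map (algebraMap (MvPowerSeries (Fin n) K) T) =
      Ideal.span (Set.range fun i : Fin n =>
        algebraMap (MvPowerSeries (Fin n) K) T (MvPowerSeries.X i)) := by
  rw [Z.maximalIdeal_eq_XI]
  unfold Z.XI
  rw [Ideal.map_span, ← Set.range_comp]
  rfl

section

variable {K : Type u} [Field K]

/-- **Lech's inequality from the rings `T₁`, `S₁`**, given the rank identity. -/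
theorem lechC_of_rank {R S T R1 T1 S1 To : Type u} {n d g : ℕ}
    [CommRing R] [IsLocalRing R] [IsNoetherianRing R]
    [CommRing S] [IsLocalRing S] [IsNoetherianRing S]
    [CommRing T] [IsLocalRing T] [IsNoetherianRing T]
    [CommRing R1] [IsDomain R1] [CommRing T1] [IsLocalRing T1] [IsNoetherianRing T1]
    [CommRing S1] [CommRing To]
    [Algebra R S] [Algebra R T] [Algebra T S] [IsScalarTower R T S]
    [Module.Flat R S] [Module.Flat R T] [IsLocalHom (algebraMap R T)]
    -- `A' = K[[x_1..x_n]]`, `Q' = K[[z_1..z_d]]`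
    [Algebra (MvPowerSeries (Fin n) K) T] [Module.Finite (MvPowerSeries (Fin n) K) T]
    [Algebra (MvPowerSeries (Fin d) K) S] [Module.Finite (MvPowerSeries (Fin d) K) S]
    [Algebra R1 T1] [Algebra R1 S1] [Module.Flat R1 T1] [Module.Flat R1 S1]
    -- `T → T₁`, `S → S₁`
    [Algebra T T1] [Algebra S S1] [Algebra T1 S1] [Algebra T S1] [IsScalarTower T T1 S1]
    [IsScalarTower T S S1] [IsScalarTower R1 T1 S1] [Algebra.IsPushout T T1 S S1]
    [Algebra (MvPowerSeries (Fin n) K) T1] [IsScalarTower (MvPowerSeries (Fin n) K) T T1]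
    [Module.Finite (MvPowerSeries (Fin n) K) T1]
    [Algebra (MvPowerSeries (Fin d) K) S1] [IsScalarTower (MvPowerSeries (Fin d) K) S S1]
    [Module.Finite S S1]
    [Algebra T1 To]
    (hsurj : Function.Surjective (algebraMap T S)) (hdR : ringKrullDim R = d)
    (hgd : g + d = n) (hd0 : 0 < d)
    (Y : ℕ → T) (hprime : ∀ i ≤ g, (pr R T Y i).IsPrime) (hnot : ∀ i < g, Y i ∉ pr R T Y i)
    (hmax : pr R T Y g = maximalIdeal T)
    -- `A' → T`
    (hinjT : Function.Injective (algebraMap (MvPowerSeries (Fin n) K) T))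
    (hresT : ∀ x : T, ∃ a : MvPowerSeries (Fin n) K,
      x - algebraMap (MvPowerSeries (Fin n) K) T a ∈ maximalIdeal T)
    {c : ℕ} (hredT : maximalIdeal T ^ (c + 1) = Ideal.span (Set.range fun i : Fin n =>
      algebraMap (MvPowerSeries (Fin n) K) T (MvPowerSeries.X i)) * maximalIdeal T ^ c)
    (hxT : ∀ i : Fin n, algebraMap (MvPowerSeries (Fin n) K) T (MvPowerSeries.X i) ∈
      maximalIdeal T)
    -- `Q' → S`
    (hinjS : Function.Injective (algebraMap (MvPowerSeries (Fin d) K) S))
    (hresS : ∀ x : S, ∃ a : MvPowerSeries (Fin d) K,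
      x - algebraMap (MvPowerSeries (Fin d) K) S a ∈ maximalIdeal S)
    {cs : ℕ} (hredS : maximalIdeal S ^ (cs + 1) = Ideal.span (Set.range fun i : Fin d =>
      algebraMap (MvPowerSeries (Fin d) K) S (MvPowerSeries.X i)) * maximalIdeal S ^ cs)
    (hzS : ∀ i : Fin d, algebraMap (MvPowerSeries (Fin d) K) S (MvPowerSeries.X i) ∈
      maximalIdeal S)
    -- `A' → T₁`
    (inj1 : Function.Injective (algebraMap (MvPowerSeries (Fin n) K) T1))
    (hresT1 : ∀ x : T1, ∃ a : MvPowerSeries (Fin n) K,
      x - algebraMap (MvPowerSeries (Fin n) K) T1 a ∈ maximalIdeal T1)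
    (hr : Module.finrank (MvPowerSeries (Fin n) K) T * Module.finrank (MvPowerSeries (Fin d) K) S1 =
      Module.finrank (MvPowerSeries (Fin d) K) S * Module.finrank (MvPowerSeries (Fin n) K) T1)
    -- the stages
    (Λ : AddLen.{u, u} To) (hcont : Cont Λ)
    (hΛ : ∀ I : Ideal T1, Module.length T1 (T1 ⧸ I) ≠ ⊤ →
      Λ.L (To ⧸ I.map (algebraMap T1 To)) = ((Module.length T1 (T1 ⧸ I) : ℕ∞) : ℝ≥0∞))
    (t : Fin n → T1) (htm : ∀ i, t i ∈ maximalIdeal T1) (δ : R1) (hδ : δ ≠ 0)
    (p : ℕ) (hp : 1 < p)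
    (hst : ∀ (w : Fin n → T1) (𝔞 : Ideal T1) (c : ℕ),
        𝔞 ^ (c + 1) ≤ Ideal.span (Set.range w) * 𝔞 ^ c → ∀ e', c < p ^ e' →
        Nonempty (Core.Stage T1 To w t (algebraMap R1 T1 δ) 𝔞 (p ^ e') (p ^ e' - c))) :
    LechC R S d d := by
  have hn0 : 0 < n := by omega
  have f9 : Module.Finite T T1 := Module.Finite.of_restrictScalars_finite
    (MvPowerSeries (Fin n) K) T T1
  have f8 : Module.Finite (MvPowerSeries (Fin d) K) S1 := Module.Finite.trans S S1
  have posT1 : 0 < Module.finrank (MvPowerSeries (Fin n) K) T1 := finrank_pos_of_injective inj1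
  have posS : 0 < Module.finrank (MvPowerSeries (Fin d) K) S := finrank_pos_of_injective hinjS
  have hpos1 : 0 < Module.finrank (MvPowerSeries (Fin d) K) S1 := by
    rw [Nat.pos_iff_ne_zero]
    intro h0
    rw [h0, mul_zero] at hr
    have := Nat.mul_pos posS posT1
    omega
  have inj2 : Function.Injective (algebraMap (MvPowerSeries (Fin d) K) S1) :=
    injective_of_finrank_pos hpos1
  -- dimensions
  have dimT1 : ringKrullDim T1 = (n : ℕ) := by
    rw [RD.ringKrullDim_eq_of_isIntegral_of_injective inj1, RD.ringKrullDim_mv_field]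
  have dimS1 : ringKrullDim S1 = (d : ℕ) := by
    rw [RD.ringKrullDim_eq_of_isIntegral_of_injective inj2, RD.ringKrullDim_mv_field]
  -- `S₁`
  have nS1 : Nontrivial S1 := inj2.nontrivial
  obtain ⟨hsurj1, hker1⟩ := ker_pushout (T := T) (S := S) (T1 := T1) (S1 := S1) hsurj
  have lS1 : IsLocalRing S1 := IsLocalRing.of_surjective' _ hsurj1
  have nnS1 : IsNoetherianRing S1 := isNoetherianRing_of_surjective _ _ _ hsurj1
  have locTT1 : IsLocalHom (algebraMap T T1) := isLocalHom_of_isIntegral
  have locSS1 : IsLocalHom (algebraMap S S1) := isLocalHom_of_isIntegral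
  have locT1S1 : IsLocalHom (algebraMap T1 S1) := IsLocalHom.of_surjective _ hsurj1
  set J0 : Ideal T := RingHom.ker (algebraMap T S) with hJ0
  have hJne : J0 ≠ ⊤ := RingHom.ker_ne_top _
  have hJm : J0 ≤ maximalIdeal T := IsLocalRing.le_maximalIdeal hJne
  have hJ1ne : J0.map (algebraMap T T1) ≠ ⊤ := by
    rw [← hker1]
    exact RingHom.ker_ne_top _
  let eS : (T ⧸ J0) ≃ₐ[T] S := Ideal.quotientKerAlgEquivOfSurjective (f := Algebra.ofId T S) hsurj
  have _ : Module.Flat R (T ⧸ J0) := Module.Flat.of_linearEquiv (eS.toLinearEquiv.restrictScalars R)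
  have hdJ1 : ringKrullDim (T1 ⧸ J0.map (algebraMap T T1)) = d := by
    rw [← dimS1, ← hker1]
    exact ringKrullDim_eq_of_ringEquiv (RingHom.quotientKerEquivOfSurjective hsurj1)
  -- the resolution
  obtain ⟨F, hF, hFent, hnh, hu0⟩ := exists_resolution (R := R) J0 hJm g Y (by
    intro i hi a ha
    have h1 := hprime i hi.le
    exact (h1.mem_or_mem ha).resolve_left (hnot i hi)) hmax
  -- lifts of `z`
  choose z hz using fun i : Fin d => hsurj (algebraMap (MvPowerSeries (Fin d) K) S
    (MvPowerSeries.X i))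
  have hlocTS : IsLocalHom (algebraMap T S) := IsLocalHom.of_surjective _ hsurj
  have hzm : ∀ i, z i ∈ maximalIdeal T := by
    intro i
    have h1 : algebraMap T S (z i) ∈ maximalIdeal S := by rw [hz i]; exact hzS i
    rw [mem_maximalIdeal, mem_nonunits_iff] at h1 ⊢
    exact fun h2 => h1 (h2.map _)
  have hz1 : ∀ i, algebraMap T1 S1 (algebraMap T T1 (z i)) =
      algebraMap (MvPowerSeries (Fin d) K) S1 (MvPowerSeries.X i) := by
    intro i
    rw [← IsScalarTower.algebraMap_apply T T1 S1, IsScalarTower.algebraMap_apply T S S1, hz i,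
      ← IsScalarTower.algebraMap_apply (MvPowerSeries (Fin d) K) S S1]
  -- residue fields
  have hresS1 : ∀ x : S1, ∃ a : MvPowerSeries (Fin d) K,
      x - algebraMap (MvPowerSeries (Fin d) K) S1 a ∈ maximalIdeal S1 := by
    intro x
    obtain ⟨y, rfl⟩ := hsurj1 x
    obtain ⟨a, ha⟩ := hresT1 y
    obtain ⟨b, hb⟩ := hresS (algebraMap T S (algebraMap (MvPowerSeries (Fin n) K) T a))
    refine ⟨b, ?_⟩
    have h1 := RD.mem_maximalIdeal_of_local _ locT1S1 ha
    have h2 := RD.mem_maximalIdeal_of_local _ locSS1 hb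
    have h3 := add_mem h1 h2
    rw [map_sub, map_sub, IsScalarTower.algebraMap_apply (MvPowerSeries (Fin n) K) T T1,
      ← IsScalarTower.algebraMap_apply T T1 S1, ← IsScalarTower.algebraMap_apply T S S1,
      ← IsScalarTower.algebraMap_apply (MvPowerSeries (Fin d) K) S S1, sub_add_sub_cancel] at h3
    exact h3
  -- parameters
  obtain ⟨a1, ha1⟩ := exists_pow_le_map (MvPowerSeries (Fin n) K) T1
  rw [map_maximalIdeal_PS] at ha1
  obtain ⟨a2, ha2⟩ := exists_pow_le_map (MvPowerSeries (Fin d) K) S1
  rw [map_maximalIdeal_PS] at ha2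
  obtain ⟨a3, ha3⟩ := exists_pow_le_map (MvPowerSeries (Fin n) K) T
  rw [map_maximalIdeal_PS] at ha3
  obtain ⟨a4, ha4⟩ := exists_pow_le_map (MvPowerSeries (Fin d) K) S
  rw [map_maximalIdeal_PS] at ha4
  obtain ⟨C1, hU1, hL1⟩ := rank_eq hn0 T1 hresT1 ha1
  obtain ⟨C2, hU2, hL2⟩ := rank_eq hd0 S1 hresS1 ha2
  obtain ⟨C3, hU3, hL3⟩ := rank_eq hn0 T hresT ha3
  obtain ⟨C4, hU4, hL4⟩ := rank_eq hd0 S hresS ha4
  have hmmap1 : (maximalIdeal T1).map (algebraMap T1 S1) = maximalIdeal S1 :=
    IsLocalRing.map_maximalIdeal_of_surjective _ hsurj1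
  have hzpow : maximalIdeal T1 ^ a2 ≤ J0.map (algebraMap T T1) ⊔
      Ideal.span (Set.range fun i => algebraMap T T1 (z i)) := by
    have h1 : (fun i : Fin d => algebraMap (MvPowerSeries (Fin d) K) S1 (MvPowerSeries.X i)) =
        fun i => algebraMap T1 S1 (algebraMap T T1 (z i)) := funext fun i => (hz1 i).symm
    have h2 : Ideal.span (Set.range fun i => algebraMap T1 S1 (algebraMap T T1 (z i))) =
        (Ideal.span (Set.range fun i => algebraMap T T1 (z i))).map (algebraMap T1 S1) := by
      rw [Ideal.map_span, ← Set.range_comp]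
      rfl
    rw [h1, h2, ← hmmap1, ← Ideal.map_pow, Ideal.map_le_iff_le_comap,
      Ideal.comap_map_of_surjective _ hsurj1, sup_comm] at ha2
    rw [← hker1]
    exact ha2
  -- nonzerodivisor
  have hδT : algebraMap R1 T1 δ ∈ T1⁰ := RD.algebraMap_mem_nonZeroDivisors_of_flat hδ
  have hδS : algebraMap R1 S1 δ ∈ S1⁰ := RD.algebraMap_mem_nonZeroDivisors_of_flat hδ
  have key : Module.finrank (MvPowerSeries (Fin n) K) T1 ≤
      Module.finrank (MvPowerSeries (Fin d) K) S1 := by
    refine Core.core_base Λ hcont hΛ J0 hJ1ne dimT1 hdJ1 hgd hd0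
      (fun i => algebraMap (MvPowerSeries (Fin n) K) T1 (MvPowerSeries.X i)) t z ?_ htm hzm
      ha1 hzpow _ _ C1 _ C2 ?_ (fun k hk => hL1 k hk) (fun k hk => hU1 k) F hF hFent hnh hu0
      p hp c ?_
    · intro i
      rw [IsScalarTower.algebraMap_apply (MvPowerSeries (Fin n) K) T T1]
      exact RD.mem_maximalIdeal_of_local _ locTT1 (hxT i)
    · intro k hk
      rw [← hker1, Core.length_quot_sup hsurj1, Ideal.map_span, ← Set.range_comp]
      have h1 : (algebraMap T1 S1) ∘ (fun i => (algebraMap T T1 (z i)) ^ k) =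
          fun i => (algebraMap (MvPowerSeries (Fin d) K) S1 (MvPowerSeries.X i)) ^ k := by
        funext i
        rw [Function.comp_apply, map_pow, hz1 i]
      rw [h1]
      exact hU2 k
    · intro e' he'
      refine ⟨algebraMap R1 T1 δ, hδT, ?_, hst _ _ c ?_ e' he'⟩
      · intro x hx
        rw [← hker1, RingHom.mem_ker] at hx ⊢
        rw [map_mul, ← IsScalarTower.algebraMap_apply R1 T1 S1, mul_comm] at hx
        exact (mem_nonZeroDivisors_iff_right.1 hδS) _ hx
      · have h1 : (fun i : Fin n => algebraMap (MvPowerSeries (Fin n) K) T1 (MvPowerSeries.X i)) =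
            (algebraMap T T1) ∘ fun i : Fin n =>
              algebraMap (MvPowerSeries (Fin n) K) T (MvPowerSeries.X i) := by
          funext i
          rw [IsScalarTower.algebraMap_apply (MvPowerSeries (Fin n) K) T T1]
          rfl
        rw [← Ideal.map_pow, hredT, Ideal.map_mul, Ideal.map_pow, Ideal.map_span,
          ← Set.range_comp, h1]
  have hTS : Module.finrank (MvPowerSeries (Fin n) K) T ≤
      Module.finrank (MvPowerSeries (Fin d) K) S := by
    have h1 : Module.finrank (MvPowerSeries (Fin n) K) T *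
        Module.finrank (MvPowerSeries (Fin d) K) S1 ≤
        Module.finrank (MvPowerSeries (Fin d) K) S *
        Module.finrank (MvPowerSeries (Fin d) K) S1 := by
      rw [hr]
      exact Nat.mul_le_mul_left _ key
    exact Nat.le_of_mul_le_mul_right h1 hpos1
  -- Hilbert-Samuel growth
  obtain ⟨rS, CS, hS1, hS2, hS3, hS4⟩ := HS.rank_theorem _ hzS cs hredS
  obtain ⟨rT, CT, hT1, hT2, hT3, hT4⟩ := HS.rank_theorem _ hxT c hredT
  have e1 : rT ≤ Module.finrank (MvPowerSeries (Fin n) K) T :=
    rank_unique hn0 (fun k => Module.length T (T ⧸ Ideal.span (Set.range fun i : Fin n =>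
        (algebraMap (MvPowerSeries (Fin n) K) T (MvPowerSeries.X i)) ^ k))) _ _ C3 hU3
      (fun k hk => hT4 k hk)
  have e2 : Module.finrank (MvPowerSeries (Fin d) K) S ≤ rS :=
    rank_unique hd0 (fun k => Module.length S (S ⧸ Ideal.span (Set.range fun i : Fin d =>
        (algebraMap (MvPowerSeries (Fin d) K) S (MvPowerSeries.X i)) ^ k))) _ _ CS
      (fun k => hS3 k) (fun k hk => hL4 k hk)
  have hfin : rT ≤ rS := e1.trans (hTS.trans e2)
  refine ⟨rS, ?_, hS2⟩
  refine UB_of_Sg_iterate_le R T (n := g) hdR ?_ ?_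
  · exact Sg_iterate_hs_le R g T Y hprime hnot hmax
  · rw [add_comm d g, hgd]
    exact hT1.mono (by exact_mod_cast hfin)



end

end Crest.Agent.R183.CoreJ
end

-- ▼ part R183/Ins1
section

/-!
# R183, INSEP (helper234), part 1: generic separability of `A[R^q]`

`A` a normal Noetherian domain of characteristic `p`, `R` a domain finite over `A`. For `q = p ^ e`
large the subring `R₁ = A[R^q]` of `R` is generically separable over `A`.
-/

set_option autoImplicit false

namespace Crest.Agent.R183.Ins

open Crest.Agent.R183.PC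

universe u v

/-- In a finite extension of fields of characteristic `p` all `p ^ e`-th powers are separable for
`e` large. -/
theorem exists_pow_mem_separableClosure (p : ℕ) [Fact p.Prime] (K : Type u) (L : Type v) [Field K]
    [Field L] [Algebra K L] [FiniteDimensional K L] [CharP K p] :
    ∃ e₀, ∀ e ≥ e₀, ∀ x : L, x ^ p ^ e ∈ separableClosure K L := by
  have : CharP (separableClosure K L) p :=
    charP_of_injective_algebraMap (algebraMap K (separableClosure K L)).injective p
  have : ExpChar (separableClosure K L) p := ExpChar.prime Fact.out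
  have h1 : IsPurelyInseparable (separableClosure K L) L :=
    separableClosure.isPurelyInseparable K L
  have h2 : IsPurelyInseparable.HasExponent (separableClosure K L) L := inferInstance
  obtain ⟨e₀, he⟩ := (IsPurelyInseparable.hasExponent_iff' (separableClosure K L) L p).1 h2
  refine ⟨e₀, fun e hle x => ?_⟩
  obtain ⟨k, rfl⟩ := Nat.exists_eq_add_of_le hle
  obtain ⟨y, hy⟩ := he x
  rw [pow_add, pow_mul, ← hy]
  exact (y ^ p ^ k).2

section

variable (A : Type u) (R : Type v) [CommRing A] [CommRing R] [Algebra A R] [IsDomain A]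
  [IsDomain R] [Module.Finite A R]

theorem finiteDimensional_of_isFractionRing (K : Type*) (L : Type*) [Field K] [Field L]
    [Algebra A K] [IsFractionRing A K]
    [Algebra R L] [IsFractionRing R L] [Algebra K L] [Algebra A L] [IsScalarTower A K L]
    [IsScalarTower A R L] : FiniteDimensional K L := by
  classical
  have hden : ∀ y : L, ∃ a : A, a ≠ 0 ∧ ∃ x : R, algebraMap A L a * y = algebraMap R L x := by
    intro y
    obtain ⟨a, ha, x, hx⟩ := exists_den (A := A) (R := R) L y
    exact ⟨a, ha, x, by rw [IsScalarTower.algebraMap_apply A R L]; exact hx⟩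
  have hspan : ⊤ ≤ Submodule.span K (Set.range (algebraMap R L)) := by
    intro y _
    obtain ⟨a, ha, x, hx⟩ := hden y
    have ha' : algebraMap A K a ≠ 0 := by
      simpa using (IsFractionRing.injective A K).ne ha
    have : y = (algebraMap A K a)⁻¹ • algebraMap R L x := by
      rw [← hx, Algebra.smul_def, IsScalarTower.algebraMap_apply A K L, ← mul_assoc, ← map_mul,
        inv_mul_cancel₀ ha', map_one, one_mul]
    rw [this]
    exact Submodule.smul_mem _ _ (Submodule.subset_span ⟨x, rfl⟩)
  obtain ⟨s, hs⟩ := (Module.finite_def (R := A) (M := R)).1 inferInstance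
  have h2 : ∀ x : R, algebraMap R L x ∈ Submodule.span K (s.image (algebraMap R L) : Set L) := by
    intro x
    have hx : x ∈ Submodule.span A (s : Set R) := by rw [hs]; trivial
    induction hx using Submodule.span_induction with
    | mem x hx =>
      refine Submodule.subset_span ?_
      rw [Finset.coe_image]
      exact ⟨x, hx, rfl⟩
    | zero => simp
    | add x y _ _ hx hy => rw [map_add]; exact Submodule.add_mem _ hx hy
    | smul a x _ hx =>
      rw [Algebra.smul_def, map_mul, ← IsScalarTower.algebraMap_apply,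
        IsScalarTower.algebraMap_apply A K L, ← Algebra.smul_def]
      exact Submodule.smul_mem _ _ hx
  refine Module.finite_def.2 ⟨s.image (algebraMap R L), ?_⟩
  rw [eq_top_iff]
  refine hspan.trans (Submodule.span_le.2 ?_)
  rintro _ ⟨x, rfl⟩
  exact h2 x

/-- `A[R^q]` -/
def fAdj (p e : ℕ) : Subalgebra A R := Algebra.adjoin A (Set.range fun x : R => x ^ p ^ e)

omit [IsDomain A] [IsDomain R] [Module.Finite A R] in
theorem pow_mem_fAdj (p e : ℕ) (x : R) : x ^ p ^ e ∈ fAdj A R p e :=
  Algebra.subset_adjoin ⟨x, rfl⟩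

/-- **Generic separability of `A[R^q]`**: there is a trace datum for `e` large. -/
theorem exists_trData_fAdj (p : ℕ) [Fact p.Prime] [CharP A p] [IsIntegrallyClosed A]
    [IsNoetherianRing A] (hinj : Function.Injective (algebraMap A R)) :
    ∃ e₀, ∀ e ≥ e₀, ∃ D : TrData p A (fAdj A R p e), D.δ ≠ 0 := by
  let K := FractionRing A
  let L := FractionRing R
  have : FaithfulSMul A R := (faithfulSMul_iff_algebraMap_injective A R).2 hinj
  let _ : Algebra K L := FractionRing.liftAlgebra A L
  have _ : IsScalarTower A K L := FractionRing.isScalarTower_liftAlgebra A L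
  have hfd : FiniteDimensional K L := finiteDimensional_of_isFractionRing A R K L
  have hKp : CharP K p := charP_of_injective_algebraMap (IsFractionRing.injective A K) p
  obtain ⟨e₀, he⟩ := exists_pow_mem_separableClosure p K L
  refine ⟨e₀, fun e hle => ?_⟩
  let R1 := fAdj A R p e
  let L1 := FractionRing R1
  have : FaithfulSMul R1 L := (faithfulSMul_iff_algebraMap_injective R1 L).2 (by
    rw [IsScalarTower.algebraMap_eq R1 R L]
    exact (IsFractionRing.injective R L).comp Subtype.val_injective)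
  have hAR1 : Function.Injective (algebraMap A R1) := by
    have h1 : ⇑(algebraMap A R) = ⇑(algebraMap R1 R) ∘ ⇑(algebraMap A R1) := rfl
    rw [h1] at hinj
    exact Function.Injective.of_comp hinj
  have : FaithfulSMul A R1 := (faithfulSMul_iff_algebraMap_injective A R1).2 hAR1
  have hN : IsNoetherian A R := isNoetherian_of_isNoetherianRing_of_finite A R
  have : Module.Finite A R1 :=
    inferInstanceAs (Module.Finite A (Subalgebra.toSubmodule R1))
  let _ : Algebra L1 L := FractionRing.liftAlgebra R1 L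
  have _ : IsScalarTower R1 L1 L := FractionRing.isScalarTower_liftAlgebra R1 L
  let _ : Algebra K L1 := FractionRing.liftAlgebra A L1
  have _ : IsScalarTower A K L1 := FractionRing.isScalarTower_liftAlgebra A L1
  have htow : IsScalarTower K L1 L := by
    refine IsScalarTower.of_algebraMap_eq' ?_
    refine IsLocalization.ringHom_ext (nonZeroDivisors A) ?_
    ext a
    simp only [RingHom.comp_apply]
    rw [← IsScalarTower.algebraMap_apply A K L, ← IsScalarTower.algebraMap_apply A K L1,
      IsScalarTower.algebraMap_apply A R1 L1, ← IsScalarTower.algebraMap_apply R1 L1 L]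
    rfl
  have hR1 : ∀ a : R1, algebraMap R1 L a ∈ separableClosure K L := by
    rintro ⟨a, ha⟩
    change algebraMap R L a ∈ separableClosure K L
    induction ha using Algebra.adjoin_induction with
    | mem x hx =>
      obtain ⟨y, rfl⟩ := hx
      rw [map_pow]
      exact he e hle _
    | algebraMap a =>
      rw [← IsScalarTower.algebraMap_apply A R L, IsScalarTower.algebraMap_apply A K L]
      exact (separableClosure K L).algebraMap_mem _
    | add x y _ _ hx hy => rw [map_add]; exact add_mem hx hy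
    | mul x y _ _ hx hy => rw [map_mul]; exact mul_mem hx hy
  have hsep : Algebra.IsSeparable K L1 := by
    refine ⟨fun y => ?_⟩
    have h1 : algebraMap L1 L y ∈ separableClosure K L := by
      obtain ⟨a, s, hs, rfl⟩ := IsFractionRing.div_surjective (A := R1) y
      rw [map_div₀, ← IsScalarTower.algebraMap_apply, ← IsScalarTower.algebraMap_apply]
      exact div_mem (hR1 a) (hR1 s)
    rw [mem_separableClosure_iff] at h1
    exact IsSeparable.of_algHom (IsScalarTower.toAlgHom K L1 L) h1
  obtain ⟨D, hD, -⟩ := exists_trData (A := A) (R := R1) p K L1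
  exact ⟨D, hD⟩

end

end Crest.Agent.R183.Ins
end

-- ▼ part R183/PI0
section

set_option autoImplicit false
set_option linter.unusedSectionVars false

namespace Crest.Agent.R183.PI

open Module

universe u v w

/-- `A^(1/p^e)`: the ring `A`, as an algebra over `A` via the Frobenius. -/
def Fr (_p _e : ℕ) (A : Type u) : Type u := A

section inst

variable (p e : ℕ) (A : Type u)

instance [CommRing A] : CommRing (Fr p e A) := inferInstanceAs (CommRing A)
instance [CommRing A] [IsDomain A] : IsDomain (Fr p e A) := inferInstanceAs (IsDomain A)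
instance [CommRing A] [IsLocalRing A] : IsLocalRing (Fr p e A) := inferInstanceAs (IsLocalRing A)
instance [CommRing A] [IsNoetherianRing A] : IsNoetherianRing (Fr p e A) :=
  inferInstanceAs (IsNoetherianRing A)
instance [CommRing A] [CharP A p] : CharP (Fr p e A) p := inferInstanceAs (CharP A p)
instance [CommRing A] [IsDomain A] [IsIntegrallyClosed A] : IsIntegrallyClosed (Fr p e A) :=
  inferInstanceAs (IsIntegrallyClosed A)
instance [CommRing A] [IsReduced A] : IsReduced (Fr p e A) := inferInstanceAs (IsReduced A)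

/-- the bijection `a ↦ a^(1/p^e)`. -/
def Fr.of [CommRing A] : A ≃+* Fr p e A := RingEquiv.refl A

variable {A}

/-- `A → B` gives `A^(1/p^e) → B^(1/p^e)`. -/
instance Fr.algebraFr (A : Type u) (B : Type v) [CommRing A] [CommRing B] [Algebra A B] :
    Algebra (Fr p e A) (Fr p e B) := inferInstanceAs (Algebra A B)

/-- `A → B → B^(1/p^e)`. -/
instance Fr.algebra (A : Type u) (B : Type v) [CommRing A] [CommRing B] [Fact p.Prime] [CharP B p]
    [Algebra A B] : Algebra A (Fr p e B) :=
  RingHom.toAlgebra ((Fr.of p e B : B →+* Fr p e B).comp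
    ((iterateFrobenius B p e).comp (algebraMap A B)))

lemma Fr.algebraMap_apply (A : Type u) (B : Type v) [CommRing A] [CommRing B] [Fact p.Prime]
    [CharP B p] [Algebra A B] (a : A) :
    algebraMap A (Fr p e B) a = Fr.of p e B (algebraMap A B a ^ p ^ e) := rfl

lemma Fr.algebraMap_self (B : Type v) [CommRing B] [Fact p.Prime] [CharP B p] (b : B) :
    algebraMap B (Fr p e B) b = (Fr.of p e B b) ^ p ^ e := rfl

lemma Fr.algebraMap_of (A : Type u) (B : Type v) [CommRing A] [CommRing B] [Algebra A B] (a : A) :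
    algebraMap (Fr p e A) (Fr p e B) (Fr.of p e A a) = Fr.of p e B (algebraMap A B a) := rfl

instance Fr.tower1 (A : Type u) (B : Type v) [CommRing A] [CommRing B] [Fact p.Prime] [CharP B p]
    [Algebra A B] : IsScalarTower A B (Fr p e B) :=
  IsScalarTower.of_algebraMap_eq fun _ => rfl

instance Fr.tower2 (A : Type u) (B : Type v) [CommRing A] [CommRing B] [Fact p.Prime] [CharP A p]
    [CharP B p] [Algebra A B] : IsScalarTower A (Fr p e A) (Fr p e B) :=
  IsScalarTower.of_algebraMap_eq fun a => by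
    rw [Fr.algebraMap_apply, Fr.algebraMap_self, map_pow, map_pow, Fr.algebraMap_of]

end inst

section PowerSeries

variable {d p : ℕ} [hp : Fact p.Prime] {K : Type u} [Field K] [CharP K p]

local notation "PS" => MvPowerSeries (Fin d) K

lemma coeff_pow_pow (e : ℕ) (b : PS) (m : Fin d →₀ ℕ) :
    MvPowerSeries.coeff (p ^ e • m) (b ^ p ^ e) = (MvPowerSeries.coeff m b) ^ p ^ e := by
  rw [← MvPowerSeries.map_iterateFrobenius_expand p hp.out.ne_zero b e,
    MvPowerSeries.coeff_map, MvPowerSeries.coeff_expand_smul, iterateFrobenius_def]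

lemma coeff_pow_pow_of_not_dvd (e : ℕ) (b : PS) (m : Fin d →₀ ℕ) (i : Fin d)
    (h : ¬ p ^ e ∣ m i) : MvPowerSeries.coeff m (b ^ p ^ e) = 0 := by
  rw [← MvPowerSeries.map_iterateFrobenius_expand p hp.out.ne_zero b e,
    MvPowerSeries.coeff_map, MvPowerSeries.coeff_expand_of_not_dvd _ _ _ h, map_zero]

/-- `α` as a Finsupp -/
noncomputable def toF {q : ℕ} (α : Fin d → Fin q) : Fin d →₀ ℕ :=
  Finsupp.equivFunOnFinite.symm fun i => (α i : ℕ)

lemma toF_apply {q : ℕ} (α : Fin d → Fin q) (i : Fin d) : toF α i = (α i : ℕ) := rfl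

lemma prod_X_pow {q : ℕ} (α : Fin d → Fin q) :
    (∏ i, (MvPowerSeries.X i : PS) ^ (α i : ℕ)) = MvPowerSeries.monomial (toF α) 1 := by
  rw [MvPowerSeries.monomial_eq', Finsupp.prod_fintype _ _ (fun i => by simp)]
  simp [toF_apply]

lemma coeff_sum (e : ℕ) (b : (Fin d → Fin (p ^ e)) → PS) (n : Fin d →₀ ℕ)
    (β : Fin d → Fin (p ^ e)) :
    MvPowerSeries.coeff (p ^ e • n + toF β)
      (∑ α, (∏ i, (MvPowerSeries.X i : PS) ^ (α i : ℕ)) * b α ^ p ^ e) =
      (MvPowerSeries.coeff n (b β)) ^ p ^ e := by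
  rw [map_sum, Finset.sum_eq_single β]
  · rw [prod_X_pow, MvPowerSeries.coeff_monomial_mul, if_pos (le_add_of_nonneg_left zero_le),
      one_mul, add_tsub_cancel_right, coeff_pow_pow]
  · intro α _ hα
    rw [prod_X_pow, MvPowerSeries.coeff_monomial_mul]
    split_ifs with h
    · rw [one_mul]
      obtain ⟨i, hi⟩ : ∃ i, α i ≠ β i := by
        by_contra hc
        exact hα (funext fun i => by_contra fun h' => hc ⟨i, h'⟩)
      apply coeff_pow_pow_of_not_dvd e (b α) _ i
      intro hdvd
      obtain ⟨k, hk⟩ := hdvd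
      have hle : (α i : ℕ) ≤ p ^ e * n i + (β i : ℕ) := by simpa [toF_apply] using h i
      rw [Finsupp.tsub_apply, Finsupp.add_apply, Finsupp.smul_apply, smul_eq_mul, toF_apply,
        toF_apply] at hk
      apply hi
      apply Fin.ext
      have h1 : p ^ e * n i + (β i : ℕ) = p ^ e * k + (α i : ℕ) := by omega
      have h2 := congrArg (· % p ^ e) h1
      simp only [Nat.mul_add_mod, Nat.mod_eq_of_lt (β i).2, Nat.mod_eq_of_lt (α i).2] at h2
      exact h2.symm
    · rfl
  · intro h; exact absurd (Finset.mem_univ _) h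

lemma exists_decomp {q : ℕ} (hq : 0 < q) (m : Fin d →₀ ℕ) :
    ∃ (n : Fin d →₀ ℕ) (β : Fin d → Fin q), m = q • n + toF β := by
  refine ⟨Finsupp.equivFunOnFinite.symm fun i => m i / q, fun i => ⟨m i % q, Nat.mod_lt _ hq⟩, ?_⟩
  ext i
  rw [Finsupp.add_apply, Finsupp.smul_apply, smul_eq_mul, toF_apply]
  exact (Nat.div_add_mod _ _).symm

variable (d p K) (e : ℕ) [CharP (MvPowerSeries (Fin d) K) p] [PerfectRing K p]

/-- `K[[X]]^(1/q)` is free over `K[[X]]` with basis the monomials, if `K` is perfect. -/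
noncomputable def frBasis : Basis (Fin d → Fin (p ^ e)) (MvPowerSeries (Fin d) K)
      (Fr p e (MvPowerSeries (Fin d) K)) :=
  Basis.mk (v := fun α => Fr.of p e (MvPowerSeries (Fin d) K)
      (∏ i, (MvPowerSeries.X i : MvPowerSeries (Fin d) K) ^ (α i : ℕ)))
    (by
      rw [Fintype.linearIndependent_iff]
      intro b hb β
      have hb' : ∑ α, (∏ i, (MvPowerSeries.X i : PS) ^ (α i : ℕ)) * b α ^ p ^ e = 0 := by
        refine Eq.trans (Finset.sum_congr rfl fun α _ => ?_) hb
        rw [Algebra.smul_def, mul_comm]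
        rfl
      ext n
      have h := coeff_sum e b n β
      rw [hb', map_zero] at h
      rw [map_zero]
      exact pow_eq_zero_iff (pow_ne_zero _ hp.out.ne_zero) |>.1 h.symm)
    (by
      rintro x -
      let x0 : PS := x
      let c : (Fin d → Fin (p ^ e)) → PS :=
        fun β n => (iterateFrobeniusEquiv K p e).symm (MvPowerSeries.coeff (p ^ e • n + toF β) x0)
      have hx : x = ∑ α, c α • Fr.of p e PS (∏ i, (MvPowerSeries.X i : PS) ^ (α i : ℕ)) := by
        have h1 : x0 = ∑ α, (∏ i, (MvPowerSeries.X i : PS) ^ (α i : ℕ)) * c α ^ p ^ e := by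
          ext m
          obtain ⟨n, β, rfl⟩ := exists_decomp (pow_pos hp.out.pos e) m
          rw [coeff_sum e c n β]
          change _ = ((iterateFrobeniusEquiv K p e).symm
            (MvPowerSeries.coeff (p ^ e • n + toF β) x0)) ^ p ^ e
          rw [← iterateFrobenius_def, ← iterateFrobeniusEquiv_apply, RingEquiv.apply_symm_apply]
        refine Eq.trans h1 (Finset.sum_congr rfl fun α _ => ?_)
        rw [Algebra.smul_def, mul_comm]
        rfl
      rw [hx]
      exact Submodule.sum_mem _ fun α _ => Submodule.smul_mem _ _ (Submodule.subset_span ⟨α, rfl⟩))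

instance frFinite :
    Module.Finite (MvPowerSeries (Fin d) K) (Fr p e (MvPowerSeries (Fin d) K)) :=
  Module.Finite.of_basis (frBasis d p K e)

instance frFree :
    Module.Free (MvPowerSeries (Fin d) K) (Fr p e (MvPowerSeries (Fin d) K)) :=
  Module.Free.of_basis (frBasis d p K e)

end PowerSeries

end Crest.Agent.R183.PI
end

-- ▼ part R183/Ins4
section

/-!
# R183, INSEP (helper234), part 4: the ring `R₁ = A[R^q]` over `Fr p e A`
-/

set_option autoImplicit false
set_option linter.unusedSectionVars false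

namespace Crest.Agent.R183.Ins

open IsLocalRing TensorProduct Crest.Agent.R183.PI

universe u v

section

variable (p : ℕ) [Fact p.Prime] (e : ℕ) (A R : Type u) [CommRing A] [CommRing R] [Algebra A R]

/-- the ring `A[R^q]` as a new type -/
def RR (p : ℕ) (e : ℕ) (A R : Type u) [CommRing A] [CommRing R] [Algebra A R] : Type u :=
  fAdj A R p e

noncomputable instance RR.commRing : CommRing (RR p e A R) :=
  inferInstanceAs (CommRing (fAdj A R p e))

instance RR.isDomain [IsDomain R] : IsDomain (RR p e A R) :=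
  inferInstanceAs (IsDomain (fAdj A R p e))

noncomputable instance RR.algebraFr : Algebra (Fr p e A) (RR p e A R) :=
  inferInstanceAs (Algebra A (fAdj A R p e))

/-- inclusion -/
noncomputable def RR.val : RR p e A R →+* R := (fAdj A R p e).val.toRingHom

theorem RR.val_injective : Function.Injective (RR.val p e A R) := Subtype.val_injective

theorem RR.val_algebraMap (a : A) :
    RR.val p e A R (algebraMap (Fr p e A) (RR p e A R) (Fr.of p e A a)) = algebraMap A R a := rfl

variable [CharP A p] [CharP R p]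

/-- `R → A[R^q]`, `r ↦ r^q` -/
noncomputable def RR.frob : R →+* RR p e A R where
  toFun r := (⟨r ^ p ^ e, pow_mem_fAdj A R p e r⟩ : fAdj A R p e)
  map_one' := Subtype.ext (one_pow _)
  map_mul' a b := Subtype.ext (mul_pow _ _ _)
  map_zero' := Subtype.ext (zero_pow (pow_ne_zero _ (Fact.out : p.Prime).ne_zero))
  map_add' a b := Subtype.ext (add_pow_char_pow a b p e)

noncomputable instance RR.algebraR : Algebra R (RR p e A R) := (RR.frob p e A R).toAlgebra

noncomputable instance RR.algebraA : Algebra A (RR p e A R) :=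
  ((RR.frob p e A R).comp (algebraMap A R)).toAlgebra

theorem RR.val_algebraMap_R (r : R) :
    RR.val p e A R (algebraMap R (RR p e A R) r) = r ^ p ^ e := rfl

instance RR.tower1 : IsScalarTower A R (RR p e A R) := IsScalarTower.of_algebraMap_eq fun _ => rfl

instance RR.tower2 : IsScalarTower A (Fr p e A) (RR p e A R) :=
  IsScalarTower.of_algebraMap_eq fun a => by
    apply RR.val_injective p e A R
    change (algebraMap A R a) ^ p ^ e = algebraMap A R (a ^ p ^ e)
    rw [map_pow]

theorem RR.finite [IsNoetherianRing A] [Module.Finite A R] :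
    Module.Finite (Fr p e A) (RR p e A R) := by
  have hN : IsNoetherian A R := isNoetherian_of_isNoetherianRing_of_finite A R
  exact inferInstanceAs (Module.Finite A (Subalgebra.toSubmodule (fAdj A R p e)))

/-- `R ⊗ A^{1/q} → A[R^q]` -/
noncomputable def RR.prod : (R ⊗[A] (Fr p e A)) →ₐ[A] RR p e A R :=
  Algebra.TensorProduct.productMap (IsScalarTower.toAlgHom A R (RR p e A R))
        (IsScalarTower.toAlgHom A (Fr p e A) (RR p e A R))

theorem RR.prod_tmul (r : R) (a : Fr p e A) : RR.prod p e A R (r ⊗ₜ a) =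
    algebraMap R (RR p e A R) r * algebraMap (Fr p e A) (RR p e A R) a := rfl

theorem RR.prod_surjective : Function.Surjective (RR.prod p e A R) := by
  rintro ⟨x, hx⟩
  have h : ∀ x ∈ fAdj A R p e, ∃ z, RR.val p e A R (RR.prod p e A R z) = x := by
    intro x hx
    induction hx using Algebra.adjoin_induction with
    | mem x hx =>
      obtain ⟨y, rfl⟩ := hx
      refine ⟨y ⊗ₜ 1, ?_⟩
      rw [RR.prod_tmul, map_one, mul_one, RR.val_algebraMap_R]
    | algebraMap a =>
      refine ⟨1 ⊗ₜ (Fr.of p e A a), ?_⟩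
      rw [RR.prod_tmul, map_one, one_mul, RR.val_algebraMap]
    | add x y _ _ hx hy =>
      obtain ⟨z, rfl⟩ := hx
      obtain ⟨w, rfl⟩ := hy
      exact ⟨z + w, by rw [map_add, map_add]⟩
    | mul x y _ _ hx hy =>
      obtain ⟨z, rfl⟩ := hx
      obtain ⟨w, rfl⟩ := hy
      exact ⟨z * w, by rw [map_mul, map_mul]⟩
  obtain ⟨z, hz⟩ := h x hx
  exact ⟨z, RR.val_injective p e A R hz⟩

theorem RR.pow_eq (z : R ⊗[A] (Fr p e A)) :
    z ^ p ^ e = (RR.val p e A R (RR.prod p e A R z)) ⊗ₜ 1 := by
  have hch : CharP (R ⊗[A] (Fr p e A)) p ∨ Subsingleton (R ⊗[A] (Fr p e A)) := by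
    rcases subsingleton_or_nontrivial (R ⊗[A] (Fr p e A)) with h | h
    · exact Or.inr h
    · left
      refine (CharP.charP_iff_prime_eq_zero Fact.out).2 ?_
      have : ((p : ℕ) : R ⊗[A] (Fr p e A)) = algebraMap R _ ((p : ℕ) : R) := by rw [map_natCast]
      rw [this, CharP.cast_eq_zero, map_zero]
  rcases hch with hch | hch
  · induction z using TensorProduct.induction_on with
    | zero =>
      rw [zero_pow (pow_ne_zero _ (Fact.out : p.Prime).ne_zero), map_zero, map_zero,
        TensorProduct.zero_tmul]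
    | add x y hx hy =>
      rw [add_pow_char_pow, hx, hy, map_add, map_add, TensorProduct.add_tmul]
    | tmul r a =>
      rw [Algebra.TensorProduct.tmul_pow, RR.prod_tmul, map_mul, RR.val_algebraMap_R]
      have h1 : (a ^ p ^ e : Fr p e A) = ((Fr.of p e A).symm a) • (1 : Fr p e A) := by
        rw [Algebra.smul_def, mul_one]; rfl
      have h2 : RR.val p e A R (algebraMap (Fr p e A) (RR p e A R) a) =
        algebraMap A R ((Fr.of p e A).symm a) := rfl
      rw [h1, h2, ← TensorProduct.smul_tmul, Algebra.smul_def, mul_comm]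
  · exact Subsingleton.elim _ _

theorem RR.pow_eq_zero (z : R ⊗[A] (Fr p e A)) (hz : RR.prod p e A R z = 0) : z ^ p ^ e = 0 := by
  rw [RR.pow_eq, hz, map_zero, TensorProduct.zero_tmul]

theorem RR.isIntegral_val [Module.Finite A R] : (RR.val p e A R).IsIntegral := by
  intro x
  obtain ⟨f, hf, hx⟩ := Algebra.IsIntegral.isIntegral (R := A) x
  let φ : A →+* RR p e A R :=
    (algebraMap (Fr p e A) (RR p e A R)).comp (Fr.of p e A : A →+* Fr p e A)
  have hφ : (RR.val p e A R).comp φ = algebraMap A R := rfl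
  refine ⟨f.map φ, hf.map _, ?_⟩
  rw [Polynomial.eval₂_map, hφ]
  exact hx

theorem RR.isLocalHom_val [Module.Finite A R] : IsLocalHom (RR.val p e A R) :=
  (RR.isIntegral_val p e A R).isLocalHom (RR.val_injective p e A R)

theorem RR.isLocalRing [Module.Finite A R] [IsLocalRing R] : IsLocalRing (RR p e A R) := by
  have := RR.isLocalHom_val p e A R
  exact RingHom.domain_isLocalRing (RR.val p e A R)

theorem RR.exists_sub_mem [Module.Finite A R] [IsLocalRing R] [IsLocalRing (RR p e A R)]
    (hres : ∀ r : R, ∃ a : A, r - algebraMap A R a ∈ maximalIdeal R) (x : RR p e A R) :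
    ∃ a : Fr p e A, x - algebraMap (Fr p e A) (RR p e A R) a ∈ maximalIdeal (RR p e A R) := by
  have := RR.isLocalHom_val p e A R
  obtain ⟨a, ha⟩ := hres (RR.val p e A R x)
  refine ⟨Fr.of p e A a, ?_⟩
  rw [mem_maximalIdeal, mem_nonunits_iff]
  intro hu
  have h1 := hu.map (RR.val p e A R)
  rw [map_sub, RR.val_algebraMap] at h1
  exact ha h1

/-- **Generic separability**: trace data for `e` large. -/
theorem RR.exists_trData [IsDomain A] [IsNoetherianRing A] [IsIntegrallyClosed A] [IsDomain R]
    [Module.Finite A R] (hinj : Function.Injective (algebraMap A R)) :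
    ∃ e₀, ∀ e ≥ e₀, ∃ D : PC.TrData p (Fr p e A) (RR p e A R), D.δ ≠ 0 := by
  obtain ⟨e₀, he₀⟩ := exists_trData_fAdj A R p hinj
  exact ⟨e₀, fun e he => he₀ e he⟩

end

end Crest.Agent.R183.Ins
end

-- ▼ part R183/Ins2
section

/-!
# R183, INSEP (helper234), part 2: the local criterion of flatness (`Tor₁` form)
-/

set_option autoImplicit false

namespace Crest.Agent.R183.Ins

open Ideal TensorProduct

universe u v w

section criterion

variable {A : Type u} [CommRing A] {B : Type v} [AddCommGroup B] [Module A B]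
  {M : Type w} [AddCommGroup M] [Module A M]

/-- one step of the devissage: `N'' = N + A x`, `m x ⊆ N`. -/
theorem inclusion_rTensor_injective (m : Ideal A) [m.IsMaximal]
    (hm : Function.Injective (m.subtype.rTensor B)) {N N'' : Submodule A M} (h : N ≤ N'')
    (x : M) (hxN'' : x ∈ N'') (hN'' : ∀ y ∈ N'', ∃ a : A, y - a • x ∈ N) (hx : x ∉ N)
    (hmx : ∀ a ∈ m, a • x ∈ N) : Function.Injective ((Submodule.inclusion h).rTensor B) := by
  let φ : (A × N) →ₗ[A] N'' :=
    (LinearMap.toSpanSingleton A N'' ⟨x, hxN''⟩).coprod (Submodule.inclusion h)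
  let ψ : m →ₗ[A] (A × N) :=
    { toFun := fun a => ((a : A), -⟨(a : A) • x, hmx a a.2⟩)
      map_add' := fun a b => by
        ext
        · rfl
        · simp only [Submodule.coe_add, add_smul, Prod.snd_add, Submodule.coe_neg, neg_add]
      map_smul' := fun c a => by
        ext
        · rfl
        · simp [smul_smul] }
  have hφ : Function.Surjective φ := by
    rintro ⟨y, hy⟩
    obtain ⟨a, ha⟩ := hN'' y hy
    refine ⟨(a, ⟨y - a • x, ha⟩), ?_⟩
    apply Subtype.ext
    simp [φ]
  have hex : Function.Exact ψ φ := by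
    rintro ⟨a, n⟩
    constructor
    · intro h0
      have h1 : a • x + (n : M) = 0 := by
        have := congrArg Subtype.val h0
        simpa [φ] using this
      have h2 : a • x ∈ N := by
        rw [eq_neg_of_add_eq_zero_left h1]
        exact neg_mem n.2
      have ha : a ∈ m := by
        by_contra hc
        have h3 : IsUnit (Ideal.Quotient.mk m a) := by
          let _ := Ideal.Quotient.field m
          rw [isUnit_iff_ne_zero]
          rwa [Ne, Ideal.Quotient.eq_zero_iff_mem]
        obtain ⟨b', hb'⟩ := h3.exists_left_inv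
        obtain ⟨b, rfl⟩ := Ideal.Quotient.mk_surjective b'
        have h4 : b * a - 1 ∈ m := by
          rw [← Ideal.Quotient.eq_zero_iff_mem, map_sub, map_mul, hb', map_one, sub_self]
        apply hx
        have h5 : x = b • (a • x) - (b * a - 1) • x := by
          rw [sub_smul, smul_smul, one_smul]; abel
        rw [h5]
        exact sub_mem (N.smul_mem b h2) (hmx _ h4)
      refine ⟨⟨a, ha⟩, ?_⟩
      refine Prod.ext rfl (Subtype.ext ?_)
      change -(a • x) = n
      rw [neg_eq_iff_add_eq_zero, h1]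
    · rintro ⟨⟨b, hb⟩, h0⟩
      rw [← h0]
      apply Subtype.ext
      simp [φ, ψ]
  have hex' := rTensor_exact B hex hφ
  rw [injective_iff_map_eq_zero]
  intro z hz
  have h1 : φ.rTensor B ((LinearMap.inr A A N).rTensor B z) = 0 := by
    rw [← LinearMap.comp_apply, ← LinearMap.rTensor_comp]
    have : φ ∘ₗ LinearMap.inr A A N = Submodule.inclusion h := by
      ext n; simp [φ]
    rw [this]; exact hz
  obtain ⟨u, hu⟩ := (hex' _).1 h1
  have h2 : (LinearMap.fst A A N).rTensor B ((LinearMap.inr A A N).rTensor B z) = 0 := by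
    rw [← LinearMap.comp_apply, ← LinearMap.rTensor_comp, LinearMap.fst_comp_inr]
    simp
  have h3 : m.subtype.rTensor B u = 0 := by
    rw [← hu, ← LinearMap.comp_apply, ← LinearMap.rTensor_comp] at h2
    exact h2
  have h4 : u = 0 := by rwa [map_eq_zero_iff _ hm] at h3
  have h5 : (LinearMap.snd A A N).rTensor B ((LinearMap.inr A A N).rTensor B z) = z := by
    rw [← LinearMap.comp_apply, ← LinearMap.rTensor_comp, LinearMap.snd_comp_inr]
    simp
  rw [← h5, ← hu, h4, map_zero, map_zero]

/-- If `m ⊗ B → B` is injective (`Tor₁(A/m, B) = 0`) then `N ⊗ B → M ⊗ B` is injective for every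
submodule `N` of a Noetherian module `M` with `m ^ n M ⊆ N`. -/
theorem subtype_rTensor_injective [IsNoetherian A M] (m : Ideal A) [m.IsMaximal]
    (hm : Function.Injective (m.subtype.rTensor B)) (n : ℕ) (N : Submodule A M)
    (hN : m ^ n • (⊤ : Submodule A M) ≤ N) : Function.Injective (N.subtype.rTensor B) := by
  classical
  induction N using WellFoundedGT.induction with
  | ind N ih =>
    by_cases hT : N = ⊤
    · subst hT
      have : (⊤ : Submodule A M).subtype = (Submodule.topEquiv (R := A) (M := M)).toLinearMap := rfl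
      rw [this]
      exact (LinearEquiv.rTensor B (Submodule.topEquiv (R := A) (M := M))).injective
    · have hex : ∃ j, m ^ j • (⊤ : Submodule A M) ≤ N := ⟨n, hN⟩
      obtain ⟨j, hj⟩ : ∃ j, Nat.find hex = j + 1 := by
        rcases h : Nat.find hex with _ | j
        · exfalso
          have := Nat.find_spec hex
          rw [h, pow_zero, Ideal.one_eq_top, Submodule.top_smul, top_le_iff] at this
          exact hT this
        · exact ⟨j, rfl⟩
      have h1 : m ^ (j + 1) • (⊤ : Submodule A M) ≤ N := hj ▸ Nat.find_spec hex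
      have h2 : ¬ m ^ j • (⊤ : Submodule A M) ≤ N := Nat.find_min hex (by omega)
      obtain ⟨x, hx, hxN⟩ := Set.not_subset.1 h2
      have hmx : ∀ a ∈ m, a • x ∈ N := by
        intro a ha
        apply h1
        rw [pow_succ', Submodule.mul_smul]
        exact Submodule.smul_mem_smul ha hx
      let N'' : Submodule A M := N ⊔ Submodule.span A {x}
      have hle : N ≤ N'' := le_sup_left
      have hlt : N < N'' := by
        refine lt_of_le_of_ne hle fun h => hxN ?_
        rw [h]
        exact (le_sup_right : Submodule.span A {x} ≤ N'') (Submodule.mem_span_singleton_self x)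
      have h3 : Function.Injective (N''.subtype.rTensor B) := ih N'' hlt (hN.trans hle)
      have h4 := inclusion_rTensor_injective (B := B) m hm hle x
        ((le_sup_right : Submodule.span A {x} ≤ N'') (Submodule.mem_span_singleton_self x))
        (by
          intro y hy
          obtain ⟨n', hn', z, hz, rfl⟩ := Submodule.mem_sup.1 hy
          obtain ⟨a, rfl⟩ := Submodule.mem_span_singleton.1 hz
          exact ⟨a, by simpa using hn'⟩) hxN hmx
      have h5 : N.subtype.rTensor B = N''.subtype.rTensor B ∘ₗ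
          (Submodule.inclusion hle).rTensor B := by
        rw [← LinearMap.rTensor_comp]; rfl
      rw [h5]
      exact h3.comp h4

end criterion

section ring

variable {A : Type u} {B : Type v} [CommRing A] [CommRing B] [Algebra A B]

/-- converse of `G.rTensor_injective_of_flat_baseChange` -/
theorem rTensor_baseChange_injective (Q : Type*) [CommRing Q] [Algebra A Q]
    {M N : Type*} [AddCommGroup M] [AddCommGroup N] [Module A M]
    [Module A N] [Module Q M] [Module Q N] [IsScalarTower A Q M] [IsScalarTower A Q N]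
    (f : M →ₗ[Q] N) (hf : Function.Injective ((f.restrictScalars A).rTensor B)) :
    Function.Injective (f.rTensor (Q ⊗[A] B)) := by
  have h2 : ∀ x, (f.restrictScalars A).rTensor B
      (TensorProduct.AlgebraTensorModule.cancelBaseChange A Q Q M B x) =
      TensorProduct.AlgebraTensorModule.cancelBaseChange A Q Q N B (f.rTensor (Q ⊗[A] B) x) := by
    intro x
    induction x using TensorProduct.induction_on with
    | zero => simp
    | add x y hx hy => simp only [map_add, hx, hy]
    | tmul m y =>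
      induction y using TensorProduct.induction_on with
      | zero => simp
      | add x y hx hy => simp only [map_add, tmul_add, hx, hy]
      | tmul q b => simp
  rw [injective_iff_map_eq_zero]
  intro x hx
  have h3 := h2 x
  rw [hx, map_zero, map_eq_zero_iff _ hf, LinearEquiv.map_eq_zero_iff] at h3
  exact h3

/-- LOCAL CRITERION OF FLATNESS: `A`, `B` Noetherian, `m` a maximal ideal of `A` with
`m B ⊆ rad B` and `m ⊗ B → B` injective. Then `B` is flat over `A`. -/
theorem flat_of_maximal_rTensor_injective [IsNoetherianRing A] [IsNoetherianRing B] (m : Ideal A)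
    [m.IsMaximal] (hI : m.map (algebraMap A B) ≤ Ideal.jacobson ⊥)
    (hm : Function.Injective (m.subtype.rTensor B)) : Module.Flat A B := by
  refine G.flat_of_forall_flat_quotient m hI fun n => ?_
  rw [Module.Flat.iff_rTensor_injective]
  intro J _
  -- the `A`-submodule of `A ⧸ m ^ n`
  have h1 : Function.Injective (((J.restrictScalars A).subtype).rTensor B) := by
    refine subtype_rTensor_injective m hm n (J.restrictScalars A) ?_
    rw [Submodule.smul_le]
    intro a ha y _
    obtain ⟨b, rfl⟩ := Ideal.Quotient.mk_surjective y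
    have : a • (Ideal.Quotient.mk (m ^ n) b) = 0 := by
      rw [Algebra.smul_def, Ideal.Quotient.algebraMap_eq, ← map_mul,
        Ideal.Quotient.eq_zero_iff_mem]
      exact Ideal.mul_mem_right _ _ ha
    rw [this]
    exact zero_mem _
  have h2 : Function.Injective ((J.subtype.restrictScalars A).rTensor B) := h1
  exact rTensor_baseChange_injective (A ⧸ m ^ n) J.subtype h2

end ring

end Crest.Agent.R183.Ins
end

-- ▼ part R183/Ins3
section

/-!
# R183, INSEP (helper234), part 3: flatness of `T' ⊗_T N` over `G`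

`R → T`, `G → T'` flat, `R → G`, `T → T'` compatible, `T' / m_G T'` flat over `T / m_R T`, `N` a
`T`-module which is flat over `R`. Then `Tor₁^G(G/m_G, T' ⊗_T N) = 0`.
-/

set_option autoImplicit false

namespace Crest.Agent.R183.Ins

open Ideal TensorProduct

universe u v w

section

variable {T : Type u} {T' : Type v} [CommRing T] [CommRing T'] [Algebra T T']

/-- The kernel of `T' ⊗ K → (T'/J) ⊗ K` is `J (T' ⊗ K)`. -/
theorem mem_smul_of_quotient_rTensor_eq_zero (J : Ideal T') {K : Type*} [AddCommGroup K]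
    [Module T K] (w : T' ⊗[T] K)
    (hw : ((Ideal.Quotient.mkₐ T J).toLinearMap.rTensor K) w = 0) :
    w ∈ (J • ⊤ : Submodule T' (T' ⊗[T] K)) := by
  have hex : Function.Exact ((J.restrictScalars T).subtype.rTensor K)
      ((Ideal.Quotient.mkₐ T J).toLinearMap.rTensor K) := by
    refine rTensor_exact K ?_ Ideal.Quotient.mk_surjective
    intro x
    constructor
    · intro hx
      have : x ∈ J := Ideal.Quotient.eq_zero_iff_mem.1 hx
      exact ⟨⟨x, this⟩, rfl⟩
    · rintro ⟨⟨y, hy⟩, rfl⟩
      exact Ideal.Quotient.eq_zero_iff_mem.2 hy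
  obtain ⟨y, rfl⟩ := (hex w).1 hw
  induction y using TensorProduct.induction_on with
  | zero => rw [map_zero]; exact zero_mem _
  | add a b ha hb =>
    rw [map_add]
    refine add_mem (ha ?_) (hb ?_)
    · exact (hex _).2 ⟨a, rfl⟩
    · exact (hex _).2 ⟨b, rfl⟩
  | tmul a k =>
    have : ((J.restrictScalars T).subtype.rTensor K) (a ⊗ₜ[T] k) = (a : T') • ((1 : T') ⊗ₜ[T] k) := by
      rw [LinearMap.rTensor_tmul, TensorProduct.smul_tmul', smul_eq_mul, mul_one]
      rfl
    rw [this]
    exact Submodule.smul_mem_smul a.2 trivial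

theorem quotient_rTensor_eq_zero_of_mem (J : Ideal T') {K : Type*} [AddCommGroup K]
    [Module T K] (w : T' ⊗[T] K) (hw : w ∈ (J • ⊤ : Submodule T' (T' ⊗[T] K))) :
    ((Ideal.Quotient.mkₐ T J).toLinearMap.rTensor K) w = 0 := by
  refine Submodule.smul_induction_on hw ?_ ?_
  · intro a ha y _
    induction y using TensorProduct.induction_on with
    | zero => simp
    | add x y hx hy => rw [smul_add, map_add, hx trivial, hy trivial, add_zero]
    | tmul b k =>
      rw [TensorProduct.smul_tmul', LinearMap.rTensor_tmul]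
      have : (Ideal.Quotient.mkₐ T J).toLinearMap (a • b) = 0 :=
        Ideal.Quotient.eq_zero_iff_mem.2 (Ideal.mul_mem_right _ _ ha)
      rw [this, TensorProduct.zero_tmul]
  · intro x y hx hy
    rw [map_add, hx, hy, add_zero]

end

section

variable {R : Type*} {G : Type*} {T : Type u} {T' : Type v} [CommRing R] [CommRing G]
  [CommRing T] [CommRing T'] [Algebra R G] [Algebra R T] [Algebra G T'] [Algebra T T']
  [Algebra R T'] [IsScalarTower R G T'] [IsScalarTower R T T']

omit [Algebra R G] [Algebra R T'] [IsScalarTower R G T'] [IsScalarTower R T T'] in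
/-- The injectivity of `(T'/m_G T') ⊗_T K → (T'/m_G T') ⊗_T F`. -/
theorem quotient_lTensor_injective (mR : Ideal R) (mG : Ideal G)
    [Algebra (T ⧸ mR.map (algebraMap R T)) (T' ⧸ mG.map (algebraMap G T'))]
    [IsScalarTower T (T ⧸ mR.map (algebraMap R T)) (T' ⧸ mG.map (algebraMap G T'))]
    [Module.Flat (T ⧸ mR.map (algebraMap R T)) (T' ⧸ mG.map (algebraMap G T'))]
    {K F : Type*} [AddCommGroup K] [Module T K] [AddCommGroup F] [Module T F]
    (g : K →ₗ[T] F)
    (hg : Function.Injective (g.lTensor (T ⧸ mR.map (algebraMap R T)))) :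
    Function.Injective (g.lTensor (T' ⧸ mG.map (algebraMap G T'))) := by
  set Tb := T ⧸ mR.map (algebraMap R T) with hTb
  set Q := T' ⧸ mG.map (algebraMap G T') with hQ
  let gb : (Tb ⊗[T] K) →ₗ[Tb] (Tb ⊗[T] F) := g.baseChange Tb
  have h1 : Function.Injective (gb.lTensor Q) :=
    Module.Flat.lTensor_preserves_injective_linearMap gb hg
  have h2 : ∀ x, g.lTensor Q
      (TensorProduct.AlgebraTensorModule.cancelBaseChange T Tb Tb Q K x) =
      TensorProduct.AlgebraTensorModule.cancelBaseChange T Tb Tb Q F (gb.lTensor Q x) := by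
    intro x
    induction x using TensorProduct.induction_on with
    | zero => simp
    | add x y hx hy => simp only [map_add, hx, hy]
    | tmul m y =>
      induction y using TensorProduct.induction_on with
      | zero => simp
      | add x y hx hy => simp only [map_add, tmul_add, hx, hy]
      | tmul q b => simp [gb]
  rw [injective_iff_map_eq_zero]
  intro y hy
  obtain ⟨x, rfl⟩ := (TensorProduct.AlgebraTensorModule.cancelBaseChange T Tb Tb Q K).surjective y
  rw [h2, LinearEquiv.map_eq_zero_iff, map_eq_zero_iff _ h1] at hy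
  rw [hy, map_zero]

omit [CommRing G] [CommRing T'] [Algebra R G] [Algebra G T'] [Algebra T T'] [Algebra R T'] [IsScalarTower R G T'] [IsScalarTower R T T'] in
/-- `(m_R T) M = m_R M`. -/
theorem mem_map_smul_top_iff (mR : Ideal R) {M : Type*} [AddCommGroup M] [Module T M] [Module R M]
    [IsScalarTower R T M] (x : M) :
    x ∈ (mR.map (algebraMap R T) • ⊤ : Submodule T M) ↔ x ∈ (mR • ⊤ : Submodule R M) := by
  have h := Submodule.restrictScalars_map_smul_eq mR (⊤ : Submodule T M)
  rw [Submodule.restrictScalars_top] at h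
  rw [← h]
  rfl

/-- `K ∩ m_R F = m_R K` when `F / K` is flat over `R`. -/
theorem quotient_lTensor_injective_of_flat (mR : Ideal R) {K F N : Type*} [AddCommGroup K]
    [Module T K] [AddCommGroup F] [Module T F] [AddCommGroup N] [Module T N]
    [Module R K] [Module R F] [Module R N] [IsScalarTower R T K] [IsScalarTower R T F]
    [IsScalarTower R T N] [Module.Flat R N] (g : K →ₗ[T] F) (f : F →ₗ[T] N)
    (hg : Function.Injective g) (hf : Function.Surjective f) (H : Function.Exact g f) :
    Function.Injective (g.lTensor (T ⧸ mR.map (algebraMap R T))) := by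
  rw [injective_iff_map_eq_zero]
  intro z hz
  obtain ⟨k, rfl⟩ := G.exists_eq_one_tmul _ z
  rw [LinearMap.lTensor_tmul, G.one_tmul_eq_zero_iff, mem_map_smul_top_iff] at hz
  rw [G.one_tmul_eq_zero_iff, mem_map_smul_top_iff]
  have h1 := LinearMap.lTensor_injective_of_exact_of_flat (f.restrictScalars R) hf
    (g.restrictScalars R) hg H (R ⧸ mR)
  rw [← G.one_tmul_eq_zero_iff] at hz ⊢
  apply h1
  rw [map_zero]
  exact hz

/-- every element of `(m_G T') P` comes from `m_G ⊗ P`. -/
theorem exists_lid_rTensor_eq (mG : Ideal G) {P : Type*} [AddCommGroup P] [Module T' P]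
    [Module G P] [IsScalarTower G T' P] (w : P)
    (hw : w ∈ (mG.map (algebraMap G T') • ⊤ : Submodule T' P)) :
    ∃ w' : mG ⊗[G] P, TensorProduct.lid G P (mG.subtype.rTensor P w') = w := by
  rw [mem_map_smul_top_iff] at hw
  refine Submodule.smul_induction_on hw ?_ ?_
  · intro a ha y _
    exact ⟨⟨a, ha⟩ ⊗ₜ y, by simp⟩
  · rintro x y ⟨x', hx⟩ ⟨y', hy⟩
    exact ⟨x' + y', by rw [map_add, map_add, hx, hy]⟩

theorem lid_rTensor_mem (mG : Ideal G) {P : Type*} [AddCommGroup P] [Module T' P]
    [Module G P] [IsScalarTower G T' P] (w' : mG ⊗[G] P) :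
    TensorProduct.lid G P (mG.subtype.rTensor P w') ∈
      (mG.map (algebraMap G T') • ⊤ : Submodule T' P) := by
  rw [mem_map_smul_top_iff]
  induction w' using TensorProduct.induction_on with
  | zero => simp
  | add x y hx hy => rw [map_add, map_add]; exact add_mem hx hy
  | tmul a y =>
    rw [LinearMap.rTensor_tmul, TensorProduct.lid_tmul]
    exact Submodule.smul_mem_smul a.2 trivial

theorem lid_rTensor_lTensor (mG : Ideal G) {M : Type*} {M' : Type*} [AddCommGroup M]
    [AddCommGroup M'] [Module G M] [Module G M'] (h : M →ₗ[G] M') (z : mG ⊗[G] M) :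
    TensorProduct.lid G M' (mG.subtype.rTensor M' (h.lTensor mG z)) =
      h (TensorProduct.lid G M (mG.subtype.rTensor M z)) := by
  induction z using TensorProduct.induction_on with
  | zero => simp
  | add x y hx hy => simp only [map_add, hx, hy]
  | tmul a y => simp

theorem rTensor_tensor_injective_aux [SMulCommClass T G T'] (mG : Ideal G)
    {K : Type*} {F : Type*} {N : Type*} [AddCommGroup K] [Module T K] [AddCommGroup F] [Module T F]
    [AddCommGroup N] [Module T N] (ι : K →ₗ[T] F) (π : F →ₗ[T] N) (hπ : Function.Surjective π)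
    (hex : Function.Exact ι π)
    (h2 : Function.Injective (ι.lTensor (T' ⧸ mG.map (algebraMap G T'))))
    (hflat : Module.Flat G (T' ⊗[T] F)) :
    Function.Injective (mG.subtype.rTensor (T' ⊗[T] N)) := by
  let gP : (T' ⊗[T] K) →ₗ[T'] (T' ⊗[T] F) := ι.baseChange T'
  let fW : (T' ⊗[T] F) →ₗ[T'] (T' ⊗[T] N) := π.baseChange T'
  have hfW : Function.Surjective (fW.restrictScalars G) := LinearMap.lTensor_surjective T' hπ
  have hexW : Function.Exact gP fW := lTensor_exact T' hex hπ
  have hWinj : Function.Injective (mG.subtype.rTensor (T' ⊗[T] F)) :=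
    Module.Flat.rTensor_preserves_injective_linearMap _ Subtype.val_injective
  rw [injective_iff_map_eq_zero]
  intro x hx
  obtain ⟨x', rfl⟩ := LinearMap.lTensor_surjective mG hfW x
  set y := TensorProduct.lid G _ (mG.subtype.rTensor (T' ⊗[T] F) x') with hy
  have hfy : fW y = 0 := by
    have := lid_rTensor_lTensor mG (fW.restrictScalars G) x'
    rw [hx, map_zero] at this
    exact this.symm
  obtain ⟨w, hw⟩ := (hexW y).1 hfy
  have hyI := lid_rTensor_mem (T' := T') mG x'
  have hq : ((Ideal.Quotient.mkₐ T (mG.map (algebraMap G T'))).toLinearMap.rTensor K) w = 0 := by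
    apply h2
    rw [map_zero]
    have h3 := quotient_rTensor_eq_zero_of_mem (T := T) (mG.map (algebraMap G T')) y hyI
    rw [← h3, ← hw]
    change (ι.lTensor _ ∘ₗ (Ideal.Quotient.mkₐ T (mG.map (algebraMap G T'))).toLinearMap.rTensor K) w
      = ((Ideal.Quotient.mkₐ T (mG.map (algebraMap G T'))).toLinearMap.rTensor F ∘ₗ
        (ι.lTensor T')) w
    rw [LinearMap.lTensor_comp_rTensor, LinearMap.rTensor_comp_lTensor]
  obtain ⟨w', hw'⟩ := exists_lid_rTensor_eq (T' := T') mG w
    (mem_smul_of_quotient_rTensor_eq_zero _ w hq)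
  have h4 : ((gP.restrictScalars G).lTensor mG) w' = x' := by
    apply hWinj
    apply (TensorProduct.lid G (T' ⊗[T] F)).injective
    rw [lid_rTensor_lTensor, hw', ← hy, ← hw]
    rfl
  rw [← h4, ← LinearMap.comp_apply, ← LinearMap.lTensor_comp]
  have h5 : (fW.restrictScalars G) ∘ₗ (gP.restrictScalars G) = 0 := by
    refine LinearMap.ext fun z => ?_
    exact hexW.apply_apply_eq_zero z
  rw [h5, LinearMap.lTensor_zero, LinearMap.zero_apply]

theorem rTensor_tensor_injective_aux2 [SMulCommClass T G T'] (mR : Ideal R) (mG : Ideal G)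
    [Algebra (T ⧸ mR.map (algebraMap R T)) (T' ⧸ mG.map (algebraMap G T'))]
    [IsScalarTower T (T ⧸ mR.map (algebraMap R T)) (T' ⧸ mG.map (algebraMap G T'))]
    [Module.Flat (T ⧸ mR.map (algebraMap R T)) (T' ⧸ mG.map (algebraMap G T'))]
    {F : Type*} {N : Type*} [AddCommGroup F] [Module T F]
    [AddCommGroup N] [Module T N] [Module R F] [IsScalarTower R T F]
    [Module R N] [IsScalarTower R T N] [Module.Flat R N]
    (π : F →ₗ[T] N) (hπ : Function.Surjective π)
    (hflat : Module.Flat G (T' ⊗[T] F)) :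
    Function.Injective (mG.subtype.rTensor (T' ⊗[T] N)) := by
  have hex : Function.Exact (LinearMap.ker π).subtype π := LinearMap.exact_subtype_ker_map _
  have h1 : Function.Injective ((LinearMap.ker π).subtype.lTensor (T ⧸ mR.map (algebraMap R T))) :=
    quotient_lTensor_injective_of_flat mR (LinearMap.ker π).subtype π Subtype.val_injective hπ hex
  have h2 := quotient_lTensor_injective (T' := T') mR mG (LinearMap.ker π).subtype h1
  exact rTensor_tensor_injective_aux mG _ _ hπ hex h2 hflat

/-- MAIN THEOREM. -/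
theorem rTensor_tensor_injective [SMulCommClass T G T'] (mR : Ideal R) (mG : Ideal G)
    [Module.Flat G T']
    [Algebra (T ⧸ mR.map (algebraMap R T)) (T' ⧸ mG.map (algebraMap G T'))]
    [IsScalarTower T (T ⧸ mR.map (algebraMap R T)) (T' ⧸ mG.map (algebraMap G T'))]
    [Module.Flat (T ⧸ mR.map (algebraMap R T)) (T' ⧸ mG.map (algebraMap G T'))]
    (N : Type w) [AddCommGroup N] [Module T N] [Module R N] [IsScalarTower R T N]
    [Module.Flat R N] :
    Function.Injective (mG.subtype.rTensor (T' ⊗[T] N)) := by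
  have hπ : Function.Surjective (Finsupp.linearCombination T (id : N → N)) := fun n =>
    ⟨Finsupp.single n 1, (Finsupp.linearCombination_single T (1 : T) n).trans (one_smul T _)⟩
  have hflat : Module.Flat G (T' ⊗[T] (N →₀ T)) := Module.Flat.trans G T' (T' ⊗[T] (N →₀ T))
  exact rTensor_tensor_injective_aux2 (T' := T') mR mG _ hπ hflat

end

end Crest.Agent.R183.Ins
end

-- ▼ part R183/Ins5
section

/-!
# R183, INSEP (helper234), part 5: `S ⊗_{A'} A'^{1/q}` is flat over `R ⊗_A A^{1/q}`
-/

set_option autoImplicit false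
set_option linter.unusedSectionVars false

namespace Crest.Agent.R183.Ins

open IsLocalRing TensorProduct Crest.Agent.R183.PI

section quot

variable {A R A' T : Type*} [CommRing A] [CommRing R] [CommRing A'] [CommRing T]
  [Algebra A R] [Algebra A A'] [Algebra A T] [Algebra R T] [Algebra A' T]
  [IsScalarTower A R T] [IsScalarTower A A' T] [Algebra.IsPushout A R A' T]

include A in
/-- modulo `I T` every element of `T` comes from `A'`. -/
theorem exists_sub_mem_map (I : Ideal R)
    (hres : ∀ r : R, ∃ a : A, r - algebraMap A R a ∈ I) (x : T) :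
    ∃ a : A', x - algebraMap A' T a ∈ I.map (algebraMap R T) := by
  refine RD.pushout_induction (A := A) (R := R) (A' := A')
    (P := fun x => ∃ a : A', x - algebraMap A' T a ∈ I.map (algebraMap R T))
    x ?_ ?_ ?_
  · exact ⟨0, by simp⟩
  · rintro x y ⟨a, ha⟩ ⟨b, hb⟩
    refine ⟨a + b, ?_⟩
    rw [map_add]
    have : x + y - (algebraMap A' T a + algebraMap A' T b) =
      (x - algebraMap A' T a) + (y - algebraMap A' T b) := by ring
    rw [this]
    exact add_mem ha hb
  · intro r a
    obtain ⟨c, hc⟩ := hres r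
    refine ⟨algebraMap A A' c * a, ?_⟩
    have h1 : algebraMap A' T (algebraMap A A' c * a) =
        algebraMap R T (algebraMap A R c) * algebraMap A' T a := by
      rw [map_mul, ← IsScalarTower.algebraMap_apply A A' T, IsScalarTower.algebraMap_apply A R T]
    rw [h1, ← sub_mul, ← map_sub]
    exact Ideal.mul_mem_right _ _ (Ideal.mem_map_of_mem _ hc)

/-- `T / I T = A' / J A'` if `A / J = R / I`. -/
theorem exists_sigma {B : Type*} [CommRing B] (I : Ideal R)
    (hI : ∀ r : R, ∃ a : A, r - algebraMap A R a ∈ I) (ρ : A' →+* B)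
    (hρ : Function.Surjective ρ)
    (hker : RingHom.ker ρ = (I.comap (algebraMap A R)).map (algebraMap A A')) :
    ∃ σ : T →+* B, (∀ a, σ (algebraMap A' T a) = ρ a) ∧ Function.Surjective σ ∧
      RingHom.ker σ = I.map (algebraMap R T) := by
  let f : A →+* R ⧸ I := (Ideal.Quotient.mk I).comp (algebraMap A R)
  have hf : Function.Surjective f := by
    intro x
    obtain ⟨r, rfl⟩ := Ideal.Quotient.mk_surjective x
    obtain ⟨a, ha⟩ := hI r
    exact ⟨a, ((Ideal.Quotient.mk_eq_mk_iff_sub_mem r _).2 ha).symm⟩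
  have hfk : RingHom.ker f ≤ RingHom.ker (ρ.comp (algebraMap A A')) := by
    intro a ha
    have ha' : algebraMap A R a ∈ I := Ideal.Quotient.eq_zero_iff_mem.1 ha
    have : algebraMap A A' a ∈ RingHom.ker ρ := by
      rw [hker]
      exact Ideal.mem_map_of_mem _ ha'
    exact this
  let τ₀ : R ⧸ I →+* B := RingHom.liftOfSurjective f hf ⟨ρ.comp (algebraMap A A'), hfk⟩
  have hτ₀ : ∀ a, τ₀ (f a) = ρ (algebraMap A A' a) := fun a =>
    RingHom.liftOfRightInverse_comp_apply f _ (Function.rightInverse_surjInv hf)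
      ⟨ρ.comp (algebraMap A A'), hfk⟩ a
  let _ : Algebra A B := (ρ.comp (algebraMap A A')).toAlgebra
  let g1 : R →ₐ[A] B := ⟨τ₀.comp (Ideal.Quotient.mk I), fun a => hτ₀ a⟩
  let g2 : A' →ₐ[A] B := ⟨ρ, fun a => rfl⟩
  let σ : T →ₐ[A] B := Algebra.pushoutDesc T g1 g2 (fun x y => mul_comm _ _)
  have hσ1 : ∀ a, σ (algebraMap A' T a) = ρ a := fun a =>
    Algebra.pushoutDesc_right (R := A) (S := R) (R' := A') T g1 g2 (fun x y => mul_comm _ _) a
  have hσ2 : ∀ r, σ (algebraMap R T r) = τ₀ (Ideal.Quotient.mk I r) := fun r =>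
    Algebra.pushoutDesc_left (R := A) (S := R) (R' := A') T g1 g2 (fun x y => mul_comm _ _) r
  have hle : I.map (algebraMap R T) ≤ RingHom.ker (σ : T →+* B) := by
    rw [Ideal.map_le_iff_le_comap]
    intro r hr
    rw [Ideal.mem_comap, RingHom.mem_ker]
    change σ _ = 0
    rw [hσ2, Ideal.Quotient.eq_zero_iff_mem.2 hr, map_zero]
  refine ⟨σ, hσ1, ?_, le_antisymm ?_ hle⟩
  · intro b
    obtain ⟨a, rfl⟩ := hρ b
    exact ⟨_, hσ1 a⟩
  · intro x hx
    have hx : σ x = 0 := hx
    obtain ⟨a, ha⟩ := exists_sub_mem_map (A := A) (A' := A') I hI x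
    have h0 : σ (x - algebraMap A' T a) = 0 := hle ha
    rw [map_sub, hx, hσ1, zero_sub, neg_eq_zero] at h0
    have h1 : a ∈ RingHom.ker ρ := h0
    rw [hker] at h1
    have h2 : algebraMap A' T a ∈ I.map (algebraMap R T) := by
      have h3 := Ideal.mem_map_of_mem (algebraMap A' T) h1
      rw [Ideal.map_map, ← IsScalarTower.algebraMap_eq, IsScalarTower.algebraMap_eq A R T,
        ← Ideal.map_map] at h3
      exact Ideal.map_mono Ideal.map_comap_le h3
    have : x = (x - algebraMap A' T a) + algebraMap A' T a := by ring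
    rw [this]
    exact add_mem ha h2

end quot

section two

variable {A R A' T A1 G A1' Tq : Type*} [CommRing A] [CommRing R] [CommRing A'] [CommRing T]
  [CommRing A1] [CommRing G] [CommRing A1'] [CommRing Tq]
  [Algebra A R] [Algebra A A'] [Algebra A T] [Algebra R T] [Algebra A' T]
  [IsScalarTower A R T] [IsScalarTower A A' T] [Algebra.IsPushout A R A' T]
  [Algebra A1 G] [Algebra A1 A1'] [Algebra A1 Tq] [Algebra G Tq] [Algebra A1' Tq]
  [IsScalarTower A1 G Tq] [IsScalarTower A1 A1' Tq] [Algebra.IsPushout A1 G A1' Tq]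
  [Algebra R G] [Algebra R Tq] [Algebra T Tq] [Algebra A' A1'] [Algebra A' Tq]
  [IsScalarTower R G Tq] [IsScalarTower R T Tq] [IsScalarTower A' T Tq] [IsScalarTower A' A1' Tq]

theorem map_map_le (I : Ideal R) (I1 : Ideal G) (hle : I.map (algebraMap R G) ≤ I1) :
    (I.map (algebraMap R T)).map (algebraMap T Tq) ≤ I1.map (algebraMap G Tq) := by
  rw [Ideal.map_map, ← IsScalarTower.algebraMap_eq, IsScalarTower.algebraMap_eq R G Tq,
    ← Ideal.map_map]
  exact Ideal.map_mono hle

include A A1 in
/-- `T / m_R T → Tq / m_G Tq` is flat. -/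
theorem quot_flat {B₀ B₁ : Type*} [CommRing B₀] [CommRing B₁] (I : Ideal R) (I1 : Ideal G)
    (hI : ∀ r : R, ∃ a : A, r - algebraMap A R a ∈ I)
    (hI1 : ∀ r : G, ∃ a : A1, r - algebraMap A1 G a ∈ I1)
    (hle : I.map (algebraMap R G) ≤ I1)
    (ρ : A' →+* B₀) (hρ : Function.Surjective ρ)
    (hker : RingHom.ker ρ = (I.comap (algebraMap A R)).map (algebraMap A A'))
    (ρ₁ : A1' →+* B₁) (hρ₁ : Function.Surjective ρ₁)
    (hker₁ : RingHom.ker ρ₁ = (I1.comap (algebraMap A1 G)).map (algebraMap A1 A1'))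
    (φ : B₀ →+* B₁) (hcomp : ∀ a, φ (ρ a) = ρ₁ (algebraMap A' A1' a)) (hφ : φ.Flat) :
    ∃ (_ : Algebra (T ⧸ I.map (algebraMap R T)) (Tq ⧸ I1.map (algebraMap G Tq))),
      IsScalarTower T (T ⧸ I.map (algebraMap R T)) (Tq ⧸ I1.map (algebraMap G Tq)) ∧
      Module.Flat (T ⧸ I.map (algebraMap R T)) (Tq ⧸ I1.map (algebraMap G Tq)) := by
  have hle2 : I.map (algebraMap R T) ≤ (I1.map (algebraMap G Tq)).comap (algebraMap T Tq) := by
    rw [← Ideal.map_le_iff_le_comap]
    exact map_map_le I I1 hle
  let ψ : T ⧸ I.map (algebraMap R T) →+* Tq ⧸ I1.map (algebraMap G Tq) :=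
    Ideal.quotientMap _ (algebraMap T Tq) hle2
  obtain ⟨σ, hσ1, hσ2, hσ3⟩ := exists_sigma (T := T) I hI ρ hρ hker
  obtain ⟨σ₁, hσ₁1, hσ₁2, hσ₁3⟩ := exists_sigma (T := Tq) I1 hI1 ρ₁ hρ₁ hker₁
  let e₀ : (T ⧸ I.map (algebraMap R T)) ≃+* B₀ :=
    (Ideal.quotEquivOfEq hσ3.symm).trans (RingHom.quotientKerEquivOfSurjective hσ2)
  let e₁ : (Tq ⧸ I1.map (algebraMap G Tq)) ≃+* B₁ :=
    (Ideal.quotEquivOfEq hσ₁3.symm).trans (RingHom.quotientKerEquivOfSurjective hσ₁2)
  have he₀ : ∀ x, e₀ (Ideal.Quotient.mk _ x) = σ x := fun x => rfl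
  have he₁ : ∀ x, e₁ (Ideal.Quotient.mk _ x) = σ₁ x := fun x => rfl
  have hψ : ψ = (e₁.symm : B₁ →+* _).comp (φ.comp (e₀ : _ →+* B₀)) := by
    refine Ideal.Quotient.ringHom_ext (RingHom.ext fun x => ?_)
    change ψ (Ideal.Quotient.mk _ x) = e₁.symm (φ (e₀ (Ideal.Quotient.mk _ x)))
    rw [RingEquiv.eq_symm_apply, he₀]
    change e₁ (Ideal.Quotient.mk _ (algebraMap T Tq x)) = _
    rw [he₁]
    obtain ⟨a, ha⟩ := exists_sub_mem_map (A := A) (A' := A') I hI x
    have h1 : σ x = ρ a := by
      have : σ (x - algebraMap A' T a) = 0 := by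
        rw [← RingHom.mem_ker, hσ3]; exact ha
      rw [map_sub, sub_eq_zero] at this
      rw [this, hσ1]
    have h2 : σ₁ (algebraMap T Tq x) = ρ₁ (algebraMap A' A1' a) := by
      have : σ₁ (algebraMap T Tq (x - algebraMap A' T a)) = 0 := by
        rw [← RingHom.mem_ker, hσ₁3]
        exact map_map_le (T := T) I I1 hle (Ideal.mem_map_of_mem _ ha)
      rw [map_sub, map_sub, sub_eq_zero] at this
      rw [this, ← IsScalarTower.algebraMap_apply A' T Tq,
        IsScalarTower.algebraMap_apply A' A1' Tq, hσ₁1]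
    rw [h1, h2, hcomp]
  have hflat : ψ.Flat := by
    rw [hψ]
    exact (RingHom.Flat.of_bijective e₀.bijective |>.comp hφ).comp
      (RingHom.Flat.of_bijective e₁.symm.bijective)
  let _ : Algebra (T ⧸ I.map (algebraMap R T)) (Tq ⧸ I1.map (algebraMap G Tq)) := ψ.toAlgebra
  exact ⟨ψ.toAlgebra, IsScalarTower.of_algebraMap_eq fun x => rfl, hflat⟩

end two

section three

/-- `T ⊗_{A'} A'₁ = G ⊗_{A₁} A'₁` for `T = R ⊗_A A'`, `G = R ⊗_A A₁`. -/
theorem isPushout_G (A R A' T A1 G A1' Tq : Type*) [CommRing A] [CommRing R] [CommRing A']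
    [CommRing T] [CommRing A1] [CommRing G] [CommRing A1'] [CommRing Tq]
    [Algebra A R] [Algebra A A'] [Algebra A T] [Algebra R T] [Algebra A' T]
    [IsScalarTower A R T] [IsScalarTower A A' T] [Algebra.IsPushout A R A' T]
    [Algebra A A1] [Algebra A G] [Algebra R G] [Algebra A1 G] [IsScalarTower A R G]
    [IsScalarTower A A1 G] [Algebra.IsPushout A R A1 G]
    [Algebra A' A1'] [Algebra A' Tq] [Algebra T Tq] [Algebra A1' Tq] [IsScalarTower A' T Tq]
    [IsScalarTower A' A1' Tq] [Algebra.IsPushout A' A1' T Tq]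
    [Algebra A A1'] [Algebra A1 A1'] [IsScalarTower A A' A1'] [IsScalarTower A A1 A1']
    [Algebra G Tq] [Algebra R Tq] [Algebra A1 Tq] [IsScalarTower R T Tq] [IsScalarTower R G Tq]
    [IsScalarTower A1 G Tq] [IsScalarTower A1 A1' Tq] : Algebra.IsPushout A1 G A1' Tq := by
  have h1 : Algebra.IsPushout A A' R T := Algebra.IsPushout.symm inferInstance
  have h2 : Algebra.IsPushout A A1 R G := Algebra.IsPushout.symm inferInstance
  let _ : Algebra A Tq := ((algebraMap A' Tq).comp (algebraMap A A')).toAlgebra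
  have t1 : IsScalarTower A A' Tq := IsScalarTower.of_algebraMap_eq fun _ => rfl
  have t2 : IsScalarTower A A1' Tq := IsScalarTower.of_algebraMap_eq fun a => by
    rw [IsScalarTower.algebraMap_apply A A' A1', ← IsScalarTower.algebraMap_apply A' A1' Tq]
    rfl
  have t3 : IsScalarTower A T Tq := IsScalarTower.of_algebraMap_eq fun a => by
    rw [IsScalarTower.algebraMap_apply A A' T, ← IsScalarTower.algebraMap_apply A' T Tq]
    rfl
  have t4 : IsScalarTower A R Tq := IsScalarTower.of_algebraMap_eq fun a => by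
    rw [IsScalarTower.algebraMap_apply R T Tq, ← IsScalarTower.algebraMap_apply A R T,
      ← IsScalarTower.algebraMap_apply A T Tq]
  have t5 : IsScalarTower A G Tq := IsScalarTower.of_algebraMap_eq fun a => by
    rw [IsScalarTower.algebraMap_apply A R G, ← IsScalarTower.algebraMap_apply R G Tq,
      ← IsScalarTower.algebraMap_apply A R Tq]
  have h3 : Algebra.IsPushout A A1' R Tq :=
    (Algebra.IsPushout.comp_iff A A' R (T := A1') (S' := T) (T' := Tq)).2 inferInstance
  have h4 : Algebra.IsPushout A1 A1' G Tq :=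
    (Algebra.IsPushout.comp_iff A A1 R (T := A1') (S' := G) (T' := Tq)).1 h3
  exact h4.symm

end three

section four

theorem add_pow_of_natCast_eq_zero {G : Type*} [CommRing G] (p e : ℕ) [Fact p.Prime]
    (hp : (p : G) = 0) (x y : G) : (x + y) ^ p ^ e = x ^ p ^ e + y ^ p ^ e := by
  rcases subsingleton_or_nontrivial G with h | h
  · exact Subsingleton.elim _ _
  · have : CharP G p := (CharP.charP_iff_prime_eq_zero Fact.out).2 hp
    exact add_pow_char_pow x y p e

theorem exists_pow_eq_of_isPushout (A R A1 G : Type*) [CommRing A] [CommRing R] [CommRing A1]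
    [CommRing G] [Algebra A R] [Algebra A A1] [Algebra A G] [Algebra R G] [Algebra A1 G]
    [IsScalarTower A R G] [IsScalarTower A A1 G] [Algebra.IsPushout A R A1 G] (p e : ℕ)
    [Fact p.Prime] (hp : (p : G) = 0) (h : ∀ a : A1, ∃ b : A, a ^ p ^ e = algebraMap A A1 b)
    (x : G) : ∃ r : R, x ^ p ^ e = algebraMap R G r := by
  refine RD.pushout_induction (A := A) (R := R) (A' := A1)
    (P := fun x => ∃ r : R, x ^ p ^ e = algebraMap R G r) x ?_ ?_ ?_
  · exact ⟨0, by rw [zero_pow (pow_ne_zero _ (Fact.out : p.Prime).ne_zero), map_zero]⟩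
  · rintro x y ⟨a, ha⟩ ⟨b, hb⟩
    exact ⟨a + b, by rw [add_pow_of_natCast_eq_zero p e hp, ha, hb, map_add]⟩
  · intro r a
    obtain ⟨b, hb⟩ := h a
    refine ⟨r ^ p ^ e * algebraMap A R b, ?_⟩
    rw [mul_pow, ← map_pow, ← map_pow, hb, map_mul, ← IsScalarTower.algebraMap_apply A A1 G,
      ← IsScalarTower.algebraMap_apply A R G]

theorem Fr.exists_pow_eq (p e : ℕ) [Fact p.Prime] (A : Type*) [CommRing A] [CharP A p]
    (a : Fr p e A) : ∃ b : A, a ^ p ^ e = algebraMap A (Fr p e A) b :=
  ⟨(Fr.of p e A).symm a, rfl⟩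

end four

section five

universe u

variable (p e : ℕ) [Fact p.Prime] (A R : Type u) [CommRing A] [CommRing R] [Algebra A R]
  [CharP A p] [CharP R p] (G : Type u) [CommRing G] [Algebra A G] [Algebra R G]
  [Algebra (Fr p e A) G] [IsScalarTower A R G] [IsScalarTower A (Fr p e A) G]
  [Algebra.IsPushout A R (Fr p e A) G]

/-- `G → R`, `r ⊗ a ↦ r^q a` -/
noncomputable def piG : G →+* R :=
  ((RR.val p e A R).comp (RR.prod p e A R : R ⊗[A] Fr p e A →+* RR p e A R)).comp
    ((Algebra.IsPushout.equiv A R (Fr p e A) G).symm : G →+* R ⊗[A] Fr p e A)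

theorem pow_eq_piG (x : G) : x ^ p ^ e = algebraMap R G (piG p e A R G x) := by
  obtain ⟨z, rfl⟩ := (Algebra.IsPushout.equiv A R (Fr p e A) G).surjective x
  rw [← map_pow, RR.pow_eq, Algebra.IsPushout.equiv_tmul, map_one, mul_one]
  congr 1
  change _ = RR.val p e A R (RR.prod p e A R ((Algebra.IsPushout.equiv A R (Fr p e A) G).symm
    (Algebra.IsPushout.equiv A R (Fr p e A) G z)))
  rw [AlgEquiv.symm_apply_apply]

theorem piG_R (r : R) : piG p e A R G (algebraMap R G r) = r ^ p ^ e := by
  change RR.val p e A R (RR.prod p e A R ((Algebra.IsPushout.equiv A R (Fr p e A) G).symm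
    (algebraMap R G r))) = _
  rw [Algebra.IsPushout.equiv_symm_algebraMap_left, RR.prod_tmul, map_one, mul_one,
    RR.val_algebraMap_R]

theorem piG_A (a : Fr p e A) :
    piG p e A R G (algebraMap (Fr p e A) G a) = algebraMap A R ((Fr.of p e A).symm a) := by
  change RR.val p e A R (RR.prod p e A R ((Algebra.IsPushout.equiv A R (Fr p e A) G).symm
    (algebraMap (Fr p e A) G a))) = _
  rw [Algebra.IsPushout.equiv_symm_algebraMap_right, RR.prod_tmul, map_one, one_mul]
  rfl

theorem isLocalHom_piG : IsLocalHom (piG p e A R G) := by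
  constructor
  intro x hx
  have h : IsUnit (x ^ p ^ e) := by
    rw [pow_eq_piG p e A R G]
    exact hx.map _
  exact (isUnit_pow_iff (pow_ne_zero _ (Fact.out : p.Prime).ne_zero)).1 h

include p e A in
theorem isLocalRing_G [IsLocalRing R] : IsLocalRing G := by
  have := isLocalHom_piG p e A R G
  exact RingHom.domain_isLocalRing (piG p e A R G)

include p e A in
theorem isLocalHom_algebraMap_G : IsLocalHom (algebraMap R G) := by
  constructor
  intro x hx
  have h : IsUnit (x ^ p ^ e) := by
    rw [← piG_R p e A R G]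
    exact hx.map _
  exact (isUnit_pow_iff (pow_ne_zero _ (Fact.out : p.Prime).ne_zero)).1 h

include R in
theorem isLocalHom_algebraMap_FrG [IsLocalHom (algebraMap A R)] :
    IsLocalHom (algebraMap (Fr p e A) G) := by
  constructor
  intro x hx
  have h := hx.map (piG p e A R G)
  rw [piG_A] at h
  exact isUnit_of_map_unit (algebraMap A R) _ h

theorem isLocalHom_of_finite [IsLocalRing A] [IsLocalRing R] [Module.Finite A R] :
    IsLocalHom (algebraMap A R) := by
  have h : ((maximalIdeal R).comap (algebraMap A R)).IsMaximal :=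
    Ideal.isMaximal_comap_of_isIntegral_of_isMaximal (maximalIdeal R)
  exact ((local_hom_TFAE (algebraMap A R)).out 0 4).2 (IsLocalRing.eq_maximalIdeal h)

end five

section six

universe u

attribute [local instance] Algebra.TensorProduct.rightAlgebra

/-- MAIN THEOREM: `Sq = T_q ⊗_T S` is flat over `G = R ⊗_A A^{1/q}`. -/
theorem flat_tensor (p e : ℕ) [Fact p.Prime] {A R A' T G Tq S B₀ : Type u} [CommRing A]
    [CommRing R] [CommRing A'] [CommRing T] [CommRing G] [CommRing Tq] [CommRing S] [CommRing B₀]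
    [CharP A p] [CharP R p] [CharP A' p] [CharP B₀ p]
    [Algebra A R] [Algebra A A'] [Algebra A T] [Algebra R T] [Algebra A' T]
    [IsScalarTower A R T] [IsScalarTower A A' T] [Algebra.IsPushout A R A' T]
    [Algebra A G] [Algebra R G] [Algebra (Fr p e A) G] [IsScalarTower A R G]
    [IsScalarTower A (Fr p e A) G] [Algebra.IsPushout A R (Fr p e A) G]
    [Algebra A' Tq] [Algebra T Tq] [Algebra (Fr p e A') Tq] [IsScalarTower A' T Tq]
    [IsScalarTower A' (Fr p e A') Tq] [Algebra.IsPushout A' (Fr p e A') T Tq]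
    [Algebra G Tq] [Algebra R Tq] [Algebra (Fr p e A) Tq] [IsScalarTower R T Tq]
    [IsScalarTower R G Tq] [IsScalarTower (Fr p e A) G Tq]
    [IsScalarTower (Fr p e A) (Fr p e A') Tq]
    [Algebra T S] [Algebra R S] [IsScalarTower R T S]
    [IsLocalRing A] [IsLocalRing R] [IsLocalRing S]
    [IsNoetherianRing A] [IsNoetherianRing S] [Module.Finite A R] [Module.Finite A' (Fr p e A')]
    [Module.Flat A A'] [Module.Flat R S] [IsLocalHom (algebraMap R S)]
    (hres : ∀ r : R, ∃ a : A, r - algebraMap A R a ∈ maximalIdeal R)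
    (ρ : A' →+* B₀) (hρ : Function.Surjective ρ)
    (hker : RingHom.ker ρ = (maximalIdeal A).map (algebraMap A A'))
    [Module.Flat B₀ (Fr p e B₀)] : Module.Flat G (Tq ⊗[T] S) := by
  -- local rings
  have hAR : IsLocalHom (algebraMap A R) := isLocalHom_of_finite A R
  have hG : IsLocalRing G := isLocalRing_G p e A R G
  have hRG : IsLocalHom (algebraMap R G) := isLocalHom_algebraMap_G p e A R G
  have hA1G : IsLocalHom (algebraMap (Fr p e A) G) := isLocalHom_algebraMap_FrG p e A R G
  -- Noetherian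
  have hGfin : Module.Finite (Fr p e A) G := RD.pushout_finite A R (Fr p e A) G
  have hGN : IsNoetherianRing G := IsNoetherianRing.of_finite (Fr p e A) G
  have hTqfin : Module.Finite T Tq := RD.pushout_finite A' (Fr p e A') T Tq
  have hSqfin : Module.Finite S (Tq ⊗[T] S) := RD.pushout_finite T Tq S (Tq ⊗[T] S)
  have hSqN : IsNoetherianRing (Tq ⊗[T] S) := IsNoetherianRing.of_finite S (Tq ⊗[T] S)
  -- pushout
  have hpo : Algebra.IsPushout (Fr p e A) G (Fr p e A') Tq :=
    isPushout_G A R A' T (Fr p e A) G (Fr p e A') Tq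
  have hA1flat : Module.Flat (Fr p e A) (Fr p e A') := ‹Module.Flat A A'›
  have hGTq : Module.Flat G Tq := RD.pushout_flat (Fr p e A) G (Fr p e A') Tq
  -- characteristics
  have hpG : (p : G) = 0 := by
    have : (p : G) = algebraMap R G (p : R) := by rw [map_natCast]
    rw [this, CharP.cast_eq_zero, map_zero]
  have hpTq : (p : Tq) = 0 := by
    have : (p : Tq) = algebraMap R Tq (p : R) := by rw [map_natCast]
    rw [this, CharP.cast_eq_zero, map_zero]
  have hpSq : (p : (Tq ⊗[T] S)) = 0 := by
    have : (p : (Tq ⊗[T] S)) = algebraMap Tq (Tq ⊗[T] S) (p : Tq) := by rw [map_natCast]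
    rw [this, hpTq, map_zero]
  -- q-th powers
  have hpoTq : Algebra.IsPushout A' T (Fr p e A') Tq := Algebra.IsPushout.symm inferInstance
  have hpoSq : Algebra.IsPushout T S Tq (Tq ⊗[T] S) := Algebra.IsPushout.symm inferInstance
  have powTq : ∀ y : Tq, ∃ s : T, y ^ p ^ e = algebraMap T Tq s :=
    exists_pow_eq_of_isPushout A' T (Fr p e A') Tq p e hpTq (Fr.exists_pow_eq p e A')
  have powSq : ∀ y : (Tq ⊗[T] S), ∃ s : S, y ^ p ^ e = algebraMap S (Tq ⊗[T] S) s :=
    exists_pow_eq_of_isPushout T S Tq (Tq ⊗[T] S) p e hpSq powTq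
  have hq0 : p ^ e ≠ 0 := pow_ne_zero _ (Fact.out : p.Prime).ne_zero
  -- Jacobson radical
  have hjac : (maximalIdeal G).map (algebraMap G (Tq ⊗[T] S)) ≤ Ideal.jacobson ⊥ := by
    rw [Ideal.map_le_iff_le_comap]
    intro x hx
    rw [Ideal.mem_comap, Ideal.mem_jacobson_bot]
    intro y
    obtain ⟨s, hs⟩ := powSq y
    have hxr := pow_eq_piG p e A R G x
    set r := piG p e A R G x with hr
    have hrm : r ∈ maximalIdeal R := by
      rw [mem_maximalIdeal, mem_nonunits_iff]
      intro h
      have : IsUnit (x ^ p ^ e) := by rw [hxr]; exact h.map _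
      exact (mem_maximalIdeal x).1 hx ((isUnit_pow_iff hq0).1 this)
    have hrS : algebraMap R S r ∈ maximalIdeal S := by
      rw [mem_maximalIdeal, mem_nonunits_iff]
      intro h
      exact (mem_maximalIdeal r).1 hrm (isUnit_of_map_unit (algebraMap R S) _ h)
    have hun : IsUnit (algebraMap R S r * s + 1) := by
      by_contra h
      have h1 : algebraMap R S r * s + 1 ∈ maximalIdeal S := (mem_maximalIdeal _).2 h
      have h2 : (1 : S) ∈ maximalIdeal S := by
        have : (1 : S) = (algebraMap R S r * s + 1) - algebraMap R S r * s := by ring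
        rw [this]
        exact sub_mem h1 (Ideal.mul_mem_right _ _ hrS)
      exact (maximalIdeal.isMaximal S).ne_top ((Ideal.eq_top_iff_one _).2 h2)
    have hpow : (algebraMap G (Tq ⊗[T] S) x * y + 1) ^ p ^ e =
        algebraMap S (Tq ⊗[T] S) (algebraMap R S r * s + 1) := by
      rw [add_pow_of_natCast_eq_zero p e hpSq, mul_pow, one_pow, hs, ← map_pow, hxr, map_add,
        map_one, map_mul]
      congr 2
      change (algebraMap G Tq (algebraMap R G r)) ⊗ₜ[T] (1 : S) = (1 : Tq) ⊗ₜ[T] algebraMap R S r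
      rw [← IsScalarTower.algebraMap_apply R G Tq, IsScalarTower.algebraMap_apply R T Tq,
        IsScalarTower.algebraMap_apply R T S]
      rw [Algebra.algebraMap_eq_smul_one (R := T) (A := Tq), TensorProduct.smul_tmul,
        Algebra.algebraMap_eq_smul_one (R := T) (A := S)]
    refine (isUnit_pow_iff hq0).1 ?_
    rw [hpow]
    exact hun.map _
  -- residue conditions
  have hle : (maximalIdeal R).map (algebraMap R G) ≤ maximalIdeal G := by
    rw [Ideal.map_le_iff_le_comap]
    intro r hr
    rw [Ideal.mem_comap, mem_maximalIdeal, mem_nonunits_iff]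
    intro h
    exact (mem_maximalIdeal r).1 hr (isUnit_of_map_unit (algebraMap R G) _ h)
  have hres1 : ∀ r : G, ∃ a : Fr p e A, r - algebraMap (Fr p e A) G a ∈ maximalIdeal G := by
    intro r
    obtain ⟨a, ha⟩ := exists_sub_mem_map (A := A) (A' := Fr p e A) (maximalIdeal R) hres r
    exact ⟨a, hle ha⟩
  -- the fibres
  have hcA : (maximalIdeal R).comap (algebraMap A R) = maximalIdeal A :=
    ((local_hom_TFAE (algebraMap A R)).out 0 4).1 hAR
  have hcA1 : (maximalIdeal G).comap (algebraMap (Fr p e A) G) = maximalIdeal (Fr p e A) :=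
    ((local_hom_TFAE (algebraMap (Fr p e A) G)).out 0 4).1 hA1G
  let ρ₁ : Fr p e A' →+* Fr p e B₀ :=
    ((Fr.of p e B₀ : B₀ →+* Fr p e B₀).comp ρ).comp
      ((Fr.of p e A').symm : Fr p e A' →+* A')
  have hρ₁ : Function.Surjective ρ₁ := hρ
  have hker₁ : RingHom.ker ρ₁ =
      (maximalIdeal (Fr p e A)).map (algebraMap (Fr p e A) (Fr p e A')) := hker
  have hcomp : ∀ a, algebraMap B₀ (Fr p e B₀) (ρ a) = ρ₁ (algebraMap A' (Fr p e A') a) := by
    intro a
    rw [Fr.algebraMap_self, Fr.algebraMap_self, map_pow]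
    rfl
  obtain ⟨_, htow, hfl⟩ := quot_flat (T := T) (Tq := Tq) (maximalIdeal R) (maximalIdeal G) hres
    hres1 hle ρ hρ (by rw [hcA]; exact hker) ρ₁ hρ₁ (by rw [hcA1]; exact hker₁)
    (algebraMap B₀ (Fr p e B₀)) hcomp ((RingHom.flat_algebraMap_iff).2 inferInstance)
  have hinj := rTensor_tensor_injective (T := T) (T' := Tq) (maximalIdeal R) (maximalIdeal G) S
  exact flat_of_maximal_rTensor_injective (maximalIdeal G) hjac hinj

/-- MAIN THEOREM, any model `Sq` of `T_q ⊗_T S`. -/
theorem flat_Sq (p e : ℕ) [Fact p.Prime] {A R A' T G Tq S Sq B₀ : Type u} [CommRing A]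
    [CommRing R] [CommRing A'] [CommRing T] [CommRing G] [CommRing Tq] [CommRing S] [CommRing B₀]
    [CommRing Sq] [CharP A p] [CharP R p] [CharP A' p] [CharP B₀ p]
    [Algebra A R] [Algebra A A'] [Algebra A T] [Algebra R T] [Algebra A' T]
    [IsScalarTower A R T] [IsScalarTower A A' T] [Algebra.IsPushout A R A' T]
    [Algebra A G] [Algebra R G] [Algebra (Fr p e A) G] [IsScalarTower A R G]
    [IsScalarTower A (Fr p e A) G] [Algebra.IsPushout A R (Fr p e A) G]
    [Algebra A' Tq] [Algebra T Tq] [Algebra (Fr p e A') Tq] [IsScalarTower A' T Tq]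
    [IsScalarTower A' (Fr p e A') Tq] [Algebra.IsPushout A' (Fr p e A') T Tq]
    [Algebra G Tq] [Algebra R Tq] [Algebra (Fr p e A) Tq] [IsScalarTower R T Tq]
    [IsScalarTower R G Tq] [IsScalarTower (Fr p e A) G Tq]
    [IsScalarTower (Fr p e A) (Fr p e A') Tq]
    [Algebra T S] [Algebra R S] [IsScalarTower R T S]
    [Algebra T Sq] [Algebra Tq Sq] [Algebra S Sq] [IsScalarTower T Tq Sq] [IsScalarTower T S Sq]
    [Algebra.IsPushout T Tq S Sq] [Algebra G Sq] [IsScalarTower G Tq Sq]
    [IsLocalRing A] [IsLocalRing R] [IsLocalRing S]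
    [IsNoetherianRing A] [IsNoetherianRing S] [Module.Finite A R] [Module.Finite A' (Fr p e A')]
    [Module.Flat A A'] [Module.Flat R S] [IsLocalHom (algebraMap R S)]
    (hres : ∀ r : R, ∃ a : A, r - algebraMap A R a ∈ maximalIdeal R)
    (ρ : A' →+* B₀) (hρ : Function.Surjective ρ)
    (hker : RingHom.ker ρ = (maximalIdeal A).map (algebraMap A A'))
    [Module.Flat B₀ (Fr p e B₀)] : Module.Flat G Sq := by
  have := flat_tensor p e (T := T) (Tq := Tq) (G := G) (S := S) hres ρ hρ hker
  exact Module.Flat.of_linearEquiv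
    ((Algebra.IsPushout.equiv T Tq S Sq).toLinearEquiv.symm.restrictScalars G)

end six

end Crest.Agent.R183.Ins
end

-- ▼ part R183/PI4
section

set_option autoImplicit false
set_option linter.unusedSectionVars false

namespace Crest.Agent.R183.PI

open Module TensorProduct Crest.Agent.R183.RD Crest.Agent.R183.Ins IsLocalRing

universe u

section exists_pushout

/-- pushouts exist. -/
theorem exists_pushout (A R B : Type u) [CommRing A] [CommRing R] [CommRing B] [Algebra A R]
    [Algebra A B] : ∃ (T : Type u) (_ : CommRing T) (_ : Algebra A T) (_ : Algebra R T)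
      (_ : Algebra B T) (_ : IsScalarTower A R T) (_ : IsScalarTower A B T),
      Algebra.IsPushout A R B T := by
  let _ : Algebra B (R ⊗[A] B) := Algebra.TensorProduct.rightAlgebra
  exact ⟨R ⊗[A] B, inferInstance, inferInstance, inferInstance, inferInstance, inferInstance,
    inferInstance, inferInstance⟩

/-- equality on a pushout -/
theorem pushout_ext {A R B T E : Type*} [CommRing A] [CommRing R] [CommRing B] [CommRing T]
    [CommRing E] [Algebra A R] [Algebra A B] [Algebra A T] [Algebra R T] [Algebra B T]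
    [IsScalarTower A R T] [IsScalarTower A B T] [Algebra.IsPushout A R B T] (f g : T →+* E)
    (h1 : ∀ r, f (algebraMap R T r) = g (algebraMap R T r))
    (h2 : ∀ b, f (algebraMap B T b) = g (algebraMap B T b)) (x : T) : f x = g x := by
  refine pushout_induction (A := A) (R := R) (A' := B) x (P := fun x => f x = g x) ?_ ?_ ?_
  · rw [map_zero, map_zero]
  · intro x y hx hy; rw [map_add, map_add, hx, hy]
  · intro r b; rw [map_mul, map_mul, h1, h2]

/-- descent, pointwise form. -/
theorem exists_desc' (A R A' T : Type*) [CommRing A] [CommRing R] [CommRing A'] [CommRing T]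
    [Algebra A R] [Algebra A A'] [Algebra A T] [Algebra R T] [Algebra A' T]
    [IsScalarTower A R T] [IsScalarTower A A' T] [Algebra.IsPushout A R A' T]
    {E : Type*} [CommRing E] (f : R →+* E) (g : A' →+* E)
    (h : ∀ a : A, f (algebraMap A R a) = g (algebraMap A A' a)) :
    ∃ χ : T →+* E, (∀ r, χ (algebraMap R T r) = f r) ∧ ∀ a, χ (algebraMap A' T a) = g a := by
  obtain ⟨χ, h1, h2⟩ := exists_desc A R A' T f g (RingHom.ext h)
  exact ⟨χ, fun r => congrArg (fun k : R →+* E => k r) h1,
    fun r => congrArg (fun k : A' →+* E => k r) h2⟩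

end exists_pushout

section main

variable {A R A' T S A1 A1' R1 G : Type u}
  [CommRing A] [CommRing R] [CommRing A'] [CommRing T] [CommRing S] [CommRing A1] [CommRing A1']
  [CommRing R1] [CommRing G]
  [Algebra A R] [Algebra A A'] [Algebra A T] [Algebra R T] [Algebra A' T] [IsScalarTower A R T]
  [IsScalarTower A A' T] [Algebra.IsPushout A R A' T]
  [Algebra A A1] [Algebra A' A1'] [Algebra A A1'] [Algebra A1 A1'] [IsScalarTower A A' A1']
  [IsScalarTower A A1 A1']
  [Algebra A R1] [Algebra R R1] [Algebra A1 R1] [IsScalarTower A R R1] [IsScalarTower A A1 R1]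
  [Algebra A G] [Algebra R G] [Algebra A1 G] [IsScalarTower A R G] [IsScalarTower A A1 G]
  [Algebra.IsPushout A R A1 G]
  [Algebra G R1] [IsScalarTower R G R1] [IsScalarTower A1 G R1]
  [Algebra T S]

include A R in
/-- The rings `T1`, `S1` and the rank equation, abstract form. -/
theorem insep_rings_aux
    (hflat : ∀ (Tq Sq : Type u) [CommRing Tq] [CommRing Sq]
      [Algebra A' Tq] [Algebra T Tq] [Algebra A1' Tq] [IsScalarTower A' T Tq]
      [IsScalarTower A' A1' Tq] [Algebra.IsPushout A' A1' T Tq]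
      [Algebra G Tq] [Algebra R Tq] [Algebra A1 Tq] [IsScalarTower R T Tq]
      [IsScalarTower R G Tq] [IsScalarTower A1 G Tq] [IsScalarTower A1 A1' Tq]
      [Algebra T Sq] [Algebra Tq Sq] [Algebra S Sq] [IsScalarTower T Tq Sq] [IsScalarTower T S Sq]
      [Algebra.IsPushout T Tq S Sq] [Algebra G Sq] [IsScalarTower G Tq Sq], Module.Flat G Sq)
    [Module.Flat A1 A1'] [IsNoetherianRing G] [IsDomain R1]
    (hsurj : Function.Surjective (algebraMap G R1))
    (hnil : ∀ x, algebraMap G R1 x = 0 → IsNilpotent x)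
    [IsDomain A'] [Module.Finite A' T] [Module.Finite A' A1'] [Module.Free A' A1']
    [Nontrivial A1'] :
    ∃ (T1 : Type u) (_ : CommRing T1) (_ : Algebra A1 T1) (_ : Algebra R1 T1)
      (_ : Algebra A1' T1) (_ : IsScalarTower A1 R1 T1) (_ : IsScalarTower A1 A1' T1)
      (_ : Algebra.IsPushout A1 R1 A1' T1)
      (_ : Algebra A' T1) (_ : IsScalarTower A' A1' T1)
      (_ : Algebra T T1) (_ : IsScalarTower A' T T1)
      (S1 : Type u) (_ : CommRing S1) (_ : Algebra T1 S1) (_ : Algebra S S1)
      (_ : Algebra T S1) (_ : IsScalarTower T T1 S1) (_ : IsScalarTower T S S1)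
      (_ : Algebra.IsPushout T T1 S S1)
      (_ : Algebra R1 S1) (_ : IsScalarTower R1 T1 S1),
      Module.Flat R1 T1 ∧ Module.Flat R1 S1 ∧ Module.Finite A' T1 ∧ Module.Finite S S1 ∧
      ∀ (Q : Type u) [CommRing Q] [IsDomain Q] [Algebra Q S] [Module.Finite Q S]
        [Algebra Q S1] [IsScalarTower Q S S1],
        finrank A' T * finrank Q S1 = finrank Q S * finrank A' T1 := by
  have tow : ∀ {X Y Z : Type u} [CommRing X] [CommRing Y] [CommRing Z] [Algebra X Y] [Algebra Y Z]
      [Algebra X Z] [IsScalarTower X Y Z] (x : X),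
      algebraMap Y Z (algebraMap X Y x) = algebraMap X Z x := fun x =>
    (IsScalarTower.algebraMap_apply _ _ _ x).symm
  -- `Tq`
  obtain ⟨Tq, _, _, _, _, _, _, _⟩ := exists_pushout A' T A1'
  let iRTq : Algebra R Tq := ((algebraMap T Tq).comp (algebraMap R T)).toAlgebra
  have tRTTq : IsScalarTower R T Tq := IsScalarTower.of_algebraMap_eq fun x => rfl
  let iATq : Algebra A Tq := ((algebraMap T Tq).comp (algebraMap A T)).toAlgebra
  have tATTq : IsScalarTower A T Tq := IsScalarTower.of_algebraMap_eq fun x => rfl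
  have tARTq : IsScalarTower A R Tq := IsScalarTower.of_algebraMap_eq fun x => by
    rw [← tow (Y := T) (Z := Tq), ← tow (X := R) (Y := T) (Z := Tq), tow (X := A) (Y := R)]
  have tAA'Tq : IsScalarTower A A' Tq := IsScalarTower.of_algebraMap_eq fun x => by
    rw [← tow (Y := T) (Z := Tq), ← tow (X := A') (Y := T) (Z := Tq), tow (X := A) (Y := A')]
  let iA1Tq : Algebra A1 Tq := ((algebraMap A1' Tq).comp (algebraMap A1 A1')).toAlgebra
  have tA1A1'Tq : IsScalarTower A1 A1' Tq := IsScalarTower.of_algebraMap_eq fun x => rfl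
  have tAA1'Tq : IsScalarTower A A1' Tq := IsScalarTower.of_algebraMap_eq fun x => by
    rw [← tow (X := A) (Y := A') (Z := Tq), ← tow (X := A') (Y := A1') (Z := Tq),
      tow (X := A) (Y := A')]
  have tAA1Tq : IsScalarTower A A1 Tq := IsScalarTower.of_algebraMap_eq fun x => by
    rw [← tow (X := A) (Y := A1') (Z := Tq), ← tow (X := A1) (Y := A1') (Z := Tq),
      tow (X := A) (Y := A1)]
  -- `G → Tq`
  obtain ⟨χG, hχG1, hχG2⟩ := exists_desc' A R A1 G (algebraMap R Tq) (algebraMap A1 Tq)
    (fun a => by rw [tow, tow])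
  let iGTq : Algebra G Tq := χG.toAlgebra
  have tRGTq : IsScalarTower R G Tq := IsScalarTower.of_algebraMap_eq fun x => (hχG1 x).symm
  have tA1GTq : IsScalarTower A1 G Tq := IsScalarTower.of_algebraMap_eq fun x => (hχG2 x).symm
  have tAGTq : IsScalarTower A G Tq := IsScalarTower.of_algebraMap_eq fun x => by
    rw [← tow (X := A) (Y := R) (Z := G), tow (X := R) (Y := G), tow (X := A) (Y := R)]
  -- pushouts
  have po1 : Algebra.IsPushout A A' R T := Algebra.IsPushout.symm inferInstance
  have po2 : Algebra.IsPushout A' A1' T Tq := Algebra.IsPushout.symm inferInstance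
  have po3 : Algebra.IsPushout A A1' R Tq :=
    (Algebra.IsPushout.comp_iff A A' R (S' := T) (T := A1') (T' := Tq)).2 po2
  have po4 : Algebra.IsPushout A A1 R G := Algebra.IsPushout.symm inferInstance
  have po5 : Algebra.IsPushout A1 A1' G Tq :=
    (Algebra.IsPushout.comp_iff A A1 R (S' := G) (T := A1') (T' := Tq)).1 po3
  have po6 : Algebra.IsPushout A1 G A1' Tq := po5.symm
  have flTq : Module.Flat G Tq := pushout_flat A1 G A1' Tq
  -- `T1`
  obtain ⟨T1, _, _, _, _, _, _, po7⟩ := exists_pushout A1 R1 A1'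
  let iA'T1 : Algebra A' T1 := ((algebraMap A1' T1).comp (algebraMap A' A1')).toAlgebra
  have tA'A1'T1 : IsScalarTower A' A1' T1 := IsScalarTower.of_algebraMap_eq fun x => rfl
  let iRT1 : Algebra R T1 := ((algebraMap R1 T1).comp (algebraMap R R1)).toAlgebra
  have tRR1T1 : IsScalarTower R R1 T1 := IsScalarTower.of_algebraMap_eq fun x => rfl
  obtain ⟨χT, hχT1, hχT2⟩ := exists_desc' A R A' T (algebraMap R T1) (algebraMap A' T1)
    (fun a => by
      rw [← tow (X := R) (Y := R1) (Z := T1), tow (X := A) (Y := R), ← tow (X := A) (Y := A1),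
        tow (X := A1) (Y := R1), ← tow (X := A') (Y := A1') (Z := T1), tow (X := A) (Y := A'),
        ← tow (X := A) (Y := A1) (Z := A1'), tow (X := A1) (Y := A1')])
  let iTT1 : Algebra T T1 := χT.toAlgebra
  have tRTT1 : IsScalarTower R T T1 := IsScalarTower.of_algebraMap_eq fun x => (hχT1 x).symm
  have tA'TT1 : IsScalarTower A' T T1 := IsScalarTower.of_algebraMap_eq fun x => (hχT2 x).symm
  obtain ⟨χTq, hχTq1, hχTq2⟩ := exists_desc' A' T A1' Tq (algebraMap T T1) (algebraMap A1' T1)
    (fun a => by rw [tow, tow])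
  let iTqT1 : Algebra Tq T1 := χTq.toAlgebra
  have tTTqT1 : IsScalarTower T Tq T1 := IsScalarTower.of_algebraMap_eq fun x => (hχTq1 x).symm
  have tA1'TqT1 : IsScalarTower A1' Tq T1 :=
    IsScalarTower.of_algebraMap_eq fun x => (hχTq2 x).symm
  have tA'TqT1 : IsScalarTower A' Tq T1 := IsScalarTower.of_algebraMap_eq fun x => by
    rw [← tow (X := A') (Y := T) (Z := T1), ← tow (X := T) (Y := Tq) (Z := T1),
      tow (X := A') (Y := T) (Z := Tq)]
  have tA1TqT1 : IsScalarTower A1 Tq T1 := IsScalarTower.of_algebraMap_eq fun x => by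
    rw [← tow (X := A1) (Y := A1') (Z := T1), ← tow (X := A1') (Y := Tq) (Z := T1),
      tow (X := A1) (Y := A1') (Z := Tq)]
  have tRTqT1 : IsScalarTower R Tq T1 := IsScalarTower.of_algebraMap_eq fun x => by
    rw [← tow (X := R) (Y := T) (Z := T1), ← tow (X := T) (Y := Tq) (Z := T1),
      tow (X := R) (Y := T) (Z := Tq)]
  let iGT1 : Algebra G T1 := ((algebraMap R1 T1).comp (algebraMap G R1)).toAlgebra
  have tGR1T1 : IsScalarTower G R1 T1 := IsScalarTower.of_algebraMap_eq fun x => rfl
  have tGTqT1 : IsScalarTower G Tq T1 := IsScalarTower.of_algebraMap_eq fun x => by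
    refine pushout_ext (A := A) (R := R) (B := A1) (algebraMap G T1)
      ((algebraMap Tq T1).comp (algebraMap G Tq)) ?_ ?_ x
    · intro r
      rw [RingHom.comp_apply, tow (X := R) (Y := G) (Z := Tq), tow (X := R) (Y := Tq) (Z := T1),
        ← tow (X := G) (Y := R1) (Z := T1), tow (X := R) (Y := G) (Z := R1),
        tow (X := R) (Y := R1) (Z := T1)]
    · intro a
      rw [RingHom.comp_apply, tow (X := A1) (Y := G) (Z := Tq), tow (X := A1) (Y := Tq) (Z := T1),
        ← tow (X := G) (Y := R1) (Z := T1), tow (X := A1) (Y := G) (Z := R1),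
        tow (X := A1) (Y := R1) (Z := T1)]
  have po8 : Algebra.IsPushout G R1 Tq T1 :=
    (Algebra.IsPushout.comp_iff A1 G A1' (S' := Tq) (T := R1) (T' := T1)).1 po7
  -- `Sq`
  obtain ⟨Sq, _, _, _, _, _, _, po9⟩ := exists_pushout T Tq S
  let iGSq : Algebra G Sq := ((algebraMap Tq Sq).comp (algebraMap G Tq)).toAlgebra
  have tGTqSq : IsScalarTower G Tq Sq := IsScalarTower.of_algebraMap_eq fun x => rfl
  have flSq : Module.Flat G Sq := hflat Tq Sq
  -- `S1`
  obtain ⟨S1, _, _, _, _, _, _, po10⟩ := exists_pushout Tq T1 Sq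
  let iTS1 : Algebra T S1 := ((algebraMap T1 S1).comp (algebraMap T T1)).toAlgebra
  have tTT1S1 : IsScalarTower T T1 S1 := IsScalarTower.of_algebraMap_eq fun x => rfl
  have tTTqS1 : IsScalarTower T Tq S1 := IsScalarTower.of_algebraMap_eq fun x => by
    rw [← tow (X := T) (Y := T1) (Z := S1), ← tow (X := T) (Y := Tq) (Z := T1),
      tow (X := Tq) (Y := T1) (Z := S1)]
  have tTSqS1 : IsScalarTower T Sq S1 := IsScalarTower.of_algebraMap_eq fun x => by
    rw [← tow (X := T) (Y := Tq) (Z := S1), ← tow (X := Tq) (Y := Sq) (Z := S1),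
      tow (X := T) (Y := Tq) (Z := Sq)]
  let iSS1 : Algebra S S1 := ((algebraMap Sq S1).comp (algebraMap S Sq)).toAlgebra
  have tSSqS1 : IsScalarTower S Sq S1 := IsScalarTower.of_algebraMap_eq fun x => rfl
  have tTSS1 : IsScalarTower T S S1 := IsScalarTower.of_algebraMap_eq fun x => by
    rw [← tow (X := S) (Y := Sq) (Z := S1), tow (X := T) (Y := S) (Z := Sq),
      tow (X := T) (Y := Sq) (Z := S1)]
  have po11 : Algebra.IsPushout T T1 S S1 :=
    (Algebra.IsPushout.comp_iff T Tq S (S' := Sq) (T := T1) (T' := S1)).2 po10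
  let iR1S1 : Algebra R1 S1 := ((algebraMap T1 S1).comp (algebraMap R1 T1)).toAlgebra
  have tR1T1S1 : IsScalarTower R1 T1 S1 := IsScalarTower.of_algebraMap_eq fun x => rfl
  let iGS1 : Algebra G S1 := ((algebraMap R1 S1).comp (algebraMap G R1)).toAlgebra
  have tGR1S1 : IsScalarTower G R1 S1 := IsScalarTower.of_algebraMap_eq fun x => rfl
  have tGT1S1 : IsScalarTower G T1 S1 := IsScalarTower.of_algebraMap_eq fun x => by
    rw [← tow (X := G) (Y := R1) (Z := S1), ← tow (X := R1) (Y := T1) (Z := S1),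
      tow (X := G) (Y := R1) (Z := T1)]
  have tGSqS1 : IsScalarTower G Sq S1 := IsScalarTower.of_algebraMap_eq fun x => by
    rw [← tow (X := G) (Y := T1) (Z := S1), ← tow (X := G) (Y := Tq) (Z := T1),
      tow (X := Tq) (Y := T1) (Z := S1), ← tow (X := Tq) (Y := Sq) (Z := S1),
      tow (X := G) (Y := Tq) (Z := Sq)]
  have po12 : Algebra.IsPushout G Tq R1 T1 := po8.symm
  have po13 : Algebra.IsPushout Tq Sq T1 S1 := po10.symm
  have po14 : Algebra.IsPushout G Sq R1 S1 :=
    (Algebra.IsPushout.comp_iff G Tq R1 (S' := T1) (T := Sq) (T' := S1)).2 po13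
  have po15 : Algebra.IsPushout G R1 Sq S1 := po14.symm
  have flT1 : Module.Flat R1 T1 := pushout_flat A1 R1 A1' T1
  have flS1 : Module.Flat R1 S1 := pushout_flat G R1 Sq S1
  -- finiteness
  have fin1 : Module.Finite A1' Tq := pushout_finite A' T A1' Tq
  have fin2 : Module.Finite A' Tq := Module.Finite.trans A1' Tq
  have fin3 : Module.Finite T Tq := pushout_finite A' A1' T Tq
  have fin4 : Module.Finite S Sq := pushout_finite T Tq S Sq
  have sur1 : Function.Surjective (algebraMap Tq T1) :=
    (ker_pushout (T := G) (S := R1) (T1 := Tq) (S1 := T1) hsurj).1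
  have sur2 : Function.Surjective (algebraMap Sq S1) :=
    (ker_pushout (T := G) (S := R1) (T1 := Sq) (S1 := S1) hsurj).1
  have fin5 : Module.Finite A' T1 :=
    Module.Finite.of_surjective (IsScalarTower.toAlgHom A' Tq T1).toLinearMap sur1
  have fin6 : Module.Finite S S1 :=
    Module.Finite.of_surjective (IsScalarTower.toAlgHom S Sq S1).toLinearMap sur2
  -- bases
  have hA' : Nontrivial A' := inferInstance
  let b0 := Module.Free.chooseBasis A' A1'
  let b : Basis _ T Tq := IsBaseChange.basis b0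
    (Algebra.IsPushout.out (R := A') (S := T) (R' := A1') (S' := Tq))
  have hcard : 0 < Fintype.card (Module.Free.ChooseBasisIndex A' A1') := by
    rw [Fintype.card_pos_iff]
    exact b0.index_nonempty
  refine ⟨T1, inferInstance, inferInstance, inferInstance, inferInstance, inferInstance,
    inferInstance, po7, iA'T1, tA'A1'T1, iTT1, tA'TT1, S1, inferInstance, inferInstance, iSS1,
    iTS1, tTT1S1, tTSS1, po11, iR1S1, tR1T1S1, flT1, flS1, fin5, fin6, ?_⟩
  intro Q _ _ _ _ _ _
  let iQSq : Algebra Q Sq := ((algebraMap S Sq).comp (algebraMap Q S)).toAlgebra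
  have tQSSq : IsScalarTower Q S Sq := IsScalarTower.of_algebraMap_eq fun x => rfl
  have tQSqS1 : IsScalarTower Q Sq S1 := IsScalarTower.of_algebraMap_eq fun x => by
    rw [← tow (X := Q) (Y := S) (Z := S1), ← tow (X := S) (Y := Sq) (Z := S1),
      tow (X := Q) (Y := S) (Z := Sq)]
  have fin7 : Module.Finite Q Sq := Module.Finite.trans S Sq
  have h1 := rank_lemma_pushout (G := G) (R1 := R1) (Q := A') (H := Tq) (H1 := T1) (Q' := Q)
    (H' := Sq) (H1' := S1) hsurj hnil
  have po16 : Algebra.IsPushout T S Tq Sq := po9.symm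
  rw [finrank_of_basis (Q := A') b, finrank_of_isPushout (Q := Q) (S := S) (Sq := Sq) b,
    mul_assoc, mul_assoc] at h1
  exact Nat.eq_of_mul_eq_mul_left hcard h1

end main

section concrete

/-- **The rings `T1`, `S1` of INSEP and the rank equation.** -/
theorem insep_rings (p e : ℕ) [Fact p.Prime] {A R A' T S B₀ : Type u} [CommRing A]
    [CommRing R] [CommRing A'] [CommRing T] [CommRing S] [CommRing B₀]
    [CharP A p] [CharP R p] [CharP A' p] [CharP B₀ p]
    [Algebra A R] [Algebra A A'] [Algebra A T] [Algebra R T] [Algebra A' T]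
    [IsScalarTower A R T] [IsScalarTower A A' T] [Algebra.IsPushout A R A' T]
    [Algebra T S] [Algebra R S] [IsScalarTower R T S]
    [IsLocalRing A] [IsLocalRing R] [IsLocalRing S] [IsDomain R] [IsDomain A']
    [IsNoetherianRing A] [IsNoetherianRing S] [Module.Finite A R]
    [Module.Finite A' (Fr p e A')] [Module.Free A' (Fr p e A')]
    [Module.Flat A A'] [Module.Flat R S] [IsLocalHom (algebraMap R S)]
    (hres : ∀ r : R, ∃ a : A, r - algebraMap A R a ∈ maximalIdeal R)
    (ρ : A' →+* B₀) (hρ : Function.Surjective ρ)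
    (hker : RingHom.ker ρ = (maximalIdeal A).map (algebraMap A A'))
    [Module.Flat B₀ (Fr p e B₀)] :
    ∃ (T1 : Type u) (_ : CommRing T1) (_ : Algebra (Fr p e A) T1)
      (_ : Algebra (RR p e A R) T1) (_ : Algebra (Fr p e A') T1)
      (_ : IsScalarTower (Fr p e A) (RR p e A R) T1)
      (_ : IsScalarTower (Fr p e A) (Fr p e A') T1)
      (_ : Algebra.IsPushout (Fr p e A) (RR p e A R) (Fr p e A') T1)
      (_ : Algebra A' T1) (_ : IsScalarTower A' (Fr p e A') T1)
      (_ : Algebra T T1) (_ : IsScalarTower A' T T1)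
      (S1 : Type u) (_ : CommRing S1) (_ : Algebra T1 S1) (_ : Algebra S S1)
      (_ : Algebra T S1) (_ : IsScalarTower T T1 S1) (_ : IsScalarTower T S S1)
      (_ : Algebra.IsPushout T T1 S S1)
      (_ : Algebra (RR p e A R) S1) (_ : IsScalarTower (RR p e A R) T1 S1),
      Module.Flat (RR p e A R) T1 ∧ Module.Flat (RR p e A R) S1 ∧ Module.Finite A' T1 ∧
      Module.Finite S S1 ∧
      ∀ (Q : Type u) [CommRing Q] [IsDomain Q] [Algebra Q S] [Module.Finite Q S]
        [Algebra Q S1] [IsScalarTower Q S S1],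
        finrank A' T * finrank Q S1 = finrank Q S * finrank A' T1 := by
  let _ : Algebra (Fr p e A) (R ⊗[A] Fr p e A) := Algebra.TensorProduct.rightAlgebra
  let _ : Algebra (R ⊗[A] Fr p e A) (RR p e A R) := (RR.prod p e A R).toRingHom.toAlgebra
  have hprod : ∀ x, algebraMap (R ⊗[A] Fr p e A) (RR p e A R) x = RR.prod p e A R x :=
    fun x => rfl
  have _ : IsScalarTower R (R ⊗[A] Fr p e A) (RR p e A R) :=
    IsScalarTower.of_algebraMap_eq fun r => by
      rw [hprod, Algebra.TensorProduct.algebraMap_apply, RR.prod_tmul, map_one, mul_one]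
      rfl
  have _ : IsScalarTower (Fr p e A) (R ⊗[A] Fr p e A) (RR p e A R) :=
    IsScalarTower.of_algebraMap_eq fun r => by
      rw [hprod]
      show _ = RR.prod p e A R (1 ⊗ₜ r)
      rw [RR.prod_tmul, map_one, one_mul]
  have _ : Module.Flat (Fr p e A) (Fr p e A') := inferInstanceAs (Module.Flat A A')
  have _ : Module.Finite (Fr p e A) (R ⊗[A] Fr p e A) :=
    pushout_finite A R (Fr p e A) (R ⊗[A] Fr p e A)
  have _ : IsNoetherianRing (R ⊗[A] Fr p e A) :=
    IsNoetherianRing.of_finite (Fr p e A) (R ⊗[A] Fr p e A)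
  have _ : Nontrivial (Fr p e A') := inferInstanceAs (Nontrivial A')
  have _ : Module.Finite A' T := pushout_finite A R A' T
  exact insep_rings_aux (A := A) (R := R) (A' := A') (T := T) (S := S) (A1 := Fr p e A)
    (A1' := Fr p e A') (R1 := RR p e A R) (G := R ⊗[A] Fr p e A)
    (fun Tq Sq => by
      intros
      exact flat_Sq p e (A := A) (R := R) (A' := A') (T := T) (G := R ⊗[A] Fr p e A) (Tq := Tq)
        (S := S) (Sq := Sq) hres ρ hρ hker)
    (RR.prod_surjective p e A R)
    (fun x hx => ⟨p ^ e, RR.pow_eq_zero p e A R x hx⟩)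

end concrete

end Crest.Agent.R183.PI
end

-- ▼ part R183/PC5
section

set_option autoImplicit false
set_option linter.unusedSectionVars false

namespace Crest.Agent.R183.PC

open Module TensorProduct Crest.Agent.R183.Glue Crest.Agent.R183.BInf
open TrData (mu mu_tmul)

universe u

section regL

variable {A : Type*} [CommRing A]

/-- `RegL` passes to flat modules. -/
theorem regL_of_flat {M : Type*} [AddCommGroup M] [Module A M] [Module.Flat A M] (l : List A)
    (h : RegL A l) : RegL M l := by
  induction l with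
  | nil => trivial
  | cons y l ih =>
    refine ⟨ih h.1, ?_⟩
    intro m hm
    set I : Ideal A := Ideal.span {y | y ∈ l} with hI
    have h2 : ∀ a : A, y * a ∈ I → a ∈ I := by
      intro a ha
      have h3 := h.2 a
      rw [smul_eq_mul, smul_eq_mul, Ideal.mul_top] at h3
      exact h3 ha
    -- write `y • m` as a finite combination
    have h4 : ∀ z ∈ I • (⊤ : Submodule A M), ∃ (n : ℕ) (a : Fin n → A) (v : Fin n → M),
        (∀ i, a i ∈ I) ∧ z = ∑ i, a i • v i := by
      intro z hz
      induction hz using Submodule.smul_induction_on' with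
      | smul r hr x hx => exact ⟨1, fun _ => r, fun _ => x, fun _ => hr, by simp⟩
      | add x hx x' hx' h1 h2 =>
        obtain ⟨n, a, v, ha, hs⟩ := h1
        obtain ⟨n', a', v', ha', hs'⟩ := h2
        refine ⟨n + n', Fin.append a a', Fin.append v v', ?_, ?_⟩
        · intro i
          refine Fin.addCases (fun i => ?_) (fun i => ?_) i
          · rw [Fin.append_left]; exact ha i
          · rw [Fin.append_right]; exact ha' i
        · rw [Fin.sum_univ_add, hs, hs']
          simp [Fin.append_left, Fin.append_right]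
    obtain ⟨n, a, v, ha, hs⟩ := h4 _ hm
    let f : Fin (n + 1) → A := Fin.cons y (fun i => - a i)
    let x : Fin (n + 1) → M := Fin.cons m v
    have hrel : ∑ i, f i • x i = 0 := by
      rw [Fin.sum_univ_succ]
      simp only [f, x, Fin.cons_zero, Fin.cons_succ, neg_smul, Finset.sum_neg_distrib]
      rw [hs, add_neg_cancel]
    obtain ⟨κ, b, z, hxz, hb⟩ := (Module.Flat.isTrivialRelation_of_sum_smul_eq_zero hrel)
    have hm0 : m = ∑ j, b 0 j • z j := hxz 0
    rw [hm0]
    refine Submodule.sum_mem _ fun j _ => Submodule.smul_mem_smul ?_ trivial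
    apply h2
    have h5 := hb j
    rw [Fin.sum_univ_succ] at h5
    simp only [f, Fin.cons_zero, Fin.cons_succ, neg_mul, Finset.sum_neg_distrib] at h5
    rw [add_neg_eq_zero] at h5
    rw [h5]
    exact Ideal.sum_mem _ fun i _ => Ideal.mul_mem_right _ _ (ha i)

/-- `RegL` does not depend on the ring. -/
theorem regL_map_up {A B : Type*} [CommRing A] [CommRing B] [Algebra A B] {X : Type*}
    [AddCommGroup X] [Module A X] [Module B X] [IsScalarTower A B X] (l : List A)
    (h : RegL X l) : RegL X (l.map (algebraMap A B)) := by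
  induction l with
  | nil => trivial
  | cons x l ih =>
    refine ⟨ih h.1, ?_⟩
    intro m hm
    have e : Ideal.span {y | y ∈ l.map (algebraMap A B)} =
        (Ideal.span {y | y ∈ l}).map (algebraMap A B) := by
      rw [Ideal.map_span]
      congr 1
      ext y
      simp [List.mem_map]
    have key : ∀ m : X, m ∈ (Ideal.span {y | y ∈ l.map (algebraMap A B)} • (⊤ : Submodule B X)) ↔
        m ∈ (Ideal.span {y | y ∈ l} • (⊤ : Submodule A X)) := by
      intro m
      rw [e]
      have h := Ideal.smul_restrictScalars (Ideal.span {y | y ∈ l}) (⊤ : Submodule B X)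
      rw [Submodule.restrictScalars_top] at h
      rw [← h, Submodule.restrictScalars_mem]
    have hm' : (algebraMap A B x) • m ∈
        (Ideal.span {y | y ∈ l.map (algebraMap A B)} • (⊤ : Submodule B X)) := hm
    rw [key, algebraMap_smul] at hm'
    exact (key m).2 (h.2 m hm')

end regL

section stage

variable {p : ℕ} [Fact p.Prime]
variable {T B : Type u} (W Bi : Type u) [CommRing T] [CommRing B] [CommRing W]
  [CommRing Bi] [CharP T p] [CharP B p] [CharP W p] [CharP Bi p] [PerfectRing W p]
  [PerfectRing Bi p] [Algebra T W] [Algebra B Bi] [IsPRadical (algebraMap T W) p]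
  [IsPRadical (algebraMap B Bi) p] [Algebra B T] [Algebra Bi W] [Algebra B W]
  [IsScalarTower B Bi W] [IsScalarTower B T W]

include W in
/-- **The characteristic `p` stage** (abstract perfect closures). -/
theorem exists_stage_aux (D : TrData p B T) (hδ : ∀ t : T, D.δ • t = 0 → t = 0)
    {n : ℕ} (t : Fin n → B) (ht : ∀ k : ℕ, 0 < k → RegL B ((List.ofFn t).map (· ^ k)))
    (hflat : Module.Flat B Bi) (w : Fin n → T) (𝔞 : Ideal T) (c : ℕ)
    (h𝔞 : 𝔞 ^ (c + 1) ≤ Ideal.span (Set.range w) * 𝔞 ^ c) (e : ℕ) (he : c < p ^ e) :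
    Nonempty (Core.Stage T (T ⊗[B] Bi) w (fun i => algebraMap B T (t i))
      (algebraMap B T (D.δ ^ 2)) 𝔞 (p ^ e) (p ^ e - c)) := by
  let _ : Algebra (T ⊗[B] Bi) W := (mu W Bi).toRingHom.toAlgebra
  have hmu : ∀ s : T ⊗[B] Bi, algebraMap (T ⊗[B] Bi) W s = mu W Bi s := fun s => rfl
  have hT : ∀ x : T, algebraMap (T ⊗[B] Bi) W (algebraMap T (T ⊗[B] Bi) x) = algebraMap T W x := by
    intro x
    rw [hmu, Algebra.TensorProduct.algebraMap_apply, mu_tmul, map_one, mul_one]
    rfl
  have hB : ∀ b : B, algebraMap (T ⊗[B] Bi) W (algebraMap T (T ⊗[B] Bi) (algebraMap B T b)) =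
      algebraMap Bi W (algebraMap B Bi b) := by
    intro b
    rw [hT, ← IsScalarTower.algebraMap_apply, IsScalarTower.algebraMap_apply B Bi W]
  have hdl0 : ∀ x : W, algebraMap Bi W (algebraMap B Bi D.δ) * x = 0 → x = 0 := by
    intro x hx
    apply D.dl_reg W Bi hδ 0 x
    rw [D.dl_zero Bi]
    exact hx
  have hflatX : Module.Flat B (D.X W Bi) := by
    have h1 := D.flat_X W Bi hδ
    exact Module.Flat.trans B Bi (D.X W Bi)
  refine ⟨{
    C := W
    X := D.X W Bi
    Y := fun i => rt p e (algebraMap T W (w i))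
    hY := ?_
    c := 1
    hc := one_pos
    x := fun _ => ⟨algebraMap Bi W (algebraMap B Bi D.δ), 0, by rw [D.dl_zero Bi]⟩
    hΔ := ?_
    hker := ?_
    reg := ?_
    amp := ?_ }⟩
  · intro i
    rw [rt_pow, hT]
  · intro y
    obtain ⟨s, hs⟩ := D.exists_mu_eq W Bi (y : W)
    refine ⟨fun _ => s, ?_⟩
    apply Subtype.ext
    rw [Fin.sum_univ_one, hB, hmu, hs]
    simp only [SetLike.val_smul, smul_eq_mul, map_pow]
    ring
  · intro v hv i
    rw [Fin.sum_univ_one] at hv
    have hv' := congrArg Subtype.val hv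
    simp only [SetLike.val_smul, smul_eq_mul, ZeroMemClass.coe_zero] at hv'
    rw [mul_comm] at hv'
    have h1 := hdl0 _ hv'
    have h2 := D.smul_eq_zero_of_mu_eq_zero W Bi (v 0) h1
    have hi : i = 0 := Subsingleton.elim _ _
    rw [hi]
    have h3 : algebraMap T (T ⊗[B] Bi) (algebraMap B T D.δ) * v 0 = D.δ • v 0 := by
      rw [Algebra.smul_def, IsScalarTower.algebraMap_apply B T (T ⊗[B] Bi)]
    rw [map_pow, map_pow, pow_two, mul_assoc, h3, h2, mul_zero]
  · intro k hk
    have h1 : RegL (D.X W Bi) ((List.ofFn t).map (· ^ k)) := regL_of_flat _ (ht k hk)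
    have h2 := regL_map_up (B := W) _ h1
    convert h2 using 1
    rw [List.map_ofFn, List.map_ofFn, List.map_ofFn]
    congr 1
    funext i
    simp only [Function.comp_apply]
    rw [hT, map_pow, ← IsScalarTower.algebraMap_apply]
  · intro a ha y
    rw [hT]
    refine Submodule.smul_mem_smul ?_ trivial
    refine amplifier (W := W) 𝔞 w c h𝔞 e (p ^ e - c) (by omega) ?_
    exact Ideal.mem_map_of_mem _ ha

end stage

section stageBInf

variable {p : ℕ} [hp : Fact p.Prime]
variable {T B : Type u} [CommRing T] [CommRing B] [CharP T p] [CharP B p] [Algebra B T]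

/-- **The characteristic `p` stage.** -/
theorem exists_stage (D : TrData p B T) (hδ : ∀ t : T, D.δ • t = 0 → t = 0)
    {n : ℕ} (t : Fin n → B) (ht : ∀ k : ℕ, 0 < k → RegL B ((List.ofFn t).map (· ^ k)))
    (hPB : PBasis p t) (w : Fin n → T) (𝔞 : Ideal T) (c : ℕ)
    (h𝔞 : 𝔞 ^ (c + 1) ≤ Ideal.span (Set.range w) * 𝔞 ^ c) (e : ℕ) (he : c < p ^ e) :
    Nonempty (Core.Stage T (T ⊗[B] (BInf p t)) w (fun i => algebraMap B T (t i))
      (algebraMap B T (D.δ ^ 2)) 𝔞 (p ^ e) (p ^ e - c)) := by
  have _ : PerfectRing (BInf p t) p := perfectRing_BInf t hPB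
  have _ : IsPRadical (algebraMap B (BInf p t)) p := isPRadical_BInf t
  let _ : Algebra T (PerfectClosure T p) := (PerfectClosure.of T p).toAlgebra
  have _ : IsPRadical (algebraMap T (PerfectClosure T p)) p := PerfectClosure.isPRadical T p
  let _ : Algebra B (PerfectClosure T p) := ((PerfectClosure.of T p).comp (algebraMap B T)).toAlgebra
  have _ : IsScalarTower B T (PerfectClosure T p) := IsScalarTower.of_algebraMap_eq fun x => rfl
  let _ : Algebra (BInf p t) (PerfectClosure T p) :=
    (PerfectRing.lift (algebraMap B (BInf p t)) (algebraMap B (PerfectClosure T p)) p).toAlgebra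
  have _ : @IsScalarTower B (BInf p t) (PerfectClosure T p) Algebra.toSMul Algebra.toSMul
      Algebra.toSMul :=
    IsScalarTower.of_algebraMap_eq fun x => (PerfectRing.lift_comp_apply _ _ p x).symm
  exact exists_stage_aux (PerfectClosure T p) (BInf p t) D hδ t ht inferInstance w 𝔞 c h𝔞 e he

end stageBInf

end Crest.Agent.R183.PC
end

-- ▼ part R183/PIa
section

set_option autoImplicit false

namespace Crest.Agent.R183.PI

open TensorProduct IsLocalRing
open Crest.Agent.R183.Glue Crest.Agent.R183.BInf Crest.Agent.R183.PC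
open scoped ENNReal

universe u

section

variable (p : ℕ) [hp : Fact p.Prime] {n e : ℕ} {K : Type u} [Field K] [CharP K p]
  [PerfectRing K p] [CharP (MvPowerSeries (Fin n) K) p]

/-- The variables of `K[[X]]^(1/q)`. -/
noncomputable abbrev frX (p e : ℕ) {n : ℕ} {K : Type u} [Field K] (i : Fin n) :
    Fr p e (MvPowerSeries (Fin n) K) :=
  Fr.of p e _ (MvPowerSeries.X i)

omit [CharP (MvPowerSeries (Fin n) K) p] in
theorem pBasis_fr : PC.PBasis p (frX (K := K) (n := n) p e) :=
  (pBasis_mvPowerSeries (d := n) (p := p) (K := K))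

omit hp [CharP K p] [PerfectRing K p] [CharP (MvPowerSeries (Fin n) K) p] in
theorem regL_fr (k : ℕ) : RegL (Fr p e (MvPowerSeries (Fin n) K))
    ((List.ofFn (frX (K := K) (n := n) p e)).map (· ^ k)) :=
  (regL_mvPowerSeries (n := n) (R := K) k)

omit hp [CharP K p] [PerfectRing K p] [CharP (MvPowerSeries (Fin n) K) p] in
theorem frX_mem (i : Fin n) :
    frX (K := K) (n := n) p e i ∈ maximalIdeal (Fr p e (MvPowerSeries (Fin n) K)) := by
  have h : (MvPowerSeries.X i : MvPowerSeries (Fin n) K) ∈
      maximalIdeal (MvPowerSeries (Fin n) K) := by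
    rw [mem_maximalIdeal, mem_nonunits_iff, MvPowerSeries.isUnit_iff_constantCoeff,
      MvPowerSeries.constantCoeff_X]
    exact not_isUnit_zero
  exact h

/-- the length on `T₁ ⊗_B B_∞`, abstractly. -/
theorem exists_To_aux {B T₁ Bi : Type u} [CommRing B] [CommRing T₁] [CommRing Bi]
    [Algebra B T₁] [Algebra B Bi] (Λ₀ : AddLen.{u, u} Bi) (hcont : WG.Cont Λ₀)
    (hΛ : ∀ (To : Type u) [CommRing To] [Algebra T₁ To] [Algebra B To] [Algebra Bi To]
      [IsScalarTower B T₁ To] [IsScalarTower B Bi To] [Algebra.IsPushout B Bi T₁ To]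
      (I : Ideal T₁), (Λ₀.restrict (algebraMap Bi To)).L (To ⧸ I.map (algebraMap T₁ To)) =
        ((Module.length T₁ (T₁ ⧸ I) : ℕ∞) : ℝ≥0∞)) :
    ∃ Λ : AddLen.{u, u} (T₁ ⊗[B] Bi), WG.Cont Λ ∧
      ∀ I : Ideal T₁, Λ.L ((T₁ ⊗[B] Bi) ⧸ I.map (algebraMap T₁ (T₁ ⊗[B] Bi))) =
          ((Module.length T₁ (T₁ ⧸ I) : ℕ∞) : ℝ≥0∞) := by
  let _ : Algebra Bi (T₁ ⊗[B] Bi) := Algebra.TensorProduct.rightAlgebra
  refine ⟨Λ₀.restrict (algebraMap Bi (T₁ ⊗[B] Bi)), Core.cont_restrict _ hcont _, ?_⟩
  intro I
  exact hΛ (T₁ ⊗[B] Bi) I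

/-- **The stages over `T₁`** (helper499's (A)). -/
theorem stage_T1 {A1 R1 T1 : Type u} [CommRing A1] [CommRing R1] [CommRing T1] [IsDomain R1]
    [IsLocalRing T1] [IsNoetherianRing T1] [CharP T1 p] [Algebra A1 R1]
    [Algebra A1 (Fr p e (MvPowerSeries (Fin n) K))] [Algebra (Fr p e (MvPowerSeries (Fin n) K)) T1]
    [Algebra R1 T1] [Algebra A1 T1] [IsScalarTower A1 R1 T1]
    [IsScalarTower A1 (Fr p e (MvPowerSeries (Fin n) K)) T1]
    [hPO : Algebra.IsPushout A1 R1 (Fr p e (MvPowerSeries (Fin n) K)) T1]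
    (hfl : Module.Flat R1 T1) (D : PC.TrData p A1 R1) (hD : algebraMap A1 R1 D.δ ≠ 0)
    (hres : ∀ x : T1, ∃ b : Fr p e (MvPowerSeries (Fin n) K),
      x - algebraMap (Fr p e (MvPowerSeries (Fin n) K)) T1 b ∈ maximalIdeal T1) :
    ∃ (To : Type u) (_ : CommRing To) (_ : Algebra T1 To) (Λ : AddLen.{u, u} To),
      WG.Cont Λ ∧
      (∀ I : Ideal T1, Module.length T1 (T1 ⧸ I) ≠ ⊤ →
        Λ.L (To ⧸ I.map (algebraMap T1 To)) = ((Module.length T1 (T1 ⧸ I) : ℕ∞) : ℝ≥0∞)) ∧
      ∀ (w : Fin n → T1) (𝔞 : Ideal T1) (c : ℕ),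
        𝔞 ^ (c + 1) ≤ Ideal.span (Set.range w) * 𝔞 ^ c → ∀ e', c < p ^ e' →
        Nonempty (Core.Stage T1 To w
          (fun i => algebraMap (Fr p e (MvPowerSeries (Fin n) K)) T1
            (Fr.of p e _ (MvPowerSeries.X i)))
          (algebraMap A1 T1 (D.δ ^ 2)) 𝔞 (p ^ e') (p ^ e' - c)) := by
  have hbc : IsBaseChange (Fr p e (MvPowerSeries (Fin n) K))
      (IsScalarTower.toAlgHom A1 R1 T1).toLinearMap := (Algebra.IsPushout.symm hPO).out
  let D' := D.baseChange (Fr p e (MvPowerSeries (Fin n) K)) T1 hbc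
  have hD'δ : D'.δ = algebraMap A1 (Fr p e (MvPowerSeries (Fin n) K)) D.δ := rfl
  have hδ : ∀ t : T1, D'.δ • t = 0 → t = 0 := by
    intro t ht
    rw [hD'δ, Algebra.smul_def, ← IsScalarTower.algebraMap_apply,
      IsScalarTower.algebraMap_apply A1 R1 T1, ← Algebra.smul_def] at ht
    have h2 : IsSMulRegular T1 (algebraMap A1 R1 D.δ) := Module.Flat.isSMulRegular_of_isRegular
      (M := T1) (IsRegular.of_ne_zero hD)
    apply h2
    show algebraMap A1 R1 D.δ • t = algebraMap A1 R1 D.δ • (0 : T1)
    rw [ht, smul_zero]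
  obtain ⟨Λ, hΛ1, hΛ2⟩ := exists_To_aux (B := Fr p e (MvPowerSeries (Fin n) K)) (T₁ := T1)
    (AddLen.ofTower (tower p (frX (K := K) (n := n) p e) hp.out.pos)) (Core.cont_ofTower _)
    (fun To _ _ _ _ _ _ _ I => L_quot_pushout p (frX (K := K) (n := n) p e) hp.out.pos
      (fun i => frX_mem p i) hres I)
  refine ⟨_, inferInstance, inferInstance, Λ, hΛ1, fun I _ => hΛ2 I, ?_⟩
  intro w 𝔞 c hc e' he'
  have h1 := exists_stage D' hδ (frX (K := K) (n := n) p e) (fun k _ => regL_fr p k)
    (pBasis_fr (K := K) (n := n) p) w 𝔞 c hc e' he'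
  have h2 : algebraMap (Fr p e (MvPowerSeries (Fin n) K)) T1 (D'.δ ^ 2) =
      algebraMap A1 T1 (D.δ ^ 2) := by
    rw [hD'δ, ← map_pow, ← IsScalarTower.algebraMap_apply]
  rw [h2] at h1
  exact h1

end

end Crest.Agent.R183.PI
end

-- ▼ part R183/PIb
section

/-!
# R183 (Lech), INSEP, file b (helper680): the finite map `K[[x]] → S` and the local ring `T₁`
-/

set_option autoImplicit false
set_option linter.unusedSectionVars false

namespace Crest.Agent.R183.PI

open IsLocalRing MvPowerSeries Crest.Agent.R183.M Crest.Agent.R183.Cohen Crest.Agent.R183.RD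

section B1

/-- **(B1)** `K[[x_1..x_d]] → S` finite injective with given parameters. -/
theorem exists_phi {A R T S : Type*} {K : Type*} [Field K] {n : ℕ}
    [CommRing A] [CommRing R]
    [CommRing T] [CommRing S] [Algebra A R] [Algebra A (MvPowerSeries (Fin n) K)] [Algebra A T]
    [Algebra R T] [Algebra (MvPowerSeries (Fin n) K) T] [Algebra R S]
    [IsLocalRing A] [IsLocalRing R] [IsLocalRing T] [IsLocalRing S]
    [IsNoetherianRing S] [IsAdicComplete (maximalIdeal S) S]
    {g : ℕ} {π : T →+* S} {Y : ℕ → T}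
    (h : IsCohenFact A R (MvPowerSeries (Fin n) K) T S g π Y)
    {d : ℕ} (hd : ringKrullDim S = (d : ℕ)) (zs : Fin d → S) (hz : ∀ i, zs i ∈ maximalIdeal S)
    {c : ℕ} (hc : maximalIdeal S ^ c ≤ Ideal.span (Set.range zs)) :
    ∃ φ : MvPowerSeries (Fin d) K →+* S, (∀ i, φ (X i) = zs i) ∧ φ.Finite ∧
      Function.Injective φ ∧ ∀ x : S, ∃ a, x - φ a ∈ maximalIdeal S := by
  let ρ : MvPowerSeries (Fin n) K →+* S := π.comp (algebraMap (MvPowerSeries (Fin n) K) T)
  have hρ : Function.Surjective ρ := h.surjective'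
  have hρl : IsLocalHom ρ := IsLocalHom.of_surjective _ hρ
  let γ : K →+* S := ρ.comp C
  have hres : ∀ x : S, ∃ a : K, x - γ a ∈ maximalIdeal S := by
    intro x
    obtain ⟨f, rfl⟩ := hρ x
    refine ⟨constantCoeff f, ?_⟩
    show ρ f - ρ (C (constantCoeff f)) ∈ maximalIdeal S
    rw [← map_sub]
    refine mem_maximalIdeal_of_local ρ hρl ?_
    rw [mem_maximalIdeal_mv_iff]
    simp
  have hfin : ((residue S).comp γ).Finite := by
    refine RingHom.Finite.of_surjective _ fun x => ?_
    obtain ⟨y, rfl⟩ := residue_surjective x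
    obtain ⟨a, ha⟩ := hres y
    refine ⟨a, ?_⟩
    rw [← residue_eq_zero_iff, map_sub, sub_eq_zero] at ha
    exact ha.symm
  obtain ⟨h1, h2⟩ := noether_equal γ hfin hd zs hz hc
  refine ⟨psEval (maximalIdeal S) γ zs hz, fun i => by rw [psEval_X], h2, h1, fun x => ?_⟩
  obtain ⟨a, ha⟩ := hres x
  exact ⟨C a, by rw [psEval_C]; exact ha⟩

end B1

section B2

variable (A1 R1 A1' T1 : Type*) [CommRing A1] [CommRing R1] [CommRing A1'] [CommRing T1]
  [Algebra A1 R1] [Algebra A1 A1'] [Algebra A1 T1] [Algebra R1 T1] [Algebra A1' T1]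
  [IsScalarTower A1 R1 T1] [IsScalarTower A1 A1' T1] [Algebra.IsPushout A1 R1 A1' T1]

include A1 R1 in
/-- **(B2)** the pushout `T₁` is local Noetherian with the residue field of `A₁'`. -/
theorem isLocalRing_T1 [IsLocalRing A1] [IsLocalRing R1] [IsLocalRing A1'] [IsNoetherianRing A1']
    [Module.Finite A1 R1] (hloc : IsLocalHom (algebraMap A1 A1'))
    (hres : ∀ r : R1, ∃ a : A1, r - algebraMap A1 R1 a ∈ maximalIdeal R1) :
    ∃ _ : IsLocalRing T1, IsNoetherianRing T1 ∧
      (∀ x : T1, ∃ a : A1', x - algebraMap A1' T1 a ∈ maximalIdeal T1) ∧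
      maximalIdeal T1 = (maximalIdeal R1).map (algebraMap R1 T1) ⊔
        (maximalIdeal A1').map (algebraMap A1' T1) ∧
      IsLocalHom (algebraMap R1 T1) ∧ IsLocalHom (algebraMap A1' T1) := by
  have hlocR : IsLocalHom (algebraMap A1 R1) := by
    have hmax : ((maximalIdeal R1).comap (algebraMap A1 R1)).IsMaximal :=
      Ideal.isMaximal_comap_of_isIntegral_of_isMaximal (maximalIdeal R1)
    have hcom := IsLocalRing.eq_maximalIdeal hmax
    exact ((local_hom_TFAE (algebraMap A1 R1)).out 0 4).2 hcom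
  have hε : (maximalIdeal A1).map (algebraMap A1 A1') ≤ RingHom.ker (residue A1') := by
    rw [ker_residue, Ideal.map_le_iff_le_comap]
    exact ((local_hom_TFAE (algebraMap A1 A1')).out 0 3).1 hloc
  obtain ⟨χ, h1, h2⟩ := exists_fibre_hom (A := A1) (R := R1) (A' := A1') (T := T1) hres
    (residue A1') hε
  have hπR : ∀ r ∈ maximalIdeal R1, χ (algebraMap R1 T1 r) ∈ maximalIdeal (ResidueField A1') := by
    intro r hr
    have : χ (algebraMap R1 T1 r) = 0 := h2 (Ideal.mem_map_of_mem _ hr)
    rw [this]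
    exact Ideal.zero_mem _
  have hπA : ∀ r ∈ maximalIdeal A1', χ (algebraMap A1' T1 r) ∈
      maximalIdeal (ResidueField A1') := by
    intro r hr
    have h3 : χ (algebraMap A1' T1 r) = residue A1' r := RingHom.congr_fun h1 r
    rw [h3, (residue_eq_zero_iff r).2 hr]
    exact Ideal.zero_mem _
  obtain ⟨hT, hm⟩ := isLocalRing_pushout (A := A1) (R := R1) (A' := A1') (T := T1) hres χ hπR hπA
  have hfin : Module.Finite A1' T1 := pushout_finite A1 R1 A1' T1
  refine ⟨hT, IsNoetherianRing.of_finite A1' T1, fun x => ?_, hm, ?_, ?_⟩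
  · obtain ⟨a, ha⟩ := exists_sub_mem (A := A1) (R := R1) (A' := A1') hres x
    exact ⟨a, by rw [hm]; exact Ideal.mem_sup_left ha⟩
  · refine ((local_hom_TFAE (algebraMap R1 T1)).out 0 2).2 ?_
    rw [hm]; exact le_sup_left
  · refine ((local_hom_TFAE (algebraMap A1' T1)).out 0 2).2 ?_
    rw [hm]; exact le_sup_right

end B2

end Crest.Agent.R183.PI
end

-- ▼ part R183/Ins6
section

/-!
# R183, INSEP (helper234), part 6: `K[[x, y]] → K[[y]]`
-/

set_option autoImplicit false

namespace Crest.Agent.R183.Ins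

open IsLocalRing MvPowerSeries

/-- the kernel of `K[[x, y]] → K[[y]]` is generated by the `x_i`. -/
theorem ker_killCompl (K : Type*) [CommRing K] (d g : ℕ) :
    RingHom.ker (killCompl (R := K) (Fin.natAddEmb d : Fin g ↪ Fin (d + g))) =
      Ideal.span (Set.range fun i : Fin d => (X (Fin.castAdd g i) : MvPowerSeries (Fin (d + g)) K)) := by
  classical
  apply le_antisymm
  · intro f hf
    have h1 := (PC.mem_span_X_pow_iff (R := K) 1 (List.ofFn fun i : Fin d => Fin.castAdd g i) f).2 (by
      intro m hm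
      have hm' : ∀ i : Fin d, m (Fin.castAdd g i) = 0 := fun i => by
        have := hm (Fin.castAdd g i) (by simp)
        omega
      have hf' : killCompl (R := K) (Fin.natAddEmb d : Fin g ↪ Fin (d + g)) f = 0 := hf
      have h2 : m ∈ Set.range (Finsupp.embDomain (Fin.natAddEmb d : Fin g ↪ Fin (d + g)) (M := ℕ)) := by
        rw [Finsupp.mem_range_embDomain_iff]
        intro j hj
        rw [Finset.mem_coe, Finsupp.mem_support_iff] at hj
        induction j using Fin.addCases with
        | left i => exact absurd (hm' i) hj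
        | right i => exact ⟨i, rfl⟩
      obtain ⟨m', rfl⟩ := h2
      rw [← coeff_killCompl, hf', map_zero])
    refine (Ideal.span_le.2 ?_) h1
    intro y hy
    simp only [Set.mem_ofPred_eq, List.mem_map, List.mem_ofFn, pow_one] at hy
    obtain ⟨_, ⟨i, rfl⟩, rfl⟩ := hy
    exact Ideal.subset_span ⟨i, rfl⟩
  · rw [Ideal.span_le]
    rintro _ ⟨i, rfl⟩
    refine killCompl_X_eq_zero ?_
    rintro ⟨j, hj⟩
    have := congrArg Fin.val hj
    simp at this
    omega

theorem maximalIdeal_eq_span (k : Type*) [Field k] (d : ℕ) :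
    maximalIdeal (MvPowerSeries (Fin d) k) = Ideal.span (Set.range X) := by
  rw [Cohen.maximalIdeal_mvPowerSeries, maximalIdeal_eq_bot, Ideal.map_bot, bot_sup_eq]

theorem exists_rho {k K : Type*} [Field k] [Field K] (d g : ℕ)
    [Algebra (MvPowerSeries (Fin d) k) (MvPowerSeries (Fin (d + g)) K)]
    (hX : ∀ i, algebraMap (MvPowerSeries (Fin d) k) (MvPowerSeries (Fin (d + g)) K) (X i) =
      X (Fin.castAdd g i)) :
    ∃ ρ : MvPowerSeries (Fin (d + g)) K →+* MvPowerSeries (Fin g) K, Function.Surjective ρ ∧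
      RingHom.ker ρ = (maximalIdeal (MvPowerSeries (Fin d) k)).map
        (algebraMap (MvPowerSeries (Fin d) k) (MvPowerSeries (Fin (d + g)) K)) := by
  refine ⟨(killCompl (R := K) (Fin.natAddEmb d : Fin g ↪ Fin (d + g)) : _ →+* _), ?_, ?_⟩
  · intro f
    exact ⟨rename (Fin.natAddEmb d : Fin g ↪ Fin (d + g)) f, killCompl_rename_app f⟩
  · rw [maximalIdeal_eq_span, Ideal.map_span, ← Set.range_comp]
    have := ker_killCompl K d g
    refine Eq.trans this ?_
    congr 2
    funext i
    exact (hX i).symm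

end Crest.Agent.R183.Ins
end

-- ▼ part R183/RD11
section

/-!
# R183, block RD (helper680), part 11: existence of the Cohen factorisation in characteristic `p`
-/

set_option autoImplicit false
set_option linter.unusedSectionVars false

namespace Crest.Agent.R183.RD

open TensorProduct IsLocalRing MvPowerSeries Crest.Agent.R183.M Crest.Agent.R183.Cohen

universe u v w

/-- lifting of homomorphisms from a field along surjections of complete Noetherian local rings of
characteristic `p` -/
theorem exists_lift_of_surjective_charP (p : ℕ) [Fact p.Prime] {k : Type*} [Field k]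
    {S T : Type*} [CommRing S] [CommRing T]
    [IsLocalRing S] [IsNoetherianRing S] [IsAdicComplete (maximalIdeal S) S] [Nontrivial T]
    (hpS : (p : S) = 0) (π : S →+* T) (hπ : Function.Surjective π) (c : k →+* T) :
    ∃ g : k →+* S, π.comp g = c := by
  have hKJ : RingHom.ker π ≤ maximalIdeal S := le_maximalIdeal (RingHom.ker_ne_top π)
  have hK : ∀ x : S, (∀ m : ℕ, x ∈ maximalIdeal S ^ m ⊔ RingHom.ker π) → x ∈ RingHom.ker π := by
    intro x hx
    have hH : IsHausdorff (maximalIdeal S) (S ⧸ RingHom.ker π) := inferInstance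
    rw [← Ideal.Quotient.eq_zero_iff_mem]
    refine hH.haus' _ fun n => ?_
    rw [SModEq.zero]
    have h1 := hx n
    obtain ⟨a, ha, b, hb, rfl⟩ := Submodule.mem_sup.1 h1
    rw [map_add, Ideal.Quotient.eq_zero_iff_mem.2 hb, add_zero]
    have h2 : Ideal.Quotient.mk (RingHom.ker π) a = a • (1 : S ⧸ RingHom.ker π) := by
      rw [Algebra.smul_def, mul_one]; rfl
    rw [h2]
    exact Submodule.smul_mem_smul ha Submodule.mem_top
  have hcS : CharP S p := (CharP.charP_iff_prime_eq_zero Fact.out).2 hpS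
  have hpT : (p : T) = 0 := by rw [← map_natCast π, hpS, map_zero]
  have hck : CharP k p := by
    refine (CharP.charP_iff_prime_eq_zero Fact.out).2 ?_
    apply c.injective
    rw [map_natCast, hpT, map_zero]
  let _ : Algebra (ZMod p) S := ZMod.algebra S p
  let _ : Algebra (ZMod p) k := ZMod.algebra k p
  let e := RingHom.quotientKerEquivOfSurjective hπ
  obtain ⟨g, hg⟩ := exists_lift_complete_of_formallySmooth (formallySmooth_zmod k p)
    (maximalIdeal S) (RingHom.ker π) hKJ hK
    (⟨e.symm.toRingHom.comp c, fun r => RingHom.congr_fun (RingHom.ext_zmod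
      ((e.symm.toRingHom.comp c).comp (algebraMap (ZMod p) k))
      (algebraMap (ZMod p) (S ⧸ RingHom.ker π))) r⟩ : k →ₐ[ZMod p] S ⧸ RingHom.ker π)
  refine ⟨g.toRingHom, ?_⟩
  ext x
  have h1 : Ideal.Quotient.mk (RingHom.ker π) (g x) = e.symm (c x) := AlgHom.congr_fun hg x
  have h2 : e (Ideal.Quotient.mk _ (g x)) = e (e.symm (c x)) := congrArg e h1
  rw [RingEquiv.apply_symm_apply] at h2
  exact h2

theorem flat_of_field {k Q : Type*} [Field k] [CommRing Q] (γ : k →+* Q) : γ.Flat := by
  let _ : Algebra k Q := γ.toAlgebra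
  show Module.Flat k Q
  infer_instance

/-- **Cohen factorisation, characteristic `p`.** The images `z i` of the variables of
`A = k[[X_1, …, X_d]]` in `R` form a (given) system of parameters. -/
theorem exists_equal_of_sop (p : ℕ) [Fact p.Prime] (d : ℕ) (R S : Type u) [CommRing R]
    [IsLocalRing R] [IsNoetherianRing R] [IsAdicComplete (maximalIdeal R) R]
    [CommRing S] [IsLocalRing S] [IsNoetherianRing S] [IsAdicComplete (maximalIdeal S) S]
    [Algebra R S] [IsLocalHom (algebraMap R S)] (hp : (p : R) = 0)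
    (hd : ringKrullDim R = (d : ℕ)) (z : Fin d → R) (hz : ∀ i, z i ∈ maximalIdeal R) {c : ℕ}
    (hc : maximalIdeal R ^ c ≤ Ideal.span (Set.range z)) :
    ∃ (g : ℕ)
      (_ : Algebra (MvPowerSeries (Fin d) (ResidueField R)) R)
      (_ : Algebra (MvPowerSeries (Fin d) (ResidueField R))
        (MvPowerSeries (Fin (d + g)) (ResidueField S)))
      (T : Type u) (_ : CommRing T) (_ : Algebra (MvPowerSeries (Fin d) (ResidueField R)) T)
      (_ : Algebra R T) (_ : Algebra (MvPowerSeries (Fin (d + g)) (ResidueField S)) T)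
      (_ : IsScalarTower (MvPowerSeries (Fin d) (ResidueField R)) R T)
      (_ : IsScalarTower (MvPowerSeries (Fin d) (ResidueField R))
        (MvPowerSeries (Fin (d + g)) (ResidueField S)) T)
      (_ : Algebra.IsPushout (MvPowerSeries (Fin d) (ResidueField R)) R
        (MvPowerSeries (Fin (d + g)) (ResidueField S)) T)
      (_ : IsLocalRing T) (_ : IsNoetherianRing T) (π : T →+* S),
      IsCohenFact (MvPowerSeries (Fin d) (ResidueField R)) R
        (MvPowerSeries (Fin (d + g)) (ResidueField S)) T S g π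
        (fun j => algebraMap (MvPowerSeries (Fin (d + g)) (ResidueField S)) T
          (yvar d g (ResidueField S) j)) ∧
      Function.Injective (algebraMap (MvPowerSeries (Fin d) (ResidueField R)) R) ∧
      (∀ i, algebraMap (MvPowerSeries (Fin d) (ResidueField R)) R (X i) = z i) ∧
      (∀ i, algebraMap (MvPowerSeries (Fin d) (ResidueField R))
        (MvPowerSeries (Fin (d + g)) (ResidueField S)) (X i) = X (Fin.castAdd g i)) := by
  have hpS : (p : S) = 0 := by rw [← map_natCast (algebraMap R S), hp, map_zero]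
  obtain ⟨φ, hφ⟩ := exists_coefficientField_charP p R hp
  obtain ⟨w, hw⟩ := exists_coefficientField_charP p S hpS
  have hφl : IsLocalHom φ := inferInstance
  have hwloc : IsLocalHom w := inferInstance
  have hφres : ∀ x : R, ∃ c : ResidueField R, x - φ c ∈ maximalIdeal R := by
    intro x
    refine ⟨residue R x, ?_⟩
    rw [← residue_eq_zero_iff, map_sub, hφ, sub_self]
  have hres : ((residue R).comp φ).Finite := by
    refine RingHom.Finite.of_surjective _ fun x => ⟨x, hφ x⟩
  obtain ⟨hinj, hfin⟩ := noether_equal φ hres hd z hz hc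
  have hwsurj : Function.Surjective ((residue S).comp w) := fun x => ⟨x, hw x⟩
  obtain ⟨g, s, hs, hsgen⟩ := exists_gens S
  have hbot : maximalIdeal (ResidueField S) = ⊥ := IsLocalRing.maximalIdeal_eq_bot
  have hbotR : maximalIdeal (ResidueField R) = ⊥ := IsLocalRing.maximalIdeal_eq_bot
  have hKc : IsAdicComplete (maximalIdeal (ResidueField S)) (ResidueField S) := by
    rw [hbot]; infer_instance
  let ψ : MvPowerSeries (Fin g) (ResidueField S) →+* S := psEval (maximalIdeal S) w s hs
  have hψ : Function.Surjective ψ := psEval_surjective w hwloc hwsurj s hs hsgen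
  have hQc : IsAdicComplete (maximalIdeal (MvPowerSeries (Fin g) (ResidueField S)))
    (MvPowerSeries (Fin g) (ResidueField S)) := isAdicComplete_mv
  have hpK : (p : ResidueField S) = 0 := by
    rw [← map_natCast (residue S), hpS, map_zero]
  have hpQ : (p : MvPowerSeries (Fin g) (ResidueField S)) = 0 := by
    have : C (σ := Fin g) (p : ResidueField S) = 0 := by rw [hpK, map_zero]
    rwa [map_natCast] at this
  obtain ⟨γ, hγ⟩ := exists_lift_of_surjective_charP p hpQ ψ hψ ((algebraMap R S).comp φ)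
  have hγflat : γ.Flat := flat_of_field γ
  have hx0 : maximalIdeal (ResidueField S) = Ideal.span {0} := by
    rw [hbot, Ideal.span_singleton_eq_bot.2 rfl]
  have hc0 : maximalIdeal (ResidueField R) = Ideal.span {0} := by
    rw [hbotR, Ideal.span_singleton_eq_bot.2 rfl]
  obtain ⟨i1, i2, T, i3, i4, i5, i6, i7, i8, i9, i10, i11, i12, i13, π, h1, h2, h3, h4, h5⟩ :=
    exists_T (R := R) (S := S) hx0 hc0 γ (by rw [map_zero, map_zero]) hγflat φ hφl hφres z hz
      hfin ψ hψ hγ (psEquiv d g (ResidueField S))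
  have hYf : (fun j => algebraMap (MvPowerSeries (Fin (d + g)) (ResidueField S)) T
      ((psEquiv d g (ResidueField S)).symm
        (C (varSeq (ResidueField S) g j)))) =
      (fun j => algebraMap (MvPowerSeries (Fin (d + g)) (ResidueField S)) T
          (yvar d g (ResidueField S) j)) := by
    funext j
    rw [psEquiv_symm_varSeq]
  rw [hYf] at h1
  refine ⟨g, i1, i2, T, i3, i4, i5, i6, i7, i8, i9, i12, i13, π, h1, ?_, ?_, ?_⟩
  · rw [h2]
    exact hinj
  · intro i
    rw [h2, psEval_X]
  · intro i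
    rw [h3]
    show (psEquiv d g (ResidueField S)).symm (MvPowerSeries.map γ (X i)) = _
    rw [map_X, psEquiv_symm_X]

/-- **Cohen factorisation, characteristic `p`**, with the variables of `A'` a reduction of `m_T`. -/
theorem exists_equal (p : ℕ) [Fact p.Prime] (d : ℕ) (R S : Type u) [CommRing R]
    [IsLocalRing R] [IsNoetherianRing R] [IsAdicComplete (maximalIdeal R) R]
    [Infinite (ResidueField R)]
    [CommRing S] [IsLocalRing S] [IsNoetherianRing S] [IsAdicComplete (maximalIdeal S) S]
    [Algebra R S] [IsLocalHom (algebraMap R S)] (hp : (p : R) = 0)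
    (hd : ringKrullDim R = (d : ℕ)) :
    ∃ (g : ℕ)
      (_ : Algebra (MvPowerSeries (Fin d) (ResidueField R)) R)
      (_ : Algebra (MvPowerSeries (Fin d) (ResidueField R))
        (MvPowerSeries (Fin (d + g)) (ResidueField S)))
      (T : Type u) (_ : CommRing T) (_ : Algebra (MvPowerSeries (Fin d) (ResidueField R)) T)
      (_ : Algebra R T) (_ : Algebra (MvPowerSeries (Fin (d + g)) (ResidueField S)) T)
      (_ : IsScalarTower (MvPowerSeries (Fin d) (ResidueField R)) R T)
      (_ : IsScalarTower (MvPowerSeries (Fin d) (ResidueField R))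
        (MvPowerSeries (Fin (d + g)) (ResidueField S)) T)
      (_ : Algebra.IsPushout (MvPowerSeries (Fin d) (ResidueField R)) R
        (MvPowerSeries (Fin (d + g)) (ResidueField S)) T)
      (_ : IsLocalRing T) (_ : IsNoetherianRing T) (π : T →+* S) (c : ℕ),
      IsCohenFact (MvPowerSeries (Fin d) (ResidueField R)) R
        (MvPowerSeries (Fin (d + g)) (ResidueField S)) T S g π
        (fun j => algebraMap (MvPowerSeries (Fin (d + g)) (ResidueField S)) T
          (yvar d g (ResidueField S) j)) ∧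
      Function.Injective (algebraMap (MvPowerSeries (Fin d) (ResidueField R)) R) ∧
      (∀ i, algebraMap (MvPowerSeries (Fin d) (ResidueField R))
        (MvPowerSeries (Fin (d + g)) (ResidueField S)) (X i) = X (Fin.castAdd g i)) ∧
      (∀ i, algebraMap (MvPowerSeries (Fin (d + g)) (ResidueField S)) T (X i) ∈
        maximalIdeal T) ∧
      maximalIdeal R ^ (c + 1) = Ideal.span (Set.range fun i =>
        algebraMap (MvPowerSeries (Fin d) (ResidueField R)) R (X i)) * maximalIdeal R ^ c ∧
      maximalIdeal T ^ (c + 1) = Ideal.span (Set.range fun i =>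
        algebraMap (MvPowerSeries (Fin (d + g)) (ResidueField S)) T (X i)) *
          maximalIdeal T ^ c := by
  obtain ⟨z, hz, c, hc⟩ := HS.exists_minimal_reduction hd (I := maximalIdeal R) le_rfl
    (t := 1) (by rw [pow_one])
  obtain ⟨g, i1, i2, T, i3, i4, i5, i6, i7, i8, i9, i10, i11, π, h1, h2, h3, h4⟩ :=
    exists_equal_of_sop p d R S hp hd z hz (c := c + 1) (by rw [hc]; exact Ideal.mul_le_left)
  have hw : (Fin.append (fun i => algebraMap R T (z i)) (fun j : Fin g =>
      algebraMap (MvPowerSeries (Fin (d + g)) (ResidueField S)) T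
          (yvar d g (ResidueField S) j))) =
      fun i => algebraMap (MvPowerSeries (Fin (d + g)) (ResidueField S)) T (X i) := by
    funext i
    refine Fin.addCases (fun i => ?_) (fun j => ?_) i
    · rw [Fin.append_left, ← h3, ← h4,
        ← IsScalarTower.algebraMap_apply (MvPowerSeries (Fin d) (ResidueField R)) R T,
        ← IsScalarTower.algebraMap_apply (MvPowerSeries (Fin d) (ResidueField R))
          (MvPowerSeries (Fin (d + g)) (ResidueField S)) T]
    · rw [Fin.append_right, yvar_apply]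
  have hwm : ∀ i, algebraMap (MvPowerSeries (Fin (d + g)) (ResidueField S)) T (X i) ∈
        maximalIdeal T := by
    intro i
    rw [← congrFun hw i]
    refine Fin.addCases (fun i => ?_) (fun j => ?_) i
    · rw [Fin.append_left]
      exact h1.comap_maximalIdeal (hz i)
    · rw [Fin.append_right]
      exact h1.Y_mem j j.2
  refine ⟨g, i1, i2, T, i3, i4, i5, i6, i7, i8, i9, i10, i11, π, c, h1, h2, h4, hwm, ?_,
    le_antisymm ?_ ?_⟩
  · have : (fun i => algebraMap (MvPowerSeries (Fin d) (ResidueField R)) R (X i)) = z :=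
      funext h3
    rw [this, hc]
  · have := h1.reduction z c hc.le
    rwa [hw] at this
  · rw [pow_succ']
    refine Ideal.mul_mono_left ?_
    rw [Ideal.span_le]
    rintro _ ⟨i, rfl⟩
    exact hwm i

end Crest.Agent.R183.RD
end

-- ▼ part R183/CoreK

set_option autoImplicit false

namespace Crest.Agent.R183.CoreK

open scoped ENNReal nonZeroDivisors
open Crest.Agent.R183 Crest.Agent.R183.PI Crest.Agent.R183.Ins
open IsLocalRing Crest.Agent.R183.M

universe u

theorem charP_mv (p : ℕ) [Fact p.Prime] (n : ℕ) (K : Type u) [Field K] [CharP K p] :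
    CharP (MvPowerSeries (Fin n) K) p :=
  charP_of_injective_ringHom (f := (MvPowerSeries.C : K →+* MvPowerSeries (Fin n) K))
    (RingHom.injective _) p

theorem lechC_fact (p : ℕ) [Fact p.Prime] {d g : ℕ} {k K R S T : Type u} [Field k] [Field K]
    [CharP k p] [CharP K p] [PerfectRing K p]
    [CommRing R] [IsLocalRing R] [IsNoetherianRing R] [IsDomain R] [CharP R p]
    [CommRing S] [IsLocalRing S] [IsNoetherianRing S] [IsAdicComplete (maximalIdeal S) S]
    [Algebra R S] [Module.Flat R S] [IsLocalHom (algebraMap R S)] [Infinite (ResidueField S)]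
    [CommRing T] [IsLocalRing T] [IsNoetherianRing T]
    [Algebra (MvPowerSeries (Fin d) k) R]
    [Algebra (MvPowerSeries (Fin d) k) (MvPowerSeries (Fin (d + g)) K)]
    [Algebra (MvPowerSeries (Fin d) k) T] [Algebra R T]
    [Algebra (MvPowerSeries (Fin (d + g)) K) T]
    [IsScalarTower (MvPowerSeries (Fin d) k) R T]
    [IsScalarTower (MvPowerSeries (Fin d) k) (MvPowerSeries (Fin (d + g)) K) T]
    [Algebra.IsPushout (MvPowerSeries (Fin d) k) R (MvPowerSeries (Fin (d + g)) K) T]
    (π : T →+* S) (Y : ℕ → T)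
    (h : RD.IsCohenFact (MvPowerSeries (Fin d) k) R (MvPowerSeries (Fin (d + g)) K) T S g π Y)
    (hinj : Function.Injective (algebraMap (MvPowerSeries (Fin d) k) R))
    (hX : ∀ i, algebraMap (MvPowerSeries (Fin d) k) (MvPowerSeries (Fin (d + g)) K)
      (MvPowerSeries.X i) = MvPowerSeries.X (Fin.castAdd g i))
    (hxm : ∀ i, algebraMap (MvPowerSeries (Fin (d + g)) K) T (MvPowerSeries.X i) ∈
        maximalIdeal T) (c : ℕ)
    (hredT : maximalIdeal T ^ (c + 1) = Ideal.span (Set.range fun i =>
        algebraMap (MvPowerSeries (Fin (d + g)) K) T (MvPowerSeries.X i)) * maximalIdeal T ^ c)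
    (hdR : ringKrullDim R = d) (hdS : ringKrullDim S = d) (hd0 : 0 < d) :
    LechC R S d d := by
  -- instances
  have c1 : CharP (MvPowerSeries (Fin d) k) p := charP_mv p d k
  have c2 : CharP (MvPowerSeries (Fin (d + g)) K) p := charP_mv p (d + g) K
  have c3 : CharP (MvPowerSeries (Fin g) K) p := charP_mv p g K
  have i1 := h.finite_R
  have i2 := h.flat_A'
  have i3 := h.flat_T
  have i4 := h.finite_T
  have i5 := h.local_A'
  have i6 := h.local_T
  let _ : Algebra T S := π.toAlgebra
  have i7 : IsScalarTower R T S := IsScalarTower.of_algebraMap_eq fun r => by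
    rw [← h.comp]; rfl
  have hinjT : Function.Injective (algebraMap (MvPowerSeries (Fin (d + g)) K) T) :=
    h.injective_A'T hinj
  have hsurj : Function.Surjective (algebraMap T S) := h.surjective
  -- trace data
  obtain ⟨e, he⟩ := RR.exists_trData p (MvPowerSeries (Fin d) k) R hinj
  obtain ⟨D, hD⟩ := he e le_rfl
  -- the rings
  obtain ⟨ρ, hρ, hker⟩ := exists_rho (k := k) (K := K) d g hX
  obtain ⟨T1, _, _, _, _, _, _, po1, _, _, _, _, S1, _, _, _, _, _, _, po2, _, _, fl1, fl2, fin1,
    fin2, hrank⟩ := insep_rings p e (A := MvPowerSeries (Fin d) k) (R := R)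
      (A' := MvPowerSeries (Fin (d + g)) K) (T := T) (S := S) h.res_R ρ hρ hker
  have j1 : Module.Finite (Fr p e (MvPowerSeries (Fin d) k)) (RR p e (MvPowerSeries (Fin d) k) R) :=
    RR.finite p e _ _
  have j2 : IsLocalRing (RR p e (MvPowerSeries (Fin d) k) R) := RR.isLocalRing p e _ _
  have j3 : Module.Flat (Fr p e (MvPowerSeries (Fin d) k))
      (Fr p e (MvPowerSeries (Fin (d + g)) K)) :=
    inferInstanceAs (Module.Flat (MvPowerSeries (Fin d) k) (MvPowerSeries (Fin (d + g)) K))
  have hloc : IsLocalHom (algebraMap (Fr p e (MvPowerSeries (Fin d) k))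
      (Fr p e (MvPowerSeries (Fin (d + g)) K))) := h.local_A'
  have hres1 : ∀ x : RR p e (MvPowerSeries (Fin d) k) R, ∃ a : Fr p e (MvPowerSeries (Fin d) k),
      x - algebraMap (Fr p e (MvPowerSeries (Fin d) k)) (RR p e (MvPowerSeries (Fin d) k) R) a ∈
        maximalIdeal (RR p e (MvPowerSeries (Fin d) k) R) :=
    fun x => RR.exists_sub_mem p e _ _ h.res_R x
  obtain ⟨lT1, nT1, resT1, -, loc1, loc2⟩ := isLocalRing_T1 (Fr p e (MvPowerSeries (Fin d) k))
    (RR p e (MvPowerSeries (Fin d) k) R) (Fr p e (MvPowerSeries (Fin (d + g)) K)) T1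
    hloc hres1
  have chT1 : CharP T1 p := by
    refine (CharP.charP_iff_prime_eq_zero Fact.out).2 ?_
    rw [← map_natCast (algebraMap (MvPowerSeries (Fin (d + g)) K) T1), CharP.cast_eq_zero, map_zero]
  -- injectivity
  have injA1 : Function.Injective (algebraMap (Fr p e (MvPowerSeries (Fin d) k))
      (RR p e (MvPowerSeries (Fin d) k) R)) := by
    intro a b hab
    have h1 := congrArg (RR.val p e _ R) hab
    exact hinj h1
  have injA1' : Function.Injective (algebraMap (Fr p e (MvPowerSeries (Fin (d + g)) K)) T1) :=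
    RD.injective_of_pushout (A := Fr p e (MvPowerSeries (Fin d) k))
      (R := RR p e (MvPowerSeries (Fin d) k) R) injA1
  have inj1 : Function.Injective (algebraMap (MvPowerSeries (Fin (d + g)) K) T1) := by
    rw [IsScalarTower.algebraMap_eq (MvPowerSeries (Fin (d + g)) K)
      (Fr p e (MvPowerSeries (Fin (d + g)) K)) T1]
    refine injA1'.comp ?_
    exact FaithfulSMul.algebraMap_injective _ _
  -- residue field of `T₁` over `A'`
  have hresT1 : ∀ x : T1, ∃ a : MvPowerSeries (Fin (d + g)) K,
      x - algebraMap (MvPowerSeries (Fin (d + g)) K) T1 a ∈ maximalIdeal T1 := by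
    intro x
    obtain ⟨b, hb⟩ := resT1 x
    let b0 : MvPowerSeries (Fin (d + g)) K := b
    let a0 : K := (iterateFrobeniusEquiv K p e).symm (MvPowerSeries.constantCoeff b0)
    have ha0 : a0 ^ p ^ e = MvPowerSeries.constantCoeff b0 := by
      rw [← iterateFrobenius_def, ← iterateFrobeniusEquiv_apply, RingEquiv.apply_symm_apply]
    refine ⟨MvPowerSeries.C a0, ?_⟩
    have h1 : b0 - MvPowerSeries.C (MvPowerSeries.constantCoeff b0) ∈
        maximalIdeal (MvPowerSeries (Fin (d + g)) K) := by
      rw [mem_maximalIdeal, mem_nonunits_iff, MvPowerSeries.isUnit_iff_constantCoeff, map_sub,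
        MvPowerSeries.constantCoeff_C, sub_self]
      exact not_isUnit_zero
    have h2 : Fr.of p e _ (b0 - MvPowerSeries.C (MvPowerSeries.constantCoeff b0)) ∈
        maximalIdeal (Fr p e (MvPowerSeries (Fin (d + g)) K)) := h1
    have h3 := RD.mem_maximalIdeal_of_local _ loc2 h2
    have h4 : algebraMap (MvPowerSeries (Fin (d + g)) K) (Fr p e (MvPowerSeries (Fin (d + g)) K))
        (MvPowerSeries.C a0) = Fr.of p e _ (MvPowerSeries.C (MvPowerSeries.constantCoeff b0)) := by
      rw [Fr.algebraMap_self, ← map_pow, ← map_pow, ha0]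
    rw [map_sub, map_sub, ← h4, ← IsScalarTower.algebraMap_apply] at h3
    have h5 := add_mem hb h3
    have h6 : Fr.of p e (MvPowerSeries (Fin (d + g)) K) b0 = b := rfl
    rw [h6, sub_add_sub_cancel] at h5
    exact h5
  -- parameters of `S`
  obtain ⟨zs, hzs, cs, hcs⟩ := HS.exists_minimal_reduction (R := S) hdS (I := maximalIdeal S) le_rfl
    (t := 1) (by rw [pow_one])
  obtain ⟨φ, hφX, hφf, hφi, hφr⟩ := exists_phi h hdS zs hzs (c := cs + 1)
    (by rw [hcs]; exact Ideal.mul_le_left)
  let _ : Algebra (MvPowerSeries (Fin d) K) S := φ.toAlgebra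
  have k1 : Module.Finite (MvPowerSeries (Fin d) K) S := hφf
  let _ : Algebra (MvPowerSeries (Fin d) K) S1 := ((algebraMap S S1).comp φ).toAlgebra
  have k2 : IsScalarTower (MvPowerSeries (Fin d) K) S S1 :=
    IsScalarTower.of_algebraMap_eq fun _ => rfl
  have hzX : (fun i : Fin d => algebraMap (MvPowerSeries (Fin d) K) S (MvPowerSeries.X i)) = zs :=
    funext hφX
  -- the stages
  obtain ⟨To, _, _, Λ, hcont, hΛ, hst⟩ := stage_T1 (p := p) (n := d + g) (e := e) (K := K)
    (A1 := Fr p e (MvPowerSeries (Fin d) k)) (R1 := RR p e (MvPowerSeries (Fin d) k) R)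
    (T1 := T1) fl1 D (fun h0 => hD (injA1 (by rw [h0, map_zero]))) resT1
  have hδ : algebraMap (Fr p e (MvPowerSeries (Fin d) k)) (RR p e (MvPowerSeries (Fin d) k) R)
      (D.δ ^ 2) ≠ 0 := by
    rw [map_pow]
    exact pow_ne_zero 2 (fun h0 => hD (injA1 (by rw [h0, map_zero])))
  refine CoreJ.lechC_of_rank (R1 := RR p e (MvPowerSeries (Fin d) k) R) (T1 := T1) (S1 := S1)
    (To := To) (n := d + g) (d := d) (g := g) (K := K) hsurj hdR (add_comm g d) hd0 Y
    (fun i hi => h.prime i hi) (fun i hi => h.notMem i hi) h.max hinjT h.res_T hredT hxm hφi hφr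
    (cs := cs) (by rw [hzX]; exact hcs) (fun i => by rw [congrFun hzX i]; exact hzs i) inj1 hresT1
    (hrank (MvPowerSeries (Fin d) K)) Λ hcont hΛ
    (fun i => algebraMap (Fr p e (MvPowerSeries (Fin (d + g)) K)) T1
            (Fr.of p e _ (MvPowerSeries.X i)))
    (fun i => RD.mem_maximalIdeal_of_local _ loc2 (frX_mem p i)) _ hδ p
    (Fact.out : p.Prime).one_lt ?_
  intro w 𝔞 c' hc' e' he'
  rw [← IsScalarTower.algebraMap_apply]
  exact hst w 𝔞 c' hc' e' he'

/-- **The core in equal characteristic `p`.** -/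
theorem coreEqual (p : ℕ) (hp : p.Prime) : Top.CoreEqual.{u, u} p := by
  intro d R S _ _ _ _ _ _ _ _ _ _ _ _ _ _ _ hdR hdS
  have hpf : Fact p.Prime := ⟨hp⟩
  obtain ⟨g, _, _, T, _, _, _, _, _, _, _, _, _, π, c, hCF, hinj, hX, hxm, hredR, hredT⟩ :=
    RD.exists_equal p (d + 1) R S (CharP.cast_eq_zero R p) hdR
  have hpm : (p : R) ∈ maximalIdeal R := by rw [CharP.cast_eq_zero]; exact zero_mem _
  have hpS : (p : S) ∈ maximalIdeal S := by
    rw [← map_natCast (algebraMap R S), CharP.cast_eq_zero, map_zero]; exact zero_mem _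
  have c1 : CharP (ResidueField R) p := RD.charP_residueField p hpm
  have c2 : CharP (ResidueField S) p := RD.charP_residueField p hpS
  have c3 : PerfectRing (ResidueField S) p := inferInstance
  have c4 : Infinite (ResidueField S) := inferInstance
  exact lechC_fact p π _ hCF hinj hX hxm c hredT hdR hdS (Nat.succ_pos d)

end Crest.Agent.R183.CoreK
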