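import Mathlib
import Crest.Agent.R183.Om2
import Crest.Agent.R183.Om6

-- ▼ part R183/W1
section

/-!
# R183, block D1 (root adjunction), part 1: equational flatness modulo an element
-/

namespace Crest.Agent.R183.W

universe u v w

open Finset

/-- `B/aB` is flat over `A/aA`, in equational form (index types are arbitrary finite types). -/
def FlatAt {A : Type u} {B : Type v} [CommRing A] [CommRing B] (φ : A →+* B) (a : A) : Prop :=
  ∀ (ι : Type) [Fintype ι] (r : ι → A) (x : ι → B) (w : B), ∑ i, φ (r i) * x i = φ a * w →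
    ∃ (κ : Type) (_ : Fintype κ) (c : ι → κ → A) (y : κ → B) (x' : ι → B) (s : κ → A),
      (∀ i, x i = ∑ j, φ (c i j) * y j + φ a * x' i) ∧ ∀ j, ∑ i, r i * c i j = a * s j

/-- `φ a` is a nonzerodivisor, elementwise. -/
def RegAt {A : Type u} {B : Type v} [CommRing A] [CommRing B] (φ : A →+* B) (a : A) : Prop :=
  ∀ b : B, φ a * b = 0 → b = 0

/-- properness: an ideal `J ∋ a` of `A` generating the unit ideal of `B` is the unit ideal. -/
def PropAt {A : Type u} {B : Type v} [CommRing A] [CommRing B] (φ : A →+* B) (a : A) : Prop :=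
  ∀ J : Ideal A, a ∈ J → (1 : B) ∈ J.map φ → (1 : A) ∈ J

section
variable {A : Type u} {B : Type v} {C : Type w} [CommRing A] [CommRing B] [CommRing C]

theorem FlatAt.one (φ : A →+* B) : FlatAt φ 1 := by
  intro ι _ r x w h
  refine ⟨Empty, inferInstance, fun _ e => e.elim, fun e => e.elim, x, fun e => e.elim, ?_, ?_⟩
  · intro i; simp
  · intro j; exact j.elim

theorem FlatAt.mul_of {φ : A →+* B} {a b : A} (ha : FlatAt φ a) (hb : FlatAt φ b)
    (hr : RegAt φ a) : FlatAt φ (a * b) := by
  classical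
  intro ι _ r x w h
  have h0 : ∑ i, φ (r i) * x i = φ a * (φ b * w) := by rw [h, map_mul, mul_assoc]
  obtain ⟨κ, _, c, y, x', s, h1, h2⟩ := ha ι r x _ h0
  have h3 : ∑ j, φ (s j) * y j + ∑ i, φ (r i) * x' i = φ b * w := by
    have h4 : φ a * ((∑ j, φ (s j) * y j + ∑ i, φ (r i) * x' i) - φ b * w) = 0 := by
      have h5 : ∑ i, φ (r i) * x i
          = ∑ j, φ (a * s j) * y j + φ a * ∑ i, φ (r i) * x' i := by
        calc ∑ i, φ (r i) * x i
            = ∑ i, (∑ j, φ (r i * c i j) * y j + φ a * (φ (r i) * x' i)) := by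
              refine Finset.sum_congr rfl fun i _ => ?_
              rw [h1 i, mul_add, Finset.mul_sum]
              congr 1
              · refine Finset.sum_congr rfl fun j _ => ?_
                rw [map_mul]; ring
              · ring
          _ = ∑ j, φ (a * s j) * y j + φ a * ∑ i, φ (r i) * x' i := by
              rw [Finset.sum_add_distrib, Finset.sum_comm, Finset.mul_sum]
              congr 1
              refine Finset.sum_congr rfl fun j _ => ?_
              rw [← h2 j, map_sum, Finset.sum_mul]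
      have h6 : ∑ j, φ (a * s j) * y j = φ a * ∑ j, φ (s j) * y j := by
        rw [Finset.mul_sum]
        refine Finset.sum_congr rfl fun j _ => ?_
        rw [map_mul]; ring
      rw [mul_sub, mul_add, ← h6, ← h5, h0, sub_self]
    exact sub_eq_zero.mp (hr _ h4)
  have h7 : ∑ i : κ ⊕ ι, φ (Sum.elim s r i) * (Sum.elim y x' i) = φ b * w := by
    rw [Fintype.sum_sum_type]; simpa using h3
  obtain ⟨κ', _, c', y', x'', s', h8, h9⟩ := hb (κ ⊕ ι) _ _ _ h7
  refine ⟨κ' ⊕ κ, inferInstance,
    fun i => Sum.elim (fun k => ∑ j, c i j * c' (Sum.inl j) k + a * c' (Sum.inr i) k)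
      (fun j => c i j * b),
    Sum.elim y' (fun j => x'' (Sum.inl j)), fun i => x'' (Sum.inr i), Sum.elim s' s, ?_, ?_⟩
  · intro i
    rw [Fintype.sum_sum_type]
    simp only [Sum.elim_inl, Sum.elim_inr]
    have e1 : ∀ j, y j = ∑ k, φ (c' (Sum.inl j) k) * y' k + φ b * x'' (Sum.inl j) := by
      intro j; simpa using h8 (Sum.inl j)
    have e2 : x' i = ∑ k, φ (c' (Sum.inr i) k) * y' k + φ b * x'' (Sum.inr i) := by
      simpa using h8 (Sum.inr i)
    rw [h1 i]
    have e3 : ∑ j, φ (c i j) * y j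
        = ∑ k, φ (∑ j, c i j * c' (Sum.inl j) k) * y' k + ∑ j, φ (c i j * b) * x'' (Sum.inl j) := by
      calc ∑ j, φ (c i j) * y j
          = ∑ j, (∑ k, φ (c i j * c' (Sum.inl j) k) * y' k + φ (c i j * b) * x'' (Sum.inl j)) := by
            refine Finset.sum_congr rfl fun j _ => ?_
            rw [e1 j, mul_add, Finset.mul_sum]
            congr 1
            · refine Finset.sum_congr rfl fun k _ => ?_
              rw [map_mul]; ring
            · rw [map_mul]; ring
        _ = _ := by
            rw [Finset.sum_add_distrib, Finset.sum_comm]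
            congr 1
            refine Finset.sum_congr rfl fun k _ => ?_
            rw [map_sum, Finset.sum_mul]
    have e4 : φ a * x' i = ∑ k, φ (a * c' (Sum.inr i) k) * y' k + φ (a * b) * x'' (Sum.inr i) := by
      rw [e2, mul_add, Finset.mul_sum]
      congr 1
      · refine Finset.sum_congr rfl fun k _ => ?_
        rw [map_mul]; ring
      · rw [map_mul]; ring
    rw [e3, e4]
    have e5 : ∑ k, φ (∑ j, c i j * c' (Sum.inl j) k + a * c' (Sum.inr i) k) * y' k
        = ∑ k, φ (∑ j, c i j * c' (Sum.inl j) k) * y' k + ∑ k, φ (a * c' (Sum.inr i) k) * y' k := by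
      rw [← Finset.sum_add_distrib]
      refine Finset.sum_congr rfl fun k _ => ?_
      rw [map_add]; ring
    rw [e5]; ring
  · rintro (k | j)
    · simp only [Sum.elim_inl]
      have e6 : ∑ j, s j * c' (Sum.inl j) k + ∑ i, r i * c' (Sum.inr i) k = b * s' k := by
        have := h9 k
        rw [Fintype.sum_sum_type] at this
        simpa using this
      have e7 : ∑ i, r i * (∑ j, c i j * c' (Sum.inl j) k + a * c' (Sum.inr i) k)
          = ∑ j, (∑ i, r i * c i j) * c' (Sum.inl j) k + a * ∑ i, r i * c' (Sum.inr i) k := by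
        simp only [mul_add, Finset.sum_add_distrib, Finset.mul_sum, Finset.sum_mul]
        rw [Finset.sum_comm]
        congr 1
        · refine Finset.sum_congr rfl fun j _ => Finset.sum_congr rfl fun i _ => ?_
          ring
        · refine Finset.sum_congr rfl fun i _ => ?_
          ring
      rw [e7]
      simp only [h2]
      have e8 : ∑ j, a * s j * c' (Sum.inl j) k = a * ∑ j, s j * c' (Sum.inl j) k := by
        rw [Finset.mul_sum]
        refine Finset.sum_congr rfl fun j _ => ?_
        ring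
      rw [e8, ← mul_add, e6]; ring
    · simp only [Sum.elim_inr]
      have e9 : ∑ i, r i * (c i j * b) = (∑ i, r i * c i j) * b := by
        rw [Finset.sum_mul]
        refine Finset.sum_congr rfl fun i _ => ?_
        ring
      rw [e9, h2]; ring

/-- Devissage: flat modulo `a` and `a` regular on `B` give flat modulo all powers of `a`. -/
theorem FlatAt.pow {φ : A →+* B} {a : A} (ha : FlatAt φ a) (hr : RegAt φ a) (m : ℕ) :
    FlatAt φ (a ^ m) := by
  induction m with
  | zero => rw [pow_zero]; exact FlatAt.one φ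
  | succ m ih => rw [pow_succ']; exact ha.mul_of ih hr

theorem RegAt.pow {φ : A →+* B} {a : A} (hr : RegAt φ a) (m : ℕ) : RegAt φ (a ^ m) := by
  induction m with
  | zero => intro b hb; simpa using hb
  | succ m ih =>
    intro b hb
    refine ih b (hr _ ?_)
    rw [← hb, pow_succ', map_mul, mul_assoc]

theorem FlatAt.comp {φ : A →+* B} {ψ : B →+* C} {a : A} (h1 : FlatAt φ a) (h2 : FlatAt ψ (φ a)) :
    FlatAt (ψ.comp φ) a := by
  classical
  intro ι _ r x w h
  obtain ⟨κ, _, c, y, x', s, h3, h4⟩ := h2 ι (fun i => φ (r i)) x w (by simpa using h)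
  choose K fK d z c' s' h5 h6 using fun j => h1 ι r (fun i => c i j) (s j) (h4 j)
  refine ⟨Σ j, K j, inferInstance, fun i jk => d jk.1 i jk.2, fun jk => ψ (z jk.1 jk.2) * y jk.1,
    fun i => ∑ j, ψ (c' j i) * y j + x' i, fun jk => s' jk.1 jk.2, ?_, ?_⟩
  · intro i
    rw [Fintype.sum_sigma, h3 i]
    have e1 : ∑ j, ψ (c i j) * y j = ∑ j, (∑ k, (ψ.comp φ) (d j i k) * (ψ (z j k) * y j)
        + (ψ.comp φ) a * (ψ (c' j i) * y j)) := by
      refine Finset.sum_congr rfl fun j _ => ?_
      have := h5 j i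
      rw [this, map_add, map_sum, add_mul, Finset.sum_mul, map_mul]
      congr 1
      · refine Finset.sum_congr rfl fun k _ => ?_
        rw [map_mul]; simp only [RingHom.comp_apply]; ring
      · simp only [RingHom.comp_apply]; ring
    rw [e1, Finset.sum_add_distrib, mul_add, Finset.mul_sum]
    simp only [RingHom.comp_apply]
    ring
  · rintro ⟨j, k⟩
    exact h6 j k

theorem PropAt.comp {φ : A →+* B} {ψ : B →+* C} {a : A} (h1 : PropAt φ a) (h2 : PropAt ψ (φ a)) :
    PropAt (ψ.comp φ) a := by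
  intro J hJ h
  refine h1 J hJ (h2 _ (Ideal.mem_map_of_mem φ hJ) ?_)
  rwa [Ideal.map_map]

theorem FlatAt.id (a : A) : FlatAt (RingHom.id A) a := by
  classical
  intro ι _ r x w h
  refine ⟨Unit, inferInstance, fun i _ => x i, fun _ => 1, fun _ => 0, fun _ => w, ?_, ?_⟩
  · intro i; simp
  · intro j; simpa using h

theorem PropAt.id (a : A) : PropAt (RingHom.id A) a := by
  intro J _ h
  simpa using h

/-- the general form for an ideal containing a power of `a`. -/
theorem PropAt.of_pow_mem {φ : A →+* B} {a : A} (h1 : PropAt φ a) {J : Ideal A} {m : ℕ}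
    (hJ : a ^ m ∈ J) (h : (1 : B) ∈ J.map φ) : (1 : A) ∈ J := by
  have h2 : (1 : A) ∈ J ⊔ Ideal.span {a} := by
    refine h1 _ (Ideal.mem_sup_right (Ideal.mem_span_singleton_self a)) ?_
    exact Ideal.map_mono le_sup_left h
  obtain ⟨j, hj, b, hb, h3⟩ := Submodule.mem_sup.mp h2
  obtain ⟨c, rfl⟩ := Ideal.mem_span_singleton'.mp hb
  have h4 : (1 - j) ^ m ∈ J := by
    have : 1 - j = c * a := by rw [← h3]; ring
    rw [this, mul_pow]
    exact J.mul_mem_left _ hJ
  have h5 : (Ideal.Quotient.mk J) 1 = 0 := by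
    have h6 : (Ideal.Quotient.mk J) ((1 - j) ^ m) = 0 := Ideal.Quotient.eq_zero_iff_mem.mpr h4
    rw [map_pow, map_sub, Ideal.Quotient.eq_zero_iff_mem.mpr hj, sub_zero, map_one, one_pow] at h6
    rw [map_one]; exact h6
  exact Ideal.Quotient.eq_zero_iff_mem.mp h5

end

end Crest.Agent.R183.W
end

-- ▼ part R183/W2
section

/-!
# R183, block D1 (root adjunction), part 2: passing to the perfection
-/

namespace Crest.Agent.R183.W

universe u v w

open Finset

section
variable {P : Type u} {E : Type v} {L : Type w} [CommRing P] [CommRing E] [CommRing L]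
variable (p : ℕ) [ExpChar P p] [ExpChar E p] [ExpChar L p] [PerfectRing P p] [PerfectRing L p]

omit [ExpChar E p] [ExpChar L p] [PerfectRing L p] in
theorem exists_common_pow (i : E →+* L) [IsPRadical i p] {ι : Type} [Finite ι] (x : ι → L) :
    ∃ (n : ℕ) (e : ι → E), ∀ j, i (e j) = x j ^ p ^ n := by
  classical
  cases nonempty_fintype ι
  choose n e h using fun j => IsPRadical.pow_mem i p (x j)
  refine ⟨∑ j, n j, fun j => e j ^ p ^ (∑ k ∈ univ.erase j, n k), fun j => ?_⟩
  rw [map_pow, h, ← pow_mul, ← pow_add, add_comm, Finset.sum_erase_add _ _ (mem_univ j)]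

omit [ExpChar P p] [PerfectRing P p] in
theorem RegAt.perfection {φ : P →+* E} {a : P} (i : E →+* L) [IsPRadical i p]
    (hr : RegAt φ a) : RegAt (i.comp φ) a := by
  intro b hb
  obtain ⟨n, e, he⟩ := IsPRadical.pow_mem i p b
  have h1 : i (φ (a ^ p ^ n) * e) = 0 := by
    rw [map_mul, he]
    have : i (φ (a ^ p ^ n)) = ((i.comp φ) a) ^ p ^ n := by simp
    rw [this, ← mul_pow, hb, zero_pow (pow_pos (expChar_pos E p) n).ne']
  obtain ⟨k, hk⟩ := mem_pNilradical.mp (IsPRadical.ker_le i p (RingHom.mem_ker.mpr h1))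
  have h2 : e ^ p ^ k = 0 := by
    have h3 : φ ((a ^ p ^ n) ^ p ^ k) * e ^ p ^ k = 0 := by
      rw [map_pow, ← mul_pow]; exact hk
    rw [← pow_mul] at h3
    exact hr.pow _ _ h3
  have h4 : b ^ p ^ (n + k) = 0 := by
    rw [pow_add, pow_mul, ← he, ← map_pow, h2, map_zero]
  have h5 : iterateFrobeniusEquiv L p (n + k) b = 0 := h4
  exact (map_eq_zero_iff _ (iterateFrobeniusEquiv L p (n + k)).injective).mp h5

omit [ExpChar P p] [PerfectRing P p] [PerfectRing L p] in
theorem PropAt.perfection {φ : P →+* E} {a : P} (i : E →+* L) [IsPRadical i p]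
    (hr : PropAt φ a) : PropAt (i.comp φ) a := by
  intro J hJ h
  have h1 : ∀ x ∈ J.map (i.comp φ), ∃ (n : ℕ) (e : E), e ∈ J.map φ ∧ i e = x ^ p ^ n := by
    intro x hx
    induction hx using Submodule.span_induction with
    | mem x hx =>
      obtain ⟨j, hj, rfl⟩ := hx
      exact ⟨0, φ j, Ideal.mem_map_of_mem φ hj, by simp⟩
    | zero => exact ⟨0, 0, Ideal.zero_mem _, by simp⟩
    | add x y _ _ ihx ihy =>
      obtain ⟨n, e, he, h2⟩ := ihx
      obtain ⟨m, f, hf, h3⟩ := ihy
      refine ⟨n + m, e ^ p ^ m + f ^ p ^ n, Ideal.add_mem _ ?_ ?_, ?_⟩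
      · exact Ideal.pow_mem_of_mem _ he _ (pow_pos (expChar_pos E p) m)
      · exact Ideal.pow_mem_of_mem _ hf _ (pow_pos (expChar_pos E p) n)
      · rw [map_add, map_pow, map_pow, h2, h3, add_pow_expChar_pow, ← pow_mul, ← pow_mul,
          ← pow_add, ← pow_add, add_comm m n]
    | smul c x _ ihx =>
      obtain ⟨n, e, he, h2⟩ := ihx
      obtain ⟨m, f, h3⟩ := IsPRadical.pow_mem i p c
      refine ⟨n + m, f ^ p ^ n * e ^ p ^ m, Ideal.mul_mem_left _ _
        (Ideal.pow_mem_of_mem _ he _ (pow_pos (expChar_pos E p) m)), ?_⟩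
      rw [map_mul, map_pow, map_pow, h2, h3, smul_eq_mul, mul_pow, ← pow_mul, ← pow_mul,
          ← pow_add, ← pow_add, add_comm m n]
  obtain ⟨n, e, he, h2⟩ := h1 1 h
  rw [one_pow] at h2
  have h3 : i (e - 1) = 0 := by rw [map_sub, h2, map_one, sub_self]
  obtain ⟨k, hk⟩ := mem_pNilradical.mp (IsPRadical.ker_le i p (RingHom.mem_ker.mpr h3))
  rw [sub_pow_expChar_pow, one_pow, sub_eq_zero] at hk
  refine hr J hJ ?_
  rw [← hk]
  exact Ideal.pow_mem_of_mem _ he _ (pow_pos (expChar_pos E p) k)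

theorem FlatAt.perfection {φ : P →+* E} {a : P} (i : E →+* L) [IsPRadical i p]
    (hf : ∀ n : ℕ, FlatAt φ (a ^ p ^ n)) : FlatAt (i.comp φ) a := by
  classical
  intro ι _ r x w h
  obtain ⟨n, e, he⟩ := exists_common_pow p i (Option.elim · w x : Option ι → L)
  have h1 : i (∑ j, φ (r j ^ p ^ n) * e (some j) - φ (a ^ p ^ n) * e none) = 0 := by
    have h2 := congrArg (iterateFrobenius L p n) h
    simp only [map_sum, map_mul] at h2
    simp only [iterateFrobenius_def] at h2
    rw [map_sub, map_sum, sub_eq_zero]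
    have h3 : ∀ j, i (e (some j)) = x j ^ p ^ n := fun j => he (some j)
    have h4 : i (e none) = w ^ p ^ n := he none
    simp only [map_mul, map_pow, h3, h4]
    simpa using h2
  obtain ⟨k, hk⟩ := mem_pNilradical.mp (IsPRadical.ker_le i p (RingHom.mem_ker.mpr h1))
  rw [sub_pow_expChar_pow, sum_pow_char_pow, sub_eq_zero] at hk
  have h5 : ∑ j, φ (r j ^ p ^ (n + k)) * (e (some j)) ^ p ^ k
      = φ (a ^ p ^ (n + k)) * (e none) ^ p ^ k := by
    simpa [mul_pow, ← pow_mul, pow_add] using hk
  obtain ⟨κ, _, c, y, x', s, h6, h7⟩ := hf (n + k) ι _ _ _ h5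
  set N := n + k with hN
  let ρ : P ≃+* P := (iterateFrobeniusEquiv P p N).symm
  let σ : L ≃+* L := (iterateFrobeniusEquiv L p N).symm
  have hρ : ∀ b, ρ (b ^ p ^ N) = b := fun b => (iterateFrobeniusEquiv P p N).symm_apply_apply b
  have hσ : ∀ b, σ (b ^ p ^ N) = b := fun b => (iterateFrobeniusEquiv L p N).symm_apply_apply b
  have hnat : ∀ b, σ (i (φ b)) = i (φ (ρ b)) := by
    intro b
    have h8 : b = (ρ b) ^ p ^ N := ((iterateFrobeniusEquiv P p N).apply_symm_apply b).symm
    conv_lhs => rw [h8]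
    rw [map_pow, map_pow, hσ]
  refine ⟨κ, inferInstance, fun j l => ρ (c j l), fun l => σ (i (y l)), fun j => σ (i (x' j)),
    fun l => ρ (s l), ?_, ?_⟩
  · intro j
    have h9 : x j ^ p ^ N = i (e (some j) ^ p ^ k) := by
      have : i (e (some j)) = x j ^ p ^ n := he (some j)
      rw [map_pow, this, ← pow_mul, ← pow_add]
    rw [← hσ (x j), h9, h6 j, map_add, map_add, map_sum, map_sum, map_mul, map_mul, hnat]
    congr 1
    · refine Finset.sum_congr rfl fun l _ => ?_
      rw [map_mul, map_mul, hnat]; rfl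
    · rw [hρ]; rfl
  · intro l
    have h10 := congrArg ρ (h7 l)
    rw [map_sum, map_mul, hρ] at h10
    simpa [hρ] using h10

end

end Crest.Agent.R183.W
end

-- ▼ part R183/W3
section

/-!
# R183, block D1 (root adjunction), part 3: the triangular system
`s_0 = -b mod π`, `s_{i+1} = X_i^p mod π` over `P[S][X_0, X_1, ...]`
-/

namespace Crest.Agent.R183.W

universe u v w

open Finset MvPolynomial

set_option linter.unusedSectionVars false

section NIdeal
variable {Q : Type u} [CommRing Q]

/-- polynomials all of whose coefficients at exponents `e` with `e j < p` (`j ∈ K`) lie in `T`. -/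
def NIdeal (p : ℕ) (T : Ideal Q) (K : Set ℕ) : Ideal (MvPolynomial ℕ Q) where
  carrier := {x | ∀ e : ℕ →₀ ℕ, (∀ j ∈ K, e j < p) → coeff e x ∈ T}
  add_mem' := by
    intro x y hx hy e he
    rw [coeff_add]
    exact T.add_mem (hx e he) (hy e he)
  zero_mem' := by
    intro e _
    rw [coeff_zero]; exact T.zero_mem
  smul_mem' := by
    classical
    intro c x hx e he
    rw [smul_eq_mul, coeff_mul]
    refine T.sum_mem fun a ha => T.mul_mem_left _ (hx _ fun j hj => ?_)
    have h1 : a.1 + a.2 = e := by simpa using ha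
    have h2 : a.1 j + a.2 j = e j := by rw [← h1]; rfl
    have := he j hj
    omega


theorem C_mem_NIdeal {p : ℕ} {T : Ideal Q} {K : Set ℕ} {c : Q} (hc : c ∈ T) :
    C c ∈ NIdeal p T K := by
  classical
  intro e _
  rw [coeff_C]
  split_ifs
  · exact hc
  · exact T.zero_mem

theorem X_pow_mem_NIdeal {p : ℕ} {T : Ideal Q} {K : Set ℕ} {k : ℕ} (hk : k ∈ K) :
    (X k : MvPolynomial ℕ Q) ^ p ∈ NIdeal p T K := by
  classical
  intro e he
  rw [X_pow_eq_monomial, coeff_monomial]
  split_ifs with h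
  · exfalso
    have := he k hk
    rw [← h, Finsupp.single_eq_same] at this
    exact lt_irrefl _ this
  · exact T.zero_mem

/-- `NIdeal` is contained in any ideal containing `C T` and the `X_j ^ p`, `j ∈ K`. -/
theorem NIdeal_le {p : ℕ} {T : Ideal Q} {K : Set ℕ} {J : Ideal (MvPolynomial ℕ Q)}
    (h1 : ∀ c ∈ T, C c ∈ J) (h2 : ∀ j ∈ K, (X j : MvPolynomial ℕ Q) ^ p ∈ J) :
    NIdeal p T K ≤ J := by
  classical
  intro x hx
  rw [x.as_sum]
  refine J.sum_mem fun e _ => ?_
  by_cases he : ∀ j ∈ K, e j < p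
  · have h3 : monomial e (coeff e x) = C (coeff e x) * monomial e 1 := by
      rw [C_mul_monomial, mul_one]
    rw [h3]
    exact J.mul_mem_right _ (h1 _ (hx e he))
  · push Not at he
    obtain ⟨j, hj, hle⟩ := he
    have h4 : monomial e (coeff e x)
        = (X j : MvPolynomial ℕ Q) ^ p * monomial (e - Finsupp.single j p) (coeff e x) := by
      rw [X_pow_eq_monomial, monomial_mul, one_mul]
      have h5 : e = Finsupp.single j p + (e - Finsupp.single j p) := by
        ext i
        simp only [Finsupp.coe_add, Finsupp.coe_tsub, Pi.add_apply, Pi.sub_apply]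
        by_cases hij : i = j
        · subst hij; simp only [Finsupp.single_eq_same]; omega
        · rw [Finsupp.single_eq_of_ne hij]; omega
      rw [← h5]
    rw [h4]
    exact J.mul_mem_right _ (h2 j hj)

theorem of_X_pow_mul_mem_NIdeal {p : ℕ} {T : Ideal Q} {K : Set ℕ} {k : ℕ} (hk : k ∉ K)
    {x : MvPolynomial ℕ Q} (hx : X k ^ p * x ∈ NIdeal p T K) : x ∈ NIdeal p T K := by
  classical
  intro e he
  have h1 := hx (Finsupp.single k p + e) (fun j hj => ?_)
  · rw [X_pow_eq_monomial, coeff_monomial_mul, one_mul] at h1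
    exact h1
  · have : j ≠ k := fun h => hk (h ▸ hj)
    simp only [Finsupp.coe_add, Pi.add_apply, Finsupp.single_eq_of_ne this, zero_add]
    exact he j hj

end NIdeal

/-- the data of the triangular system. -/
structure Tri (p : ℕ) (P : Type u) [CommRing P] where
  π : P
  b : Polynomial P
  s : ℕ → MvPolynomial ℕ (Polynomial P)
  reg : ∀ x : P, π * x = 0 → x = 0
  monic : b.Monic
  deg : 0 < b.natDegree
  s_zero : ∃ u, s 0 = C (Polynomial.C π) * u - C b
  s_succ : ∀ i, ∃ u, s (i + 1) = X i ^ p + C (Polynomial.C π) * u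

namespace Tri

variable {p : ℕ} [hp : Fact p.Prime] {P : Type u} [CommRing P] (D : Tri p P)

/-- `(π, b)` in `P[S]`. -/
noncomputable def T : Ideal (Polynomial P) := Ideal.span {Polynomial.C D.π, D.b}

/-- the ideal of all relations. -/
noncomputable def I : Ideal (MvPolynomial ℕ (Polynomial P)) := Ideal.span (Set.range D.s)

/-- the ideal of the relations of index `< k`. -/
noncomputable def Ik (k : ℕ) : Ideal (MvPolynomial ℕ (Polynomial P)) :=
  Ideal.span (D.s '' Set.Iio k)

/-- `π` as a polynomial. -/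
noncomputable def pp : MvPolynomial ℕ (Polynomial P) := C (Polynomial.C D.π)

theorem C_T_mem {J : Ideal (MvPolynomial ℕ (Polynomial P))} (h1 : D.pp ∈ J) (h2 : D.s 0 ∈ J)
    {c : Polynomial P} (hc : c ∈ D.T) : C c ∈ J := by
  have h3 : C D.b ∈ J := by
    obtain ⟨u, hu⟩ := D.s_zero
    have : C D.b = D.pp * u - D.s 0 := by rw [hu, pp]; ring
    rw [this]
    exact J.sub_mem (J.mul_mem_right _ h1) h2
  obtain ⟨x, y, rfl⟩ := Ideal.mem_span_pair.mp hc
  rw [C_add, C_mul, C_mul]
  exact J.add_mem (J.mul_mem_left _ h1) (J.mul_mem_left _ h3)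

theorem N_eq (k : ℕ) :
    NIdeal p D.T (Set.Iio k) = D.Ik (k + 1) ⊔ Ideal.span {D.pp} := by
  apply le_antisymm
  · have hpp : D.pp ∈ D.Ik (k + 1) ⊔ Ideal.span {D.pp} :=
      Ideal.mem_sup_right (Ideal.mem_span_singleton_self _)
    have hs : ∀ i < k + 1, D.s i ∈ D.Ik (k + 1) ⊔ Ideal.span {D.pp} := fun i hi =>
      Ideal.mem_sup_left (Ideal.subset_span ⟨i, hi, rfl⟩)
    refine NIdeal_le (fun c hc => D.C_T_mem hpp (hs 0 (by omega)) hc) fun j hj => ?_
    obtain ⟨u, hu⟩ := D.s_succ j
    have h1 : (X j : MvPolynomial ℕ (Polynomial P)) ^ p = D.s (j + 1) - D.pp * u := by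
      rw [hu, pp]; ring
    rw [h1]
    have hj' : j < k := hj
    exact Ideal.sub_mem _ (hs _ (by omega)) (Ideal.mul_mem_right _ _ hpp)
  · have hpp : D.pp ∈ NIdeal p D.T (Set.Iio k) :=
      C_mem_NIdeal (Ideal.subset_span (by simp))
    refine sup_le (Ideal.span_le.mpr ?_) ((Ideal.span_singleton_le_iff_mem _).mpr hpp)
    rintro _ ⟨i, hi, rfl⟩
    have hi' : i < k + 1 := hi
    rcases i with _ | i
    · obtain ⟨u, hu⟩ := D.s_zero
      rw [hu]
      exact Ideal.sub_mem _ (Ideal.mul_mem_right _ _ hpp)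
        (C_mem_NIdeal (Ideal.subset_span (by simp)))
    · obtain ⟨u, hu⟩ := D.s_succ i
      rw [hu]
      exact Ideal.add_mem _ (X_pow_mem_NIdeal (by simp; omega)) (Ideal.mul_mem_right _ _ hpp)

theorem N_univ_le : NIdeal p D.T Set.univ ≤ D.I ⊔ Ideal.span {D.pp} := by
  have hpp : D.pp ∈ D.I ⊔ Ideal.span {D.pp} :=
    Ideal.mem_sup_right (Ideal.mem_span_singleton_self _)
  have hs : ∀ i, D.s i ∈ D.I ⊔ Ideal.span {D.pp} := fun i =>
    Ideal.mem_sup_left (Ideal.subset_span ⟨i, rfl⟩)
  refine NIdeal_le (fun c hc => D.C_T_mem hpp (hs 0) hc) fun j _ => ?_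
  obtain ⟨u, hu⟩ := D.s_succ j
  have h1 : (X j : MvPolynomial ℕ (Polynomial P)) ^ p = D.s (j + 1) - D.pp * u := by
    rw [hu, pp]; ring
  rw [h1]
  exact Ideal.sub_mem _ (hs _) (Ideal.mul_mem_right _ _ hpp)

theorem pp_mem_N (K : Set ℕ) : D.pp ∈ NIdeal p D.T K :=
  C_mem_NIdeal (Ideal.subset_span (by simp))

theorem I_le_N : D.I ≤ NIdeal p D.T Set.univ := by
  have hpp := D.pp_mem_N Set.univ
  refine Ideal.span_le.mpr ?_
  rintro _ ⟨i, rfl⟩
  rcases i with _ | i
  · obtain ⟨u, hu⟩ := D.s_zero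
    rw [hu]
    exact Ideal.sub_mem _ (Ideal.mul_mem_right _ _ hpp)
      (C_mem_NIdeal (Ideal.subset_span (by simp)))
  · obtain ⟨u, hu⟩ := D.s_succ i
    rw [hu]
    exact Ideal.add_mem _ (X_pow_mem_NIdeal (Set.mem_univ _)) (Ideal.mul_mem_right _ _ hpp)

theorem Ik_mono {k l : ℕ} (h : k ≤ l) : D.Ik k ≤ D.Ik l :=
  Ideal.span_mono (Set.image_mono (Set.Iio_subset_Iio h))

theorem exists_mem_Ik {x : MvPolynomial ℕ (Polynomial P)} (hx : x ∈ D.I) : ∃ k, x ∈ D.Ik k := by
  induction hx using Submodule.span_induction with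
  | mem x hx =>
    obtain ⟨i, rfl⟩ := hx
    exact ⟨i + 1, Ideal.subset_span ⟨i, Nat.lt_succ_self i, rfl⟩⟩
  | zero => exact ⟨0, Ideal.zero_mem _⟩
  | add x y _ _ ihx ihy =>
    obtain ⟨k, hk⟩ := ihx
    obtain ⟨l, hl⟩ := ihy
    exact ⟨max k l, Ideal.add_mem _ (D.Ik_mono (le_max_left _ _) hk)
      (D.Ik_mono (le_max_right _ _) hl)⟩
  | smul c x _ ihx =>
    obtain ⟨k, hk⟩ := ihx
    exact ⟨k, Ideal.mul_mem_left _ _ hk⟩

theorem pp_reg (x : MvPolynomial ℕ (Polynomial P)) (hx : D.pp * x = 0) : x = 0 := by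
  ext e n
  have h1 := congrArg (fun z => (coeff e z).coeff n) hx
  simp only [pp, coeff_C_mul, Polynomial.coeff_C_mul, coeff_zero, Polynomial.coeff_zero] at h1
  simpa using D.reg _ h1

theorem mem_span_pp {x : MvPolynomial ℕ (Polynomial P)} :
    x ∈ Ideal.span {D.pp} ↔ ∀ e, Polynomial.C D.π ∣ coeff e x := by
  rw [Ideal.mem_span_singleton, pp, C_dvd_iff_dvd_coeff]

theorem C_dvd_iff_map (x : Polynomial P) : Polynomial.C D.π ∣ x ↔
    x.map (Ideal.Quotient.mk (Ideal.span {D.π})) = 0 := by
  rw [Polynomial.C_dvd_iff_dvd_coeff]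
  constructor
  · intro hx
    ext n
    rw [Polynomial.coeff_map, Polynomial.coeff_zero, Ideal.Quotient.eq_zero_iff_mem,
      Ideal.mem_span_singleton]
    exact hx n
  · intro hx n
    rw [← Ideal.mem_span_singleton, ← Ideal.Quotient.eq_zero_iff_mem, ← Polynomial.coeff_map, hx,
      Polynomial.coeff_zero]

/-- `b` is regular modulo `π` in `P[S]`. -/
theorem b_reg {c : Polynomial P} (h : Polynomial.C D.π ∣ D.b * c) : Polynomial.C D.π ∣ c := by
  rw [C_dvd_iff_map] at h ⊢
  rw [Polynomial.map_mul] at h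
  exact (D.monic.map _).mul_right_eq_zero_iff.mp h

theorem step (k : ℕ) (r : MvPolynomial ℕ (Polynomial P))
    (h : D.s k * r ∈ D.Ik k ⊔ Ideal.span {D.pp}) : r ∈ D.Ik k ⊔ Ideal.span {D.pp} := by
  rcases k with _ | k
  · have h0 : D.Ik 0 = ⊥ := by simp [Ik]
    rw [h0, bot_sup_eq] at h ⊢
    obtain ⟨u, hu⟩ := D.s_zero
    have h1 : C D.b * r ∈ Ideal.span {D.pp} := by
      have : C D.b * r = D.pp * (u * r) - D.s 0 * r := by rw [hu, pp]; ring
      rw [this]
      exact Ideal.sub_mem _ (Ideal.mul_mem_right _ _ (Ideal.mem_span_singleton_self _)) h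
    rw [mem_span_pp] at h1 ⊢
    intro e
    have := h1 e
    rw [coeff_C_mul] at this
    exact D.b_reg this
  · rw [← N_eq] at h ⊢
    obtain ⟨u, hu⟩ := D.s_succ k
    refine of_X_pow_mul_mem_NIdeal (k := k) (by simp) ?_
    have : X k ^ p * r = D.s (k + 1) * r - D.pp * (u * r) := by rw [hu, pp]; ring
    rw [this]
    exact Ideal.sub_mem _ h (Ideal.mul_mem_right _ _ (D.pp_mem_N _))

theorem reg_Ik (k : ℕ) (x : MvPolynomial ℕ (Polynomial P)) (hx : D.pp * x ∈ D.Ik k) :
    x ∈ D.Ik k := by
  induction k generalizing x with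
  | zero =>
    have h0 : D.Ik 0 = ⊥ := by simp [Ik]
    rw [h0] at hx ⊢
    rw [Ideal.mem_bot] at hx ⊢
    exact D.pp_reg x hx
  | succ k ih =>
    have h1 : D.Ik (k + 1) = D.Ik k ⊔ Ideal.span {D.s k} := by
      rw [Ik, Ik, ← Ideal.span_union]
      congr 1
      ext y
      simp only [Set.mem_image, Set.mem_Iio, Set.mem_union, Set.mem_singleton_iff]
      constructor
      · rintro ⟨i, hi, rfl⟩
        rcases Nat.lt_succ_iff_lt_or_eq.mp hi with h | h
        · exact Or.inl ⟨i, h, rfl⟩
        · exact Or.inr (by rw [h])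
      · rintro (⟨i, hi, rfl⟩ | rfl)
        · exact ⟨i, by omega, rfl⟩
        · exact ⟨k, by omega, rfl⟩
    rw [h1] at hx ⊢
    obtain ⟨y, hy, z, hz, h2⟩ := Submodule.mem_sup.mp hx
    obtain ⟨r, rfl⟩ := Ideal.mem_span_singleton'.mp hz
    have h3 : D.s k * r ∈ D.Ik k ⊔ Ideal.span {D.pp} := by
      have : D.s k * r = D.pp * x - y := by rw [← h2]; ring
      rw [this]
      exact Ideal.sub_mem _ (Ideal.mul_mem_right _ _
        (Ideal.mem_sup_right (Ideal.mem_span_singleton_self _))) (Ideal.mem_sup_left hy)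
    obtain ⟨y', hy', z', hz', h4⟩ := Submodule.mem_sup.mp (D.step k r h3)
    obtain ⟨r', rfl⟩ := Ideal.mem_span_singleton'.mp hz'
    have h5 : D.pp * (x - D.s k * r') ∈ D.Ik k := by
      have : D.pp * (x - D.s k * r') = y + D.s k * y' := by
        rw [mul_sub, ← h2, ← h4]; ring
      rw [this]
      exact Ideal.add_mem _ hy (Ideal.mul_mem_left _ _ hy')
    have h6 := ih _ h5
    have h7 : x = (x - D.s k * r') + D.s k * r' := by ring
    rw [h7]
    exact Ideal.add_mem _ (Ideal.mem_sup_left h6) (Ideal.mul_mem_right _ _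
      (Ideal.mem_sup_right (Ideal.mem_span_singleton_self _)))

theorem reg_I (x : MvPolynomial ℕ (Polynomial P)) (hx : D.pp * x ∈ D.I) : x ∈ D.I := by
  obtain ⟨k, hk⟩ := D.exists_mem_Ik hx
  have h := D.reg_Ik k x hk
  exact Ideal.span_mono (Set.image_subset_range _ _) h

/-- the ring `E = P[S][X_0, X_1, ...]/(s_0, s_1, ...)`. -/
def E : Type u := MvPolynomial ℕ (Polynomial P) ⧸ D.I

noncomputable instance : CommRing D.E := Ideal.Quotient.commRing D.I

/-- the quotient map. -/
noncomputable def qm : MvPolynomial ℕ (Polynomial P) →+* D.E := Ideal.Quotient.mk D.I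

theorem qm_surjective : Function.Surjective D.qm := Ideal.Quotient.mk_surjective

theorem qm_eq_zero {x : MvPolynomial ℕ (Polynomial P)} : D.qm x = 0 ↔ x ∈ D.I :=
  Ideal.Quotient.eq_zero_iff_mem

/-- the structure map `P → E`. -/
noncomputable def φ : P →+* D.E := D.qm.comp ((C (σ := ℕ)).comp (Polynomial.C (R := P)))

theorem φ_apply (x : P) : D.φ x = D.qm (C (Polynomial.C x)) := rfl

theorem regAt : RegAt D.φ D.π := by
  intro z hz
  obtain ⟨x, rfl⟩ := D.qm_surjective z
  rw [φ_apply, ← map_mul, qm_eq_zero] at hz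
  exact D.qm_eq_zero.mpr (D.reg_I x hz)

/-- membership in `(π, b)`. -/
theorem mem_T_iff {c : Polynomial P} : c ∈ D.T ↔ ∀ n, D.π ∣ (c %ₘ D.b).coeff n := by
  rw [← Polynomial.C_dvd_iff_dvd_coeff]
  constructor
  · intro hc
    obtain ⟨x, y, rfl⟩ := Ideal.mem_span_pair.mp hc
    rw [C_dvd_iff_map, Polynomial.map_modByMonic _ D.monic,
      Polynomial.modByMonic_eq_zero_iff_dvd (D.monic.map _), Polynomial.map_add,
      Polynomial.map_mul, Polynomial.map_mul, Polynomial.map_C,
      Ideal.Quotient.eq_zero_iff_mem.mpr (Ideal.mem_span_singleton_self D.π)]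
    simp
  · intro hc
    obtain ⟨d, hd⟩ := hc
    have h2 := Polynomial.modByMonic_add_div c D.b
    rw [← h2, hd]
    exact Ideal.add_mem _ (Ideal.mul_mem_right _ _ (Ideal.subset_span (by simp)))
      (Ideal.mul_mem_right _ _ (Ideal.subset_span (by simp)))

theorem one_notMem_aux (J : Ideal P) (hJ : D.π ∈ J)
    (h : (1 : Polynomial P) ∈ J.map Polynomial.C ⊔ D.T) : (1 : P) ∈ J := by
  by_contra h1
  have hne : J ≠ ⊤ := fun h2 => h1 ((Ideal.eq_top_iff_one J).mp h2)
  have : Nontrivial (P ⧸ J) := Ideal.Quotient.nontrivial_iff.mpr hne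
  set f : Polynomial P →+* Polynomial (P ⧸ J) := Polynomial.mapRingHom (Ideal.Quotient.mk J)
  have h3 : (J.map Polynomial.C ⊔ D.T).map f ≤ Ideal.span {D.b.map (Ideal.Quotient.mk J)} := by
    rw [Ideal.map_sup, Ideal.map_map]
    refine sup_le ?_ ?_
    · rw [Ideal.map_le_iff_le_comap]
      intro x hx
      rw [Ideal.mem_comap]
      have : f (Polynomial.C x) = 0 := by
        simp [f, Ideal.Quotient.eq_zero_iff_mem.mpr hx]
      rw [RingHom.comp_apply, this]
      exact Ideal.zero_mem _
    · rw [T, Ideal.map_span, Ideal.span_le]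
      rintro _ ⟨x, hx, rfl⟩
      rcases hx with rfl | rfl
      · have : f (Polynomial.C D.π) = 0 := by
          simp [f, Ideal.Quotient.eq_zero_iff_mem.mpr hJ]
        rw [this]
        exact Ideal.zero_mem _
      · exact Ideal.subset_span (by simp [f])
  have h4 : (1 : Polynomial (P ⧸ J)) ∈ Ideal.span {D.b.map (Ideal.Quotient.mk J)} := by
    have := h3 (Ideal.mem_map_of_mem f h)
    simpa using this
  have h5 : IsUnit (D.b.map (Ideal.Quotient.mk J)) := by
    rw [← Ideal.span_singleton_eq_top, Ideal.eq_top_iff_one]; exact h4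
  have h6 := (D.monic.map (Ideal.Quotient.mk J)).eq_one_of_isUnit h5
  have h7 : (D.b.map (Ideal.Quotient.mk J)).natDegree = D.b.natDegree :=
    D.monic.natDegree_map _
  rw [h6, Polynomial.natDegree_one] at h7
  have := D.deg
  omega

theorem propAt : PropAt D.φ D.π := by
  classical
  intro J hJ h
  refine D.one_notMem_aux J hJ ?_
  -- lift to `A`
  have h1 : (1 : MvPolynomial ℕ (Polynomial P)) ∈
      J.map ((C (σ := ℕ)).comp (Polynomial.C (R := P))) ⊔ D.I := by
    have h2 : J.map D.φ = (J.map ((C (σ := ℕ)).comp (Polynomial.C (R := P)))).map D.qm := by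
      rw [Ideal.map_map]; rfl
    rw [h2] at h
    have h3 := (Ideal.mem_map_iff_of_surjective D.qm D.qm_surjective).mp h
    obtain ⟨x, hx, h4⟩ := h3
    have h5 : 1 - x ∈ D.I := by
      rw [← D.qm_eq_zero, map_sub, map_one, h4, sub_self]
    have h6 : (1 : MvPolynomial ℕ (Polynomial P)) = x + (1 - x) := by ring
    rw [h6]
    exact Ideal.add_mem _ (Ideal.mem_sup_left hx) (Ideal.mem_sup_right h5)
  have h2 : J.map ((C (σ := ℕ)).comp (Polynomial.C (R := P))) ⊔ D.I ≤
      NIdeal p (J.map Polynomial.C ⊔ D.T) Set.univ := by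
    refine sup_le ?_ (D.I_le_N.trans ?_)
    · rw [Ideal.map_le_iff_le_comap]
      intro x hx
      exact C_mem_NIdeal (Ideal.mem_sup_left (Ideal.mem_map_of_mem _ hx))
    · intro x hx e he
      exact Ideal.mem_sup_right (hx e he)
  have h3 := h2 h1 0 (fun j _ => hp.out.pos)
  rwa [coeff_zero_one] at h3

theorem aux_eq {R : Type*} [CommRing R] {x S y z q : R} (h : y + z * q = x - S) :
    x = S + q * z + y := by
  have h1 : x = (x - S) + S := by ring
  rw [h1, ← h]; ring

/-- picking out a coefficient. -/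
theorem coeff_sum_aux {Q : Type*} [CommRing Q] (G : Finset (ℕ →₀ ℕ)) (d : ℕ)
    (c : G × Fin d → Q) (y : Fin d → Q) (e : ℕ →₀ ℕ) :
    ∑ k : G × Fin d, coeff e (C (c k) * monomial k.1.1 (y k.2))
      = if h : e ∈ G then ∑ k : Fin d, c (⟨e, h⟩, k) * y k else 0 := by
  classical
  rw [Fintype.sum_prod_type]
  simp only [coeff_C_mul, coeff_monomial]
  split_ifs with h
  · rw [Finset.sum_eq_single (⟨e, h⟩ : G)]
    · simp
    · intro b _ hb
      have : (b : ℕ →₀ ℕ) ≠ e := fun h' => hb (Subtype.ext h')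
      simp [this]
    · intro h'; exact absurd (Finset.mem_univ _) h'
  · refine Finset.sum_eq_zero fun b _ => Finset.sum_eq_zero fun k _ => ?_
    have : (b : ℕ →₀ ℕ) ≠ e := fun h' => h (h' ▸ b.2)
    simp [this]

theorem flatAt : FlatAt D.φ D.π := by
  classical
  intro ι _ r x w h
  choose x' hx' using fun i => D.qm_surjective (x i)
  obtain ⟨w', hw'⟩ := D.qm_surjective w
  -- the relation in `A`
  have h1 : ∑ i, C (Polynomial.C (r i)) * x' i - D.pp * w' ∈ D.I := by
    rw [← D.qm_eq_zero, map_sub, map_sum, map_mul, hw', sub_eq_zero]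
    simp only [map_mul, hx']
    exact h
  have h2 : ∑ i, C (Polynomial.C (r i)) * x' i ∈ NIdeal p D.T Set.univ := by
    have : ∑ i, C (Polynomial.C (r i)) * x' i
      = (∑ i, C (Polynomial.C (r i)) * x' i - D.pp * w') + D.pp * w' := by ring
    rw [this]
    exact Ideal.add_mem _ (D.I_le_N h1) (Ideal.mul_mem_right _ _ (D.pp_mem_N _))
  set S : Finset (ℕ →₀ ℕ) := univ.biUnion fun i => (x' i).support with hS
  set G : Finset (ℕ →₀ ℕ) := S.filter fun e => ∀ j, e j < p with hG
  set d := D.b.natDegree with hd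
  -- coefficients
  let c : ι → (G × Fin d) → P := fun i k => (coeff k.1.1 (x' i) %ₘ D.b).coeff k.2
  have h3 : ∀ k : G × Fin d, D.π ∣ ∑ i, r i * c i k := by
    rintro ⟨⟨e, he⟩, k⟩
    have h4 := h2 e (fun j _ => (Finset.mem_filter.mp he).2 j)
    rw [D.mem_T_iff] at h4
    have h5 := h4 k
    have h6 : coeff e (∑ i, C (Polynomial.C (r i)) * x' i) %ₘ D.b
        = ∑ i, Polynomial.C (r i) * (coeff e (x' i) %ₘ D.b) := by
      rw [coeff_sum]
      simp only [coeff_C_mul]
      have h7 : ∀ y : Polynomial P, y %ₘ D.b = Polynomial.modByMonicHom D.b y := fun y => rfl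
      rw [h7, map_sum]
      refine Finset.sum_congr rfl fun i _ => ?_
      rw [← Polynomial.smul_eq_C_mul, map_smul, Polynomial.smul_eq_C_mul]
      rfl
    rw [h6, Polynomial.finsetSum_coeff] at h5
    simpa [Polynomial.coeff_C_mul, c] using h5
  choose s hs using h3
  let Y : (G × Fin d) → MvPolynomial ℕ (Polynomial P) :=
    fun k => monomial k.1.1 ((Polynomial.X : Polynomial P) ^ (k.2 : ℕ))
  have h8 : ∀ i, x' i - ∑ k, C (Polynomial.C (c i k)) * Y k ∈ D.I ⊔ Ideal.span {D.pp} := by
    intro i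
    refine D.N_univ_le ?_
    intro e he
    rw [coeff_sub, coeff_sum]
    have h9 : ∑ k : G × Fin d, coeff e (C (Polynomial.C (c i k)) * Y k) = coeff e (x' i) %ₘ D.b := by
      rw [coeff_sum_aux G d (fun k => Polynomial.C (c i k))
        (fun k => (Polynomial.X : Polynomial P) ^ (k : ℕ)) e]
      split_ifs with h
      · have h14 := Polynomial.sum_modByMonic_coeff (p := coeff e (x' i)) D.monic
          (n := d) Polynomial.degree_le_natDegree
        rw [← h14]
        refine Finset.sum_congr rfl fun k _ => ?_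
        rw [Polynomial.C_mul_X_pow_eq_monomial]
      · have h15 : coeff e (x' i) = 0 := by
          by_contra h16
          refine h (Finset.mem_filter.mpr ⟨?_, fun j => he j (Set.mem_univ _)⟩)
          exact Finset.mem_biUnion.mpr ⟨i, Finset.mem_univ _, mem_support_iff.mpr h16⟩
        rw [h15, Polynomial.zero_modByMonic]
    rw [h9]
    have h10 : coeff e (x' i) - coeff e (x' i) %ₘ D.b = D.b * (coeff e (x' i) /ₘ D.b) := by
      rw [sub_eq_iff_eq_add, add_comm, Polynomial.modByMonic_add_div]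
    rw [h10]
    exact Ideal.mul_mem_right _ _ (Ideal.subset_span (by simp))
  have h11 : ∀ i, ∃ z : D.E, x i = ∑ k, D.φ (c i k) * D.qm (Y k) + D.φ D.π * z := by
    intro i
    obtain ⟨y, hy, z, hz, h12⟩ := Submodule.mem_sup.mp (h8 i)
    obtain ⟨z', rfl⟩ := Ideal.mem_span_singleton'.mp hz
    refine ⟨D.qm z', ?_⟩
    have h13 : x' i = ∑ k, C (Polynomial.C (c i k)) * Y k + D.pp * z' + y := aux_eq h12
    rw [← hx' i, h13, map_add, map_add, map_sum, D.qm_eq_zero.mpr hy, add_zero, map_mul]
    congr 1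
  choose z hz using h11
  exact ⟨G × Fin d, inferInstance, c, fun k => D.qm (Y k), z, s, hz, hs⟩

end Tri

end Crest.Agent.R183.W
end

-- ▼ part R183/W4
section

/-!
# R183, block D1 (root adjunction), part 4: adjoining a Teichmueller root
-/

namespace Crest.Agent.R183.W

universe u v w

open Finset

set_option linter.unusedSectionVars false

section witt

variable {p : ℕ} [hp : Fact p.Prime]

/-- the tail `(x_1, x_2, ...)` of a Witt vector. -/
def wtail {R : Type u} (x : WittVector p R) : WittVector p R :=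
  WittVector.mk p fun n => x.coeff (n + 1)

theorem wtail_coeff {R : Type u} (x : WittVector p R) (n : ℕ) :
    (wtail x).coeff n = x.coeff (n + 1) := rfl

theorem map_frobenius_eq {R : Type u} [CommRing R] [CharP R p] (x : WittVector p R) :
    WittVector.map (frobenius R p) x = WittVector.teichmuller p (x.coeff 0 ^ p) + wtail x * p := by
  ext n
  rw [WittVector.map_coeff, frobenius_def, WittVector.coeff_add_of_disjoint]
  · rcases n with _ | n
    · rw [WittVector.teichmuller_coeff_zero, WittVector.mul_charP_coeff_zero, add_zero]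
    · rw [WittVector.teichmuller_coeff_pos _ _ _ (Nat.succ_pos n),
        WittVector.mul_charP_coeff_succ, zero_add, wtail_coeff]
  · intro n
    rcases n with _ | n
    · right; rw [WittVector.mul_charP_coeff_zero]
    · left; rw [WittVector.teichmuller_coeff_pos _ _ _ (Nat.succ_pos n)]

theorem map_comp_apply {R S T : Type*} [CommRing R] [CommRing S] [CommRing T] (f : R →+* S)
    (g : S →+* T) (x : WittVector p R) :
    WittVector.map g (WittVector.map f x) = WittVector.map (g.comp f) x := by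
  ext n; simp [WittVector.map_coeff]

theorem coeff_succ_eq_zero {A : Type*} {B : Type*} [CommRing A] [CommRing B] (q : A →+* B) (a b : A)
    (ha : q a = 0) (x : WittVector p A) (i : ℕ) :
    q ((WittVector.teichmuller p a * x + WittVector.teichmuller p b).coeff (i + 1)) = 0 := by
  rw [← WittVector.map_coeff q, map_add, map_mul, WittVector.map_teichmuller,
    WittVector.map_teichmuller, ha, WittVector.teichmuller_zero, zero_mul, zero_add,
    WittVector.teichmuller_coeff_pos _ _ _ (Nat.succ_pos i)]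

end witt

section main

variable (p : ℕ) [hp : Fact p.Prime] {P : Type u} [CommRing P] [CharP P p] [PerfectRing P p]
  (F : Polynomial (WittVector p P))

/-- the polynomial `F` with the coefficients untwisted by Frobenius. -/
noncomputable def untw : Polynomial (WittVector p P) :=
  F.map (WittVector.map (p := p) ((frobeniusEquiv P p).symm : P →+* P))

/-- `g = F^{(1/p)}([S])` in `W(P[S])`. -/
noncomputable def gg : WittVector p (Polynomial P) :=
  (untw p F).eval₂ (WittVector.map (p := p) Polynomial.C) (WittVector.teichmuller p Polynomial.X)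

theorem map_frob_untw : (untw p F).map (WittVector.map (p := p) (frobenius P p)) = F := by
  rw [untw, Polynomial.map_map]
  have : (WittVector.map (p := p) (frobenius P p)).comp
      (WittVector.map (p := p) ((frobeniusEquiv P p).symm : P →+* P)) = RingHom.id _ := by
    ext x n
    simp [WittVector.map_coeff]
  rw [this, Polynomial.map_id]

theorem frob_gg : WittVector.map (frobenius (Polynomial P) p) (gg p F)
    = F.eval₂ (WittVector.map (p := p) Polynomial.C)
        (WittVector.teichmuller p ((Polynomial.X : Polynomial P) ^ p)) := by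
  rw [gg, Polynomial.hom_eval₂]
  conv_rhs => rw [← map_frob_untw p F, Polynomial.eval₂_map]
  congr 1
  · ext x n
    simp [WittVector.map_coeff, frobenius_def]
  · rw [WittVector.map_teichmuller, frobenius_def]

theorem gg_coeff_zero : (gg p F).coeff 0
    = (untw p F).map (WittVector.constantCoeff : WittVector p P →+* P) := by
  have h : (gg p F).coeff 0 = (WittVector.constantCoeff : WittVector p (Polynomial P) →+* _)
    (gg p F) := rfl
  rw [h, gg, Polynomial.hom_eval₂]
  have h2 : (WittVector.constantCoeff : WittVector p (Polynomial P) →+* _)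
      (WittVector.teichmuller p Polynomial.X) = Polynomial.X :=
    WittVector.teichmuller_coeff_zero p _
  rw [h2]
  have h3 : (WittVector.constantCoeff : WittVector p (Polynomial P) →+* _).comp
      (WittVector.map (p := p) Polynomial.C)
      = (Polynomial.C).comp (WittVector.constantCoeff : WittVector p P →+* P) := by
    ext x n
    rfl
  rw [h3, ← Polynomial.eval₂_map, Polynomial.eval₂_C_X]

/-- `b = g_0 ^ p`. -/
noncomputable def bb : Polynomial P := (gg p F).coeff 0 ^ p

theorem bb_monic (hF : F.Monic) : (bb p F).Monic := by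
  rw [bb, gg_coeff_zero, untw]
  exact ((hF.map _).map _).pow p

theorem bb_natDegree (hF : F.Monic) : (bb p F).natDegree = p * F.natDegree := by
  have : Nontrivial P := CharP.nontrivial_of_char_ne_one (v := p) hp.out.one_lt.ne'
  rw [bb, gg_coeff_zero, untw]
  rw [((hF.map _).map _).natDegree_pow, (hF.map _).natDegree_map, hF.natDegree_map]

/-- the Witt vector of the variables. -/
noncomputable def UU : WittVector p (MvPolynomial ℕ (Polynomial P)) :=
  WittVector.mk p fun i => MvPolynomial.X i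

variable (π : P)

/-- right-hand side of the relations. -/
noncomputable def rhs : WittVector p (MvPolynomial ℕ (Polynomial P)) :=
  WittVector.teichmuller p (MvPolynomial.C (Polynomial.C π)) *
    (UU p + WittVector.map MvPolynomial.C (wtail (gg p F)))
  + WittVector.teichmuller p (MvPolynomial.C (bb p F))

/-- the relations. -/
noncomputable def ss (i : ℕ) : MvPolynomial ℕ (Polynomial P) :=
  (UU p * (p : WittVector p (MvPolynomial ℕ (Polynomial P)))).coeff i - (rhs p F π).coeff i

theorem ss_zero : ∃ u, ss p F π 0 = MvPolynomial.C (Polynomial.C π) * u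
    - MvPolynomial.C (bb p F) := by
  refine ⟨-(UU p + WittVector.map MvPolynomial.C (wtail (gg p F))).coeff 0, ?_⟩
  have h1 : (rhs p F π).coeff 0 = WittVector.constantCoeff (rhs p F π) := rfl
  rw [ss, WittVector.mul_charP_coeff_zero, h1, rhs, map_add, map_mul]
  have h2 : ∀ y : MvPolynomial ℕ (Polynomial P),
    WittVector.constantCoeff (WittVector.teichmuller p y) = y :=
    fun y => WittVector.teichmuller_coeff_zero p _
  rw [h2, h2]
  have h3 : ∀ y : WittVector p (MvPolynomial ℕ (Polynomial P)),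
    WittVector.constantCoeff y = y.coeff 0 := fun _ => rfl
  rw [h3]
  ring

theorem ss_succ (i : ℕ) : ∃ u, ss p F π (i + 1)
    = MvPolynomial.X i ^ p + MvPolynomial.C (Polynomial.C π) * u := by
  set a : MvPolynomial ℕ (Polynomial P) := MvPolynomial.C (Polynomial.C π) with ha
  have h1 : (rhs p F π).coeff (i + 1) ∈ Ideal.span {a} := by
    rw [← Ideal.Quotient.eq_zero_iff_mem]
    exact coeff_succ_eq_zero (p := p) (B := MvPolynomial ℕ (Polynomial P) ⧸ Ideal.span {a})
      (Ideal.Quotient.mk (Ideal.span {a})) a (MvPolynomial.C (bb p F))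
      (Ideal.Quotient.eq_zero_iff_mem.mpr (Ideal.mem_span_singleton_self a)) _ i
  obtain ⟨u, hu⟩ := Ideal.mem_span_singleton'.mp h1
  refine ⟨-u, ?_⟩
  rw [ss, WittVector.mul_charP_coeff_succ, ← hu]
  have : (UU p : WittVector p (MvPolynomial ℕ (Polynomial P))).coeff i = MvPolynomial.X i := rfl
  rw [this]
  ring

/-- the triangular system of the root adjunction. -/
noncomputable def tri (hπ : ∀ x : P, π * x = 0 → x = 0) (hF : F.Monic) (hd : 0 < F.natDegree) :
    Tri p P where
  π := π
  b := bb p F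
  s := ss p F π
  reg := hπ
  monic := bb_monic p F hF
  deg := by rw [bb_natDegree p F hF]; exact Nat.mul_pos hp.out.pos hd
  s_zero := ss_zero p F π
  s_succ := ss_succ p F π

section root

variable (hπ : ∀ x : P, π * x = 0 → x = 0) (hF : F.Monic) (hd : 0 < F.natDegree)

/-- the equation in `W(E)`. -/
theorem eq_in_E : WittVector.map (tri p F π hπ hF hd).qm
      (UU p * (p : WittVector p (MvPolynomial ℕ (Polynomial P))))
    = WittVector.map (tri p F π hπ hF hd).qm (rhs p F π) := by
  ext i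
  rw [WittVector.map_coeff, WittVector.map_coeff, ← sub_eq_zero, ← map_sub]
  rw [(tri p F π hπ hF hd).qm_eq_zero]
  exact Ideal.subset_span ⟨i, rfl⟩

/-- the root, in `P[S][X_0, ...]`: `T = S^p`. -/
noncomputable def tt : MvPolynomial ℕ (Polynomial P) :=
  MvPolynomial.C ((Polynomial.X : Polynomial P) ^ p)

theorem eval_aux {L : Type v} [CommRing L] (χ : MvPolynomial ℕ (Polynomial P) →+* L)
    (h2 : WittVector.map χ (UU p * (p : WittVector p (MvPolynomial ℕ (Polynomial P))))
      = WittVector.map χ (rhs p F π)) :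
    F.eval₂ (WittVector.map (χ.comp (MvPolynomial.C.comp Polynomial.C)))
      (WittVector.teichmuller p (χ (tt p)))
    ∈ Ideal.span {(p : WittVector p L) -
        WittVector.teichmuller p (χ (MvPolynomial.C (Polynomial.C π)))} := by
  have h1 : F.eval₂ (WittVector.map (χ.comp (MvPolynomial.C.comp Polynomial.C)))
      (WittVector.teichmuller p (χ (tt p)))
      = WittVector.map (χ.comp MvPolynomial.C)
        (WittVector.map (frobenius (Polynomial P) p) (gg p F)) := by
    rw [frob_gg, Polynomial.hom_eval₂]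
    congr 1
    rw [WittVector.map_teichmuller]
    rfl
  rw [h1, map_frobenius_eq, map_add, map_mul, WittVector.map_teichmuller, map_natCast]
  rw [rhs, map_mul, map_natCast, map_add, map_mul, map_add, WittVector.map_teichmuller,
    WittVector.map_teichmuller, map_comp_apply] at h2
  have h4 : (χ.comp MvPolynomial.C) ((gg p F).coeff 0 ^ p) = χ (MvPolynomial.C (bb p F)) := rfl
  rw [h4]
  set U := WittVector.map χ (UU p)
  set H := WittVector.map (χ.comp MvPolynomial.C) (wtail (gg p F))
  set t := WittVector.teichmuller p (χ (MvPolynomial.C (Polynomial.C π)))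
  set B := WittVector.teichmuller p (χ (MvPolynomial.C (bb p F)))
  refine Ideal.mem_span_singleton'.mpr ⟨U + H, ?_⟩
  linear_combination h2

theorem eval_in_E {L : Type v} [CommRing L] (ψ : (tri p F π hπ hF hd).E →+* L) :
    F.eval₂ (WittVector.map (ψ.comp (tri p F π hπ hF hd).φ))
      (WittVector.teichmuller p (ψ ((tri p F π hπ hF hd).qm (tt p))))
    ∈ Ideal.span {(p : WittVector p L) -
        WittVector.teichmuller p (ψ ((tri p F π hπ hF hd).φ π))} := by
  refine eval_aux p F π (ψ.comp (tri p F π hπ hF hd).qm) ?_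
  rw [← map_comp_apply, ← map_comp_apply, eq_in_E p F π hπ hF hd]

theorem charP_E (hu : ¬ IsUnit π) : CharP (tri p F π hπ hF hd).E p := by
  have hnt : Nontrivial (tri p F π hπ hF hd).E := by
    by_contra h
    rw [not_nontrivial_iff_subsingleton] at h
    have h1 := (tri p F π hπ hF hd).propAt (Ideal.span {π}) (Ideal.mem_span_singleton_self π)
      (by rw [Subsingleton.elim (1 : (tri p F π hπ hF hd).E) 0]; exact Ideal.zero_mem _)
    apply hu
    rw [← Ideal.span_singleton_eq_top, Ideal.eq_top_iff_one]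
    exact h1
  rw [CharP.charP_iff_prime_eq_zero hp.out]
  have : ((p : P) : P) = 0 := CharP.cast_eq_zero P p
  rw [← map_natCast (tri p F π hπ hF hd).φ, this, map_zero]

end root

/-- **Adjunction of a Teichmueller root.** `P` perfect of characteristic `p`, `π` a nonzerodivisor,
not a unit, `F` monic of positive degree over `W(P)`. There is a perfect `P`-algebra `P'`, on which
`π` is regular, faithfully flat modulo all powers of `π`, and `t ∈ P'` with
`F([t]) ∈ (p - [π]) W(P')`. -/
theorem adjoin_root (hπ : ∀ x : P, π * x = 0 → x = 0) (hu : ¬ IsUnit π)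
    (hF : F.Monic) (hd : 0 < F.natDegree) :
    ∃ (P' : Type u) (_ : CommRing P') (_ : CharP P' p) (_ : PerfectRing P' p) (φ : P →+* P')
      (t : P'), RegAt φ π ∧ (∀ m, FlatAt φ (π ^ m)) ∧ PropAt φ π ∧
      F.eval₂ (WittVector.map φ) (WittVector.teichmuller p t)
        ∈ Ideal.span {(p : WittVector p P') - WittVector.teichmuller p (φ π)} := by
  set D := tri p F π hπ hF hd with hD
  have : CharP D.E p := charP_E p F π hπ hF hd hu
  refine ⟨PerfectClosure D.E p, inferInstance, inferInstance, inferInstance,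
    (PerfectClosure.of D.E p).comp D.φ, PerfectClosure.of D.E p (D.qm (tt p)), ?_, ?_, ?_, ?_⟩
  · exact D.regAt.perfection p (PerfectClosure.of D.E p)
  · intro m
    refine FlatAt.perfection p (PerfectClosure.of D.E p) fun n => ?_
    rw [← pow_mul]
    exact D.flatAt.pow D.regAt _
  · exact D.propAt.perfection p (PerfectClosure.of D.E p)
  · exact eval_in_E p F π hπ hF hd (PerfectClosure.of D.E p)

end main

end Crest.Agent.R183.W
end

-- ▼ part R183/W5
section

/-!
# R183, block D1 (root adjunction), part 5: finite iteration, complete splitting, sharps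
-/

namespace Crest.Agent.R183.W

universe u v w

open Finset

set_option linter.unusedSectionVars false

/-- A good extension `φ : P → P'` with respect to `π`: `π` is regular on `P'`,
`P'/π^m` is flat over `P/π^m` for all `m`, and faithfully so. -/
structure Good {P : Type u} {P' : Type v} [CommRing P] [CommRing P'] (π : P) (φ : P →+* P') :
    Prop where
  reg : RegAt φ π
  flat : ∀ m, FlatAt φ (π ^ m)
  prop : PropAt φ π

section
variable {P : Type u} {P' : Type v} {P'' : Type w} [CommRing P] [CommRing P'] [CommRing P'']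

theorem Good.id {π : P} (hπ : ∀ x : P, π * x = 0 → x = 0) : Good π (RingHom.id P) where
  reg := fun b hb => hπ b hb
  flat := fun _ => FlatAt.id _
  prop := PropAt.id π

theorem Good.comp {π : P} {φ : P →+* P'} {ψ : P' →+* P''} (h1 : Good π φ) (h2 : Good (φ π) ψ) :
    Good π (ψ.comp φ) where
  reg := h2.reg
  flat := fun m => (h1.flat m).comp (by rw [map_pow]; exact h2.flat m)
  prop := h1.prop.comp h2.prop

theorem Good.not_isUnit {π : P} {φ : P →+* P'} (h : Good π φ) (hu : ¬ IsUnit π) :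
    ¬ IsUnit (φ π) := by
  intro h1
  apply hu
  rw [← Ideal.span_singleton_eq_top, Ideal.eq_top_iff_one]
  refine h.prop _ (Ideal.mem_span_singleton_self π) ?_
  rw [Ideal.map_span, Set.image_singleton, Ideal.span_singleton_eq_top.mpr h1]
  exact Submodule.mem_top

theorem Good.reg' {π : P} {φ : P →+* P'} (h : Good π φ) (x : P') (hx : φ π * x = 0) : x = 0 :=
  h.reg x hx

/-- elements regular modulo `π^m` stay regular modulo `π^m`. -/
theorem Good.reg_mod {π : P} {φ : P →+* P'} (h : Good π φ) {δ : P} {m : ℕ}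
    (hδ : ∀ x, π ^ m ∣ δ * x → π ^ m ∣ x) (x : P') (hx : φ (π ^ m) ∣ φ δ * x) : φ (π ^ m) ∣ x := by
  obtain ⟨w, hw⟩ := hx
  obtain ⟨κ, _, c, y, x', s, h1, h2⟩ := h.flat m Unit (fun _ => δ) (fun _ => x) w
    (by simpa using hw)
  have h3 : ∀ j, π ^ m ∣ c () j := fun j => hδ _ ⟨s j, by simpa using h2 j⟩
  choose d hd using h3
  rw [h1 ()]
  refine dvd_add (Finset.dvd_sum fun j _ => ?_) (dvd_mul_right _ _)
  rw [hd j, map_mul, mul_assoc]
  exact dvd_mul_right _ _


end

section main

variable (p : ℕ) [hp : Fact p.Prime]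

/-- `ξ = p - [π]`. -/
noncomputable def xi {P : Type u} [CommRing P] (π : P) : WittVector p P :=
  (p : WittVector p P) - WittVector.teichmuller p π

theorem map_xi {P : Type u} {P' : Type v} [CommRing P] [CommRing P'] (φ : P →+* P') (π : P) :
    WittVector.map φ (xi p π) = xi p (φ π) := by
  rw [xi, map_sub, map_natCast, WittVector.map_teichmuller, xi]

/-- one root, `Good` form. -/
theorem exists_root {P : Type u} [CommRing P] [CharP P p] [PerfectRing P p] (π : P)
    (hπ : ∀ x : P, π * x = 0 → x = 0) (hu : ¬ IsUnit π)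
    (F : Polynomial (WittVector p P)) (hF : F.Monic) (hd : 0 < F.natDegree) :
    ∃ (P' : Type u) (_ : CommRing P') (_ : CharP P' p) (_ : PerfectRing P' p) (φ : P →+* P')
      (t : P'), Good π φ ∧
      xi p (φ π) ∣ F.eval₂ (WittVector.map φ) (WittVector.teichmuller p t) := by
  obtain ⟨P', _, _, _, φ, t, h1, h2, h3, h4⟩ := adjoin_root p F π hπ hu hF hd
  exact ⟨P', _, ‹_›, ‹_›, φ, t, ⟨h1, h2, h3⟩, Ideal.mem_span_singleton.mp h4⟩

/-- roots of finitely many monic polynomials. -/
theorem exists_roots (n : ℕ) {P : Type u} [CommRing P] [CharP P p] [PerfectRing P p] (π : P)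
    (hπ : ∀ x : P, π * x = 0 → x = 0) (hu : ¬ IsUnit π)
    (F : Fin n → Polynomial (WittVector p P)) (hF : ∀ i, (F i).Monic)
    (hd : ∀ i, 0 < (F i).natDegree) :
    ∃ (P' : Type u) (_ : CommRing P') (_ : CharP P' p) (_ : PerfectRing P' p) (φ : P →+* P')
      (t : Fin n → P'), Good π φ ∧
      ∀ i, xi p (φ π) ∣ (F i).eval₂ (WittVector.map φ) (WittVector.teichmuller p (t i)) := by
  induction n with
  | zero =>
    exact ⟨P, _, ‹_›, ‹_›, RingHom.id P, Fin.elim0, Good.id hπ, fun i => i.elim0⟩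
  | succ n ih =>
    obtain ⟨P₁, _, _, _, φ₁, t₁, hg₁, h₁⟩ := ih (fun i => F i.castSucc) (fun i => hF _)
      (fun i => hd _)
    have : Nontrivial P₁ := CharP.nontrivial_of_char_ne_one (v := p) hp.out.one_lt.ne'
    obtain ⟨P₂, _, _, _, φ₂, t₂, hg₂, h₂⟩ := exists_root p (φ₁ π) hg₁.reg' (hg₁.not_isUnit hu)
      ((F (Fin.last n)).map (WittVector.map φ₁)) ((hF _).map _)
      (by rw [(hF _).natDegree_map]; exact hd _)
    refine ⟨P₂, _, ‹_›, ‹_›, φ₂.comp φ₁, Fin.snoc (fun i => φ₂ (t₁ i)) t₂, hg₁.comp hg₂, ?_⟩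
    have hcomp : (WittVector.map (p := p) (φ₂.comp φ₁)) = (WittVector.map φ₂).comp
        (WittVector.map φ₁) := by
      ext x n; simp [WittVector.map_coeff]
    intro i
    refine Fin.lastCases ?_ (fun i => ?_) i
    · rw [Fin.snoc_last, hcomp, ← Polynomial.eval₂_map]
      exact h₂
    · rw [Fin.snoc_castSucc, hcomp, ← WittVector.map_teichmuller, ← Polynomial.hom_eval₂]
      have := map_dvd (WittVector.map (p := p) φ₂) (h₁ i)
      rwa [map_xi] at this

/-- finitely many elements become sharps. -/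
theorem exists_sharps (n : ℕ) {P : Type u} [CommRing P] [CharP P p] [PerfectRing P p] (π : P)
    (hπ : ∀ x : P, π * x = 0 → x = 0) (hu : ¬ IsUnit π) (a : Fin n → WittVector p P) :
    ∃ (P' : Type u) (_ : CommRing P') (_ : CharP P' p) (_ : PerfectRing P' p) (φ : P →+* P')
      (t : Fin n → P'), Good π φ ∧
      ∀ i, xi p (φ π) ∣ WittVector.teichmuller p (t i) - WittVector.map φ (a i) := by
  have : Nontrivial P := CharP.nontrivial_of_char_ne_one (v := p) hp.out.one_lt.ne'
  obtain ⟨P', _, _, _, φ, t, h1, h2⟩ := exists_roots p n π hπ hu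
    (fun i => Polynomial.X - Polynomial.C (a i)) (fun i => Polynomial.monic_X_sub_C _)
    (fun i => by rw [Polynomial.natDegree_X_sub_C]; exact one_pos)
  refine ⟨P', _, ‹_›, ‹_›, φ, t, h1, fun i => ?_⟩
  have := h2 i
  simpa using this

/-- complete splitting of a monic polynomial into linear factors with sharp roots. -/
theorem exists_split (n : ℕ) {P : Type u} [CommRing P] [CharP P p] [PerfectRing P p] (π : P)
    (hπ : ∀ x : P, π * x = 0 → x = 0) (hu : ¬ IsUnit π)
    (F : Polynomial (WittVector p P)) (hF : F.Monic) (hd : F.natDegree = n) :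
    ∃ (P' : Type u) (_ : CommRing P') (_ : CharP P' p) (_ : PerfectRing P' p) (φ : P →+* P')
      (t : Fin n → P') (G : Polynomial (WittVector p P')), Good π φ ∧
      F.map (WittVector.map φ) = ∏ i, (Polynomial.X - Polynomial.C (WittVector.teichmuller p (t i)))
        + Polynomial.C (xi p (φ π)) * G := by
  induction n generalizing P with
  | zero =>
    refine ⟨P, _, ‹_›, ‹_›, RingHom.id P, Fin.elim0, 0, Good.id hπ, ?_⟩
    rw [Polynomial.eq_one_of_monic_natDegree_zero hF hd]
    simp
  | succ n ih =>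
    obtain ⟨P₁, _, _, _, φ₁, t₁, hg₁, h₁⟩ := exists_root p π hπ hu F hF (by omega)
    have : Nontrivial P₁ := CharP.nontrivial_of_char_ne_one (v := p) hp.out.one_lt.ne'
    set F₁ := F.map (WittVector.map (p := p) φ₁) with hF₁
    have hm₁ : F₁.Monic := hF.map _
    have hd₁ : F₁.natDegree = n + 1 := by rw [hF₁, hF.natDegree_map, hd]
    set L := (Polynomial.X - Polynomial.C (WittVector.teichmuller p t₁)) with hL
    set F₂ := F₁ /ₘ L with hF₂
    have hmL : L.Monic := Polynomial.monic_X_sub_C _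
    have hdiv : F₁ = L * F₂ + Polynomial.C (F₁.eval (WittVector.teichmuller p t₁)) := by
      have := Polynomial.modByMonic_add_div F₁ L
      rw [hL, Polynomial.modByMonic_X_sub_C_eq_C_eval, ← hL] at this
      rw [hF₂, add_comm]
      exact this.symm
    have hdeg : L.natDegree = 1 := Polynomial.natDegree_X_sub_C _
    have hm₂ : F₂.Monic := by
      have := Polynomial.leadingCoeff_divByMonic_of_monic (p := F₁) hmL (by
        rw [Polynomial.degree_eq_natDegree hm₁.ne_zero, Polynomial.degree_eq_natDegree hmL.ne_zero,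
          hd₁, hdeg]; exact_mod_cast Nat.succ_le_succ (Nat.zero_le n))
      rw [Polynomial.Monic, hF₂, this]; exact hm₁
    have hd₂ : F₂.natDegree = n := by
      rw [hF₂, Polynomial.natDegree_divByMonic _ hmL, hd₁, hdeg]; rfl
    obtain ⟨c, hc⟩ := h₁
    have hev : F₁.eval (WittVector.teichmuller p t₁) = xi p (φ₁ π) * c := by
      rw [← hc, hF₁, Polynomial.eval_map]
    obtain ⟨P₂, _, _, _, φ₂, t₂, G, hg₂, h₂⟩ := ih (φ₁ π) hg₁.reg' (hg₁.not_isUnit hu) F₂ hm₂ hd₂
    have hcomp : (WittVector.map (p := p) (φ₂.comp φ₁)) = (WittVector.map φ₂).comp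
        (WittVector.map φ₁) := by
      ext x n; simp [WittVector.map_coeff]
    refine ⟨P₂, _, ‹_›, ‹_›, φ₂.comp φ₁, Fin.cons (φ₂ t₁) t₂,
      (Polynomial.X - Polynomial.C (WittVector.teichmuller p (φ₂ t₁))) * G
        + Polynomial.C (WittVector.map φ₂ c), hg₁.comp hg₂, ?_⟩
    rw [hcomp, ← Polynomial.map_map, ← hF₁, hdiv, hev, Fin.prod_univ_succ]
    simp only [Fin.cons_zero, Fin.cons_succ]
    rw [Polynomial.map_add, Polynomial.map_mul, h₂, Polynomial.map_C, map_mul, map_xi, hL,
      Polynomial.map_sub, Polynomial.map_X, Polynomial.map_C, WittVector.map_teichmuller,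
      RingHom.comp_apply, Polynomial.C_mul]
    ring

end main

end Crest.Agent.R183.W
end

-- ▼ part R183/W6
section

/-!
# R183, block D1, part 6: from `P` to `Ω = W(P)/(p - [π])`; bridge to Mathlib's flatness
-/

namespace Crest.Agent.R183.W

universe u v w u' v'

open Finset

set_option linter.unusedSectionVars false

section bridge

variable {A : Type u} {B : Type v} {A' : Type u'} {B' : Type v'} [CommRing A] [CommRing B]
  [CommRing A'] [CommRing B']

/-- the bridge: `B/aB` is flat over `A/aA`, for arbitrary models of the two quotients. -/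
theorem FlatAt.ringHom_flat {f : A →+* B} {a : A} (h : FlatAt f a)
    {qa : A →+* A'} (hqa : Function.Surjective qa) (ha : qa a = 0)
    {qb : B →+* B'} (hqb : Function.Surjective qb) (hb : ∀ x, qb x = 0 → f a ∣ x)
    (g : A' →+* B') (hg : ∀ x, g (qa x) = qb (f x)) : g.Flat := by
  let _ := g.toAlgebra
  show Module.Flat A' B'
  refine Module.Flat.of_forall_isTrivialRelation fun {n r x} hx => ?_
  choose r' hr' using fun i => hqa (r i)
  choose x' hx' using fun i => hqb (x i)
  have h1 : qb (∑ i, f (r' i) * x' i) = 0 := by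
    rw [map_sum, ← hx]
    refine Finset.sum_congr rfl fun i _ => ?_
    rw [map_mul, ← hg, hr', hx', Algebra.smul_def]; rfl
  obtain ⟨w, hw⟩ := hb _ h1
  obtain ⟨κ, _, c, y, z, s, h2, h3⟩ := h (Fin n) r' x' w hw
  let e := (Fintype.equivFin κ).symm
  refine ⟨Fintype.card κ, fun i j => qa (c i (e j)), fun j => qb (y (e j)), ?_, ?_⟩
  · intro i
    rw [← hx' i, h2 i, map_add, map_sum, map_mul, ← hg, ha, map_zero, zero_mul, add_zero]
    rw [← Equiv.sum_comp e]
    refine Finset.sum_congr rfl fun j _ => ?_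
    rw [map_mul, ← hg, Algebra.smul_def]; rfl
  · intro j
    have := congrArg qa (h3 (e j))
    rw [map_sum, map_mul, ha, zero_mul] at this
    rw [← this]
    refine Finset.sum_congr rfl fun i _ => ?_
    rw [map_mul, hr']

theorem FlatAt.ringHom_faithfullyFlat {f : A →+* B} {a b : A} (h : FlatAt f a) {m : ℕ}
    (hp : PropAt f b) (hab : a = b ^ m)
    {qa : A →+* A'} (hqa : Function.Surjective qa) (ha : qa a = 0)
    {qb : B →+* B'} (hqb : Function.Surjective qb) (hb : ∀ x, qb x = 0 → f a ∣ x)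
    (g : A' →+* B') (hg : ∀ x, g (qa x) = qb (f x)) : g.FaithfullyFlat := by
  let _ := g.toAlgebra
  have hfl : Module.Flat A' B' := h.ringHom_flat hqa ha hqb hb g hg
  show Module.FaithfullyFlat A' B'
  refine { hfl with submodule_ne_top := fun 𝔪 h𝔪 htop => ?_ }
  -- `J` = preimage of `𝔪`
  have h1 : (1 : B') ∈ 𝔪.map g := by
    have h2 : (1 : B') ∈ 𝔪 • (⊤ : Submodule A' B') := by rw [htop]; exact Submodule.mem_top
    refine Submodule.smul_induction_on h2 (fun r hr n _ => ?_) (fun x y hx hy => ?_)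
    · have h9 : r • n = g r * n := Algebra.smul_def r n
      rw [h9]
      exact Ideal.mul_mem_right _ _ (Ideal.mem_map_of_mem g hr)
    · exact Ideal.add_mem _ hx hy
  have h3 : (1 : B) ∈ (𝔪.comap qa).map f := by
    have h4 : 𝔪.map g = ((𝔪.comap qa).map f).map qb := by
      have h5 : qb.comp f = g.comp qa := by ext x; exact (hg x).symm
      rw [Ideal.map_map, h5, ← Ideal.map_map, Ideal.map_comap_of_surjective qa hqa]
    rw [h4] at h1
    obtain ⟨y, hy, h6⟩ := (Ideal.mem_map_iff_of_surjective qb hqb).mp h1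
    obtain ⟨z, hz⟩ := hb (1 - y) (by rw [map_sub, h6, map_one, sub_self])
    have h7 : (1 : B) = y + f a * z := by rw [← hz]; ring
    rw [h7]
    refine Ideal.add_mem _ hy (Ideal.mul_mem_right _ _ (Ideal.mem_map_of_mem f ?_))
    rw [Ideal.mem_comap, ha]; exact Ideal.zero_mem _
  have h8 : (1 : A) ∈ 𝔪.comap qa := by
    refine hp.of_pow_mem (m := m) ?_ h3
    rw [← hab, Ideal.mem_comap, ha]; exact Ideal.zero_mem _
  rw [Ideal.mem_comap, map_one] at h8
  exact h𝔪.ne_top ((Ideal.eq_top_iff_one _).mpr h8)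



end bridge

section omega

variable {p : ℕ} [hp : Fact p.Prime]
variable {P : Type u} {Q : Type v} [CommRing P] [CharP P p] [PerfectRing P p]
  [CommRing Q] [CharP Q p] [PerfectRing Q p]
variable {Ω : Type u'} {Ω' : Type v'} [CommRing Ω] [CommRing Ω'] {π : P} (φ : P →+* Q)
  (θ : WittVector p P →+* Ω) (hθ : Function.Surjective θ)
  (hker : RingHom.ker θ = Ideal.span {Amp.xi 1 π})
  (θ' : WittVector p Q →+* Ω') (hθ' : Function.Surjective θ')
  (hker' : RingHom.ker θ' = Ideal.span {Amp.xi 1 (φ π)})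

/-- the constant coefficient of a representative, `mod π`. -/
theorem p_dvd_sub_sh {P : Type u} [CommRing P] [CharP P p] [PerfectRing P p]
    {Ω : Type u'} [CommRing Ω] {π : P} (θ : WittVector p P →+* Ω) (hθ : Function.Surjective θ)
    (hker : RingHom.ker θ = Ideal.span {Amp.xi 1 π}) (w : WittVector p P) :
    (p : Ω) ∣ θ w - Om.sh θ (WittVector.constantCoeff w) := by
  rw [Om.sh, ← map_sub, Om.dvd_p_iff θ hθ hker, map_sub]
  have : (WittVector.constantCoeff : WittVector p P →+* P)
      (WittVector.teichmuller p (WittVector.constantCoeff w)) = WittVector.constantCoeff w :=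
    WittVector.teichmuller_coeff_zero p _
  rw [this, sub_self]
  exact dvd_zero _

theorem cc_map {P : Type u} {Q : Type v} [CommRing P] [CommRing Q] (φ : P →+* Q)
    (z : WittVector p P) : WittVector.constantCoeff (WittVector.map φ z)
      = φ (WittVector.constantCoeff z) := rfl

theorem cc_teich {P : Type u} [CommRing P] (a : P) :
    (WittVector.constantCoeff : WittVector p P →+* P) (WittVector.teichmuller p a) = a :=
  WittVector.teichmuller_coeff_zero p a

include hθ hker hθ' hker' in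
theorem omega_flatAt_p (h : Ω →+* Ω') (hh : ∀ w, h (θ w) = θ' (WittVector.map φ w))
    (hf : FlatAt φ π) : FlatAt h (p : Ω) := by
  intro ι _ r x w hr
  choose ρ hρ using fun i => hθ (r i)
  choose χ hχ using fun i => hθ' (x i)
  have h1 : φ π ∣ ∑ i, φ (WittVector.constantCoeff (ρ i)) * WittVector.constantCoeff (χ i) := by
    have h2 : (p : Ω') ∣ θ' (∑ i, WittVector.map φ (ρ i) * χ i) := by
      refine ⟨w, ?_⟩
      rw [map_sum, ← map_natCast h, ← hr]
      refine Finset.sum_congr rfl fun i _ => ?_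
      rw [map_mul, ← hh, hρ, hχ]
    rw [Om.dvd_p_iff θ' hθ' hker', map_sum] at h2
    simpa only [map_mul, cc_map] using h2
  obtain ⟨w', hw'⟩ := h1
  obtain ⟨κ, _, c, y, x', s, h3, h4⟩ := hf ι _ _ w' hw'
  have h5 : ∀ i, (p : Ω') ∣ x i - ∑ j, h (Om.sh θ (c i j)) * Om.sh θ' (y j) := by
    intro i
    have h6 : x i - ∑ j, h (Om.sh θ (c i j)) * Om.sh θ' (y j)
        = θ' (χ i - ∑ j, WittVector.map φ (WittVector.teichmuller p (c i j)) *
          WittVector.teichmuller p (y j)) := by
      rw [map_sub, hχ, map_sum]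
      congr 1
      refine Finset.sum_congr rfl fun j _ => ?_
      rw [map_mul, ← hh]; rfl
    rw [h6, Om.dvd_p_iff θ' hθ' hker', map_sub, map_sum, h3 i]
    simp only [map_mul, cc_map, cc_teich]
    rw [add_sub_cancel_left]
    exact dvd_mul_right _ _
  choose z hz using h5
  have h6 : ∀ j, (p : Ω) ∣ ∑ i, r i * Om.sh θ (c i j) := by
    intro j
    have h7 : ∑ i, r i * Om.sh θ (c i j)
        = θ (∑ i, ρ i * WittVector.teichmuller p (c i j)) := by
      rw [map_sum]
      refine Finset.sum_congr rfl fun i _ => ?_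
      rw [map_mul, hρ]; rfl
    rw [h7, Om.dvd_p_iff θ hθ hker, map_sum]
    simp only [map_mul, cc_teich]
    rw [h4 j]
    exact dvd_mul_right _ _
  choose s' hs' using h6
  refine ⟨κ, inferInstance, fun i j => Om.sh θ (c i j), fun j => Om.sh θ' (y j), z, s', ?_, hs'⟩
  intro i
  rw [map_natCast, ← hz i]; ring

include hθ hker hθ' hker' in
theorem omega_propAt_p (h : Ω →+* Ω') (hh : ∀ w, h (θ w) = θ' (WittVector.map φ w))
    (hf : PropAt φ π) : PropAt h (p : Ω) := by
  intro J hJ h1
  -- the ideal of constant coefficients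
  let J' : Ideal P := J.comap θ |>.map WittVector.constantCoeff
  have hJ' : ∀ a ∈ J', Om.sh θ a ∈ J := by
    intro a ha
    obtain ⟨w, hw, rfl⟩ := (Ideal.mem_map_iff_of_surjective _ (fun a =>
      ⟨WittVector.teichmuller p a, cc_teich a⟩)).mp ha
    have h2 : Om.sh θ (WittVector.constantCoeff w)
        = θ w - (θ w - Om.sh θ (WittVector.constantCoeff w)) := by ring
    rw [h2]
    refine J.sub_mem hw ?_
    obtain ⟨c, hc⟩ := p_dvd_sub_sh θ hθ hker w
    rw [hc]
    exact J.mul_mem_right _ hJ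
  have hπ : π ∈ J' := by
    refine (Ideal.mem_map_iff_of_surjective _ (fun a =>
      ⟨WittVector.teichmuller p a, cc_teich a⟩)).mpr ⟨WittVector.teichmuller p π, ?_, cc_teich π⟩
    rw [Ideal.mem_comap]
    have : θ (WittVector.teichmuller p π) = (p : Ω) := Om.sh_pi θ hker
    rw [this]; exact hJ
  have h2 : ∀ x ∈ J.map h, ∀ w, θ' w = x → WittVector.constantCoeff w ∈ J'.map φ := by
    -- generated ideal
    have h3 : J.map h ≤ ((J'.map φ).comap WittVector.constantCoeff).map θ' := by
      rw [Ideal.map_le_iff_le_comap]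
      intro a ha
      obtain ⟨w, rfl⟩ := hθ a
      rw [Ideal.mem_comap, hh]
      refine Ideal.mem_map_of_mem θ' ?_
      rw [Ideal.mem_comap, cc_map]
      exact Ideal.mem_map_of_mem φ ((Ideal.mem_map_iff_of_surjective _ (fun a =>
        ⟨WittVector.teichmuller p a, cc_teich a⟩)).mpr ⟨w, ha, rfl⟩)
    intro x hx w hw
    obtain ⟨w', hw', h4⟩ := (Ideal.mem_map_iff_of_surjective θ' hθ').mp (h3 hx)
    have h5 : w - w' ∈ RingHom.ker θ' := by rw [RingHom.mem_ker, map_sub, hw, h4, sub_self]
    rw [hker'] at h5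
    obtain ⟨c, hc⟩ := Ideal.mem_span_singleton.mp h5
    have h6 : WittVector.constantCoeff w = WittVector.constantCoeff w'
        + WittVector.constantCoeff (w - w') := by rw [map_sub]; ring
    rw [h6, hc, map_mul]
    refine Ideal.add_mem _ hw' (Ideal.mul_mem_right _ _ ?_)
    have h7 : WittVector.constantCoeff (Amp.xi (1 : WittVector p Q) (φ π)) = - φ π := by
      rw [Amp.constCoeff_xi]
    rw [h7]
    exact neg_mem (Ideal.mem_map_of_mem φ hπ)
  have h3 := h2 1 h1 1 (map_one θ')
  rw [map_one] at h3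
  have h4 := hJ' 1 (hf J' hπ h3)
  rwa [Om.sh_one] at h4

include hθ hker hθ' hker' in
/-- `Ω/p^N → Ω'/p^N` is flat for all `N` (equational form), `p` is regular on `Ω'`, properness. -/
theorem Good.omega (h : Ω →+* Ω') (hh : ∀ w, h (θ w) = θ' (WittVector.map φ w))
    (hg : Good π φ) : Good (p : Ω) h := by
  have h1 : RegAt h (p : Ω) := by
    intro b hb
    rw [map_natCast] at hb
    exact Om.p_regular θ' hθ' hker' hg.reg' b hb
  have h2 := omega_flatAt_p φ θ hθ hker θ' hθ' hker' h hh (by simpa using hg.flat 1)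
  exact ⟨h1, fun m => h2.pow h1 m, omega_propAt_p φ θ hθ hker θ' hθ' hker' h hh hg.prop⟩

end omega

section goodbridge

variable {A : Type u} {B : Type v} {A' : Type u'} {B' : Type v'} [CommRing A] [CommRing B]
  [CommRing A'] [CommRing B']

/-- For a good map `f` with respect to `a`, `B/a^m` is faithfully flat over `A/a^m`
(arbitrary models of the quotients). -/
theorem Good.faithfullyFlat {f : A →+* B} {a : A} (h : Good a f) (m : ℕ)
    {qa : A →+* A'} (hqa : Function.Surjective qa) (ha : qa (a ^ m) = 0)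
    {qb : B →+* B'} (hqb : Function.Surjective qb) (hb : ∀ x, qb x = 0 → f a ^ m ∣ x)
    (g : A' →+* B') (hg : ∀ x, g (qa x) = qb (f x)) : g.FaithfullyFlat :=
  (h.flat m).ringHom_faithfullyFlat h.prop rfl hqa ha hqb
    (fun x hx => by rw [map_pow]; exact hb x hx) g hg


end goodbridge

end Crest.Agent.R183.W
end

-- ▼ part R183/W7
section

/-!
# R183, block D1, part 7: the packaged cover `Ω₀ → Ω`
-/

namespace Crest.Agent.R183.W

universe u v w u' v'

open Finset

set_option linter.unusedSectionVars false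

section main

variable (p : ℕ) [hp : Fact p.Prime]

theorem map_comp_eq {P P' P'' : Type*} [CommRing P] [CommRing P'] [CommRing P'']
    (φ₁ : P →+* P') (φ₂ : P' →+* P'') :
    (WittVector.map (p := p) (φ₂.comp φ₁)) = (WittVector.map φ₂).comp (WittVector.map φ₁) := by
  ext x n; simp [WittVector.map_coeff]

/-- simultaneous complete splitting of finitely many monic polynomials. -/
theorem exists_split_family (N : ℕ) {P : Type u} [CommRing P] [CharP P p] [PerfectRing P p] (π : P)
    (hπ : ∀ x : P, π * x = 0 → x = 0) (hu : ¬ IsUnit π)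
    (F : Fin N → Polynomial (WittVector p P)) (hF : ∀ i, (F i).Monic) :
    ∃ (P' : Type u) (_ : CommRing P') (_ : CharP P' p) (_ : PerfectRing P' p) (φ : P →+* P'),
      Good π φ ∧ ∀ i, ∃ (t : Fin (F i).natDegree → P') (G : Polynomial (WittVector p P')),
      (F i).map (WittVector.map φ)
        = ∏ i, (Polynomial.X - Polynomial.C (WittVector.teichmuller p (t i)))
        + Polynomial.C (xi p (φ π)) * G := by
  induction N with
  | zero => exact ⟨P, _, ‹_›, ‹_›, RingHom.id P, Good.id hπ, fun i => i.elim0⟩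
  | succ n ih =>
    obtain ⟨P₁, _, _, _, φ₁, hg₁, h₁⟩ := ih (fun i => F i.castSucc) (fun i => hF _)
    have : Nontrivial P₁ := CharP.nontrivial_of_char_ne_one (v := p) hp.out.one_lt.ne'
    obtain ⟨P₂, _, _, _, φ₂, t₂, G₂, hg₂, h₂⟩ := exists_split p (F (Fin.last n)).natDegree (φ₁ π)
      hg₁.reg' (hg₁.not_isUnit hu) ((F (Fin.last n)).map (WittVector.map φ₁)) ((hF _).map _)
      ((hF _).natDegree_map _)
    refine ⟨P₂, _, ‹_›, ‹_›, φ₂.comp φ₁, hg₁.comp hg₂, ?_⟩
    intro i
    refine Fin.lastCases ?_ (fun i => ?_) i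
    · refine ⟨t₂, G₂, ?_⟩
      rw [map_comp_eq, ← Polynomial.map_map, h₂]; rfl
    · obtain ⟨t, G, h⟩ := h₁ i
      refine ⟨fun j => φ₂ (t j), G.map (WittVector.map φ₂), ?_⟩
      rw [map_comp_eq, ← Polynomial.map_map, h, Polynomial.map_add, Polynomial.map_mul,
        Polynomial.map_prod, Polynomial.map_C, map_xi]
      simp only [Polynomial.map_sub, Polynomial.map_X, Polynomial.map_C, WittVector.map_teichmuller]
      rfl

/-- **The cover.** `Ω₀ = W(P₀)/(p - [π])` (any model), `f_i` finitely many monic polynomials over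
`Ω₀`, `a_k` finitely many elements of `Ω₀`. There is a good extension `P` of `P₀` such that over
`Ω = W(P)/(p - [π])` all `f_i` split completely with all roots sharps and all `a_k` are sharps. -/
theorem exists_cover {P₀ : Type u} [CommRing P₀] [CharP P₀ p] [PerfectRing P₀ p] {Ω₀ : Type v}
    [CommRing Ω₀] (π : P₀) (hπ : ∀ x : P₀, π * x = 0 → x = 0) (hu : ¬ IsUnit π)
    (θ₀ : WittVector p P₀ →+* Ω₀) (hθ₀ : Function.Surjective θ₀)
    (hker₀ : RingHom.ker θ₀ = Ideal.span {Amp.xi 1 π})
    (N : ℕ) (f : Fin N → Polynomial Ω₀) (hf : ∀ i, (f i).Monic) (M : ℕ) (a : Fin M → Ω₀) :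
    ∃ (P : Type u) (_ : CommRing P) (_ : CharP P p) (_ : PerfectRing P p) (φ : P₀ →+* P)
      (h : Ω₀ →+* Om.Omega p (φ π)), Good π φ ∧
      (∀ w, h (θ₀ w) = Om.th p (φ π) (WittVector.map φ w)) ∧ Good (p : Ω₀) h ∧
      (∀ i, ∃ t : Fin (f i).natDegree → P, (f i).map h
        = ∏ j, (Polynomial.X - Polynomial.C (Om.sh (Om.th p (φ π)) (t j)))) ∧
      ∀ k, ∃ s : P, h (a k) = Om.sh (Om.th p (φ π)) s := by
  have hnt : Nontrivial P₀ := CharP.nontrivial_of_char_ne_one (v := p) hp.out.one_lt.ne'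
  have hlift : ∀ i, ∃ F : Polynomial (WittVector p P₀), F.map θ₀ = f i ∧
      F.natDegree = (f i).natDegree ∧ F.Monic := fun i =>
    Polynomial.lifts_and_natDegree_eq_and_monic
      ((Polynomial.map_surjective θ₀ hθ₀) (f i)) (hf i)
  choose F hF1 hF2 hF3 using hlift
  choose α hα using fun k => hθ₀ (a k)
  obtain ⟨P₁, _, _, _, φ₁, hg₁, h₁⟩ := exists_split_family p N π hπ hu F hF3
  obtain ⟨P₂, _, _, _, φ₂, s, hg₂, h₂⟩ := exists_sharps p M (φ₁ π) hg₁.reg' (hg₁.not_isUnit hu)
    (fun k => WittVector.map φ₁ (α k))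
  have hg := hg₁.comp hg₂
  set φ := φ₂.comp φ₁ with hφ
  have hxi : ∀ z : P₂, xi p z = Amp.xi (1 : WittVector p P₂) z := by
    intro z; simp [xi, Amp.xi]
  set θ := Om.th p (φ π) with hθdef
  have hθ : Function.Surjective θ := Om.th_surjective p (φ π)
  have hker : RingHom.ker θ = Ideal.span {Amp.xi 1 (φ π)} := Om.ker_th p (φ π)
  let h : Ω₀ →+* Om.Omega p (φ π) := Om.omMap φ rfl θ₀ hθ₀ hker₀ θ hker
  have hh : ∀ w, h (θ₀ w) = θ (WittVector.map φ w) := fun w =>
    Om.omMap_theta (π' := φ π) θ₀ hθ₀ hker₀ φ rfl θ hker w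
  have hθxi : θ (xi p (φ π)) = 0 := by
    rw [hxi, ← RingHom.mem_ker, hker]; exact Ideal.mem_span_singleton_self _
  refine ⟨P₂, _, ‹_›, ‹_›, φ, h, hg, hh, hg.omega φ θ₀ hθ₀ hker₀ θ hθ hker h hh, ?_, ?_⟩
  · intro i
    obtain ⟨t, G, h3⟩ := h₁ i
    have h4 : (f i).map h = ((F i).map (WittVector.map φ)).map θ := by
      rw [← hF1 i, Polynomial.map_map, Polynomial.map_map]
      congr 1
      ext1 w
      exact hh w
    have h5 : (f i).map h = ∏ j, (Polynomial.X - Polynomial.C (Om.sh θ (φ₂ (t j)))) := by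
      have h10 : (F i).map (WittVector.map φ)
          = ((F i).map (WittVector.map φ₁)).map (WittVector.map φ₂) := by
        rw [Polynomial.map_map, ← map_comp_eq]
      rw [h4, h10, h3, Polynomial.map_add, Polynomial.map_mul,
        Polynomial.map_prod, Polynomial.map_C, map_xi, Polynomial.map_add, Polynomial.map_mul,
        Polynomial.map_prod, Polynomial.map_C]
      have h6 : θ (xi p (φ₂ (φ₁ π))) = 0 := hθxi
      rw [h6, Polynomial.C_0, zero_mul, add_zero]
      simp only [Polynomial.map_sub, Polynomial.map_X, Polynomial.map_C,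
        WittVector.map_teichmuller]
      rfl
    rw [← hF2 i]
    exact ⟨fun j => φ₂ (t j), h5⟩
  · intro k
    refine ⟨s k, ?_⟩
    obtain ⟨c, hc⟩ := h₂ k
    have h7 : WittVector.map φ (α k) = WittVector.teichmuller p (s k) - xi p (φ π) * c := by
      have h8 : WittVector.map φ (α k) = WittVector.map φ₂ (WittVector.map φ₁ (α k)) :=
        (map_comp_apply φ₁ φ₂ (α k)).symm
      rw [h8]
      have h9 : xi p (φ π) * c = WittVector.teichmuller p (s k)
          - WittVector.map φ₂ (WittVector.map φ₁ (α k)) := hc.symm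
      rw [h9]; ring
    rw [← hα k, hh, h7, map_sub, map_mul, hθxi, zero_mul, sub_zero]
    rfl

end main

end Crest.Agent.R183.W
end

-- ▼ part R183/Env1

/-!
R183 / Env1 : the environment of the mixed characteristic stage:
`A₀ → Ω₀ → Ω ⇉ Ω''`.
-/

set_option autoImplicit false
set_option linter.unusedSectionVars false

namespace Crest.Agent.R183.Env

open WittVector TensorProduct Om

universe u

/-- `Good` gives faithful flatness of the quotients (instance form). -/
theorem faithfullyFlat_of_good {A B : Type*} [CommRing A] [CommRing B] [Algebra A B] {a : A}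
    (h : W.Good a (algebraMap A B)) (m : ℕ) :
    Module.FaithfullyFlat (A ⧸ Ideal.span {a ^ m})
      (B ⧸ (Ideal.span {a ^ m}).map (algebraMap A B)) := by
  have h1 := h.faithfullyFlat m (qa := Ideal.Quotient.mk (Ideal.span {a ^ m}))
    Ideal.Quotient.mk_surjective
    (Ideal.Quotient.eq_zero_iff_mem.mpr (Ideal.mem_span_singleton_self _))
    (qb := Ideal.Quotient.mk ((Ideal.span {a ^ m}).map (algebraMap A B)))
    Ideal.Quotient.mk_surjective
    (fun x hx => by
      rw [Ideal.Quotient.eq_zero_iff_mem, Ideal.map_span, Set.image_singleton,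
        Ideal.mem_span_singleton, map_pow] at hx
      exact hx)
    (algebraMap (A ⧸ Ideal.span {a ^ m}) (B ⧸ (Ideal.span {a ^ m}).map (algebraMap A B)))
    (fun x => rfl)
  exact RingHom.faithfullyFlat_algebraMap_iff.1 h1

theorem flatQ_of_good {A B : Type*} [CommRing A] [CommRing B] [Algebra A B] {p : ℕ}
    (h : W.Good (p : A) (algebraMap A B)) (m : ℕ) :
    FlatQ A (B := B) (Ideal.span {(p : A) ^ m}) := by
  exact (faithfullyFlat_of_good h m).toFlat

/-- `Ω''` is the completed tensor square of `A` over `A₀` (maps `p₁ : a ↦ 1 ⊗ a`,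
`p₂ : a ↦ a ⊗ 1`). -/
structure IsSquare (p : ℕ) {A₀ A A₂ : Type u} [CommRing A₀] [CommRing A] [CommRing A₂]
    [Algebra A₀ A] (p₁ p₂ : A →+* A₂) : Prop where
  comm : p₁.comp (algebraMap A₀ A) = p₂.comp (algebraMap A₀ A)
  complete : IsAdicComplete (Ideal.span {(p : A₂)}) A₂
  bij : ∀ N : ℕ, ∃ Θ : ((A ⧸ (Ideal.span {(p : A₀) ^ N}).map (algebraMap A₀ A))
      ⊗[A₀ ⧸ Ideal.span {(p : A₀) ^ N}] (A ⧸ (Ideal.span {(p : A₀) ^ N}).map (algebraMap A₀ A)))
        →+* A₂ ⧸ Ideal.span {(p : A₂) ^ N},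
      Function.Bijective Θ ∧
      (∀ x : A, Θ (1 ⊗ₜ Ideal.Quotient.mk _ x) = Ideal.Quotient.mk _ (p₁ x)) ∧
      (∀ x : A, Θ (Ideal.Quotient.mk _ x ⊗ₜ 1) = Ideal.Quotient.mk _ (p₂ x))

/-- existence of the completed tensor square -/
theorem exists_square {p : ℕ} [hp : Fact p.Prime]
    {A₀ A : Type u} [CommRing A₀] [CommRing A] [Algebra A₀ A]
    {ϖ : ℕ → A₀} (d0 : PData p A₀ ϖ) (dA : PData p A (fun e => algebraMap A₀ A (ϖ e)))
    (hA : ∀ n : ℕ, FlatQ A₀ (B := A) (Ideal.span {(p : A₀) ^ n})) :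
    ∃ (A₂ : Type u) (_ : CommRing A₂) (p₁ p₂ : A →+* A₂), IsSquare p (A₀ := A₀) p₁ p₂ ∧
      PData p A₂ (fun e => p₁ (algebraMap A₀ A (ϖ e))) ∧ Reg (p : A₂) ∧
      (∀ D : A, RegMod D (p : A) → RegMod (p₁ D) (p : A₂) ∧ RegMod (p₂ D) (p : A₂)) := by
  obtain ⟨C, _, ι, hι, hd, hr, hc, hsat, hden, hl, hri⟩ := exists_tensor_completion d0 dA dA hA hA
  let p₂ : A →+* C := ι.comp Algebra.TensorProduct.includeLeftRingHom
  let p₁ : A →+* C := ι.comp
    (Algebra.TensorProduct.includeRight : A →ₐ[A₀] A ⊗[A₀] A).toRingHom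
  have hcomm : p₁.comp (algebraMap A₀ A) = p₂.comp (algebraMap A₀ A) := by
    ext x
    show ι ((1 : A) ⊗ₜ[A₀] (algebraMap A₀ A x)) = ι ((algebraMap A₀ A x) ⊗ₜ[A₀] (1 : A))
    congr 1
    rw [Algebra.algebraMap_eq_smul_one, TensorProduct.smul_tmul]
  refine ⟨C, inferInstance, p₁, p₂, ⟨hcomm, hc, ?_⟩, ?_, hr, fun D hD => ⟨hri D hD, hl D hD⟩⟩
  · intro N
    obtain ⟨q, hq, hqs, hqk⟩ := exists_red A₀ A A (Ideal.span {(p : A₀) ^ N})
    let f : A ⊗[A₀] A →+* C ⧸ Ideal.span {(p : C) ^ N} := (Ideal.Quotient.mk _).comp ι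
    have hf : Function.Surjective f := by
      intro x
      obtain ⟨c, rfl⟩ := Ideal.Quotient.mk_surjective x
      obtain ⟨t, ht⟩ := hden N c
      refine ⟨t, ?_⟩
      show Ideal.Quotient.mk _ (ι t) = _
      rw [Ideal.Quotient.mk_eq_mk_iff_sub_mem, Ideal.mem_span_singleton, ← dvd_neg, neg_sub]
      exact ht
    have hfk : RingHom.ker f = RingHom.ker q := by
      rw [hqk]
      ext t
      rw [mem_map_span_iff, ← hsat, RingHom.mem_ker]
      show (Ideal.Quotient.mk _ (ι t)) = 0 ↔ _
      rw [Ideal.Quotient.eq_zero_iff_mem, Ideal.mem_span_singleton]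
    refine ⟨(RingHom.liftOfSurjective q hqs) ⟨f, le_of_eq hfk.symm⟩, ?_, ?_, ?_⟩
    · have key : ∀ t, (RingHom.liftOfSurjective q hqs) ⟨f, le_of_eq hfk.symm⟩ (q t) = f t := by
        intro t
        rw [RingHom.liftOfSurjective]
        exact RingHom.liftOfRightInverse_comp_apply _ _ _ _ _
      constructor
      · rw [injective_iff_map_eq_zero]
        intro x hx
        obtain ⟨t, rfl⟩ := hqs x
        rw [key, ← RingHom.mem_ker, hfk] at hx
        exact hx
      · intro y
        obtain ⟨t, rfl⟩ := hf y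
        exact ⟨q t, key t⟩
    · intro x
      have h1 : (1 : A ⧸ (Ideal.span {(p : A₀) ^ N}).map (algebraMap A₀ A)) ⊗ₜ
          Ideal.Quotient.mk _ x = q ((1 : A) ⊗ₜ x) := by rw [hq, map_one]
      rw [h1, RingHom.liftOfSurjective]
      exact RingHom.liftOfRightInverse_comp_apply _ _ _ _ _
    · intro x
      have h1 : Ideal.Quotient.mk _ x ⊗ₜ
          (1 : A ⧸ (Ideal.span {(p : A₀) ^ N}).map (algebraMap A₀ A)) = q (x ⊗ₜ (1 : A)) := by
        rw [hq, map_one]
      rw [h1, RingHom.liftOfSurjective]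
      exact RingHom.liftOfRightInverse_comp_apply _ _ _ _ _
  · have h1 : (fun e => ι (algebraMap A₀ (A ⊗[A₀] A) (ϖ e))) =
        fun e => p₁ (algebraMap A₀ A (ϖ e)) := by
      funext e
      have : p₁ (algebraMap A₀ A (ϖ e)) = p₂ (algebraMap A₀ A (ϖ e)) :=
        RingHom.congr_fun hcomm (ϖ e)
      rw [this]
      rfl
    rwa [h1] at hd

/-- `p`-completion of the base together with its tilt. -/
theorem exists_base {p : ℕ} [hp : Fact p.Prime] {B : Type u} [CommRing B] {ϖ : ℕ → B}
    (d : PData p B ϖ) (hu : ¬ IsUnit (p : B)) :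
    ∃ (A₀ : Type u) (_ : CommRing A₀) (_ : Algebra B A₀)
      (P₀ : Type u) (_ : CommRing P₀) (_ : CharP P₀ p) (_ : PerfectRing P₀ p)
      (θ₀ : WittVector p P₀ →+* A₀) (π : P₀),
      IsCompl (p : B) (algebraMap B A₀) ∧
      PData p A₀ (fun e => algebraMap B A₀ (ϖ e)) ∧ Reg (p : A₀) ∧
      IsAdicComplete (Ideal.span {(p : A₀)}) A₀ ∧ ¬ IsUnit (p : A₀) ∧
      Function.Surjective θ₀ ∧ RingHom.ker θ₀ = Ideal.span {Amp.xi 1 π} ∧ Reg π ∧ ¬ IsUnit π ∧
      IsAdicComplete (Ideal.span {π}) P₀ ∧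
      (∀ e, sh θ₀ (Amp.rt (p := p) e π) = algebraMap B A₀ (ϖ e)) ∧
      (∀ r : ℕ → A₀, (∀ n, r (n + 1) ^ p = r n) → ∃ a : P₀, ∀ e, sh θ₀ (Amp.rt (p := p) e a) = r e) ∧
      (∀ D : B, RegMod D (p : B) → RegMod (algebraMap B A₀ D) (p : A₀)) := by
  obtain ⟨A₀, _, ι, hι⟩ := exists_isCompl (p : B)
  let _ : Algebra B A₀ := ι.toAlgebra
  have hp0 : ι (p : B) = (p : A₀) := map_natCast ι p
  obtain ⟨hd, hr⟩ := d.completion hι
  have hc : IsAdicComplete (Ideal.span {(p : A₀)}) A₀ := by
    have := hι.complete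
    rwa [hp0] at this
  have hu' : ¬ IsUnit (p : A₀) := by
    rw [← hp0, hι.isUnit_iff]; exact hu
  obtain ⟨P₀, _, _, _, θ₀, π, h1, h2, h3, h4, h5, h6, h7⟩ := exists_tilt hd hr hu'
  refine ⟨A₀, inferInstance, inferInstance, P₀, inferInstance, ‹_›, ‹_›, θ₀, π, hι, hd, hr, hc, hu',
    h1, h2, h3, h4, h5, h6, h7, ?_⟩
  intro D hD
  have := hι.regMod hD
  rwa [hp0] at this

/-- A perfectoid model of a ring `A`: `A = W(P)/(p - [π])`, compatible with `ϖ`. -/
structure Model (p : ℕ) [Fact p.Prime] (A : Type u) [CommRing A] (ϖ : ℕ → A) : Type (u + 1) where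
  P : Type u
  [ring : CommRing P]
  [charP : CharP P p]
  [perf : PerfectRing P p]
  θ : WittVector p P →+* A
  π : P
  surj : Function.Surjective θ
  ker : RingHom.ker θ = Ideal.span {Amp.xi 1 π}
  reg : Reg π
  nonunit : ¬ IsUnit π
  roots : ∀ e, sh θ (Amp.rt (p := p) e π) = ϖ e

attribute [instance] Model.ring Model.charP Model.perf

/-- the ring underlying a model is `p`-complete, `p`-torsion free, perfectoid. -/
theorem Model.props {p : ℕ} [Fact p.Prime] {A : Type u} [CommRing A] {ϖ : ℕ → A}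
    (M : Model p A ϖ) :
    PData p A ϖ ∧ Reg (p : A) ∧ IsAdicComplete (Ideal.span {(p : A)}) A ∧ ¬ IsUnit (p : A) := by
  have h := pdata_omega M.θ M.surj M.ker M.reg
  have h1 : (fun e => sh M.θ (Amp.rt (p := p) e M.π)) = ϖ := funext M.roots
  rw [h1] at h
  refine ⟨h, p_regular M.θ M.surj M.ker M.reg, omega_isAdicComplete M.θ M.surj M.ker M.reg, ?_⟩
  exact p_nonunit M.θ M.surj M.ker M.nonunit

/-- **Cover**: finitely many monic polynomials split and finitely many elements become sharps in a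
good extension (which again has a model). -/
theorem exists_cover {p : ℕ} [Fact p.Prime] {A₀ : Type u} [CommRing A₀] {ϖ : ℕ → A₀}
    (M₀ : Model p A₀ ϖ) {N : ℕ} (f : Fin N → Polynomial A₀) (hf : ∀ i, (f i).Monic) {k : ℕ}
    (a : Fin k → A₀) :
    ∃ (A : Type u) (_ : CommRing A) (_ : Algebra A₀ A)
      (M : Model p A (fun e => algebraMap A₀ A (ϖ e))) (φ : M₀.P →+* M.P),
      W.Good M₀.π φ ∧ φ M₀.π = M.π ∧
      (∀ w, algebraMap A₀ A (M₀.θ w) = M.θ (WittVector.map φ w)) ∧
      W.Good (p : A₀) (algebraMap A₀ A) ∧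
      (∀ i, ∃ t : Fin (f i).natDegree → M.P, (f i).map (algebraMap A₀ A) =
        ∏ j, (Polynomial.X - Polynomial.C (sh M.θ (t j)))) ∧
      ∀ i, ∃ s : M.P, algebraMap A₀ A (a i) = sh M.θ s := by
  obtain ⟨P, _, _, _, φ, h, h1, h2, h3, h4, h5⟩ := W.exists_cover p M₀.π M₀.reg M₀.nonunit M₀.θ
    M₀.surj M₀.ker N f hf k a
  have hnu := h1.not_isUnit M₀.nonunit
  let _ : Algebra A₀ (Omega p (φ M₀.π)) := h.toAlgebra
  let M : Model p (Omega p (φ M₀.π)) (fun e => algebraMap A₀ (Omega p (φ M₀.π)) (ϖ e)) :=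
    { P := P
      θ := th p (φ M₀.π)
      π := φ M₀.π
      surj := th_surjective p _
      ker := ker_th p _
      reg := fun x hx => h1.reg' x hx
      nonunit := hnu
      roots := by
        intro e
        show sh (th p (φ M₀.π)) (Amp.rt (p := p) e (φ M₀.π)) = h (ϖ e)
        rw [← M₀.roots e, sh, sh, h2, WittVector.map_teichmuller, rt_map φ e M₀.π] }
  exact ⟨Omega p (φ M₀.π), inferInstance, inferInstance, M, φ, h1, rfl, h2, h3, h4, h5⟩

/-- regularity modulo `p` along a good extension -/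
theorem regMod_of_good {p : ℕ} {A B : Type*} [CommRing A] [CommRing B] [Algebra A B]
    (h : W.Good (p : A) (algebraMap A B)) {D : A} (hD : RegMod D (p : A)) :
    RegMod (algebraMap A B D) (p : B) := by
  intro x hx
  have := h.reg_mod (δ := D) (m := 1) (by
    intro y hy; rw [pow_one] at hy ⊢; exact hD y hy) x (by simpa using hx)
  simpa using this

/-- composition of covers -/
theorem good_trans {p : ℕ} {A B C : Type*} [CommRing A] [CommRing B] [CommRing C]
    [Algebra A B] [Algebra B C] (h1 : W.Good (p : A) (algebraMap A B))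
    (h2 : W.Good (p : B) (algebraMap B C)) :
    W.Good (p : A) ((algebraMap B C).comp (algebraMap A B)) :=
  h1.comp (by rwa [map_natCast])

end Crest.Agent.R183.Env
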