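import Crest.Agent.R183.Om1
import Mathlib

/-!
R183 / Om3 : `π`-adic completion of a perfect ring `P` of characteristic `p`.
`IsCompl π ι` : `ι : P → C` is a `π`-adic completion.  If `P` is perfect, so is `C`.
-/

set_option autoImplicit false
set_option linter.unusedSectionVars false

namespace Crest.Agent.R183.Om

universe u v

/-- `ι : P → C` is a `π`-adic completion. -/
structure IsCompl {P : Type u} {C : Type v} [CommRing P] [CommRing C] (π : P) (ι : P →+* C) :
    Prop where
  dense : ∀ (m : ℕ) (c : C), ∃ a : P, ι π ^ m ∣ c - ι a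
  sat : ∀ (m : ℕ) (a : P), ι π ^ m ∣ ι a → π ^ m ∣ a
  complete : IsAdicComplete (Ideal.span {ι π}) C

namespace IsCompl

variable {P : Type u} {C : Type v} [CommRing P] [CommRing C] {π : P} {ι : P →+* C}

lemma sep (h : IsCompl π ι) {c : C} (hc : ∀ m : ℕ, ι π ^ m ∣ c) : c = 0 := by
  have := h.complete
  refine IsHausdorff.haus (I := Ideal.span {ι π}) inferInstance c fun n => ?_
  rw [SModEq.zero, smul_eq_mul, Ideal.mul_top, Ideal.span_singleton_pow,
    Ideal.mem_span_singleton]
  exact hc n

lemma ser (h : IsCompl π ι) (w : ℕ → C) :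
    ∃ s, ∀ n : ℕ, ι π ^ n ∣ s - ∑ i ∈ Finset.range n, ι π ^ i * w i := by
  have := h.complete
  exact exists_series _ w

lemma dvd_iff (h : IsCompl π ι) (m : ℕ) (a : P) : ι π ^ m ∣ ι a ↔ π ^ m ∣ a :=
  ⟨h.sat m a, fun ⟨b, hb⟩ => ⟨ι b, by rw [hb, map_mul, map_pow]⟩⟩

lemma reg (h : IsCompl π ι) (hπ : Reg π) : Reg (ι π) := by
  intro c hc
  refine h.sep fun m => ?_
  obtain ⟨a, d, hd⟩ := h.dense m c
  have h1 : ι π ^ (m + 1) ∣ ι (π * a) := by
    refine ⟨-d, ?_⟩
    rw [map_mul]
    have : ι π * c = ι π * ι a + ι π * (ι π ^ m * d) := by rw [← hd]; ring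
    rw [hc] at this
    linear_combination -this
  obtain ⟨b, hb⟩ := h.sat _ _ h1
  have h2 : a = π ^ m * b := by
    rw [← sub_eq_zero]
    apply hπ
    rw [pow_succ'] at hb
    linear_combination hb
  refine ⟨ι b + d, ?_⟩
  rw [h2, map_mul, map_pow] at hd
  linear_combination hd

lemma regMod (h : IsCompl π ι) {D : P} (hD : RegMod D π) : RegMod (ι D) (ι π) := by
  intro c hc
  obtain ⟨a, d, hd⟩ := h.dense 1 c
  rw [pow_one] at hd
  have h1 : ι π ^ 1 ∣ ι (D * a) := by
    rw [pow_one, map_mul]
    have : ι D * ι a = ι D * c - ι π * (ι D * d) := by linear_combination -ι D * hd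
    rw [this]
    exact dvd_sub hc (dvd_mul_right _ _)
  have h2 := hD a (by simpa using h.sat _ _ h1)
  obtain ⟨b, hb⟩ := h2
  exact ⟨ι b + d, by rw [hb, map_mul] at hd; linear_combination hd⟩

lemma mem_jacobson (h : IsCompl π ι) : ι π ∈ (⊥ : Ideal C).jacobson := by
  have := h.complete
  exact IsAdicComplete.le_jacobson_bot (Ideal.span {ι π}) (Ideal.mem_span_singleton_self _)

lemma isUnit_iff (h : IsCompl π ι) : IsUnit (ι π) ↔ IsUnit π := by
  constructor
  · intro hu
    have : ι π ^ 1 ∣ ι 1 := by rw [pow_one]; exact hu.dvd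
    have := h.sat 1 1 this
    rw [pow_one] at this
    exact isUnit_of_dvd_one this
  · exact fun hu => hu.map ι

lemma charP (h : IsCompl π ι) {p : ℕ} [hp : Fact p.Prime] [CharP P p] (hu : ¬ IsUnit π) :
    CharP C p := by
  have : Nontrivial C := by
    by_contra hn
    rw [not_nontrivial_iff_subsingleton] at hn
    exact hu (h.isUnit_iff.1 (isUnit_of_subsingleton _))
  rw [CharP.charP_iff_prime_eq_zero hp.out]
  have : ι (p : P) = 0 := by rw [CharP.cast_eq_zero, map_zero]
  rwa [map_natCast] at this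


end IsCompl

open AdicCompletion in
lemma ker_evalₐ_eq_map' {R : Type*} [CommRing R] (I : Ideal R) (hI : I.FG) (n : ℕ) :
    RingHom.ker (evalₐ I n).toRingHom = (I ^ n).map (algebraMap R (AdicCompletion I R)) := by
  ext x
  trans x ∈ (AdicCompletion.eval I R n).ker
  · have eq : I ^ n * ⊤ = I ^ n := by simp
    have : Function.Injective (Ideal.Quotient.factor ((le_of_eq eq))) := by
      simpa [RingHom.injective_iff_ker_eq_bot, Ideal.Quotient.factor_ker]
        using Ideal.map_mk_eq_bot_of_le (le_of_eq eq.symm)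
    simpa [← factor_eval_eq_evalₐ] using map_eq_zero_iff _ this
  · simp [← pow_smul_top_eq_ker_eval hI]

/-- existence of the completion -/
theorem exists_isCompl {P : Type u} [CommRing P] (π : P) :
    ∃ (C : Type u) (_ : CommRing C) (ι : P →+* C), IsCompl π ι := by
  have hfg : (Ideal.span {π}).FG := ⟨{π}, by simp⟩
  have hk : ∀ (m : ℕ) (c : AdicCompletion (Ideal.span {π}) P),
      AdicCompletion.evalₐ (Ideal.span {π}) m c = 0 ↔
        (algebraMap P (AdicCompletion (Ideal.span {π}) P) π) ^ m ∣ c := by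
    intro m c
    have h1 := ker_evalₐ_eq_map' (Ideal.span {π}) hfg m
    have h2 : Ideal.map (algebraMap P (AdicCompletion (Ideal.span {π}) P)) (Ideal.span {π} ^ m) =
        Ideal.span {(algebraMap P (AdicCompletion (Ideal.span {π}) P) π) ^ m} := by
      rw [Ideal.span_singleton_pow, Ideal.map_span, Set.image_singleton, map_pow]
    rw [← Ideal.mem_span_singleton, ← h2, ← h1, RingHom.mem_ker]
    rfl
  have hev : ∀ (m : ℕ) (a : P), AdicCompletion.evalₐ (Ideal.span {π}) m
      (algebraMap P (AdicCompletion (Ideal.span {π}) P) a) = Ideal.Quotient.mk _ a := by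
    intro m a
    rw [AlgHom.commutes]; rfl
  refine ⟨AdicCompletion (Ideal.span {π}) P, inferInstance, algebraMap P _, ?_, ?_, ?_⟩
  · intro m c
    obtain ⟨a, ha⟩ := Ideal.Quotient.mk_surjective (AdicCompletion.evalₐ (Ideal.span {π}) m c)
    refine ⟨a, ?_⟩
    rw [← hk, map_sub, hev, ha, sub_self]
  · intro m a h
    rw [← hk, hev, Ideal.Quotient.eq_zero_iff_mem, Ideal.span_singleton_pow,
      Ideal.mem_span_singleton] at h
    exact h
  · have := AdicCompletion.isAdicComplete_self (Ideal.span {π}) hfg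
    rwa [Ideal.map_span, Set.image_singleton] at this


end Crest.Agent.R183.Om
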