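import Crest.Agent.R183.Heb

-- ▼ part R183/Lat1
section

set_option autoImplicit false
set_option linter.unusedSectionVars false

open Polynomial

namespace Crest.Agent.R183.Lat

open Crest.Agent.R183.Heb

section One

variable {p : ℕ} [hp : Fact p.Prime] {A K : Type*} [CommRing A] [CommRing K] [Algebra A K]
variable (d : Data p A K)

/-- `μ e = (pD)^{1/p^e}`. -/
def mu (e : ℕ) : A := d.ϖ e * d.δ e

theorem mu_succ (e : ℕ) : mu d (e + 1) ^ p = mu d e := by
  rw [mu, mu, mul_pow, d.hϖ e, d.hδ e]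

theorem mu_dvd_succ (e : ℕ) : mu d (e + 1) ∣ mu d e := by
  rw [← mu_succ d e]
  exact dvd_pow_self _ hp.out.ne_zero

theorem mu_dvd {e f : ℕ} (h : e ≤ f) : mu d f ∣ mu d e := by
  induction f, h using Nat.le_induction with
  | base => exact dvd_rfl
  | succ f _ ih => exact (mu_dvd_succ d f).trans ih

theorem isUnit_mu (e : ℕ) : IsUnit (algebraMap A K (mu d e)) := by
  rw [mu, map_mul]
  exact (d.unit_ϖ e).mul (d.unit_δ e)

theorem mu_sq_dvd (e : ℕ) : mu d (e + 1) ^ 2 ∣ mu d e := by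
  rw [← mu_succ d e]
  exact pow_dvd_pow _ hp.out.two_le

/-- `Ω_*`. -/
def star : Subalgebra A K where
  carrier := {x | ∀ e, ∃ w : A, algebraMap A K (mu d e) * x = algebraMap A K w}
  mul_mem' := by
    intro x y hx hy e
    obtain ⟨w, hw⟩ := hx (e + 1)
    obtain ⟨v, hv⟩ := hy (e + 1)
    obtain ⟨k, hk⟩ := mu_sq_dvd d e
    refine ⟨k * (w * v), ?_⟩
    rw [hk, map_mul, map_mul, map_mul, ← hw, ← hv, map_pow]
    ring
  add_mem' := by
    intro x y hx hy e
    obtain ⟨w, hw⟩ := hx e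
    obtain ⟨v, hv⟩ := hy e
    exact ⟨w + v, by rw [mul_add, hw, hv, map_add]⟩
  algebraMap_mem' := by
    intro a e
    exact ⟨mu d e * a, by rw [map_mul]⟩

theorem mem_star {x : K} : x ∈ star d ↔ ∀ e, ∃ w : A, algebraMap A K (mu d e) * x = algebraMap A K w :=
  Iff.rfl

/-- `MM = ⋃_e (pD)^{1/p^e} Ω` (as a submodule of `K`). -/
def MM : Submodule A K where
  carrier := {x | ∃ e, ∃ w : A, x = algebraMap A K (mu d e * w)}
  add_mem' := by
    rintro x y ⟨e, w, rfl⟩ ⟨f, v, rfl⟩
    obtain ⟨k, hk⟩ := mu_dvd d (le_max_left e f)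
    obtain ⟨l, hl⟩ := mu_dvd d (le_max_right e f)
    exact ⟨max e f, k * w + l * v, by rw [hk, hl, ← map_add]; ring_nf⟩
  zero_mem' := ⟨0, 0, by rw [mul_zero, map_zero]⟩
  smul_mem' := by
    rintro a x ⟨e, w, rfl⟩
    exact ⟨e, a * w, by rw [Algebra.smul_def, ← map_mul]; ring_nf⟩


theorem mem_MM' {x : K} (hx : x ∈ MM d) (f : ℕ) :
    ∃ e, f ≤ e ∧ ∃ w : A, x = algebraMap A K (mu d e * w) := by
  obtain ⟨e, w, rfl⟩ := hx
  obtain ⟨k, hk⟩ := mu_dvd d (le_max_left e f)
  exact ⟨max e f, le_max_right _ _, k * w, by rw [hk]; ring_nf⟩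

theorem mu_mem_MM (e : ℕ) : algebraMap A K (mu d e) ∈ MM d := ⟨e, 1, by rw [mul_one]⟩

/-- a common exponent for finitely many elements of `MM` -/
theorem exists_common {ι : Type*} (s : Finset ι) (x : ι → K) (hx : ∀ i ∈ s, x i ∈ MM d) (f : ℕ) :
    ∃ e, f ≤ e ∧ ∀ i ∈ s, ∃ w : A, x i = algebraMap A K (mu d e * w) := by
  classical
  induction s using Finset.induction_on with
  | empty => exact ⟨f, le_rfl, by simp⟩
  | insert a s ha ih =>
    obtain ⟨e, hfe, he⟩ := ih (fun i hi => hx i (Finset.mem_insert_of_mem hi))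
    obtain ⟨e', hee', w, hw⟩ := mem_MM' d (hx a (Finset.mem_insert_self _ _)) e
    refine ⟨e', hfe.trans hee', ?_⟩
    intro i hi
    rcases Finset.mem_insert.mp hi with rfl | hi
    · exact ⟨w, hw⟩
    · obtain ⟨v, hv⟩ := he i hi
      obtain ⟨k, hk⟩ := mu_dvd d hee'
      exact ⟨k * v, by rw [hv, hk]; ring_nf⟩

theorem star_mul_MM {x m : K} (hx : x ∈ star d) (hm : m ∈ MM d) : x * m ∈ MM d := by
  obtain ⟨e, w, rfl⟩ := hm
  obtain ⟨v, hv⟩ := hx (e + 1)
  obtain ⟨k, hk⟩ := mu_sq_dvd d e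
  refine ⟨e + 1, v * k * w, ?_⟩
  rw [hk, map_mul, map_mul, map_mul, map_mul, map_mul, ← hv, map_pow]
  ring

theorem pD_mul_star {x : K} (hx : x ∈ star d) : algebraMap A K (mu d 0) * x ∈ MM d := by
  rw [mul_comm]
  exact star_mul_MM d hx (mu_mem_MM d 0)

theorem mu_reg (e : ℕ) (x : A) (h : mu d e * x = 0) : x = 0 := by
  apply d.inj
  apply (isUnit_mu d e).mul_left_cancel
  rw [map_zero, mul_zero, ← map_mul, h, map_zero]

theorem ϖ_reg (e : ℕ) (x : A) (h : d.ϖ e * x = 0) : x = 0 := by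
  apply d.inj
  apply (d.unit_ϖ e).mul_left_cancel
  rw [map_zero, mul_zero, ← map_mul, h, map_zero]

/-- integral elements lie in `Ω_*`. -/
theorem mem_star_of_isIntegral [IsAdicComplete (Ideal.span {(p : A)}) A]
    (hpu : (p : A) ∈ nonunits A) {x : K} (hx : IsIntegral A x) {N M : ℕ} {w : A}
    (hw : algebraMap A K ((p : A) ^ N * d.δ 0 ^ M) * x = algebraMap A K w) : x ∈ star d := by
  obtain ⟨N', M', h⟩ := d.almInt_of_isIntegral hx hw
  intro e
  exact d.mem_of_almInt hpu h e e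

/-- divisibility in `MM`: if `m ∈ MM` and `D^M m ∈ p^{k+1} Ω_*` then `m ∈ p^k MM`. -/
theorem exists_MM_of_star {m y : K} (hm : m ∈ MM d) (hy : y ∈ star d) (M k : ℕ)
    (h : algebraMap A K (d.δ 0 ^ M) * m = algebraMap A K ((p : A) ^ (k + 1)) * y) :
    ∃ m' ∈ MM d, m = algebraMap A K ((p : A) ^ k) * m' := by
  obtain ⟨e, he, w, rfl⟩ := mem_MM' d hm 1
  obtain ⟨a, ha⟩ := hy e
  have h1 : d.δ 0 ^ M * (mu d e * (mu d e * w)) = (p : A) ^ (k + 1) * a := by
    apply d.inj
    rw [map_mul, map_mul, map_mul (algebraMap A K) ((p : A) ^ (k + 1)), ← ha]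
    linear_combination (algebraMap A K (mu d e)) * h
  -- remove the `D`-part
  have h2 : (p : A) ^ (k + 1) ∣ d.ϖ e ^ 2 * w := by
    have h3 : (p : A) ^ (k + 1) ∣ d.δ e * (d.δ e * (d.δ 0 ^ M * (d.ϖ e ^ 2 * w))) :=
      ⟨a, by rw [← h1, mu]; ring⟩
    have h4 := d.reg_δ_pow e _ _ (d.reg_δ_pow e _ _ h3)
    have key : ∀ j : ℕ, (p : A) ^ (k + 1) ∣ d.δ 0 ^ j * (d.ϖ e ^ 2 * w) →
        (p : A) ^ (k + 1) ∣ d.ϖ e ^ 2 * w := by
      intro j
      induction j with
      | zero => intro h; simpa using h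
      | succ j ihj =>
        intro h
        have h' : d.δ 0 ^ (j + 1) * (d.ϖ e ^ 2 * w)
            = d.δ 0 * (d.δ 0 ^ j * (d.ϖ e ^ 2 * w)) := by ring
        rw [h'] at h
        exact ihj (d.reg_δ_pow 0 _ _ h)
    exact key M h4
  obtain ⟨w', hw'⟩ := h2
  obtain ⟨l, hl⟩ : ∃ l, p ^ e = l + 2 := ⟨p ^ e - 2, by
    have h6 : p ≤ p ^ e := Nat.le_self_pow (by omega) p
    have := hp.out.two_le
    omega⟩
  have h7 : d.ϖ e ^ 2 * (w - (p : A) ^ k * (d.ϖ e ^ l * w')) = 0 := by
    have h8 : (p : A) ^ (k + 1) = (p : A) ^ k * (d.ϖ e ^ l * d.ϖ e ^ 2) := by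
      rw [← pow_add, ← hl, d.ϖ_pow, pow_succ]
    rw [h8] at hw'
    linear_combination hw'
  have h9 : w - (p : A) ^ k * (d.ϖ e ^ l * w') = 0 := by
    rw [pow_two, mul_assoc] at h7
    exact ϖ_reg d e _ (ϖ_reg d e _ h7)
  refine ⟨algebraMap A K (mu d e * (d.ϖ e ^ l * w')), ⟨e, _, rfl⟩, ?_⟩
  rw [← map_mul]
  congr 1
  linear_combination (mu d e) * h9

/-- `MM` is flat. -/
instance MM_flat : Module.Flat A (MM d) := by
  rw [Module.Flat.iff_forall_isTrivialRelation]
  intro l f x hfx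
  have hfx' : ∑ i, f i • (x i : K) = 0 := by
    have := congrArg (fun y : MM d => (y : K)) hfx
    simpa using this
  obtain ⟨e, -, he⟩ := exists_common d Finset.univ (fun i => (x i : K)) (fun i _ => (x i).2) 0
  choose w hw using fun i => he i (Finset.mem_univ i)
  refine ⟨1, fun i _ => w i, fun _ => ⟨algebraMap A K (mu d e), mu_mem_MM d e⟩,
    ?_, ?_⟩
  · intro i
    apply Subtype.ext
    simp [hw i, Algebra.smul_def, mul_comm]
  · intro _
    apply mu_reg d e
    apply d.inj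
    rw [map_zero, map_mul, map_sum, Finset.mul_sum, ← hfx']
    apply Finset.sum_congr rfl
    intro i _
    rw [hw i, Algebra.smul_def, map_mul, map_mul]
    ring

end One

end Crest.Agent.R183.Lat
end

-- ▼ part R183/Lat2
section

set_option autoImplicit false
set_option linter.unusedSectionVars false

open Polynomial

namespace Crest.Agent.R183.Lat

open Crest.Agent.R183.Heb

section Two

variable {p : ℕ} [hp : Fact p.Prime] {A K : Type*} [CommRing A] [CommRing K] [Algebra A K]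

/-- The quotient of two `p^e`-th roots of `D` lies in `Ω_*`. -/
theorem ratio_mem_star [IsAdicComplete (Ideal.span {(p : A)}) A] (hpu : (p : A) ∈ nonunits A)
    (d1 d2 : Data p A K) (h0 : d1.δ 0 = d2.δ 0) (e : ℕ) :
    algebraMap A K (d1.δ e) * Ring.inverse (algebraMap A K (d2.δ e)) ∈ star d1 := by
  set u := algebraMap A K (d1.δ e) * Ring.inverse (algebraMap A K (d2.δ e)) with hu
  have hinv : algebraMap A K (d2.δ e) * Ring.inverse (algebraMap A K (d2.δ e)) = 1 :=
    Ring.mul_inverse_cancel _ (d2.unit_δ e)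
  have hpe : 0 < p ^ e := pow_pos hp.out.pos e
  have hpow : u ^ (p ^ e) = 1 := by
    apply (d2.unit_D).mul_left_cancel
    rw [mul_one, ← d2.δ_pow e, map_pow, ← mul_pow]
    have h1 : algebraMap A K (d2.δ e) * u = algebraMap A K (d1.δ e) := by
      rw [hu]; linear_combination (algebraMap A K (d1.δ e)) * hinv
    rw [h1, ← map_pow, ← map_pow, d1.δ_pow, d2.δ_pow, h0]
  have hint : IsIntegral A u := by
    refine IsIntegral.of_pow hpe ?_
    rw [hpow]
    exact isIntegral_one
  obtain ⟨k, hk⟩ : ∃ k, p ^ e = k + 1 := ⟨p ^ e - 1, by omega⟩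
  refine mem_star_of_isIntegral d1 hpu hint (N := 0) (M := 1) (w := d1.δ e * d2.δ e ^ k) ?_
  rw [pow_zero, one_mul, pow_one, h0, ← d2.δ_pow e, hk, pow_succ, map_mul, map_mul, hu]
  linear_combination (algebraMap A K (d2.δ e ^ k) * algebraMap A K (d1.δ e)) * hinv

theorem MM_le [IsAdicComplete (Ideal.span {(p : A)}) A] (hpu : (p : A) ∈ nonunits A)
    (d1 d2 : Data p A K) (hϖ : d1.ϖ = d2.ϖ) (h0 : d1.δ 0 = d2.δ 0) : MM d1 ≤ MM d2 := by
  rintro x ⟨e, w, rfl⟩
  have hu := ratio_mem_star hpu d1 d2 h0 (e + 1)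
  set u := algebraMap A K (d1.δ (e + 1)) * Ring.inverse (algebraMap A K (d2.δ (e + 1))) with hu'
  have hinv : algebraMap A K (d2.δ (e + 1)) * Ring.inverse (algebraMap A K (d2.δ (e + 1))) = 1 :=
    Ring.mul_inverse_cancel _ (d2.unit_δ (e + 1))
  have h1 : algebraMap A K (mu d1 (e + 1)) = u * algebraMap A K (mu d2 (e + 1)) := by
    rw [mu, mu, hϖ, map_mul, map_mul, hu']
    linear_combination -(algebraMap A K (d2.ϖ (e + 1)) * algebraMap A K (d1.δ (e + 1))) * hinv
  obtain ⟨l, hl⟩ : ∃ l, p = l + 2 := ⟨p - 2, by have := hp.out.two_le; omega⟩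
  obtain ⟨v, hv⟩ := pow_mem hu (l + 1) (e + 1)
  refine ⟨e + 1, v * mu d2 (e + 1) ^ l * w, ?_⟩
  have h2 : algebraMap A K (mu d1 e) = algebraMap A K v * algebraMap A K (mu d2 (e + 1)) ^ (l + 1) := by
    rw [← hv, ← mu_succ d1 e, map_pow]
    have h3 : algebraMap A K (mu d1 (e + 1)) ^ p
        = algebraMap A K (mu d1 (e + 1)) * (u * algebraMap A K (mu d2 (e + 1))) ^ (l + 1) := by
      rw [← h1, ← pow_succ']
      congr 1
    rw [h3, mul_pow]
    ring
  rw [map_mul, h2, map_mul, map_mul, map_mul, map_pow]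
  ring

theorem MM_eq [IsAdicComplete (Ideal.span {(p : A)}) A] (hpu : (p : A) ∈ nonunits A)
    (d1 d2 : Data p A K) (hϖ : d1.ϖ = d2.ϖ) (h0 : d1.δ 0 = d2.δ 0) : MM d1 = MM d2 :=
  le_antisymm (MM_le hpu d1 d2 hϖ h0) (MM_le hpu d2 d1 hϖ.symm h0.symm)


/-- an idempotent of `K` lies in `Ω_*`. -/
theorem idem_mem_star [IsAdicComplete (Ideal.span {(p : A)}) A] (hpu : (p : A) ∈ nonunits A)
    (d : Data p A K) {x : K} (hx : x * x = x) {N M : ℕ} {w : A}
    (hw : algebraMap A K ((p : A) ^ N * d.δ 0 ^ M) * x = algebraMap A K w) : x ∈ star d := by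
  have : Nontrivial A := by
    refine ⟨0, 1, fun h => hpu ?_⟩
    exact IsUnit.of_mul_eq_one 0 (by rw [mul_zero, h])
  refine mem_star_of_isIntegral d hpu ⟨X ^ 2 - X, ?_, ?_⟩ hw
  · refine (monic_X_pow 2).sub_of_left ?_
    rw [degree_X_pow]
    exact lt_of_le_of_lt degree_X_le (by norm_num)
  · rw [eval₂_sub, eval₂_X_pow, eval₂_X, pow_two, hx, sub_self]

end Two

section Lattice

variable {p : ℕ} [hp : Fact p.Prime] {A K : Type*} [CommRing A] [CommRing K] [Algebra A K]

/-- The coordinate data of a lattice: `V j i = g_j(b_i)`, `U = V⁻¹`, `s` a power of `pD`. -/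
structure LData (d : Data p A K) (ι : Type*) [Fintype ι] [DecidableEq ι] where
  V : Matrix ι ι K
  U : Matrix ι ι K
  M : ℕ
  VU : V * U = 1
  UV : U * V = 1
  V_star : ∀ j i, V j i ∈ star d
  U_star : ∀ i j, algebraMap A K (mu d 0 ^ M) * U i j ∈ star d

namespace LData

variable {d : Data p A K} {ι : Type*} [Fintype ι] [DecidableEq ι] (l : LData d ι)

/-- `s = (pD)^M`. -/
def s : A := mu d 0 ^ l.M

theorem unit_s : IsUnit (algebraMap A K l.s) := by
  rw [s, map_pow]
  exact (isUnit_mu d 0).pow _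

/-- the values `(Σ_i g_j(b_i) v_i)_j` -/
noncomputable def val (v : ι → A) : ι → K := l.V.mulVec (fun i => algebraMap A K (v i))

theorem val_apply (v : ι → A) (j : ι) : l.val v j = ∑ i, l.V j i * algebraMap A K (v i) := rfl

theorem val_add (v w : ι → A) : l.val (v + w) = l.val v + l.val w := by
  ext j
  simp only [val_apply, Pi.add_apply, map_add, mul_add, Finset.sum_add_distrib]

theorem val_smul (a : A) (v : ι → A) : l.val (a • v) = fun j => algebraMap A K a * l.val v j := by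
  ext j
  simp only [val_apply, Pi.smul_apply, smul_eq_mul, map_mul, Finset.mul_sum]
  exact Finset.sum_congr rfl (fun i _ => by ring)

theorem U_val (v : ι → A) (i : ι) : ∑ j, l.U i j * l.val v j = algebraMap A K (v i) := by
  have h : l.U.mulVec (l.V.mulVec (fun i => algebraMap A K (v i))) = fun i => algebraMap A K (v i) := by
    rw [Matrix.mulVec_mulVec, l.UV, Matrix.one_mulVec]
  exact congrFun h i

theorem V_U (x : ι → K) (j : ι) : ∑ i, l.V j i * (∑ j', l.U i j' * x j') = x j := by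
  have h : l.V.mulVec (l.U.mulVec x) = x := by
    rw [Matrix.mulVec_mulVec, l.VU, Matrix.one_mulVec]
  exact congrFun h j

/-- The lattice. -/
def L : Submodule A (ι → A) where
  carrier := {v | ∀ j, ∃ m ∈ MM d, l.val v j = algebraMap A K l.s * m}
  add_mem' := by
    intro v w hv hw j
    obtain ⟨m, hm, h1⟩ := hv j
    obtain ⟨n, hn, h2⟩ := hw j
    exact ⟨m + n, add_mem hm hn, by rw [l.val_add, Pi.add_apply, h1, h2, mul_add]⟩
  zero_mem' := by
    intro j
    exact ⟨0, zero_mem _, by simp [val_apply]⟩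
  smul_mem' := by
    intro a v hv j
    obtain ⟨m, hm, h1⟩ := hv j
    refine ⟨a • m, Submodule.smul_mem _ a hm, ?_⟩
    rw [l.val_smul, Algebra.smul_def]
    change algebraMap A K a * l.val v j = _
    rw [h1]; ring

theorem mem_L {v : ι → A} : v ∈ l.L ↔ ∀ j, ∃ m ∈ MM d, l.val v j = algebraMap A K l.s * m :=
  Iff.rfl

/-- Every family in `MM` comes from an element of `L`. -/
theorem exists_of_MM (m : ι → K) (hm : ∀ j, m j ∈ MM d) :
    ∃ v : ι → A, v ∈ l.L ∧ (∀ j, l.val v j = algebraMap A K l.s * m j) ∧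
      ∀ i, algebraMap A K (v i) = ∑ j, (algebraMap A K l.s * l.U i j) * m j := by
  have h1 : ∀ i, ∑ j, (algebraMap A K l.s * l.U i j) * m j ∈ MM d :=
    fun i => Submodule.sum_mem _ (fun j _ => star_mul_MM d (l.U_star i j) (hm j))
  choose e w hw using h1
  have h2 : ∀ j, l.val (fun i => mu d (e i) * w i) j = algebraMap A K l.s * m j := by
    intro j
    rw [← l.V_U (fun j => algebraMap A K l.s * m j) j, val_apply]
    apply Finset.sum_congr rfl
    intro i _
    rw [← hw i]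
    congr 1
    exact Finset.sum_congr rfl (fun j _ => by ring)
  exact ⟨fun i => mu d (e i) * w i, fun j => ⟨m j, hm j, h2 j⟩, h2, fun i => (hw i).symm⟩

theorem exists_mm (v : l.L) (j : ι) :
    ∃ m : MM d, algebraMap A K l.s * (m : K) = l.val (v : ι → A) j := by
  obtain ⟨m, hm, h⟩ := l.mem_L.mp v.2 j
  exact ⟨⟨m, hm⟩, h.symm⟩

/-- the coordinates in `MM` -/
noncomputable def mm (v : l.L) (j : ι) : MM d := Classical.choose (l.exists_mm v j)

theorem mm_spec (v : l.L) (j : ι) :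
    algebraMap A K l.s * (l.mm v j : K) = l.val (v : ι → A) j :=
  Classical.choose_spec (l.exists_mm v j)

/-- `L ≃ MM^ι`. -/
noncomputable def toMM : l.L →ₗ[A] (ι → MM d) where
  toFun v := l.mm v
  map_add' v w := by
    ext j
    apply (l.unit_s).mul_left_cancel
    rw [l.mm_spec, Pi.add_apply, Submodule.coe_add (l.mm v j), mul_add, l.mm_spec, l.mm_spec,
      Submodule.coe_add, l.val_add, Pi.add_apply]
  map_smul' a v := by
    ext j
    apply (l.unit_s).mul_left_cancel
    rw [l.mm_spec, RingHom.id_apply, Pi.smul_apply, Submodule.coe_smul _ (l.mm v j),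
      Algebra.smul_def a (l.mm v j : K), mul_left_comm, l.mm_spec, Submodule.coe_smul, l.val_smul]

theorem toMM_spec (v : l.L) (j : ι) :
    algebraMap A K l.s * (l.toMM v j : K) = l.val (v : ι → A) j := l.mm_spec v j

theorem val_injective {v w : ι → A} (h : l.val v = l.val w) : v = w := by
  ext i
  apply d.inj
  rw [← l.U_val v i, ← l.U_val w i, h]

/-- `L ≃ MM^ι`. -/
noncomputable def equivMM : l.L ≃ₗ[A] (ι → MM d) :=
  LinearEquiv.ofBijective l.toMM (by
    constructor
    · intro v w h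
      apply Subtype.ext
      apply l.val_injective
      ext j
      rw [← l.toMM_spec v j, ← l.toMM_spec w j, h]
    · intro m
      obtain ⟨v, hv, h1, -⟩ := l.exists_of_MM (fun j => (m j : K)) (fun j => (m j).2)
      refine ⟨⟨v, hv⟩, ?_⟩
      ext j
      apply (l.unit_s).mul_left_cancel
      rw [l.toMM_spec]
      exact h1 j)

instance L_flat : Module.Flat A l.L := by
  have : Module.Flat A (ι → MM d) :=
    Module.Flat.of_linearEquiv (DirectSum.linearEquivFunOnFintype A ι (fun _ => MM d)).symm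
  exact Module.Flat.of_linearEquiv l.equivMM

end LData

end Lattice

end Crest.Agent.R183.Lat
end

-- ▼ part R183/Lat3

set_option autoImplicit false
set_option linter.unusedSectionVars false

open Polynomial

namespace Crest.Agent.R183.Lat

open Crest.Agent.R183.Heb

section

variable {p : ℕ} [hp : Fact p.Prime] {A K : Type*} [CommRing A] [CommRing K] [Algebra A K]

namespace LData

variable {d : Data p A K} {ι : Type*} [Fintype ι] [DecidableEq ι] (l : LData d ι)

theorem val_smul' (a : A) (v : ι → A) (j : ι) :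
    l.val (a • v) j = algebraMap A K a * l.val v j := congrFun (l.val_smul a v) j

theorem val_add' (v w : ι → A) (j : ι) : l.val (v + w) j = l.val v j + l.val w j :=
  congrFun (l.val_add v w) j

theorem val_mem_star (v : ι → A) (j : ι) : l.val v j ∈ star d := by
  rw [val_apply]
  exact Subalgebra.sum_mem _ (fun i _ => Subalgebra.mul_mem _ (l.V_star j i)
    (Subalgebra.algebraMap_mem _ _))

/-- (E2) Artin-Rees: `L ∩ p^{N+M+1} Ω^n ⊆ p^N L`. -/
theorem artinRees (N : ℕ) {v : ι → A} (hv : v ∈ l.L) (h : ∀ i, (p : A) ^ (N + (l.M + 1)) ∣ v i) :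
    ∃ v' ∈ l.L, v = (p : A) ^ N • v' := by
  choose w hw using h
  choose m hm hvm using l.mem_L.mp hv
  have hvw : v = (p : A) ^ (N + (l.M + 1)) • w := by
    ext i; rw [hw i, Pi.smul_apply, smul_eq_mul]
  have h1 : ∀ j, ∃ m' ∈ MM d, m j = algebraMap A K ((p : A) ^ N) * m' := by
    intro j
    refine exists_MM_of_star d (hm j) (l.val_mem_star w j) l.M N ?_
    have h2 := hvm j
    rw [hvw, l.val_smul'] at h2
    have h3 : algebraMap A K l.s = algebraMap A K ((p : A) ^ l.M) * algebraMap A K (d.δ 0 ^ l.M) := by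
      rw [s, mu, d.ϖ0, mul_pow, map_mul]
    have h4 : (p : A) ^ (N + (l.M + 1)) = (p : A) ^ l.M * (p : A) ^ (N + 1) := by
      rw [← pow_add]; congr 1; omega
    have hu : IsUnit (algebraMap A K ((p : A) ^ l.M)) := by
      rw [map_pow]; exact d.unit_p.pow _
    apply hu.mul_left_cancel
    rw [← mul_assoc, ← h3, ← h2, h4, map_mul, mul_assoc]
  choose m' hm' hmm' using h1
  obtain ⟨v', hv', h5, -⟩ := l.exists_of_MM m' hm'
  refine ⟨v', hv', ?_⟩
  apply l.val_injective
  ext j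
  rw [l.val_smul', hvm j, hmm' j, h5 j]
  ring

/-- `(pD)^{M+1} Ω^n ⊆ L`. -/
theorem smul_mem_L (v : ι → A) : mu d 0 ^ (l.M + 1) • v ∈ l.L := by
  intro j
  refine ⟨algebraMap A K (mu d 0) * l.val v j, pD_mul_star d (l.val_mem_star v j), ?_⟩
  rw [l.val_smul']
  rw [s, pow_succ, map_mul]
  ring

theorem exists_act (x : ι → star d) (v : l.L) :
    ∃ v' : l.L, ∀ j, l.val (v' : ι → A) j = (x j : K) * l.val (v : ι → A) j := by
  obtain ⟨v', hv', h1, -⟩ := l.exists_of_MM (fun j => (x j : K) * (l.mm v j : K))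
    (fun j => star_mul_MM d (x j).2 (l.mm v j).2)
  refine ⟨⟨v', hv'⟩, fun j => ?_⟩
  rw [h1 j, ← l.mm_spec v j]
  ring

/-- The action of `x ∈ ∏_j Ω_*` on `L`. -/
noncomputable def actFun (x : ι → star d) (v : l.L) : l.L := Classical.choose (l.exists_act x v)

theorem actFun_val (x : ι → star d) (v : l.L) (j : ι) :
    l.val (l.actFun x v : ι → A) j = (x j : K) * l.val (v : ι → A) j :=
  Classical.choose_spec (l.exists_act x v) j

theorem ext_val {v w : l.L} (h : ∀ j, l.val (v : ι → A) j = l.val (w : ι → A) j) : v = w :=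
  Subtype.ext (l.val_injective (funext h))

/-- `L` is a module over `∏_j Ω_*`. -/
noncomputable def act : (ι → star d) →+* Module.End A l.L where
  toFun x :=
    { toFun := l.actFun x
      map_add' := by
        intro v w
        apply l.ext_val
        intro j
        rw [l.actFun_val, Submodule.coe_add, Submodule.coe_add, l.val_add', l.val_add',
          l.actFun_val, l.actFun_val, mul_add]
      map_smul' := by
        intro a v
        apply l.ext_val
        intro j
        rw [l.actFun_val, RingHom.id_apply, Submodule.coe_smul, Submodule.coe_smul, l.val_smul',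
          l.val_smul', l.actFun_val]
        ring }
  map_one' := by
    ext1 v
    apply l.ext_val
    intro j
    change l.val (l.actFun 1 v : ι → A) j = l.val (v : ι → A) j
    rw [l.actFun_val]
    simp
  map_mul' x y := by
    ext1 v
    apply l.ext_val
    intro j
    change l.val (l.actFun (x * y) v : ι → A) j = l.val (l.actFun x (l.actFun y v) : ι → A) j
    rw [l.actFun_val, l.actFun_val, l.actFun_val]
    simp [mul_assoc]
  map_zero' := by
    ext1 v
    apply l.ext_val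
    intro j
    change l.val (l.actFun 0 v : ι → A) j = l.val ((0 : l.L) : ι → A) j
    rw [l.actFun_val]
    simp [val_apply]
  map_add' x y := by
    ext1 v
    apply l.ext_val
    intro j
    change l.val (l.actFun (x + y) v : ι → A) j
      = l.val ((l.actFun x v + l.actFun y v : l.L) : ι → A) j
    rw [l.actFun_val, Submodule.coe_add, l.val_add', l.actFun_val, l.actFun_val, ← add_mul]
    rfl

theorem act_val (x : ι → star d) (v : l.L) (j : ι) :
    l.val (l.act x v : ι → A) j = (x j : K) * l.val (v : ι → A) j := l.actFun_val x v j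

end LData

end

section Descent

variable {p : ℕ} [hp : Fact p.Prime] {A K A2 K2 : Type*} [CommRing A] [CommRing K] [Algebra A K]
  [CommRing A2] [CommRing K2] [Algebra A2 K2]

theorem map_mem_MM {d : Data p A K} {d2 : Data p A2 K2} {p2 : A →+* A2} {P2 : K →+* K2}
    (h2 : ∀ a, P2 (algebraMap A K a) = algebraMap A2 K2 (p2 a)) (hϖ : ∀ e, d2.ϖ e = p2 (d.ϖ e))
    (hδ : ∀ e, d2.δ e = p2 (d.δ e)) {m : K} (hm : m ∈ MM d) : P2 m ∈ MM d2 := by
  obtain ⟨e, w, rfl⟩ := hm
  refine ⟨e, p2 w, ?_⟩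
  rw [h2, mu, mu, hϖ, hδ, map_mul p2, map_mul p2]

/-- (E1) -/
theorem descent [IsAdicComplete (Ideal.span {(p : A2)}) A2] (hpu : (p : A2) ∈ nonunits A2)
    {ι : Type*} [Fintype ι] [DecidableEq ι] {d : Data p A K} (l : LData d ι)
    (p1 p2 : A →+* A2) (P1 P2 : K →+* K2)
    (h1 : ∀ a, P1 (algebraMap A K a) = algebraMap A2 K2 (p1 a))
    (h2 : ∀ a, P2 (algebraMap A K a) = algebraMap A2 K2 (p2 a))
    (d1 d2 : Data p A2 K2) (hϖ1 : ∀ e, d1.ϖ e = p1 (d.ϖ e)) (hδ1 : ∀ e, d1.δ e = p1 (d.δ e))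
    (hϖ2 : ∀ e, d2.ϖ e = p2 (d.ϖ e)) (hδ2 : ∀ e, d2.δ e = p2 (d.δ e))
    (hϖ : d1.ϖ = d2.ϖ) (h0 : d1.δ 0 = d2.δ 0)
    (hH : ∀ j j', ∑ i, P1 (l.V j i) * P2 (l.U i j') ∈ star d1)
    {v : ι → A} (hv : v ∈ l.L) :
    (fun i => p2 (v i)) ∈ Submodule.span A2 ((fun (w : ι → A) (i : ι) => p1 (w i)) '' (l.L : Set (ι → A))) := by
  have hMM : MM d2 = MM d1 := MM_eq hpu d2 d1 hϖ.symm h0.symm
  choose m hm hvm using l.mem_L.mp hv
  -- `s` is the same on both sides
  have hs : P1 (algebraMap A K l.s) = P2 (algebraMap A K l.s) := by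
    have e1 : p1 (mu d 0) = p2 (mu d 0) := by
      rw [mu, map_mul, map_mul, ← hϖ1, ← hδ1, ← hϖ2, ← hδ2, hϖ, h0]
    rw [h1, h2, LData.s, map_pow p1, map_pow p2, e1]
  -- `w j = Σ_i P1 (V j i) * P2 (v i)`
  have hw : ∀ j, ∑ i, P1 (l.V j i) * algebraMap A2 K2 (p2 (v i))
      = P1 (algebraMap A K l.s) * ∑ j', (∑ i, P1 (l.V j i) * P2 (l.U i j')) * P2 (m j') := by
    intro j
    have e1 : ∀ i, algebraMap A2 K2 (p2 (v i)) = ∑ j', P2 (l.U i j') * P2 (algebraMap A K l.s * m j') := by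
      intro i
      rw [← h2, ← l.U_val v i, map_sum]
      exact Finset.sum_congr rfl (fun j' _ => by rw [map_mul, hvm j'])
    simp_rw [e1, Finset.mul_sum, Finset.sum_mul, Finset.mul_sum]
    rw [Finset.sum_comm]
    refine Finset.sum_congr rfl (fun j' _ => Finset.sum_congr rfl (fun i _ => ?_))
    rw [map_mul, hs]
    ring
  have hn : ∀ j, ∑ j', (∑ i, P1 (l.V j i) * P2 (l.U i j')) * P2 (m j') ∈ MM d1 := by
    intro j
    refine Submodule.sum_mem _ (fun j' _ => star_mul_MM d1 (hH j j') ?_)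
    rw [← hMM]
    exact map_mem_MM h2 hϖ2 hδ2 (hm j')
  obtain ⟨e, -, he⟩ := exists_common d1 Finset.univ _ (fun j _ => hn j) 0
  choose ω hω using fun j => he j (Finset.mem_univ j)
  -- the elements `u j ∈ L`
  have hu : ∀ j, ∃ u : ι → A, u ∈ l.L ∧ ∀ i, algebraMap A K (u i)
      = algebraMap A K l.s * l.U i j * algebraMap A K (mu d e) := by
    intro j
    obtain ⟨u, hu, -, h4⟩ := l.exists_of_MM (fun j' => if j' = j then algebraMap A K (mu d e) else 0)
      (fun j' => by
        split_ifs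
        · exact mu_mem_MM d e
        · exact zero_mem _)
    refine ⟨u, hu, fun i => ?_⟩
    rw [h4 i]
    simp
  choose u huL hu using hu
  have key : (fun i => p2 (v i)) = ∑ j, ω j • (fun i => p1 (u j i)) := by
    ext i
    apply d2.inj
    rw [Finset.sum_apply, map_sum]
    simp only [Pi.smul_apply, smul_eq_mul, map_mul]
    simp_rw [← h1, hu, map_mul]
    have e2 : algebraMap A2 K2 (p2 (v i))
        = ∑ j, P1 (l.U i j) * ∑ i', P1 (l.V j i') * algebraMap A2 K2 (p2 (v i')) := by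
      have e3 : (l.U.map P1) * (l.V.map P1) = 1 := by
        rw [← Matrix.map_mul, l.UV, Matrix.map_one _ (map_zero P1) (map_one P1)]
      have e4 : (l.U.map P1).mulVec ((l.V.map P1).mulVec (fun i => algebraMap A2 K2 (p2 (v i))))
          = fun i => algebraMap A2 K2 (p2 (v i)) := by
        rw [Matrix.mulVec_mulVec, e3, Matrix.one_mulVec]
      exact (congrFun e4 i).symm
    rw [e2]
    refine Finset.sum_congr rfl (fun j _ => ?_)
    rw [hw j, hω j, mu, map_mul, map_mul, hϖ1, hδ1, ← h1, ← h1, mu, map_mul, map_mul]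
    ring
  rw [key]
  refine Submodule.sum_mem _ (fun j _ => Submodule.smul_mem _ _ (Submodule.subset_span ?_))
  exact ⟨u j, huL j, rfl⟩

end Descent

end Crest.Agent.R183.Lat
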