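import Crest.Agent.R183.Lat4

-- ▼ part R183/Lat5
section

set_option autoImplicit false
set_option linter.unusedSectionVars false

open Polynomial

namespace Crest.Agent.R183.Lat

open Crest.Agent.R183.Heb

section Hom

variable {B C K : Type*} [CommRing B] [CommRing C] [CommRing K] [Algebra B C] [Algebra B K]

/-- A root `τ` of `f` in `K` extends to a homomorphism `C → K`, `θ ↦ τ`. -/
theorem exists_hom (f : Polynomial B) (θ : C) (hinj : ∀ h : Polynomial B, aeval θ h = 0 → f ∣ h)
    (s : B) (hs : IsUnit (algebraMap B K s)) (hspan : ∀ c : C, ∃ h : Polynomial B, s • c = aeval θ h)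
    (τ : K) (hτ : aeval τ f = 0) : ∃ g : C →ₐ[B] K, g θ = τ := by
  choose h hh using hspan
  -- comparison lemma
  have key : ∀ P Q : Polynomial B, aeval θ P = aeval θ Q → aeval τ P = aeval τ Q := by
    intro P Q hPQ
    have h1 : aeval θ (P - Q) = 0 := by rw [map_sub, hPQ, sub_self]
    obtain ⟨R, hR⟩ := hinj _ h1
    have h2 : aeval τ (P - Q) = 0 := by rw [hR, map_mul, hτ, zero_mul]
    rwa [map_sub, sub_eq_zero] at h2
  obtain ⟨i, hi⟩ := hs.exists_right_inv
  have hval : ∀ (c : C) (P : Polynomial B), s • c = aeval θ P → aeval τ (h c) = aeval τ P := by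
    intro c P hP
    exact key _ _ (by rw [← hh, hP])
  have hone : aeval τ (h 1) = algebraMap B K s := by
    rw [hval 1 (Polynomial.C s) (by rw [aeval_C, Algebra.algebraMap_eq_smul_one]), aeval_C]
  refine ⟨{ toFun := fun c => aeval τ (h c) * i
            map_one' := by rw [hone, hi]
            map_mul' := ?_
            map_zero' := ?_
            map_add' := ?_
            commutes' := ?_ }, ?_⟩
  · intro c c'
    have h1 : aeval τ (h c) * aeval τ (h c') = algebraMap B K s * aeval τ (h (c * c')) := by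
      rw [← map_mul, ← aeval_C τ s, ← map_mul]
      apply key
      rw [map_mul, map_mul, aeval_C, ← hh, ← hh, ← hh, smul_mul_smul_comm, Algebra.smul_def,
        Algebra.smul_def, map_mul, mul_assoc]
    linear_combination (-i ^ 2) * h1 - (i * aeval τ (h (c * c'))) * hi
  · have : aeval τ (h 0) = 0 := by
      rw [hval 0 0 (by rw [smul_zero, map_zero]), map_zero]
    change aeval τ (h 0) * i = 0
    rw [this, zero_mul]
  · intro c c'
    have : aeval τ (h (c + c')) = aeval τ (h c) + aeval τ (h c') := by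
      rw [hval (c + c') (h c + h c') (by rw [smul_add, map_add, hh, hh]), map_add]
    rw [this, add_mul]
  · intro b
    have : aeval τ (h (algebraMap B C b)) = algebraMap B K s * algebraMap B K b := by
      rw [hval (algebraMap B C b) (Polynomial.C (s * b))
        (by rw [aeval_C, Algebra.smul_def, map_mul]), aeval_C, map_mul]
    change aeval τ (h (algebraMap B C b)) * i = algebraMap B K b
    rw [this]
    linear_combination (algebraMap B K b) * hi
  · have : aeval τ (h θ) = algebraMap B K s * τ := by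
      rw [hval θ (Polynomial.C s * X) (by rw [map_mul, aeval_C, aeval_X, Algebra.smul_def]),
        map_mul, aeval_C, aeval_X]
    change aeval τ (h θ) * i = τ
    rw [this]
    linear_combination τ * hi

theorem isUnit_sub_of_separable {ι : Type*} [Fintype ι] [DecidableEq ι] (τ : ι → K)
    (h : (∏ j, (X - Polynomial.C (τ j))).Separable) {i j : ι} (hij : i ≠ j) :
    IsUnit (τ i - τ j) := by
  have h1 : ∏ j, (X - Polynomial.C (τ j))
      = ((X - Polynomial.C (τ i)) * (X - Polynomial.C (τ j)))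
        * ∏ l ∈ (Finset.univ.erase i).erase j, (X - Polynomial.C (τ l)) := by
    rw [mul_assoc, Finset.mul_prod_erase _ (fun l => X - Polynomial.C (τ l))
      (Finset.mem_erase.mpr ⟨hij.symm, Finset.mem_univ _⟩),
      Finset.mul_prod_erase _ (fun l => X - Polynomial.C (τ l)) (Finset.mem_univ i)]
  rw [h1] at h
  obtain ⟨a, b, hab⟩ := h.of_mul_left.isCoprime
  have h2 := congrArg (Polynomial.eval (τ i)) hab
  simp only [eval_add, eval_mul, eval_sub, eval_X, eval_C, sub_self, mul_zero, zero_add,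
    eval_one] at h2
  exact IsUnit.of_mul_eq_one (b.eval (τ i)) (by rw [mul_comm]; exact h2)

theorem isUnit_vandermonde {n : ℕ} (τ : Fin n → K)
    (h : (∏ j, (X - Polynomial.C (τ j))).Separable) : IsUnit (Matrix.vandermonde τ).det := by
  rw [Matrix.det_vandermonde, IsUnit.prod_univ_iff]
  intro i
  rw [IsUnit.prod_iff]
  intro j hj
  exact isUnit_sub_of_separable τ h (Finset.mem_Ioi.mp hj).ne'

end Hom

end Crest.Agent.R183.Lat
end

-- ▼ part R183/Lat6

set_option autoImplicit false
set_option linter.unusedSectionVars false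

open Polynomial

namespace Crest.Agent.R183.Lat

universe u v

/-- A split `A₀`-algebra (over `K`), with a basis up to a denominator `s`. -/
structure Split (A₀ : Type*) (K : Type*) (C : Type*) [CommRing A₀] [CommRing K] [CommRing C]
    [Algebra A₀ K] [Algebra A₀ C] (ι : Type) [Fintype ι] [DecidableEq ι] where
  g : ι → C →ₐ[A₀] K
  b : ι → C
  U : Matrix ι ι K
  VU : (Matrix.of fun j i => g j (b i)) * U = 1
  UV : U * (Matrix.of fun j i => g j (b i)) = 1
  s : A₀
  hs : IsUnit (algebraMap A₀ K s)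
  hspan : ∀ c : C, ∃ a : ι → A₀, s • c = ∑ i, a i • b i

namespace Split

variable {A₀ K C : Type*} [CommRing A₀] [CommRing K] [CommRing C]
    [Algebra A₀ K] [Algebra A₀ C]

/-- The splitting attached to a generator `θ` (up to denominators) whose equation splits over
`K`. -/
theorem exists_ofTheta {n : ℕ} (f : Polynomial A₀) (hf : f.Monic) (hn : f.natDegree = n) (θ : C)
    (hθ : aeval θ f = 0) (hinj : ∀ h : Polynomial A₀, aeval θ h = 0 → f ∣ h)
    (s : A₀) (hs : IsUnit (algebraMap A₀ K s)) (hspan : ∀ c : C, ∃ h : Polynomial A₀, s • c = aeval θ h)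
    (τ : Fin n → K) (hτ : f.map (algebraMap A₀ K) = ∏ j, (X - Polynomial.C (τ j)))
    (hsep : (f.map (algebraMap A₀ K)).Separable) :
    ∃ S : Split A₀ K C (Fin n), (∀ j, S.g j θ = τ j) ∧ (∀ i, S.b i = θ ^ (i : ℕ)) ∧ S.s = s := by
  have hroot : ∀ j, aeval (τ j) f = 0 := by
    intro j
    rw [aeval_def, ← eval_map, hτ, eval_prod]
    exact Finset.prod_eq_zero (Finset.mem_univ j) (by simp)
  choose g hg using fun j => exists_hom f θ hinj s hs hspan (τ j) (hroot j)
  have hV : (Matrix.of fun j i => g j (θ ^ ((i : Fin n) : ℕ))) = Matrix.vandermonde τ := by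
    ext j i
    rw [Matrix.of_apply, map_pow, hg, Matrix.vandermonde_apply]
  have hu : IsUnit (Matrix.vandermonde τ).det := isUnit_vandermonde τ (by rw [← hτ]; exact hsep)
  refine ⟨⟨g, fun i => θ ^ (i : ℕ), (Matrix.vandermonde τ)⁻¹, ?_, ?_, s, hs, ?_⟩, hg,
    fun i => rfl, rfl⟩
  · rw [hV, Matrix.mul_nonsing_inv _ hu]
  · rw [hV, Matrix.nonsing_inv_mul _ hu]
  · intro c
    obtain ⟨h, hh⟩ := hspan c
    have h1 : aeval θ h = aeval θ (h %ₘ f) := by
      have := congrArg (aeval θ) (Polynomial.modByMonic_add_div h f)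
      rw [map_add, map_mul, hθ, zero_mul, add_zero] at this
      exact this.symm
    refine ⟨fun i => (h %ₘ f).coeff i, ?_⟩
    rw [hh, h1]
    rcases subsingleton_or_nontrivial A₀ with hA | hA
    · have : (1 : C) = 0 := by
        rw [← map_one (algebraMap A₀ C), Subsingleton.elim (1 : A₀) 0, map_zero]
      calc aeval θ (h %ₘ f) = 1 * aeval θ (h %ₘ f) := (one_mul _).symm
        _ = 0 := by rw [this, zero_mul]
        _ = 1 * ∑ i : Fin n, (h %ₘ f).coeff i • θ ^ (i : ℕ) := by rw [this, zero_mul]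
        _ = _ := one_mul _
    · have hdeg : (h %ₘ f).natDegree < n ∨ h %ₘ f = 0 := by
        by_cases h0 : h %ₘ f = 0
        · exact Or.inr h0
        · left
          rw [← hn]
          exact Polynomial.natDegree_lt_natDegree h0 (Polynomial.degree_modByMonic_lt h hf)
      rcases hdeg with hdeg | h0
      · rw [aeval_eq_sum_range' hdeg, Finset.sum_range]
      · rw [h0]; simp

variable {ι : Type} [Fintype ι] [DecidableEq ι]

/-- If `X^q - 1` splits over `K` and `q` is a unit, the scaled Vandermonde matrix is invertible. -/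
theorem isUnit_vandermonde_smul {q : ℕ} (hq : IsUnit (q : K)) (ζ : Fin q → K)
    (hζ : (X ^ q - 1 : Polynomial K) = ∏ l, (X - Polynomial.C (ζ l))) {η : K} (hη : IsUnit η) :
    IsUnit (Matrix.vandermonde (fun l => η * ζ l)).det := by
  have hsep : (∏ l, (X - Polynomial.C (ζ l))).Separable := by
    rw [← hζ]
    exact Polynomial.separable_X_pow_sub_C_unit 1 hq |> fun h => by simpa using h
  rw [Matrix.det_vandermonde, IsUnit.prod_univ_iff]
  intro i
  rw [IsUnit.prod_iff]
  intro j hj
  rw [← mul_sub]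
  exact hη.mul (isUnit_sub_of_separable ζ hsep (Finset.mem_Ioi.mp hj).ne')

theorem root_pow_eq {q : ℕ} (ζ : Fin q → K)
    (hζ : (X ^ q - 1 : Polynomial K) = ∏ l, (X - Polynomial.C (ζ l))) (l : Fin q) : ζ l ^ q = 1 := by
  have h1 := congrArg (Polynomial.eval (ζ l)) hζ
  rw [eval_prod, Finset.prod_eq_zero (Finset.mem_univ l) (by simp)] at h1
  simpa [sub_eq_zero] using h1

/-- **Adjunction of a `q`-th root**: `C[Y]/(Y^q - z)` is split if `C` is, the `g_j(z)` are units
with `q`-th roots `η_j`, and `X^q - 1` splits over `K`. -/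
theorem exists_adjoin (S : Split A₀ K C ι) {q : ℕ} (hq0 : 0 < q) (hq : IsUnit (q : K))
    (ζ : Fin q → K) (hζ : (X ^ q - 1 : Polynomial K) = ∏ l, (X - Polynomial.C (ζ l))) (z : C)
    (hz : ∀ j, IsUnit (S.g j z)) (η : ι → K) (hη : ∀ j, η j ^ q = S.g j z) :
    ∃ S' : Split A₀ K (AdjoinRoot (X ^ q - Polynomial.C z : Polynomial C)) (ι × Fin q),
      (∀ j l c, S'.g (j, l) (algebraMap C _ c) = S.g j c) ∧
      (∀ j l, S'.g (j, l) (AdjoinRoot.root _) = η j * ζ l) ∧
      (∀ i l, S'.b (i, l) = algebraMap C _ (S.b i) * AdjoinRoot.root _ ^ (l : ℕ)) ∧ S'.s = S.s := by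
  classical
  set F : Polynomial C := X ^ q - Polynomial.C z with hF
  have hFm : F.Monic := monic_X_pow_sub_C z hq0.ne'
  have hηu : ∀ j, IsUnit (η j) := fun j => by
    have := hz j
    rw [← hη j] at this
    exact (isUnit_pow_iff hq0.ne').mp this
  -- the homomorphisms
  have hroot : ∀ (j : ι) (l : Fin q), F.eval₂ (S.g j : C →+* K) (η j * ζ l) = 0 := by
    intro j l
    rw [hF, eval₂_sub, eval₂_X_pow, eval₂_C, mul_pow, hη j, root_pow_eq ζ hζ l, mul_one]
    simp
  let G : ι × Fin q → (AdjoinRoot F →ₐ[A₀] K) := fun t =>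
    { AdjoinRoot.lift (S.g t.1 : C →+* K) (η t.1 * ζ t.2) (hroot t.1 t.2) with
      commutes' := fun r => by
        change AdjoinRoot.lift (S.g t.1 : C →+* K) (η t.1 * ζ t.2) (hroot t.1 t.2)
          (algebraMap A₀ (AdjoinRoot F) r) = _
        rw [AdjoinRoot.algebraMap_eq' (R := C) (S := A₀) F]
        simp }
  have hG1 : ∀ j l c, G (j, l) (algebraMap C _ c) = S.g j c := by
    intro j l c
    change AdjoinRoot.lift (S.g j : C →+* K) (η j * ζ l) (hroot j l) (AdjoinRoot.of F c) = _
    rw [AdjoinRoot.lift_of]; rfl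
  have hG2 : ∀ j l, G (j, l) (AdjoinRoot.root F) = η j * ζ l := by
    intro j l
    change AdjoinRoot.lift (S.g j : C →+* K) (η j * ζ l) (hroot j l) (AdjoinRoot.root F) = _
    rw [AdjoinRoot.lift_root]
  let b' : ι × Fin q → AdjoinRoot F := fun t => algebraMap C _ (S.b t.1) * AdjoinRoot.root F ^ (t.2 : ℕ)
  let W : ι → Matrix (Fin q) (Fin q) K := fun j => Matrix.vandermonde (fun l => η j * ζ l)
  have hW : ∀ j, IsUnit (W j).det := fun j => isUnit_vandermonde_smul hq ζ hζ (hηu j)
  have hGb : ∀ (j : ι) (l : Fin q) (i : ι) (ν : Fin q), G (j, l) (b' (i, ν)) = S.g j (S.b i) * W j l ν := by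
    intro j l i ν
    rw [map_mul, map_pow, hG1, hG2]
    rfl
  let U' : Matrix (ι × Fin q) (ι × Fin q) K := Matrix.of fun t r => S.U t.1 r.1 * (W r.1)⁻¹ t.2 r.2
  have hVU : (Matrix.of fun j i => G j (b' i)) * U' = 1 := by
    ext ⟨j, l⟩ ⟨j', l'⟩
    rw [Matrix.mul_apply, Fintype.sum_prod_type]
    have e1 : ∀ i ν, (Matrix.of fun j i => G j (b' i)) (j, l) (i, ν) * U' (i, ν) (j', l')
        = (S.g j (S.b i) * S.U i j') * (W j l ν * (W j')⁻¹ ν l') := by
      intro i ν
      rw [Matrix.of_apply, hGb]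
      change S.g j (S.b i) * W j l ν * (S.U i j' * (W j')⁻¹ ν l') = _
      ring
    simp_rw [e1]
    rw [← Finset.sum_mul_sum]
    have e2 : ∑ i, S.g j (S.b i) * S.U i j' = (1 : Matrix ι ι K) j j' := by
      rw [← S.VU, Matrix.mul_apply]; rfl
    rw [e2, Matrix.one_apply, Matrix.one_apply]
    by_cases hj : j = j'
    · subst hj
      have e3 : ∑ ν, W j l ν * (W j)⁻¹ ν l' = (1 : Matrix (Fin q) (Fin q) K) l l' := by
        rw [← Matrix.mul_nonsing_inv _ (hW j), Matrix.mul_apply]
      rw [e3, Matrix.one_apply]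
      simp
    · simp [hj]
  have hUV : U' * (Matrix.of fun j i => G j (b' i)) = 1 :=
    mul_eq_one_comm.mp hVU
  refine ⟨⟨G, b', U', hVU, hUV, S.s, S.hs, ?_⟩, hG1, hG2, fun i l => rfl, rfl⟩
  intro c
  obtain ⟨P, rfl⟩ := AdjoinRoot.mk_surjective c
  -- reduce modulo `F`
  have hP : AdjoinRoot.mk F P = ∑ ν : Fin q, algebraMap C _ ((P %ₘ F).coeff ν) * AdjoinRoot.root F ^ (ν : ℕ) := by
    rcases subsingleton_or_nontrivial C with hC | hC
    · have : Subsingleton (AdjoinRoot F) := (algebraMap C (AdjoinRoot F)).codomain_trivial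
      exact Subsingleton.elim _ _
    have h1 : AdjoinRoot.mk F P = AdjoinRoot.mk F (P %ₘ F) := by
      have := congrArg (AdjoinRoot.mk F) (Polynomial.modByMonic_add_div P F)
      rw [map_add, map_mul, AdjoinRoot.mk_self, zero_mul, add_zero] at this
      exact this.symm
    have hdeg : (P %ₘ F).natDegree < q := by
      have h2 : F.natDegree = q := natDegree_X_pow_sub_C
      rw [← h2]
      by_cases h0 : P %ₘ F = 0
      · rw [h0, natDegree_zero, h2]; exact hq0
      · exact Polynomial.natDegree_lt_natDegree h0 (Polynomial.degree_modByMonic_lt P hFm)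
    rw [h1]
    conv_lhs => rw [Polynomial.as_sum_range' (P %ₘ F) q hdeg]
    rw [map_sum, Finset.sum_range]
    refine Finset.sum_congr rfl (fun ν _ => ?_)
    rw [← Polynomial.C_mul_X_pow_eq_monomial, map_mul, map_pow, AdjoinRoot.mk_C, AdjoinRoot.mk_X]
    rfl
  choose a ha using fun ν : Fin q => S.hspan ((P %ₘ F).coeff ν)
  refine ⟨fun t => a t.2 t.1, ?_⟩
  rw [hP, Finset.smul_sum, Fintype.sum_prod_type, Finset.sum_comm]
  refine Finset.sum_congr rfl (fun ν _ => ?_)
  have h3 : S.s • (algebraMap C (AdjoinRoot F) ((P %ₘ F).coeff ν) * AdjoinRoot.root F ^ (ν : ℕ))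
      = algebraMap C (AdjoinRoot F) (S.s • (P %ₘ F).coeff ν) * AdjoinRoot.root F ^ (ν : ℕ) := by
    rw [← smul_mul_assoc]
    congr 1
    rw [Algebra.smul_def, Algebra.smul_def, map_mul, ← IsScalarTower.algebraMap_apply]
  rw [h3, ha ν, map_sum, Finset.sum_mul]
  refine Finset.sum_congr rfl (fun i _ => ?_)
  change _ = a ν i • (algebraMap C (AdjoinRoot F) (S.b i) * AdjoinRoot.root F ^ (ν : ℕ))
  rw [← smul_mul_assoc]
  congr 1
  rw [Algebra.smul_def, Algebra.smul_def, map_mul, ← IsScalarTower.algebraMap_apply]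

end Split

end Crest.Agent.R183.Lat
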