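import Crest.Agent.R183.Lat7
import Crest.Agent.R183.BCM8
import Crest.Agent.R183.Env1

-- ▼ part R183/Lat8
section

set_option autoImplicit false
set_option linter.unusedSectionVars false

open Polynomial

namespace Crest.Agent.R183.Lat

open Crest.Agent.R183.Heb
open Crest.Agent.R183.Glue

universe u

section

variable {p : ℕ} [hp : Fact p.Prime]
variable {A₀ A K C : Type u} [CommRing A₀] [CommRing A] [CommRing K] [CommRing C]
  [Algebra A₀ A] [Algebra A K] [Algebra A₀ K] [IsScalarTower A₀ A K] [Algebra A₀ C]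
variable {ι : Type} [Fintype ι] [DecidableEq ι]

/-- The `b_i` are independent over `A₀`. -/
theorem Split.indep (S : Split A₀ K C ι) (hinj : Function.Injective (algebraMap A₀ K))
    {a a' : ι → A₀} (h : ∑ i, a i • S.b i = ∑ i, a' i • S.b i) : a = a' := by
  have h1 : (Matrix.of fun j i => S.g j (S.b i)).mulVec (fun i => algebraMap A₀ K (a i))
      = (Matrix.of fun j i => S.g j (S.b i)).mulVec (fun i => algebraMap A₀ K (a' i)) := by
    ext j
    have h2 := congrArg (S.g j) h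
    rw [map_sum, map_sum] at h2
    simp only [Matrix.mulVec, dotProduct, Matrix.of_apply]
    convert h2 using 1 <;>
    · refine Finset.sum_congr rfl (fun i _ => ?_)
      rw [map_smul, Algebra.smul_def, mul_comm]
  have h3 := congrArg S.U.mulVec h1
  rw [Matrix.mulVec_mulVec, Matrix.mulVec_mulVec, S.UV, Matrix.one_mulVec, Matrix.one_mulVec] at h3
  ext i
  exact hinj (congrFun h3 i)

/-- The coordinates of helper523's `BCM.frame`. -/
theorem Split.exists_coord (S : Split A₀ K C ι) (hinj : Function.Injective (algebraMap A₀ K)) :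
    ∃ β : C →ₗ[A₀] (ι → A₀), BCM.Coord S.s S.b β := by
  choose a ha using S.hspan
  refine ⟨{ toFun := a
            map_add' := ?_
            map_smul' := ?_ }, ⟨ha, ?_⟩⟩
  · intro x y
    apply S.indep hinj
    rw [← ha, smul_add, ha, ha, ← Finset.sum_add_distrib]
    exact Finset.sum_congr rfl (fun i _ => (add_smul _ _ _).symm)
  · intro r x
    apply S.indep hinj
    rw [← ha, smul_comm, ha, Finset.smul_sum, RingHom.id_apply]
    exact Finset.sum_congr rfl (fun i _ => by rw [Pi.smul_apply, smul_assoc])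
  · intro i
    apply S.indep hinj
    change ∑ j, a (S.b i) j • S.b j = _
    rw [← ha]
    simp [Pi.single_apply, ite_smul]

theorem Split.s_reg (S : Split A₀ K C ι) (hinj : Function.Injective (algebraMap A₀ K)) (x : A₀)
    (h : S.s * x = 0) : x = 0 := by
  apply hinj
  apply S.hs.mul_left_cancel
  rw [← map_mul, h, map_zero (algebraMap A₀ K), mul_zero]

variable {S : Split A₀ K C ι} {d : Data p A K} {l : LData d ι}

theorem Vmap_eq (hV : l.V = (Matrix.of fun j i => S.g j (S.b i))) (v : ι → A) (j : ι) :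
    BCM.Vmap S.g S.b v j = l.val v j := by
  rw [BCM.Vmap_apply, LData.val_apply, hV]
  exact Finset.sum_congr rfl (fun i _ => by rw [Matrix.of_apply, Algebra.smul_def, mul_comm])

theorem Vmap_inj (hV : l.V = (Matrix.of fun j i => S.g j (S.b i))) (x : ι → A)
    (h : BCM.Vmap S.g S.b x = 0) : x = 0 := by
  apply l.val_injective
  ext j
  rw [← Vmap_eq hV, h]
  simp only [LData.val_apply, Pi.zero_apply, map_zero, mul_zero, Finset.sum_const_zero]
  rfl

theorem act_eq (hV : l.V = (Matrix.of fun j i => S.g j (S.b i)))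
    (hstar : ∀ j c, S.g j c ∈ star d) (c : C) (v : l.L) :
    c • BCM.Vmap S.g S.b (v : ι → A)
      = BCM.Vmap S.g S.b (l.act (RingHom.pi (gs S hstar) c) v : ι → A) := by
  ext j
  rw [BCM.EK.smul_apply, Vmap_eq hV, Vmap_eq hV, l.act_val]
  rfl

theorem stab (hV : l.V = (Matrix.of fun j i => S.g j (S.b i)))
    (hstar : ∀ j c, S.g j c ∈ star d) (c : C) :
    ∀ v ∈ l.L, ∃ v' ∈ l.L, c • BCM.Vmap S.g S.b v = BCM.Vmap S.g S.b v' := by
  intro v hv
  exact ⟨_, Subtype.coe_prop _, act_eq hV hstar c ⟨v, hv⟩⟩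

/-- amplitude for any frame whose `v₁` is `Vmap`. -/
theorem amp' (hV : l.V = (Matrix.of fun j i => S.g j (S.b i)))
    (hstar : ∀ j c, S.g j c ∈ star d) {E₀ : Type u} [AddCommGroup E₀] [Module A₀ E₀] [Module C E₀]
    [IsScalarTower A₀ C E₀] {a d' : A₀} {m : ℕ} (F : BCM.Frame A₀ A C E₀ (BCM.EK S.g) ι a d' m l.L)
    (hF : ∀ v, F.v₁ v = BCM.Vmap S.g S.b v)
    (b : Ideal C) (r : C) (hr : ∀ j, gs S hstar j r ∈ b.map (gs S hstar j)) (v : ι → A)
    (hv : v ∈ l.L) : r • F.v₁ v ∈ F.idL b := by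
  have h1 : RingHom.pi (gs S hstar) r ∈ b.map (RingHom.pi (gs S hstar)) :=
    mem_map_pi _ _ _ hr
  have h0 : ∀ (c : C) (w : l.L), F.v₁ (l.act (RingHom.pi (gs S hstar) c) w : ι → A)
      = c • F.v₁ (w : ι → A) := by
    intro c w
    rw [hF, hF, act_eq hV hstar]
  have h2 : ∀ x ∈ b.map (RingHom.pi (gs S hstar)), ∀ w : l.L,
      F.v₁ (l.act x w : ι → A) ∈ F.idL b := by
    intro x hx
    induction hx using Submodule.span_induction with
    | mem x hx =>
      obtain ⟨c, hc, rfl⟩ := hx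
      intro w
      rw [h0 c w]
      exact Submodule.subset_span ⟨c, hc, w, w.2, rfl⟩
    | zero =>
      intro w
      rw [map_zero, LinearMap.zero_apply, Submodule.coe_zero, map_zero]
      exact Submodule.zero_mem _
    | add x y _ _ hx hy =>
      intro w
      rw [map_add, LinearMap.add_apply, Submodule.coe_add, map_add]
      exact Submodule.add_mem _ (hx w) (hy w)
    | smul ω y _ hy =>
      intro w
      have : l.act (ω • y) w = l.act y (l.act ω w) := by
        rw [smul_eq_mul, mul_comm, map_mul]; rfl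
      rw [this]
      exact hy _
  have h3 := h2 _ h1 ⟨v, hv⟩
  rwa [h0 r ⟨v, hv⟩] at h3

/-- `(pD)^{M+1} Ω^ι ⊆ L` in the form `g3` of `StageData`. -/
theorem g3 (D₀ : A₀) (hD₀ : algebraMap A₀ A D₀ = d.δ 0) (v : ι → A) :
    algebraMap A₀ A (((p : A₀) * D₀) ^ (l.M + 1)) • v ∈ l.L := by
  have : algebraMap A₀ A (((p : A₀) * D₀) ^ (l.M + 1)) = mu d 0 ^ (l.M + 1) := by
    rw [map_pow, map_mul, map_natCast, hD₀, mu, d.ϖ0]
  rw [this]
  exact l.smul_mem_L v

end

section RegL

variable {A : Type*} [CommRing A] {M : Type*} [AddCommGroup M] [Module A M]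

theorem exists_sum_of_mem (I : Ideal A) {m : M} (hm : m ∈ (I • ⊤ : Submodule A M)) :
    ∃ (κ : Type) (_ : Fintype κ) (f : κ → A) (x : κ → M), (∀ k, f k ∈ I) ∧ m = ∑ k, f k • x k := by
  refine Submodule.smul_induction_on hm ?_ ?_
  · intro r hr n _
    exact ⟨Unit, inferInstance, fun _ => r, fun _ => n, fun _ => hr, by simp⟩
  · rintro x y ⟨κ, _, f, u, hf, rfl⟩ ⟨κ', _, f', u', hf', rfl⟩
    refine ⟨κ ⊕ κ', inferInstance, Sum.elim f f', Sum.elim u u', ?_, ?_⟩
    · rintro (k | k)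
      · exact hf k
      · exact hf' k
    · simp [Fintype.sum_sum_type]

/-- A weakly regular sequence on `A` is weakly regular on every flat module. -/
theorem regL_of_flat [Module.Flat A M] (ls : List A) (h : RegL A ls) : RegL M ls := by
  induction ls with
  | nil => trivial
  | cons y ls ih =>
    refine ⟨ih h.1, ?_⟩
    intro m hm
    obtain ⟨κ, _, f, x, hf, hsum⟩ := exists_sum_of_mem _ hm
    have h1 : ∑ k : Option κ, (k.elim y (fun k => - f k)) • (k.elim m x) = 0 := by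
      rw [Fintype.sum_option]
      simp [hsum]
    obtain ⟨n, c, z, hz, hc⟩ := Module.Flat.isTrivialRelation_of_sum_smul_eq_zero h1
    have h2 : ∀ j, c none j ∈ Ideal.span {z | z ∈ ls} := by
      intro j
      have h3 := hc j
      rw [Fintype.sum_option] at h3
      have h4 : y • c none j ∈ (Ideal.span {z | z ∈ ls} • ⊤ : Submodule A A) := by
        rw [smul_eq_mul, smul_eq_mul, Ideal.mul_top]
        have h5 : y * c none j = ∑ k, f k * c (some k) j := by
          simp only [Option.elim_none, Option.elim_some, neg_mul, Finset.sum_neg_distrib] at h3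
          linear_combination h3
        rw [h5]
        exact Ideal.sum_mem _ (fun k _ => Ideal.mul_mem_right _ _ (hf k))
      have h6 := h.2 _ h4
      rwa [smul_eq_mul, Ideal.mul_top] at h6
    have h7 : m = ∑ j, c none j • z j := hz none
    rw [h7]
    exact Submodule.sum_mem _ (fun j _ => Submodule.smul_mem_smul (h2 j) Submodule.mem_top)

end RegL

end Crest.Agent.R183.Lat
end

-- ▼ part R183/Lat9

set_option autoImplicit false
set_option linter.unusedSectionVars false

open Polynomial TensorProduct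

namespace Crest.Agent.R183.Lat

open Crest.Agent.R183.Heb
open Crest.Agent.R183.Glue
open Crest.Agent.R183.Om

universe u

variable {p : ℕ} [hp : Fact p.Prime]

theorem Bounded.of_away {A K : Type*} [CommRing A] [CommRing K] [Algebra A K] {d : Data p A K}
    (x : A) (hx : x = mu d 0) [IsLocalization.Away x K] : Bounded d := by
  subst hx
  exact Bounded.of_isLocalization

/-- The output of block (E). -/
structure Out {A₀ A K C : Type u} [CommRing A₀] [CommRing A] [CommRing K] [CommRing C]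
    [Algebra A₀ A] [Algebra A K] [Algebra A₀ K] [IsScalarTower A₀ A K] [Algebra A₀ C]
    {ι : Type} [Fintype ι] [DecidableEq ι] (d : Data p A K) (S : Split A₀ K C ι) (D₀ : A₀) (k : ℕ)
    where
  l : LData d ι
  hV : l.V = (Matrix.of fun j i => S.g j (S.b i))
  tower : BCM.Tower (p : A₀) l.L (l.M + 1)
  β : C →ₗ[A₀] (ι → A₀)
  coord : BCM.Coord S.s S.b β
  F : BCM.Frame A₀ A C (BCM.E0 C S.s) (BCM.EK S.g) ι (p : A₀) S.s k l.L
  hv₀ : ∀ x, F.v₀ x = BCM.v0 S.b S.s x
  hv₁ : ∀ v, F.v₁ v = BCM.Vmap S.g S.b v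
  g3 : ∀ v : ι → A, algebraMap A₀ A (((p : A₀) * D₀) ^ (l.M + 1)) • v ∈ l.L
  regL : ∀ ls : List A, RegL A ls → RegL l.L ls
  hstar : ∀ j c, S.g j c ∈ star d
  amp : ∀ (b : Ideal C) (r : C), (∀ j, gs S hstar j r ∈ b.map (gs S hstar j)) →
    ∀ v ∈ l.L, r • F.v₁ v ∈ F.idL b

theorem exists_out {A₀ A : Type u} [CommRing A₀] [CommRing A] [Algebra A₀ A] {ϖ : ℕ → A₀}
    (d0 : PData p A₀ ϖ) (hr0 : Reg (p : A₀)) [IsAdicComplete (Ideal.span {(p : A₀)}) A₀]
    (dA : PData p A (fun e => algebraMap A₀ A (ϖ e))) (hrA : Reg (p : A))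
    [IsAdicComplete (Ideal.span {(p : A)}) A] (huA : ¬ IsUnit (p : A))
    (hgood : W.Good (p : A₀) (algebraMap A₀ A)) (D₀ : A₀) (hD₀ : RegMod D₀ (p : A₀))
    {K : Type u} [CommRing K] [Algebra A K] [Algebra A₀ K] [IsScalarTower A₀ A K]
    (d : Data p A K) (hdϖ : ∀ e, d.ϖ e = algebraMap A₀ A (ϖ e)) (hdδ : d.δ 0 = algebraMap A₀ A D₀)
    [IsLocalization.Away (mu d 0) K]
    {C : Type u} [CommRing C] [Algebra A₀ C] [Algebra.IsIntegral A₀ C]
    {ι : Type} [Fintype ι] [DecidableEq ι] (S : Split A₀ K C ι) (k : ℕ)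
    (hk : S.s ∣ ((p : A₀) * D₀) ^ k) : Nonempty (Out d S D₀ k) := by
  have hpu : (p : A) ∈ nonunits A := huA
  have hK : Bounded d := Bounded.of_isLocalization
  -- injectivity of `A₀ → A`
  have hinjA : Function.Injective (algebraMap A₀ A) := by
    rw [injective_iff_map_eq_zero]
    intro x hx
    apply sep_of_isAdicComplete (p := (p : A₀))
    intro n
    have := Env.faithfullyFlat_of_good hgood n
    have hinj := (FaithfulSMul.algebraMap_injective (A₀ ⧸ Ideal.span {(p : A₀) ^ n})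
      (A ⧸ (Ideal.span {(p : A₀) ^ n}).map (algebraMap A₀ A)))
    rw [← Ideal.mem_span_singleton, ← Ideal.Quotient.eq_zero_iff_mem]
    apply hinj
    rw [map_zero]
    change Ideal.Quotient.mk _ (algebraMap A₀ A x) = 0
    rw [hx, map_zero]
  have hinjK : Function.Injective (algebraMap A₀ K) := by
    rw [IsScalarTower.algebraMap_eq A₀ A K]
    exact d.inj.comp hinjA
  have hgi : ∀ j c, IsIntegral A (S.g j c) := fun j c => isIntegral_g S j c
  have hstar : ∀ j c, S.g j c ∈ star d := fun j c => hK.mem_star hpu (hgi j c)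
  obtain ⟨l, hV, hU⟩ := S.exists_LData hpu hK hgi
  obtain ⟨β, hβ⟩ := S.exists_coord hinjK
  have hd₀ : ∀ (N : ℕ) (z w : A₀), S.s * z = (p : A₀) ^ (N + k) * w → ∃ w', z = (p : A₀) ^ N * w' :=
    fun N z w h => div_of_dvd hr0 hD₀ hk N z w h
  have hd₁ : ∀ (N : ℕ) (z w : A), algebraMap A₀ A S.s * z = (algebraMap A₀ A (p : A₀)) ^ (N + k) * w →
      ∃ w', z = (algebraMap A₀ A (p : A₀)) ^ N * w' := by
    intro N z w h
    have hk' : algebraMap A₀ A S.s ∣ ((p : A) * d.δ 0) ^ k := by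
      have := map_dvd (algebraMap A₀ A) hk
      rwa [map_pow, map_mul, map_natCast, ← hdδ] at this
    rw [map_natCast] at h ⊢
    exact div_of_dvd d.reg_p d.reg_D hk' N z w h
  let F := BCM.frame S.g hβ S.hs (S.s_reg hinjK) (Vmap_inj hV) (p : A₀) k l.L hd₀ hd₁ (stab hV hstar)
  have hF : ∀ v, F.v₁ v = BCM.Vmap S.g S.b v := fun v => rfl
  -- the square
  obtain ⟨A₂, _, p₁, p₂, hsq, dA₂, hrA₂, hmod⟩ := Env.exists_square d0 dA
    (fun n => Env.flatQ_of_good hgood n)
  have hquot : ∀ (N : ℕ) (x : A₀), Ideal.Quotient.mk (Ideal.span {(p : A₀) ^ N}) x = 0 ↔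
      ∃ y, x = (p : A₀) ^ N * y := by
    intro N x
    rw [Ideal.Quotient.eq_zero_iff_mem, Ideal.mem_span_singleton]
    rfl
  have hquot₁ : ∀ (N : ℕ) (x : A),
      Ideal.Quotient.mk ((Ideal.span {(p : A₀) ^ N}).map (algebraMap A₀ A)) x = 0 ↔
      ∃ y, x = (algebraMap A₀ A (p : A₀)) ^ N * y := by
    intro N x
    rw [Ideal.Quotient.eq_zero_iff_mem, Ideal.map_span, Set.image_singleton,
      Ideal.mem_span_singleton, map_pow]
    rfl
  have hcompl₂ : IsAdicComplete (Ideal.span {(p : A₂)}) A₂ := hsq.complete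
  -- `p` is not a unit in `A₂`
  have hpu₂ : (p : A₂) ∈ nonunits A₂ := by
    intro hu
    have hff := Env.faithfullyFlat_of_good hgood 1
    obtain ⟨Θ, hΘ, -, -⟩ := hsq.bij 1
    have h1 : (1 : A₂ ⧸ Ideal.span {(p : A₂) ^ 1}) = 0 := by
      rw [← map_one (Ideal.Quotient.mk _), Ideal.Quotient.eq_zero_iff_mem, pow_one,
        Ideal.span_singleton_eq_top.mpr hu]
      exact Submodule.mem_top
    have h2 : (1 : (A ⧸ (Ideal.span {(p : A₀) ^ 1}).map (algebraMap A₀ A))
        ⊗[A₀ ⧸ Ideal.span {(p : A₀) ^ 1}] (A ⧸ (Ideal.span {(p : A₀) ^ 1}).map (algebraMap A₀ A))) = 0 :=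
      hΘ.1 (by rw [map_one, map_zero, h1])
    rw [Algebra.TensorProduct.one_def, Module.FaithfullyFlat.one_tmul_eq_zero_iff,
      ← map_one (Ideal.Quotient.mk _)] at h2
    obtain ⟨y, hy⟩ := (hquot₁ 1 1).mp h2
    rw [pow_one, map_natCast] at hy
    exact huA (IsUnit.of_mul_eq_one y hy.symm)
  -- the element `D` of `A₂`
  have hcomm : ∀ x : A₀, p₁ (algebraMap A₀ A x) = p₂ (algebraMap A₀ A x) :=
    fun x => RingHom.congr_fun hsq.comm x
  have hδ12 : p₁ (d.δ 0) = p₂ (d.δ 0) := by rw [hdδ, hcomm]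
  have hregA : RegMod (d.δ 0) (p : A) := by
    rw [hdδ]; exact Env.regMod_of_good hgood hD₀
  have hreg₂ : RegMod (p₁ (d.δ 0)) (p : A₂) := (hmod _ hregA).1
  let K₂ := Localization.Away ((p : A₂) * p₁ (d.δ 0))
  have hinj₂ : Function.Injective (algebraMap A₂ K₂) :=
    (hrA₂.mul (Reg.of_regMod hrA₂ sep_of_isAdicComplete hreg₂)).injective_away
  have hunit₂ : IsUnit (algebraMap A₂ K₂ ((p : A₂) * p₁ (d.δ 0))) :=
    IsLocalization.Away.algebraMap_isUnit _
  have hup : IsUnit (algebraMap A₂ K₂ (p : A₂)) :=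
    isUnit_of_mul_isUnit_left (y := algebraMap A₂ K₂ (p₁ (d.δ 0))) (by rw [← map_mul]; exact hunit₂)
  have huD : IsUnit (algebraMap A₂ K₂ (p₁ (d.δ 0))) :=
    isUnit_of_mul_isUnit_right (x := algebraMap A₂ K₂ (p : A₂)) (by rw [← map_mul]; exact hunit₂)
  let d1 : Data p A₂ K₂ := dA₂.heb hrA₂ hinj₂ hup (fun e => p₁ (d.δ e))
    (fun e => by rw [← map_pow, d.hδ e]) huD hreg₂
  let d2 : Data p A₂ K₂ := dA₂.heb hrA₂ hinj₂ hup (fun e => p₂ (d.δ e))
    (fun e => by rw [← map_pow, d.hδ e]) (by rw [← hδ12]; exact huD) (by rw [← hδ12]; exact hreg₂)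
  have hmu : mu d1 0 = (p : A₂) * p₁ (d.δ 0) := by rw [mu, d1.ϖ0]; rfl
  have hK₂ : Bounded d1 := Bounded.of_away ((p : A₂) * p₁ (d.δ 0)) hmu.symm
  have hmu0 : mu d 0 = (p : A) * d.δ 0 := by rw [mu, d.ϖ0]
  have hP₁ : IsUnit (((algebraMap A₂ K₂).comp p₁) (mu d 0)) := by
    rw [RingHom.comp_apply, hmu0, map_mul, map_natCast]; exact hunit₂
  have hP₂ : IsUnit (((algebraMap A₂ K₂).comp p₂) (mu d 0)) := by
    rw [RingHom.comp_apply, hmu0, map_mul, map_natCast, ← hδ12]; exact hunit₂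
  let P₁ : K →+* K₂ := IsLocalization.Away.lift (mu d 0) hP₁
  let P₂ : K →+* K₂ := IsLocalization.Away.lift (mu d 0) hP₂
  have hLL := hL hpu₂ S l hV hU p₁ p₂ P₁ P₂
    (fun a => IsLocalization.Away.lift_eq (mu d 0) hP₁ a)
    (fun a => IsLocalization.Away.lift_eq (mu d 0) hP₂ a) hcomm d1 d2
    (fun e => by rw [hdϖ]; rfl) (fun e => rfl)
    (fun e => by rw [hdϖ, ← hcomm]; rfl) (fun e => rfl) rfl hδ12 hK₂
  have htower : BCM.Tower (p : A₀) l.L (l.M + 1) := by
    refine ⟨hr0, fun x hx => ?_, fun N w h => l.ar N w h, fun N => ?_, fun N T x hx => ?_⟩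
    · rw [map_natCast] at hx; exact hrA x hx
    · have hff := Env.faithfullyFlat_of_good hgood N
      obtain ⟨Θ, hΘ, h1, h2⟩ := hsq.bij N
      exact BCM.fl_of_flat (p : A₀) N (Ideal.Quotient.mk (Ideal.span {(p : A₀) ^ N}))
        (Ideal.Quotient.mk ((Ideal.span {(p : A₀) ^ N}).map (algebraMap A₀ A)))
        Ideal.Quotient.mk_surjective Ideal.Quotient.mk_surjective (hquot₁ N) (fun x => rfl) l.L
        (BCM.datum_of_square _ Ideal.Quotient.mk_surjective p₁ p₂ _ Θ hΘ h1 h2 l.L hLL)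
    · have hff := Env.faithfullyFlat_of_good hgood N
      exact BCM.ff_of_faithfullyFlat (p : A₀) N (Ideal.Quotient.mk (Ideal.span {(p : A₀) ^ N}))
        (Ideal.Quotient.mk ((Ideal.span {(p : A₀) ^ N}).map (algebraMap A₀ A)))
        Ideal.Quotient.mk_surjective Ideal.Quotient.mk_surjective (hquot N) (hquot₁ N)
        (fun x => rfl) T x hx
  exact ⟨{
    l := l
    hV := hV
    tower := htower
    β := β
    coord := hβ
    F := F
    hv₀ := fun x => rfl
    hv₁ := hF
    g3 := fun v => g3 D₀ hdδ.symm v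
    regL := fun ls h => regL_of_flat ls h
    hstar := hstar
    amp := fun b r hr v hv => amp' hV hstar F hF b r hr v hv }⟩

end Crest.Agent.R183.Lat
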