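import Mathlib

/-!
# R183 (Lech's conjecture), block M: growth predicates

`UBf f D c` : `D! f(N) ≤ (c+ε) N^D` eventually, for every `ε > 0`;
`LBf f D c` : `(c-ε) N^D ≤ D! f(N)` eventually, for every `ε > 0`.
-/

set_option autoImplicit false

namespace Crest.Agent.R183.M

open Filter Topology

/-- `D! * f N ≤ (c + ε) N^D` eventually, for every `ε > 0`. -/
def UBf (f : ℕ → ℕ) (D : ℕ) (c : ℝ) : Prop :=
  ∀ ε > (0 : ℝ), ∀ᶠ N : ℕ in atTop, (Nat.factorial D : ℝ) * (f N : ℝ) ≤ (c + ε) * (N : ℝ) ^ D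

/-- `(c - ε) N^D ≤ D! * f N` eventually, for every `ε > 0`. -/
def LBf (f : ℕ → ℕ) (D : ℕ) (c : ℝ) : Prop :=
  ∀ ε > (0 : ℝ), ∀ᶠ N : ℕ in atTop, (c - ε) * (N : ℝ) ^ D ≤ (Nat.factorial D : ℝ) * (f N : ℝ)

theorem UBf.congr' {f g : ℕ → ℕ} {D : ℕ} {c : ℝ} (h : UBf f D c) (hfg : ∀ᶠ N in atTop, g N ≤ f N) :
    UBf g D c := by
  intro ε hε
  filter_upwards [h ε hε, hfg] with N h1 h2
  refine le_trans ?_ h1
  have : (g N : ℝ) ≤ f N := by exact_mod_cast h2
  gcongr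

theorem LBf.congr' {f g : ℕ → ℕ} {D : ℕ} {c : ℝ} (h : LBf f D c) (hfg : ∀ᶠ N in atTop, f N ≤ g N) :
    LBf g D c := by
  intro ε hε
  filter_upwards [h ε hε, hfg] with N h1 h2
  refine le_trans h1 ?_
  have : (f N : ℝ) ≤ g N := by exact_mod_cast h2
  gcongr

theorem UBf.mono_left {f g : ℕ → ℕ} {D : ℕ} {c : ℝ} (h : UBf f D c) (hfg : ∀ N, g N ≤ f N) :
    UBf g D c := h.congr' (Eventually.of_forall hfg)

theorem LBf.mono_left {f g : ℕ → ℕ} {D : ℕ} {c : ℝ} (h : LBf f D c) (hfg : ∀ N, f N ≤ g N) :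
    LBf g D c := h.congr' (Eventually.of_forall hfg)

theorem UBf.mono {f : ℕ → ℕ} {D : ℕ} {c c' : ℝ} (h : UBf f D c) (hc : c ≤ c') : UBf f D c' := by
  intro ε hε
  filter_upwards [h ε hε] with N h1
  refine le_trans h1 ?_
  gcongr

theorem LBf.mono {f : ℕ → ℕ} {D : ℕ} {c c' : ℝ} (h : LBf f D c) (hc : c' ≤ c) : LBf f D c' := by
  intro ε hε
  filter_upwards [h ε hε] with N h1
  refine le_trans ?_ h1
  gcongr

theorem UBf.add {f g : ℕ → ℕ} {D : ℕ} {c c' : ℝ} (h : UBf f D c) (h' : UBf g D c') :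
    UBf (fun N => f N + g N) D (c + c') := by
  intro ε hε
  filter_upwards [h (ε / 2) (by positivity), h' (ε / 2) (by positivity)] with N h1 h2
  push_cast
  nlinarith

theorem LBf.add {f g : ℕ → ℕ} {D : ℕ} {c c' : ℝ} (h : LBf f D c) (h' : LBf g D c') :
    LBf (fun N => f N + g N) D (c + c') := by
  intro ε hε
  filter_upwards [h (ε / 2) (by positivity), h' (ε / 2) (by positivity)] with N h1 h2
  push_cast
  nlinarith

theorem UBf.zero (D : ℕ) : UBf (fun _ => 0) D 0 := by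
  intro ε hε
  filter_upwards with N
  simp only [Nat.cast_zero, mul_zero, zero_add]
  positivity

theorem LBf.zero (f : ℕ → ℕ) (D : ℕ) : LBf f D 0 := by
  intro ε hε
  filter_upwards with N
  have h1 : (0 - ε) * (N : ℝ) ^ D ≤ 0 := by
    have : 0 ≤ ε * (N : ℝ) ^ D := by positivity
    linarith
  have h2 : (0 : ℝ) ≤ (Nat.factorial D : ℝ) * (f N : ℝ) := by positivity
  linarith

theorem UBf.sum {ι : Type*} (s : Finset ι) {f : ι → ℕ → ℕ} {D : ℕ} {c : ι → ℝ}
    (h : ∀ i ∈ s, UBf (f i) D (c i)) : UBf (fun N => ∑ i ∈ s, f i N) D (∑ i ∈ s, c i) := by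
  classical
  induction s using Finset.induction_on with
  | empty => simpa using UBf.zero D
  | insert a s ha ih =>
    simp only [Finset.sum_insert ha]
    exact (h a (Finset.mem_insert_self a s)).add
      (ih fun i hi => h i (Finset.mem_insert_of_mem hi))

theorem LBf.sum {ι : Type*} (s : Finset ι) {f : ι → ℕ → ℕ} {D : ℕ} {c : ι → ℝ}
    (h : ∀ i ∈ s, LBf (f i) D (c i)) : LBf (fun N => ∑ i ∈ s, f i N) D (∑ i ∈ s, c i) := by
  classical
  induction s using Finset.induction_on with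
  | empty => simpa using LBf.zero (fun _ => 0) D
  | insert a s ha ih =>
    simp only [Finset.sum_insert ha]
    exact (h a (Finset.mem_insert_self a s)).add
      (ih fun i hi => h i (Finset.mem_insert_of_mem hi))

/-- The ratio `(N + k)^D / N^D` tends to `1`. -/
theorem tendsto_shift_ratio (k D : ℕ) :
    Tendsto (fun N : ℕ => (((N + k : ℕ) : ℝ) ^ D) / (N : ℝ) ^ D) atTop (𝓝 1) := by
  have h1 : Tendsto (fun N : ℕ => (((N + k : ℕ) : ℝ)) / (N : ℝ)) atTop (𝓝 1) := by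
    have h2 : Tendsto (fun N : ℕ => 1 + (k : ℝ) / (N : ℝ)) atTop (𝓝 (1 + 0)) :=
      tendsto_const_nhds.add (tendsto_const_div_atTop_nhds_zero_nat (k : ℝ))
    rw [add_zero] at h2
    refine h2.congr' ?_
    filter_upwards [eventually_gt_atTop 0] with N hN
    have : (N : ℝ) ≠ 0 := by positivity
    push_cast
    field_simp
  have h3 := h1.pow D
  rw [one_pow] at h3
  refine h3.congr fun N => ?_
  rw [div_pow]

theorem UBf.nonneg {f : ℕ → ℕ} {D : ℕ} {c : ℝ} (h : UBf f D c) : 0 ≤ c := by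
  by_contra hc
  push Not at hc
  have h1 := h (-c / 2) (by linarith)
  obtain ⟨N, hN, hN0⟩ := (h1.and (eventually_gt_atTop 0)).exists
  have h2 : (0 : ℝ) ≤ (Nat.factorial D : ℝ) * (f N : ℝ) := by positivity
  have h3 : (c + -c / 2) * (N : ℝ) ^ D < 0 := by
    apply mul_neg_of_neg_of_pos
    · linarith
    · positivity
  linarith

/-- `UBf` is stable under shifts of the argument. -/
theorem UBf.shift {f : ℕ → ℕ} {D : ℕ} {c : ℝ} (h : UBf f D c) (k : ℕ) :
    UBf (fun N => f (N + k)) D c := by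
  intro ε hε
  have hc := h.nonneg
  have h1 := (h (ε / 2) (by positivity))
  have h1' := (tendsto_add_atTop_nat k).eventually h1
  have h2 : ∀ᶠ N : ℕ in atTop, (((N + k : ℕ) : ℝ) ^ D) / (N : ℝ) ^ D < (c + ε) / (c + ε / 2) := by
    refine (tendsto_order.1 (tendsto_shift_ratio k D)).2 _ ?_
    rw [gt_iff_lt, lt_div_iff₀ (by positivity : (0:ℝ) < c + ε / 2)]
    linarith
  filter_upwards [h1', h2, eventually_gt_atTop 0] with N h3 h4 h5
  refine le_trans h3 ?_
  have hN : (0 : ℝ) < (N : ℝ) ^ D := by positivity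
  rw [div_lt_div_iff₀ hN (by positivity)] at h4
  nlinarith

/-- `LBf` is stable under shifts of the argument. -/
theorem LBf.shift {f : ℕ → ℕ} {D : ℕ} {c : ℝ} (h : LBf f D c) (k : ℕ) :
    LBf (fun N => f (N + k)) D c := by
  intro ε hε
  rcases le_total c 0 with hc | hc
  · exact (LBf.zero (fun N => f (N + k)) D).mono hc ε hε
  rcases le_total (c - ε) 0 with hce | hce
  · filter_upwards with N
    have h2 : (0 : ℝ) ≤ (Nat.factorial D : ℝ) * (f (N + k) : ℝ) := by positivity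
    have h3 : (c - ε) * (N : ℝ) ^ D ≤ 0 := mul_nonpos_of_nonpos_of_nonneg hce (by positivity)
    linarith
  have h1' := (tendsto_add_atTop_nat k).eventually (h ε hε)
  filter_upwards [h1'] with N h3
  refine le_trans ?_ h3
  have : (N : ℝ) ≤ ((N + k : ℕ) : ℝ) := by push_cast; linarith [(Nat.cast_nonneg k : (0:ℝ) ≤ k)]
  gcongr

/-- If `f N ≤ g (N + k)` eventually and `LBf f`, then `LBf g`. -/
theorem LBf.of_shift {f g : ℕ → ℕ} {D : ℕ} {c : ℝ} (h : LBf f D c) (k : ℕ)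
    (hfg : ∀ᶠ N in atTop, f N ≤ g (N + k)) : LBf g D c := by
  intro ε hε
  rcases le_total c 0 with hc | hc
  · exact (LBf.zero g D).mono hc ε hε
  rcases le_total (c - ε) 0 with hce | hce
  · filter_upwards with N
    have h2 : (0 : ℝ) ≤ (Nat.factorial D : ℝ) * (g N : ℝ) := by positivity
    have h3 : (c - ε) * (N : ℝ) ^ D ≤ 0 := mul_nonpos_of_nonpos_of_nonneg hce (by positivity)
    linarith
  have hε2 : 0 < c - ε / 2 := by linarith
  have h2 : ∀ᶠ N : ℕ in atTop, (((N + k : ℕ) : ℝ) ^ D) / (N : ℝ) ^ D * (c - ε) < c - ε / 2 := by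
    have h3 := (tendsto_shift_ratio k D).mul_const (c - ε)
    rw [one_mul] at h3
    exact (tendsto_order.1 h3).2 _ (by linarith)
  have key : ∀ᶠ N : ℕ in atTop, (c - ε) * (((N + k : ℕ) : ℝ)) ^ D ≤
      (Nat.factorial D : ℝ) * (g (N + k) : ℝ) := by
    filter_upwards [h (ε / 2) (by positivity), h2, hfg, eventually_gt_atTop 0] with N h3 h4 h5 h6
    have hN : (0 : ℝ) < (N : ℝ) ^ D := by positivity
    have h7 : ((N + k : ℕ) : ℝ) ^ D * (c - ε) ≤ (c - ε / 2) * (N : ℝ) ^ D := by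
      have h8 := mul_le_mul_of_nonneg_right h4.le hN.le
      have h9 : (((N + k : ℕ) : ℝ) ^ D) / (N : ℝ) ^ D * (c - ε) * (N : ℝ) ^ D
          = ((N + k : ℕ) : ℝ) ^ D * (c - ε) := by
        field_simp
      rw [h9] at h8
      exact h8
    have h10 : (f N : ℝ) ≤ g (N + k) := by exact_mod_cast h5
    calc (c - ε) * (((N + k : ℕ) : ℝ)) ^ D = ((N + k : ℕ) : ℝ) ^ D * (c - ε) := by ring
      _ ≤ (c - ε / 2) * (N : ℝ) ^ D := h7
      _ ≤ (Nat.factorial D : ℝ) * (f N : ℝ) := h3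
      _ ≤ (Nat.factorial D : ℝ) * (g (N + k) : ℝ) := by gcongr
  rw [eventually_atTop] at key ⊢
  obtain ⟨N0, hN0⟩ := key
  refine ⟨N0 + k, fun N hN => ?_⟩
  have := hN0 (N - k) (by omega)
  rwa [Nat.sub_add_cancel (by omega)] at this

/-- Growth `f N ≤ C N^D'` with `D' < D` gives `UBf f D 0`. -/
theorem UBf.of_growth {f : ℕ → ℕ} {D D' : ℕ} (hD : D' < D) (C : ℝ)
    (h : ∀ᶠ N : ℕ in atTop, (f N : ℝ) ≤ C * (N : ℝ) ^ D') : UBf f D 0 := by
  intro ε hε
  have h1 : Tendsto (fun N : ℕ => (Nat.factorial D : ℝ) * |C| * ((N : ℝ))⁻¹) atTop (𝓝 0) := by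
    have := (tendsto_inv_atTop_nhds_zero_nat (𝕜 := ℝ)).const_mul ((Nat.factorial D : ℝ) * |C|)
    rwa [mul_zero] at this
  filter_upwards [h, (tendsto_order.1 h1).2 ε hε, eventually_gt_atTop 0] with N h2 h3 h4
  have hN : (1 : ℝ) ≤ N := by exact_mod_cast h4
  have hN0 : (0 : ℝ) < N := by linarith
  have h5 : (N : ℝ) ^ D' ≤ (N : ℝ) ^ (D - 1) := pow_le_pow_right₀ hN (by omega)
  have h6 : (N : ℝ) ^ D = (N : ℝ) ^ (D - 1) * N := by
    rw [← pow_succ]
    congr 1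
    omega
  have h7 : (Nat.factorial D : ℝ) * |C| ≤ ε * N := by
    have := mul_le_mul_of_nonneg_right h3.le hN0.le
    rwa [mul_assoc, inv_mul_cancel₀ hN0.ne', mul_one] at this
  calc (Nat.factorial D : ℝ) * (f N : ℝ) ≤ (Nat.factorial D : ℝ) * (C * (N : ℝ) ^ D') := by gcongr
    _ ≤ (Nat.factorial D : ℝ) * (|C| * (N : ℝ) ^ (D - 1)) := by
        gcongr
        exact le_abs_self C
    _ = (Nat.factorial D : ℝ) * |C| * (N : ℝ) ^ (D - 1) := by ring
    _ ≤ ε * N * (N : ℝ) ^ (D - 1) := by gcongr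
    _ = (0 + ε) * (N : ℝ) ^ D := by rw [h6]; ring

theorem LBf.le_of_UBf {f : ℕ → ℕ} {D : ℕ} {c c' : ℝ} (h : LBf f D c) (h' : UBf f D c') :
    c ≤ c' := by
  by_contra hc
  push Not at hc
  obtain ⟨N, ⟨h1, h2⟩, h3⟩ := (((h ((c - c') / 4) (by linarith)).and
    (h' ((c - c') / 4) (by linarith))).and (eventually_gt_atTop 0)).exists
  have hN : (0 : ℝ) < (N : ℝ) ^ D := by positivity
  have := h1.trans h2
  have h4 := le_of_mul_le_mul_right this hN
  linarith

theorem UBf.of_tendsto {f : ℕ → ℕ} {D : ℕ} {e : ℝ}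
    (h : Tendsto (fun N : ℕ => (Nat.factorial D : ℝ) * (f N : ℝ) / (N : ℝ) ^ D) atTop (𝓝 e)) :
    UBf f D e := by
  intro ε hε
  filter_upwards [(tendsto_order.1 h).2 (e + ε) (by linarith), eventually_gt_atTop 0] with N h1 h2
  have hN : (0 : ℝ) < (N : ℝ) ^ D := by positivity
  rw [div_lt_iff₀ hN] at h1
  exact h1.le

theorem LBf.of_tendsto {f : ℕ → ℕ} {D : ℕ} {e : ℝ}
    (h : Tendsto (fun N : ℕ => (Nat.factorial D : ℝ) * (f N : ℝ) / (N : ℝ) ^ D) atTop (𝓝 e)) :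
    LBf f D e := by
  intro ε hε
  filter_upwards [(tendsto_order.1 h).1 (e - ε) (by linarith), eventually_gt_atTop 0] with N h1 h2
  have hN : (0 : ℝ) < (N : ℝ) ^ D := by positivity
  rw [lt_div_iff₀ hN] at h1
  exact h1.le



end Crest.Agent.R183.M
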