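import Crest.Agent.R183.Amp1
import Crest.Agent.R183.Heb

/-!
R183 / Om1 : basics of `Ω = W(P)/(p u - [π])` for a perfect ring `P` of characteristic `p` and
`π ∈ P` regular.  `Ω` is given by a surjection `θ : W(P) → Ω` with kernel `(p u - [π])`.
No completeness of `P` is used.
-/

set_option autoImplicit false
set_option linter.unusedSectionVars false

namespace Crest.Agent.R183.Om

open WittVector Crest.Agent.R183.Amp

/-- `a` is regular modulo `b`. -/
def RegMod {P : Type*} [CommRing P] (a b : P) : Prop := ∀ x, b ∣ a * x → b ∣ x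

/-- `a` is regular. -/
def Reg {P : Type*} [CommRing P] (a : P) : Prop := ∀ x, a * x = 0 → x = 0

/-- series in a principal adically complete ring -/
theorem exists_series {R : Type*} [CommRing R] (a : R) [IsPrecomplete (Ideal.span {a}) R]
    (u : ℕ → R) : ∃ s, ∀ n : ℕ, a ^ n ∣ s - ∑ i ∈ Finset.range n, a ^ i * u i := by
  obtain ⟨s, hs⟩ := IsPrecomplete.prec (I := Ideal.span {a}) (M := R) inferInstance
    (f := fun n => ∑ i ∈ Finset.range n, a ^ i * u i) (by
      intro m n hmn
      rw [SModEq.sub_mem, smul_eq_mul, Ideal.mul_top, Ideal.span_singleton_pow,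
        Ideal.mem_span_singleton]
      obtain ⟨k, rfl⟩ := Nat.exists_eq_add_of_le hmn
      rw [Finset.sum_range_add, sub_add_cancel_left, dvd_neg]
      refine Finset.dvd_sum fun i _ => ?_
      rw [pow_add, mul_assoc]
      exact dvd_mul_right _ _)
  refine ⟨s, fun n => ?_⟩
  have := hs n
  rw [SModEq.sub_mem, smul_eq_mul, Ideal.mul_top, Ideal.span_singleton_pow,
    Ideal.mem_span_singleton] at this
  have h2 := (dvd_neg.2 this)
  rwa [neg_sub] at h2

/-- criterion for adic completeness with respect to a principal ideal -/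
theorem isAdicComplete_of_series {R : Type*} [CommRing R] (a : R)
    (hsep : ∀ x : R, (∀ n : ℕ, a ^ n ∣ x) → x = 0)
    (hser : ∀ u : ℕ → R, ∃ s, ∀ n : ℕ, a ^ n ∣ s - ∑ i ∈ Finset.range n, a ^ i * u i) :
    IsAdicComplete (Ideal.span {a}) R where
  haus' := by
    intro x hx
    refine hsep x fun n => ?_
    have := hx n
    rwa [SModEq.zero, smul_eq_mul, Ideal.mul_top, Ideal.span_singleton_pow,
      Ideal.mem_span_singleton] at this
  prec' := by
    intro f hf
    have h1 : ∀ n, ∃ g, f (n + 1) - f n = a ^ n * g := by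
      intro n
      have := hf (Nat.le_succ n)
      rw [SModEq.sub_mem, smul_eq_mul, Ideal.mul_top, Ideal.span_singleton_pow,
        Ideal.mem_span_singleton] at this
      obtain ⟨c, hc⟩ := this
      exact ⟨-c, by linear_combination -hc⟩
    choose g hg using h1
    obtain ⟨s, hs⟩ := hser g
    refine ⟨f 0 + s, fun n => ?_⟩
    rw [SModEq.sub_mem, smul_eq_mul, Ideal.mul_top, Ideal.span_singleton_pow,
      Ideal.mem_span_singleton]
    have h2 : f n = f 0 + ∑ i ∈ Finset.range n, a ^ i * g i := by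
      induction n with
      | zero => simp
      | succ n ih => rw [Finset.sum_range_succ, ← add_assoc, ← ih, ← hg n]; ring
    obtain ⟨c, hc⟩ := hs n
    exact ⟨-c, by rw [h2]; linear_combination -hc⟩

section Perf

variable {p : ℕ} [hp : Fact p.Prime]
variable {P : Type*} [CommRing P] [CharP P p] [PerfectRing P p]

variable (p) in
lemma exists_root (a : P) : ∃ b : P, b ^ p = a := (PerfectRing.bijective_frobenius (p := p)).2 a

variable (p) in
lemma pow_inj {a b : P} (h : a ^ p = b ^ p) : a = b :=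
  (PerfectRing.bijective_frobenius (p := p)).1 h

end Perf

section W

variable {p : ℕ} [hp : Fact p.Prime]
variable {P : Type*} [CommRing P] [CharP P p] [PerfectRing P p]
variable {u : WittVector p P} {π : P}

lemma W_sep {w : WittVector p P} (h : ∀ n : ℕ, (p : WittVector p P) ^ n ∣ w) : w = 0 := by
  ext n
  have := h (n + 1)
  rw [← Ideal.mem_span_singleton, mem_span_p_pow_iff_le_coeff_eq_zero] at this
  simpa using this n (Nat.lt_succ_self n)

lemma W_dvd_p_iff {w : WittVector p P} :
    (p : WittVector p P) ∣ w ↔ constantCoeff w = 0 := by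
  rw [← Ideal.mem_span_singleton, mem_span_p_iff_coeff_zero_eq_zero]
  rfl

lemma constCoeff_teich (a : P) : constantCoeff (teichmuller p a) = a := by
  simp [constantCoeff]

/-- `w` is congruent modulo `p` to the Teichmüller representative of its constant coefficient -/
lemma W_sub_teich (w : WittVector p P) :
    (p : WittVector p P) ∣ w - teichmuller p (constantCoeff w) := by
  rw [W_dvd_p_iff, map_sub, constCoeff_teich, sub_self]


lemma p_mul_eq_xi (hπ : Reg π) {a b : WittVector p P}
    (h : (p : WittVector p P) * a = xi u π * b) :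
    ∃ b', b = p * b' ∧ a = xi u π * b' := by
  have h0 := congrArg constantCoeff h
  rw [map_mul, map_mul, constCoeff_p, constCoeff_xi, zero_mul] at h0
  have hb : constantCoeff b = 0 := hπ _ (by linear_combination h0)
  obtain ⟨b', rfl⟩ := dvd_p_of_coeff_zero hb
  exact ⟨b', rfl, p_cancel (by rw [h]; ring)⟩

lemma p_pow_mul_eq_xi (hπ : Reg π) (n : ℕ) {a b : WittVector p P}
    (h : (p : WittVector p P) ^ n * a = xi u π * b) :
    ∃ b', b = p ^ n * b' ∧ a = xi u π * b' := by
  induction n generalizing b with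
  | zero => exact ⟨b, by simp, by simpa using h⟩
  | succ n ih =>
    obtain ⟨b', rfl, h'⟩ := p_mul_eq_xi hπ (a := (p : WittVector p P) ^ n * a) (b := b)
      (by rw [← h]; ring)
    obtain ⟨b'', rfl, h''⟩ := ih h'
    exact ⟨b'', by ring, h''⟩

lemma xi_regular (hπ : Reg π) : Reg (xi u π) := by
  have key : ∀ (n : ℕ) (a : WittVector p P), xi u π * a = 0 → (p : WittVector p P) ^ n ∣ a := by
    intro n
    induction n with
    | zero => intro a _; simp
    | succ n ih =>
      intro a ha
      obtain ⟨b', rfl, h'⟩ := p_mul_eq_xi hπ (a := 0) (b := a) (by rw [ha]; ring)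
      obtain ⟨c, rfl⟩ := ih b' h'.symm
      exact ⟨c, by ring⟩
  intro a ha
  exact W_sep fun n => key n a ha

/-- `∩ (p^n, ξ) = (ξ)` in `W(P)`. -/
lemma W_sep_xi (hπ : Reg π) {x : WittVector p P}
    (h : ∀ n : ℕ, ∃ a b, x = (p : WittVector p P) ^ n * b + xi u π * a) :
    xi u π ∣ x := by
  choose a b hab using h
  -- `p^n (b_n - p b_{n+1}) = ξ (a_{n+1} - a_n)`
  have h1 : ∀ n, ∃ c, a (n + 1) - a n = (p : WittVector p P) ^ n * c := by
    intro n
    have h2 : (p : WittVector p P) ^ n * (b n - p * b (n + 1)) = xi u π * (a (n + 1) - a n) := by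
      have e1 := hab n
      have e2 := hab (n + 1)
      linear_combination e2 - e1
    obtain ⟨c, hc, -⟩ := p_pow_mul_eq_xi hπ n h2
    exact ⟨c, hc⟩
  choose c hc using h1
  obtain ⟨s, hs⟩ := exists_series (p : WittVector p P) c
  refine ⟨a 0 + s, ?_⟩
  rw [← sub_eq_zero]
  refine W_sep fun n => ?_
  have h3 : a n = a 0 + ∑ i ∈ Finset.range n, (p : WittVector p P) ^ i * c i := by
    induction n with
    | zero => simp
    | succ n ih => rw [Finset.sum_range_succ, ← add_assoc, ← ih, ← hc n]; ring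
  obtain ⟨t, ht⟩ := hs n
  refine ⟨b n - xi u π * t, ?_⟩
  have e1 := hab n
  rw [h3] at e1
  linear_combination e1 - xi u π * ht

end W

section Omega

variable {p : ℕ} [hp : Fact p.Prime]
variable {P : Type*} [CommRing P] [CharP P p] [PerfectRing P p]
variable {u : WittVector p P} {π : P}
variable {Ω : Type*} [CommRing Ω] (θ : WittVector p P →+* Ω) (hθ : Function.Surjective θ)
  (hker : RingHom.ker θ = Ideal.span {xi u π})

include hker in
lemma theta_eq_zero_iff {w : WittVector p P} : θ w = 0 ↔ xi u π ∣ w := by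
  rw [← RingHom.mem_ker, hker, Ideal.mem_span_singleton]

include hker in
lemma theta_xi : θ (xi u π) = 0 := (theta_eq_zero_iff θ hker).2 dvd_rfl

include hker in
lemma theta_teich_pi : θ (teichmuller p π) = p * θ u := by
  have := theta_xi θ hker
  rw [xi, map_sub, map_mul, map_natCast] at this
  linear_combination -this

include hθ hker in
/-- the image of `p^n` in terms of `W`. -/
lemma dvd_p_pow_iff (n : ℕ) {w : WittVector p P} :
    (p : Ω) ^ n ∣ θ w ↔ ∃ a b, w = (p : WittVector p P) ^ n * b + xi u π * a := by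
  constructor
  · rintro ⟨y, hy⟩
    obtain ⟨b, rfl⟩ := hθ y
    have : θ (w - (p : WittVector p P) ^ n * b) = 0 := by
      rw [map_sub, map_mul, map_pow, map_natCast, hy, sub_self]
    obtain ⟨a, ha⟩ := (theta_eq_zero_iff θ hker).1 this
    exact ⟨a, b, by linear_combination ha⟩
  · rintro ⟨a, b, rfl⟩
    rw [map_add, map_mul, map_mul, theta_xi θ hker, zero_mul, add_zero, map_pow, map_natCast]
    exact dvd_mul_right _ _

include hθ hker in
lemma dvd_p_iff {w : WittVector p P} : (p : Ω) ∣ θ w ↔ π ∣ constantCoeff w := by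
  have h := dvd_p_pow_iff θ hθ hker 1 (w := w)
  rw [pow_one, pow_one] at h
  rw [h]
  constructor
  · rintro ⟨a, b, rfl⟩
    rw [map_add, map_mul, map_mul, constCoeff_p, constCoeff_xi, zero_mul, zero_add]
    exact ⟨-constantCoeff a, by ring⟩
  · rintro ⟨c, hc⟩
    have h1 : constantCoeff (w - xi u π * teichmuller p (-c)) = 0 := by
      rw [map_sub, map_mul, constCoeff_xi, constCoeff_teich, hc]; ring
    obtain ⟨b, hb⟩ := dvd_p_of_coeff_zero h1
    exact ⟨teichmuller p (-c), b, by linear_combination hb⟩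

include hθ hker in
lemma p_regular (hπ : Reg π) : Reg (p : Ω) := by
  intro x hx
  obtain ⟨w, rfl⟩ := hθ x
  have : θ ((p : WittVector p P) * w) = 0 := by rw [map_mul, map_natCast, hx]
  obtain ⟨b, hb⟩ := (theta_eq_zero_iff θ hker).1 this
  obtain ⟨b', -, h'⟩ := p_mul_eq_xi hπ hb
  exact (theta_eq_zero_iff θ hker).2 ⟨b', h'⟩

include hθ hker in
lemma omega_sep (hπ : Reg π) {x : Ω} (h : ∀ n : ℕ, (p : Ω) ^ n ∣ x) : x = 0 := by
  obtain ⟨w, rfl⟩ := hθ x
  rw [theta_eq_zero_iff θ hker]
  exact W_sep_xi hπ fun n => (dvd_p_pow_iff θ hθ hker n).1 (h n)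

include hθ hker in
/-- `Ω` is `p`-adically complete and separated, for every perfect `P` with `π` regular. -/
theorem omega_isAdicComplete (hπ : Reg π) : IsAdicComplete (Ideal.span {(p : Ω)}) Ω := by
  refine isAdicComplete_of_series (p : Ω) (fun x h => omega_sep θ hθ hker hπ h) fun v => ?_
  choose V hV using fun i => hθ (v i)
  obtain ⟨s, hs⟩ := exists_series (p : WittVector p P) V
  refine ⟨θ s, fun n => ?_⟩
  obtain ⟨t, ht⟩ := hs n
  refine ⟨θ t, ?_⟩
  have := congrArg θ ht
  rw [map_sub, map_sum, map_mul, map_pow, map_natCast] at this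
  rw [← this]
  congr 1
  refine Finset.sum_congr rfl fun i _ => ?_
  rw [map_mul, map_pow, map_natCast, hV]

include hθ in
/-- every element of `Ω` is a sharp modulo `p` -/
lemma exists_sharp (x : Ω) : ∃ a : P, (p : Ω) ∣ x - θ (teichmuller p a) := by
  obtain ⟨w, rfl⟩ := hθ x
  refine ⟨constantCoeff w, ?_⟩
  obtain ⟨c, hc⟩ := W_sub_teich w
  exact ⟨θ c, by rw [← map_sub, hc, map_mul, map_natCast]⟩

include hθ in
/-- Frobenius is surjective modulo `p` -/
lemma frob_surj (x : Ω) : ∃ y : Ω, (p : Ω) ∣ x - y ^ p := by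
  obtain ⟨a, ha⟩ := exists_sharp θ hθ x
  obtain ⟨b, rfl⟩ := exists_root p a
  refine ⟨θ (teichmuller p b), ?_⟩
  rwa [map_pow, map_pow] at ha

include hθ hker in
lemma sharp_dvd_p_iff {a : P} : (p : Ω) ∣ θ (teichmuller p a) ↔ π ∣ a := by
  rw [dvd_p_iff θ hθ hker, constCoeff_teich]

include hθ hker in
/-- Frobenius is injective: `p ∣ x^p` implies `[π^{1/p}] ∣ x` (`ϖ^p = π`). -/
lemma frob_inj {ϖ : P} (hϖ : ϖ ^ p = π) {x : Ω} (h : (p : Ω) ∣ x ^ p)
    (hu : IsUnit u) : θ (teichmuller p ϖ) ∣ x := by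
  obtain ⟨w, rfl⟩ := hθ x
  rw [← map_pow, dvd_p_iff θ hθ hker, map_pow] at h
  obtain ⟨c, hc⟩ := h
  obtain ⟨d, rfl⟩ := exists_root p c
  have h1 : constantCoeff w = ϖ * d := by
    apply pow_inj p
    rw [hc, mul_pow, hϖ]
  obtain ⟨c', hc'⟩ := W_sub_teich w
  have h2 : θ (teichmuller p ϖ) ∣ (p : Ω) := by
    have h3 : θ (teichmuller p ϖ) ^ p = p * θ u := by
      rw [← map_pow, ← map_pow, hϖ, theta_teich_pi θ hker]
    obtain ⟨v, hv⟩ := (hu.map θ).exists_right_inv
    have h4 : (p : Ω) = θ (teichmuller p ϖ) ^ p * v := by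
      rw [h3, mul_assoc, hv, mul_one]
    rw [h4]
    exact (dvd_pow_self _ hp.out.ne_zero).mul_right _
  have h3 : θ w = θ (teichmuller p (constantCoeff w)) + p * θ c' := by
    have := congrArg θ hc'
    rw [map_sub, map_mul, map_natCast] at this
    linear_combination this
  rw [h3, h1, map_mul, map_mul]
  exact dvd_add (dvd_mul_right _ _) (h2.mul_right _)

include hθ hker in
/-- a sharp `D♯` with `D` regular modulo `π` is regular modulo `p`. -/
lemma reg_sharp {D : P} (hD : RegMod D π) : RegMod (θ (teichmuller p D)) (p : Ω) := by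
  intro x hx
  obtain ⟨w, rfl⟩ := hθ x
  rw [← map_mul, dvd_p_iff θ hθ hker, map_mul, constCoeff_teich] at hx
  rw [dvd_p_iff θ hθ hker]
  exact hD _ hx

end Omega

end Crest.Agent.R183.Om
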