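import Crest.Agent.R183.Om2
import Crest.Agent.R183.Heb
import Mathlib
import Crest.Agent.R183.Digit
import Crest.Agent.R183.Om4
import Crest.Agent.R183.Amp4
import Crest.Agent.R183.Lat4
import Crest.Agent.R183.Lat6
import Crest.Agent.R183.Mix3
import Crest.Agent.R183.Lat9
import Crest.Agent.R183.BCM8
import Crest.Agent.R183.CohenNoether
import Crest.Agent.R183.CohenStruct
import Crest.Agent.R183.Cic
import Crest.Agent.R183.Om1
import Crest.Agent.R183.RegPS
import Crest.Agent.R183.CoreM
import Crest.Agent.R183.BInf7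

-- ▼ part R183/Fam1
section

/-!
R183 / Fam1 (helper778): the ring `P_* = {y ∈ P[1/c] : c^{1/p^e} y ∈ P for all e}` of a perfect
ring `P` (`c = π δ`), and the Witt vectors of `P_*`.
-/

set_option autoImplicit false
set_option linter.unusedSectionVars false

namespace Crest.Agent.R183.Fam

open WittVector Crest.Agent.R183.Amp Crest.Agent.R183.Om

universe u

/-! ### Teichmueller multiplication in coordinates (after helper60, R227/WittQ) -/

section TM

variable {p : ℕ} [hp : Fact p.Prime] {O : Type*} [CommRing O] [CharP O p]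

omit [CharP O p] in
theorem wv_eq_teich_add (x : WittVector p O) :
    x = teichmuller p (x.coeff 0) + verschiebung (x.shift 1) := by
  ext n
  rw [coeff_add_of_disjoint]
  · cases n with
    | zero => simp
    | succ n =>
      rw [teichmuller_coeff_pos p _ _ (Nat.succ_pos n), verschiebung_coeff_succ, shift_coeff,
        zero_add, add_comm]
  · intro n
    cases n with
    | zero => right; simp
    | succ n => left; exact teichmuller_coeff_pos p _ _ (Nat.succ_pos n)

theorem frobenius_teichmuller_charP (w : O) :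
    WittVector.frobenius (teichmuller p w) = teichmuller p (w ^ p) := by
  ext n
  rw [coeff_frobenius_charP]
  cases n with
  | zero => rw [teichmuller_coeff_zero, teichmuller_coeff_zero]
  | succ n =>
    rw [teichmuller_coeff_pos p _ _ (Nat.succ_pos n), teichmuller_coeff_pos p _ _ (Nat.succ_pos n),
      zero_pow hp.out.ne_zero]

/-- `([w] * x)_n = w ^ (p ^ n) * x_n`. -/
theorem teich_mul_coeff (w : O) (x : WittVector p O) (n : ℕ) :
    (teichmuller p w * x).coeff n = w ^ (p ^ n) * x.coeff n := by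
  induction n generalizing w x with
  | zero => simp [WittVector.mul_coeff_zero]
  | succ n ih =>
    have h1 : teichmuller p w * x
        = teichmuller p (w * x.coeff 0) + verschiebung (teichmuller p (w ^ p) * x.shift 1) := by
      conv_lhs => rw [wv_eq_teich_add x]
      rw [mul_add, map_mul, ← frobenius_teichmuller_charP w]
      congr 1
      rw [mul_comm (WittVector.frobenius _), verschiebung_mul_frobenius, mul_comm]
    rw [h1, coeff_add_of_disjoint]
    · rw [teichmuller_coeff_pos p _ _ (Nat.succ_pos n), verschiebung_coeff_succ, ih, zero_add,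
        shift_coeff, ← pow_mul, pow_succ', add_comm 1 n]
    · intro m
      cases m with
      | zero => right; simp
      | succ m => left; exact teichmuller_coeff_pos p _ _ (Nat.succ_pos m)

end TM

/-! ### Localisation of a perfect ring -/

section Loc

variable {p : ℕ} [hp : Fact p.Prime] {P : Type u} [CommRing P] [CharP P p] [PerfectRing P p]

lemma charP_away (c : P) [Nontrivial (Localization.Away c)] : CharP (Localization.Away c) p := by
  rw [CharP.charP_iff_prime_eq_zero hp.out]
  rw [← map_natCast (algebraMap P (Localization.Away c)), CharP.cast_eq_zero, map_zero]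

lemma perfect_away (c : P) [CharP (Localization.Away c) p] :
    PerfectRing (Localization.Away c) p := by
  have hu : IsUnit (algebraMap P (Localization.Away c) c) :=
    IsLocalization.Away.algebraMap_isUnit c
  have hred : ∀ y : Localization.Away c, y ^ p = 0 → y = 0 := by
    intro y hy
    obtain ⟨⟨a, _, n, rfl⟩, h⟩ := IsLocalization.surj (Submonoid.powers c) y
    simp only at h
    have h1 : algebraMap P (Localization.Away c) (a ^ p) = 0 := by
      rw [map_pow, ← h, mul_pow, hy, zero_mul]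
    rw [← map_zero (algebraMap P (Localization.Away c))] at h1
    obtain ⟨⟨_, k, rfl⟩, hk⟩ := (IsLocalization.eq_iff_exists (Submonoid.powers c) _).1 h1
    simp only [mul_zero] at hk
    have h2 : (c ^ k * a) ^ p = 0 := by
      have h3 : (c ^ k) ^ p = (c ^ k) ^ (p - 1) * c ^ k := by
        rw [← pow_succ, Nat.sub_add_cancel hp.out.pos]
      rw [mul_pow, h3, mul_assoc, hk, mul_zero]
    have h3 : c ^ k * a = 0 := by
      apply pow_inj p
      rw [h2, zero_pow hp.out.ne_zero]
    have h4 : algebraMap P (Localization.Away c) (c ^ k) * (y * algebraMap P _ (c ^ n)) = 0 := by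
      rw [h, ← map_mul, h3, map_zero]
    have h5 : (algebraMap P (Localization.Away c) c) ^ (k + n) * y = 0 := by
      rw [map_pow, map_pow] at h4
      rw [pow_add, ← h4]; ring
    exact ((hu.pow _).mul_right_eq_zero).1 h5
  refine ⟨⟨?_, ?_⟩⟩
  · intro x y hxy
    have h1 : (x - y) ^ p = 0 := by
      rw [sub_pow_char, sub_eq_zero]; exact hxy
    exact sub_eq_zero.1 (hred _ h1)
  · intro y
    obtain ⟨⟨a, _, n, rfl⟩, h⟩ := IsLocalization.surj (Submonoid.powers c) y
    simp only at h
    obtain ⟨b, hb⟩ := Om.exists_root p (a * (c ^ n) ^ (p - 1))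
    obtain ⟨v, hv⟩ := hu.exists_right_inv
    refine ⟨algebraMap P _ b * v ^ n, ?_⟩
    show (algebraMap P _ b * v ^ n) ^ p = y
    rw [mul_pow, ← map_pow, hb, map_mul, ← h]
    simp only [map_pow]
    have h2 : ∀ j : ℕ, y * (algebraMap P (Localization.Away c) c) ^ n *
        ((algebraMap P (Localization.Away c) c) ^ n) ^ j * (v ^ n) ^ (j + 1) = y := by
      intro j
      have : y * (algebraMap P (Localization.Away c) c) ^ n *
        ((algebraMap P (Localization.Away c) c) ^ n) ^ j * (v ^ n) ^ (j + 1) =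
          y * ((algebraMap P (Localization.Away c) c) * v) ^ (n * (j + 1)) := by
        rw [mul_pow]; ring
      rw [this, hv, one_pow, mul_one]
    have h3 := h2 (p - 1)
    rwa [Nat.sub_add_cancel hp.out.pos] at h3

end Loc

/-! ### `P_*` -/

section Star

variable (p : ℕ) [hp : Fact p.Prime] {P : Type u} [CommRing P] [CharP P p] [PerfectRing P p]
variable (L : Type u) [CommRing L] [Algebra P L]

/-- `P_* = {y ∈ L : c^{1/p^e} y ∈ P for all e}`. -/
def Ps (c : P) : Subring L where
  carrier := {y | ∀ e : ℕ, ∃ a : P, algebraMap P L (rt (p := p) e c) * y = algebraMap P L a}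
  zero_mem' := fun e => ⟨0, by simp⟩
  one_mem' := fun e => ⟨rt (p := p) e c, by simp⟩
  add_mem' := by
    intro y z hy hz e
    obtain ⟨a, ha⟩ := hy e
    obtain ⟨b, hb⟩ := hz e
    exact ⟨a + b, by rw [mul_add, ha, hb, map_add]⟩
  neg_mem' := by
    intro y hy e
    obtain ⟨a, ha⟩ := hy e
    exact ⟨-a, by rw [mul_neg, ha, map_neg]⟩
  mul_mem' := by
    intro y z hy hz e
    obtain ⟨a, ha⟩ := hy (e + 1)
    obtain ⟨b, hb⟩ := hz (e + 1)
    refine ⟨rt (p := p) (e + 1) c ^ (p - 2) * (a * b), ?_⟩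
    have h2 : ∀ x : L, x ^ p = x ^ (p - 2) * (x * x) := by
      intro x
      rw [← sq, ← pow_add, Nat.sub_add_cancel hp.out.two_le]
    rw [← rt_succ_pow, map_pow, map_mul, map_mul, map_pow, ← ha, ← hb, h2]
    ring

variable {L}


lemma algebraMap_mem_Ps (c a : P) : algebraMap P L a ∈ Ps p L c :=
  fun e => ⟨rt (p := p) e c * a, by rw [map_mul]⟩

/-- the map `P → P_*`. -/
def toPs (c : P) : P →+* Ps p L c :=
  (algebraMap P L).codRestrict (Ps p L c) (algebraMap_mem_Ps p c)

@[simp] lemma coe_toPs (c a : P) : ((toPs p c a : Ps p L c) : L) = algebraMap P L a := rfl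

variable {p}

lemma charP_Ps (c : P) [CharP L p] : CharP (Ps p L c) p :=
  (Ps p L c).subtype.charP Subtype.val_injective p

/-- `y ∈ L`, `y^p ∈ P_*` implies `y ∈ P_*`. -/
lemma mem_Ps_of_pow (c : P) [CharP L p] [PerfectRing L p] {y : L}
    (h : y ^ p ∈ Ps p L c) : y ∈ Ps p L c := by
  have key : ∀ e, ∃ a : P, algebraMap P L (rt (p := p) (e + 1) c) * y = algebraMap P L a := by
    intro e
    obtain ⟨a, ha⟩ := h e
    obtain ⟨b, hb⟩ := Om.exists_root p a
    refine ⟨b, pow_inj p ?_⟩
    rw [mul_pow, ← map_pow, rt_succ_pow, ha, ← map_pow, hb]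
  intro e
  cases e with
  | zero =>
    obtain ⟨a, ha⟩ := key 0
    refine ⟨rt (p := p) 1 c ^ (p - 1) * a, ?_⟩
    have h2 : ∀ x : L, x ^ p = x ^ (p - 1) * x := by
      intro x
      rw [← pow_succ, Nat.sub_add_cancel hp.out.pos]
    rw [← rt_succ_pow, map_pow, map_mul, map_pow, ← ha, h2]
    ring
  | succ e => exact key e

lemma perfect_Ps (c : P) [CharP L p] [PerfectRing L p] :
    PerfectRing (Ps p L c) p := by
  refine ⟨⟨?_, ?_⟩⟩
  · intro x y hxy
    apply Subtype.ext
    apply pow_inj p
    have := congrArg Subtype.val hxy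
    simpa using this
  · intro y
    obtain ⟨z, hz⟩ := Om.exists_root p (y : L)
    refine ⟨⟨z, mem_Ps_of_pow c ?_⟩, ?_⟩
    · rw [hz]; exact y.2
    · apply Subtype.ext
      exact hz

/-- `π` is in the Jacobson radical of `P_*` when `P` is `π`-complete. -/
lemma pi_mem_jacobson (π δ : P) [hcomp : IsAdicComplete (Ideal.span {π}) P]
    (hinj : Function.Injective (algebraMap P L)) (hreg : IsUnit (algebraMap P L (π * δ))) :
    toPs p (π * δ) π ∈ Ideal.jacobson (⊥ : Ideal (Ps p L (π * δ))) := by
  rw [Ideal.mem_jacobson_bot]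
  set c := π * δ with hc
  intro y
  have hpow : ∀ n : ℕ, (y : L) ^ n ∈ Ps p L c := fun n => (y ^ n).2
  choose a ha using fun n e => hpow n e
  -- geometric series, level by level
  have hb : ∀ e, ∃ b : P, (1 + algebraMap P L π * (y : L)) * algebraMap P L b =
      algebraMap P L (rt (p := p) e c) := by
    intro e
    obtain ⟨b, hb⟩ := exists_series π (fun n => (-1) ^ n * a n e)
    refine ⟨b, ?_⟩
    have h0 : (c + π * a 1 0) * b - c * rt (p := p) e c = 0 := by
      apply IsHausdorff.haus hcomp.toIsHausdorff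
      intro N
      rw [SModEq.zero, smul_eq_mul, Ideal.mul_top, Ideal.span_singleton_pow,
        Ideal.mem_span_singleton]
      obtain ⟨t, ht⟩ := hb N
      refine ⟨(c + π * a 1 0) * t - (-1) ^ N * c * a N e, ?_⟩
      apply hinj
      have h1 : algebraMap P L (a 1 0) = algebraMap P L c * y := by
        have := ha 1 0
        rw [rt_zero, pow_one] at this
        exact this.symm
      have h2 : b = (∑ i ∈ Finset.range N, π ^ i * ((-1) ^ i * a i e)) + π ^ N * t := by
        rw [← ht]; ring
      have h3 : algebraMap P L (∑ i ∈ Finset.range N, π ^ i * ((-1) ^ i * a i e)) =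
          algebraMap P L (rt (p := p) e c) * ∑ i ∈ Finset.range N, (-(algebraMap P L π * y)) ^ i := by
        rw [map_sum, Finset.mul_sum]
        refine Finset.sum_congr rfl fun i _ => ?_
        rw [map_mul, map_mul, ← ha i e, neg_eq_neg_one_mul (algebraMap P L π * (y : L)), mul_pow,
          mul_pow, map_pow, map_pow, map_neg, map_one]
        ring
      have h4 := mul_neg_geom_sum (-(algebraMap P L π * (y : L))) N
      have h5 : algebraMap P L (a N e) = algebraMap P L (rt (p := p) e c) * (y : L) ^ N :=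
        (ha N e).symm
      have h6 : (-(algebraMap P L π * (y : L))) ^ N =
          (-1) ^ N * algebraMap P L π ^ N * (y : L) ^ N := by
        rw [neg_eq_neg_one_mul, mul_pow, mul_pow]; ring
      rw [h6] at h4
      conv_lhs => rw [h2]
      simp only [map_sub, map_add, map_mul, map_pow, map_neg, map_one] at h3 ⊢
      rw [h3, h1, h5]
      linear_combination (algebraMap P L c) * (algebraMap P L (rt (p := p) e c)) * h4
    have h1 := congrArg (algebraMap P L) h0
    simp only [map_sub, map_add, map_mul, map_zero] at h1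
    have h2 : algebraMap P L (a 1 0) = algebraMap P L c * y := by
      have := ha 1 0
      rw [rt_zero, pow_one] at this
      exact this.symm
    rw [h2] at h1
    apply hreg.mul_left_cancel
    linear_combination h1
  choose b hb using hb
  obtain ⟨v, hv⟩ := hreg.exists_right_inv
  have hz : (1 + algebraMap P L π * (y : L)) * (v * algebraMap P L (b 0)) = 1 := by
    have h1 := hb 0
    rw [rt_zero] at h1
    linear_combination v * h1 + hv
  have hzmem : v * algebraMap P L (b 0) ∈ Ps p L c := by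
    intro e
    refine ⟨b e, ?_⟩
    have h1 := hb e
    linear_combination (v * algebraMap P L (b 0)) * (-h1) + (algebraMap P L (b e)) * hz
  refine ⟨⟨1 + toPs p c π * y, ⟨v * algebraMap P L (b 0), hzmem⟩, ?_, ?_⟩, ?_⟩
  · apply Subtype.ext
    push_cast
    rw [coe_toPs]
    exact hz
  · apply Subtype.ext
    push_cast
    rw [coe_toPs, mul_comm]
    exact hz
  · show 1 + toPs p c π * y = _
    ring

end Star

end Crest.Agent.R183.Fam
end

-- ▼ part R183/Fam2
section

/-!
R183 / Fam2 (helper778): the ring homomorphism `ψ : W(P_*) → Ω[1/pD]`, `ψ w = θ([c] w)/θ[c]`,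
its kernel `(p - [π])` and its image in `Ω_*`.
-/

set_option autoImplicit false
set_option linter.unusedSectionVars false

namespace Crest.Agent.R183.Fam

open WittVector Crest.Agent.R183.Amp Crest.Agent.R183.Om

universe u

section Psi

variable {p : ℕ} [hp : Fact p.Prime] {P : Type u} [CommRing P] [CharP P p] [PerfectRing P p]
variable {L : Type u} [CommRing L] [Algebra P L] [CharP L p] [PerfectRing L p]

lemma exists_low (c : P) (e : ℕ) (w : WittVector p (Ps p L c)) :
    ∃ v : WittVector p P, WittVector.map (algebraMap P L) v =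
      teichmuller p (algebraMap P L (rt (p := p) e c)) * WittVector.map (Ps p L c).subtype w := by
  have h : ∀ n, ∃ b : P, algebraMap P L b =
      (algebraMap P L (rt (p := p) e c)) ^ (p ^ n) * ((w.coeff n : Ps p L c) : L) := by
    intro n
    obtain ⟨a, ha⟩ := (w.coeff n).2 e
    refine ⟨rt (p := p) e c ^ (p ^ n - 1) * a, ?_⟩
    have h2 : ∀ x : L, x ^ (p ^ n) = x ^ (p ^ n - 1) * x := by
      intro x
      rw [← pow_succ, Nat.sub_add_cancel (pow_pos hp.out.pos n)]
    rw [map_mul, map_pow, ← ha, h2, mul_assoc]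
  choose b hb using h
  refine ⟨WittVector.mk p b, ?_⟩
  ext n
  rw [WittVector.map_coeff, coeff_mk, hb, teich_mul_coeff, WittVector.map_coeff]
  rfl

/-- `[c^{1/p^e}] w` as an element of `W(P)`. -/
noncomputable def low (c : P) (e : ℕ) (w : WittVector p (Ps p L c)) : WittVector p P :=
  (exists_low c e w).choose

lemma low_spec (c : P) (e : ℕ) (w : WittVector p (Ps p L c)) :
    WittVector.map (algebraMap P L) (low c e w) =
      teichmuller p (algebraMap P L (rt (p := p) e c)) * WittVector.map (Ps p L c).subtype w :=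
  (exists_low c e w).choose_spec

section LowLemmas

variable (hinj : Function.Injective (algebraMap P L))
include hinj

lemma low_unique {c : P} {e : ℕ} {w : WittVector p (Ps p L c)} {v : WittVector p P}
    (h : WittVector.map (algebraMap P L) v =
      teichmuller p (algebraMap P L (rt (p := p) e c)) * WittVector.map (Ps p L c).subtype w) :
    low c e w = v :=
  WittVector.map_injective _ hinj ((low_spec c e w).trans h.symm)

lemma low_add (c : P) (e : ℕ) (w w' : WittVector p (Ps p L c)) :
    low c e (w + w') = low c e w + low c e w' := by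
  apply low_unique hinj
  rw [map_add, low_spec, low_spec, map_add, mul_add]

lemma low_mul (c : P) (e : ℕ) (w w' : WittVector p (Ps p L c)) :
    teichmuller p (rt (p := p) e c) * low c e (w * w') = low c e w * low c e w' := by
  apply WittVector.map_injective _ hinj
  rw [map_mul, map_mul, low_spec, low_spec, low_spec, map_mul, WittVector.map_teichmuller]
  ring

lemma low_one (c : P) (e : ℕ) :
    low c e (1 : WittVector p (Ps p L c)) = teichmuller p (rt (p := p) e c) := by
  apply low_unique hinj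
  rw [map_one, mul_one, WittVector.map_teichmuller]

lemma low_zero (c : P) (e : ℕ) : low c e (0 : WittVector p (Ps p L c)) = 0 := by
  apply low_unique hinj
  rw [map_zero, map_zero, mul_zero]

lemma low_pow (c : P) (e : ℕ) (w : WittVector p (Ps p L c)) :
    teichmuller p (rt (p := p) e c) ^ (p ^ e - 1) * low c e w = low c 0 w := by
  apply WittVector.map_injective _ hinj
  rw [map_mul, map_pow, low_spec, low_spec, WittVector.map_teichmuller, ← mul_assoc, ← pow_succ,
    Nat.sub_add_cancel (pow_pos hp.out.pos e), ← map_pow, ← map_pow, Amp.rt_pow, rt_zero]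

lemma low_teich (c : P) (e : ℕ) (y : Ps p L c) {a : P}
    (ha : algebraMap P L a = algebraMap P L (rt (p := p) e c) * (y : L)) :
    low c e (teichmuller p y) = teichmuller p a := by
  apply low_unique hinj
  rw [WittVector.map_teichmuller, WittVector.map_teichmuller, ha, map_mul]
  rfl

end LowLemmas

variable (hinj : Function.Injective (algebraMap P L))
variable {Ω : Type u} [CommRing Ω] (θ : WittVector p P →+* Ω)
variable {K : Type u} [CommRing K] [Algebra Ω K]

/-- `ψ w = θ([c] w) / θ [c]`. -/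
noncomputable def psi (c : P)
    (hc : IsUnit (algebraMap Ω K (sh θ c))) : WittVector p (Ps p L c) →+* K where
  toFun w := algebraMap Ω K (θ (low c 0 w)) * Ring.inverse (algebraMap Ω K (sh θ c))
  map_one' := by
    rw [low_one hinj, rt_zero]
    exact Ring.mul_inverse_cancel _ hc
  map_zero' := by rw [low_zero hinj, map_zero, map_zero, zero_mul]
  map_add' w w' := by rw [low_add hinj, map_add, map_add, add_mul]
  map_mul' w w' := by
    apply hc.mul_left_cancel
    have h1 := congrArg (fun x => algebraMap Ω K (θ x)) (low_mul hinj c 0 w w')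
    simp only [map_mul, rt_zero] at h1
    have h2 := Ring.mul_inverse_cancel _ hc
    have h3 : algebraMap Ω K (sh θ c) = algebraMap Ω K (θ (teichmuller p c)) := rfl
    rw [← h3] at h1
    linear_combination Ring.inverse (algebraMap Ω K (sh θ c)) * h1 -
      (algebraMap Ω K (θ (low c 0 w))) * (algebraMap Ω K (θ (low c 0 w'))) *
        Ring.inverse (algebraMap Ω K (sh θ c)) * h2

section

variable (c : P) (hc : IsUnit (algebraMap Ω K (sh θ c)))

lemma psi_spec (w : WittVector p (Ps p L c)) :
    algebraMap Ω K (sh θ c) * psi hinj θ c hc w = algebraMap Ω K (θ (low c 0 w)) := by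
  show algebraMap Ω K (sh θ c) * (algebraMap Ω K (θ (low c 0 w)) * Ring.inverse _) = _
  rw [mul_left_comm, Ring.mul_inverse_cancel _ hc, mul_one]

include hc in
lemma isUnit_rt (e : ℕ) : IsUnit (algebraMap Ω K (sh θ (rt (p := p) e c))) := by
  rw [← Amp.rt_pow (p := p) e c, sh_pow, map_pow] at hc
  exact (isUnit_pow_iff (pow_ne_zero _ hp.out.ne_zero)).mp hc

lemma psi_low (e : ℕ) (w : WittVector p (Ps p L c)) :
    algebraMap Ω K (sh θ (rt (p := p) e c)) * psi hinj θ c hc w =
      algebraMap Ω K (θ (low c e w)) := by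
  have hu := isUnit_rt θ c hc e
  apply (hu.pow (p ^ e - 1)).mul_left_cancel
  rw [← mul_assoc, ← pow_succ, Nat.sub_add_cancel (pow_pos hp.out.pos e), ← map_pow, ← sh_pow,
    Amp.rt_pow, psi_spec, ← low_pow hinj c e w, map_mul, map_mul, map_pow, map_pow]
  rfl

/-- `ψ [y] = a♯/c♯` if `a = c y`. -/
lemma psi_teich (y : Ps p L c) {a : P} (ha : algebraMap P L a = algebraMap P L c * (y : L)) :
    algebraMap Ω K (sh θ c) * psi hinj θ c hc (teichmuller p y) = algebraMap Ω K (sh θ a) := by
  rw [psi_spec, low_teich hinj c 0 y (by rw [rt_zero]; exact ha)]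
  rfl

lemma psi_map (v : WittVector p P) :
    psi hinj θ c hc (WittVector.map (toPs p c) v) = algebraMap Ω K (θ v) := by
  apply hc.mul_left_cancel
  rw [psi_spec, ← map_mul, sh, ← map_mul]
  congr 2
  apply low_unique hinj
  rw [map_mul, WittVector.map_teichmuller, rt_zero]
  congr 1

end

/-- The kernel of `ψ`. -/
theorem ker_psi {π δ : P}
    (hker : RingHom.ker θ = Ideal.span {xi 1 π})
    (hΩK : Function.Injective (algebraMap Ω K))
    (hcL : IsUnit (algebraMap P L (π * δ)))
    (hc : IsUnit (algebraMap Ω K (sh θ (π * δ)))) :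
    RingHom.ker (psi hinj θ (π * δ) hc) = Ideal.span {xi 1 (toPs p (π * δ) π)} := by
  set c := π * δ with hcdef
  have hπL : IsUnit (algebraMap P L π) := by
    rw [hcdef, map_mul] at hcL
    exact isUnit_of_mul_isUnit_left hcL
  have hregL : Reg (algebraMap P L π) := fun x hx => (hπL.mul_right_eq_zero).1 hx
  have hxireg : Reg (xi (1 : WittVector p L) (algebraMap P L π)) := xi_regular hregL
  apply le_antisymm
  · intro w hw
    rw [RingHom.mem_ker] at hw
    have h1 : ∀ e, ∃ v, low c e w = xi 1 π * v := by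
      intro e
      have h2 := psi_low hinj θ c hc e w
      rw [hw, mul_zero] at h2
      have h3 : θ (low c e w) = 0 := hΩK (by rw [← h2, map_zero])
      have h4 : low c e w ∈ RingHom.ker θ := h3
      rw [hker, Ideal.mem_span_singleton] at h4
      exact h4
    choose v hv using h1
    obtain ⟨ci, hci⟩ := hcL.exists_right_inv
    set al := WittVector.map (p := p) (algebraMap P L) with hal
    set V : WittVector p L := teichmuller p ci * al (v 0) with hV
    have hxi : al (xi 1 π) = xi 1 (algebraMap P L π) := by rw [hal, map_xi, map_one]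
    have hcc : teichmuller p ci * teichmuller p (algebraMap P L c) = 1 := by
      rw [← map_mul, mul_comm, hci, map_one]
    have h0 : xi 1 (algebraMap P L π) * V = WittVector.map (Ps p L c).subtype w := by
      have h5 := low_spec c 0 w
      rw [rt_zero, hv 0, map_mul, ← hal, hxi] at h5
      rw [hV]
      linear_combination (teichmuller p ci) * h5 + (WittVector.map (Ps p L c).subtype w) * hcc
    have hVe : ∀ e, teichmuller p (algebraMap P L (rt (p := p) e c)) * V = al (v e) := by
      intro e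
      rw [← sub_eq_zero]
      apply hxireg
      have h5 := low_spec c e w
      rw [hv e, map_mul, ← hal, hxi] at h5
      rw [mul_sub, sub_eq_zero, h5, ← h0]
      ring
    have hmem : ∀ n, V.coeff n ∈ Ps p L c := by
      intro n e
      have h6 := congrArg (fun x => WittVector.coeff x n) (hVe (e + n))
      rw [teich_mul_coeff, ← map_pow, Om.rt_add, hal, WittVector.map_coeff] at h6
      exact ⟨_, h6⟩
    rw [Ideal.mem_span_singleton]
    refine ⟨WittVector.mk p fun n => ⟨V.coeff n, hmem n⟩, ?_⟩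
    apply WittVector.map_injective (Ps p L c).subtype Subtype.val_injective
    rw [map_mul, map_xi, map_one]
    have h7 : WittVector.map (Ps p L c).subtype (WittVector.mk p fun n => ⟨V.coeff n, hmem n⟩) = V := by
      ext n
      rw [WittVector.map_coeff, coeff_mk]
      rfl
    rw [h7]
    exact h0.symm
  · rw [Ideal.span_singleton_le_iff_mem, RingHom.mem_ker]
    have h1 : xi (1 : WittVector p (Ps p L c)) (toPs p c π) = WittVector.map (toPs p c) (xi 1 π) := by
      rw [map_xi, map_one]
    rw [h1, psi_map]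
    have h2 : xi 1 π ∈ RingHom.ker θ := by rw [hker]; exact Ideal.mem_span_singleton_self _
    rw [RingHom.mem_ker.1 h2, map_zero]

end Psi

end Crest.Agent.R183.Fam
end

-- ▼ part R183/Digit2
section

/-!
# Convex ideals from multiplicative filtrations; Riemann extension for sharps (R183, S0273)
-/

namespace Crest.Agent.R183.Digit

open WittVector

variable {p : ℕ} [hp : Fact p.Prime] {P : Type*} [CommRing P] [CharP P p]

local notation "𝕎" => WittVector p
local notation "τ" => WittVector.teichmuller p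

/-- multiplicative filtration -/
structure MulFilt {P : Type*} [CommRing P] (G : ℕ → Ideal P) : Prop where
  anti : Antitone G
  mul : ∀ i j, G i * G j ≤ G (i + j)
  one : G 0 = ⊤

lemma MulFilt.pow {P : Type*} [CommRing P] {G : ℕ → Ideal P} (hG : MulFilt G) (i m : ℕ) :
    G i ^ m ≤ G (m * i) := by
  induction m with
  | zero => simp [hG.one]
  | succ m ih =>
    rw [pow_succ]
    calc G i ^ m * G i ≤ G (m * i) * G i := Ideal.mul_mono_left ih
      _ ≤ G (m * i + i) := hG.mul _ _
      _ = G ((m + 1) * i) := by congr 1; ring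

lemma MulFilt.pow_mem {P : Type*} [CommRing P] {G : ℕ → Ideal P} (hG : MulFilt G) {i m : ℕ}
    {x : P} (hx : x ∈ G i) : x ^ m ∈ G (m * i) :=
  hG.pow i m (Ideal.pow_mem_pow hx m)

omit hp in
/-- monotonicity in the level -/
lemma MulFilt.lift {P : Type*} [CommRing P] {G : ℕ → Ideal P} (hG : MulFilt G) {T e e' : ℕ}
    (he : e ≤ e') {h : P} (hh : h ^ p ^ e ∈ G (T * p ^ e)) : h ^ p ^ e' ∈ G (T * p ^ e') := by
  obtain ⟨k, rfl⟩ := Nat.exists_eq_add_of_le he
  rw [pow_add, pow_mul]
  have := hG.pow_mem (m := p ^ k) hh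
  have e1 : p ^ k * (T * p ^ e) = T * (p ^ e * p ^ k) := by ring
  rwa [e1] at this

/-- The convex ideal attached to a multiplicative filtration. -/
def JT (p : ℕ) [hp : Fact p.Prime] {P : Type*} [CommRing P] [CharP P p] {G : ℕ → Ideal P}
    (hG : MulFilt G) (T : ℕ) : Ideal P where
  carrier := {h | ∃ e, h ^ p ^ e ∈ G (T * p ^ e)}
  zero_mem' := ⟨0, by simp⟩
  add_mem' := by
    rintro a b ⟨e, he⟩ ⟨e', he'⟩
    refine ⟨max e e', ?_⟩
    rw [add_pow_char_pow]
    exact Ideal.add_mem _ (hG.lift (le_max_left _ _) he) (hG.lift (le_max_right _ _) he')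
  smul_mem' := by
    rintro c a ⟨e, he⟩
    refine ⟨e, ?_⟩
    rw [smul_eq_mul, mul_pow]
    exact Ideal.mul_mem_left _ _ he


lemma le_JT {G : ℕ → Ideal P} (hG : MulFilt G) (T : ℕ) : G T ≤ JT p hG T := by
  intro h hh
  exact ⟨0, by simpa using hh⟩

lemma JT_pow {G : ℕ → Ideal P} (hG : MulFilt G) (T m : ℕ) {y : P} (hy : y ∈ JT p hG T ^ m) :
    ∃ e, y ^ p ^ e ∈ G (m * T * p ^ e) := by
  induction m generalizing y with
  | zero => exact ⟨0, by simp [hG.one]⟩
  | succ m ih =>
    rw [pow_succ] at hy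
    refine Submodule.mul_induction_on hy ?_ ?_
    · intro a ha b hb
      obtain ⟨e, he⟩ := ih ha
      obtain ⟨e', he'⟩ := hb
      refine ⟨max e e', ?_⟩
      rw [mul_pow]
      have h1 := hG.lift (p := p) (T := m * T) (le_max_left e e') he
      have h2 := hG.lift (p := p) (T := T) (le_max_right e e') he'
      have h3 := hG.mul _ _ (Ideal.mul_mem_mul h1 h2)
      have e1 : m * T * p ^ max e e' + T * p ^ max e e' = (m + 1) * T * p ^ max e e' := by ring
      rwa [e1] at h3
    · rintro a b ⟨e, he⟩ ⟨e', he'⟩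
      refine ⟨max e e', ?_⟩
      rw [add_pow_char_pow]
      exact Ideal.add_mem _ (hG.lift (le_max_left _ _) he) (hG.lift (le_max_right _ _) he')

/-- **The ideals `JT` are convex.** -/
theorem convex_JT {G : ℕ → Ideal P} (hG : MulFilt G) (T : ℕ) : Convex p (JT p hG T) := by
  intro n x hx
  obtain ⟨e, he⟩ := JT_pow hG T (p ^ n) hx
  refine ⟨n + e, ?_⟩
  rw [pow_add, pow_mul]
  have e1 : T * (p ^ n * p ^ e) = p ^ n * T * p ^ e := by ring
  rwa [e1]


/-- Two-variable weighted filtration: `I` has weight `m`, `ϖ` has weight `w`. -/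
def wF {P : Type*} [CommRing P] (I : Ideal P) (ϖ : P) (m w k : ℕ) : Ideal P :=
  ⨆ (a : ℕ) (b : ℕ) (_ : k ≤ m * a + w * b), I ^ a * Ideal.span {ϖ ^ b}

lemma le_wF {P : Type*} [CommRing P] (I : Ideal P) (ϖ : P) {m w k a b : ℕ}
    (h : k ≤ m * a + w * b) : I ^ a * Ideal.span {ϖ ^ b} ≤ wF I ϖ m w k :=
  le_iSup_of_le a (le_iSup_of_le b (le_iSup_of_le h le_rfl))

lemma mulFilt_wF {P : Type*} [CommRing P] (I : Ideal P) (ϖ : P) (m w : ℕ) :
    MulFilt (wF I ϖ m w) where
  anti := by
    intro k k' hk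
    unfold wF
    refine iSup_le fun a => iSup_le fun b => iSup_le fun h => ?_
    exact le_wF I ϖ (hk.trans h)
  mul := by
    intro i j
    unfold wF
    simp only [Submodule.iSup_mul, Submodule.mul_iSup]
    refine iSup_le fun a => iSup_le fun b => iSup_le fun h => ?_
    refine iSup_le fun a' => iSup_le fun b' => iSup_le fun h' => ?_
    have e1 : I ^ a' * Ideal.span {ϖ ^ b'} * (I ^ a * Ideal.span {ϖ ^ b}) =
        I ^ (a + a') * Ideal.span {ϖ ^ (b + b')} := by
      rw [pow_add, pow_add ϖ, ← Ideal.span_singleton_mul_span_singleton]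
      ring
    rw [e1]
    exact le_wF I ϖ (by nlinarith)
  one := by
    rw [eq_top_iff]
    refine le_trans ?_ (le_wF I ϖ (a := 0) (b := 0) (by simp))
    simp

section perfect
variable [PerfectRing P p]

/-- `e`-fold inverse Frobenius -/
noncomputable def rt (p : ℕ) [Fact p.Prime] {P : Type*} [CommRing P] [CharP P p]
    [PerfectRing P p] (e : ℕ) (x : P) : P := ((_root_.frobeniusEquiv P p).symm)^[e] x

@[simp] lemma rt_pow (e : ℕ) (x : P) : rt p e x ^ p ^ e = x :=
  iterate_frobeniusEquiv_symm_pow_p_pow P p x e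

lemma pow_inj {e : ℕ} {x y : P} (h : x ^ p ^ e = y ^ p ^ e) : x = y := by
  apply (bijective_iterateFrobenius P p e).injective
  simpa [iterateFrobenius_def] using h

lemma rt_unique {e : ℕ} {x y : P} (h : y ^ p ^ e = x) : y = rt p e x :=
  pow_inj (e := e) (by rw [h, rt_pow])



/-- extracting roots from an ideal generated by two elements -/
lemma mem_span_pair_of_pow {e : ℕ} {y A B : P}
    (h : y ^ p ^ e ∈ Ideal.span {A ^ p ^ e, B ^ p ^ e}) : y ∈ Ideal.span {A, B} := by
  rw [Ideal.mem_span_pair] at h ⊢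
  obtain ⟨α, β, hαβ⟩ := h
  refine ⟨rt p e α, rt p e β, ?_⟩
  apply pow_inj (p := p) (e := e)
  rw [add_pow_char_pow, mul_pow, mul_pow, rt_pow, rt_pow, hαβ]

/-- **(B), two-parameter form**: if `[h₀ x^(p^f)] ∈ ([D^(p^f)], ξ)` then
`h₀^(1/p^f) x ∈ (D^(1-1/p^g), ϖ^M)` for all `g, M`. -/
theorem riemann_pair {ϖ D x h₀ : P} {u : 𝕎 P} (hu : IsUnit u) (f : ℕ)
    (H : τ (h₀ * x ^ p ^ f) ∈ Ideal.span {τ (D ^ p ^ f)} ⊔ Ideal.span {(p : 𝕎 P) * u - τ ϖ})
    (g M : ℕ) :
    rt p f h₀ * x ∈ Ideal.span {rt p g D ^ (p ^ g - 1), ϖ ^ M} := by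
  set j := p ^ f with hj
  have hjpos : 0 < j := pow_pos hp.out.pos f
  set m := M * j * p ^ g with hm
  have hG := mulFilt_wF (Ideal.span {D}) ϖ m j
  -- digit trick
  have h1 : h₀ * x ^ j ∈ JT p hG (m * j) := by
    refine digit_trick (convex_JT hG (m * j)) hu (ϖ := ϖ) (n := m) ?_ ?_
    · refine le_JT hG _ ?_
      refine le_wF (Ideal.span {D}) ϖ (a := 0) (b := m) (by ring_nf; rfl) ?_
      simp [Ideal.mem_span_singleton]
    · refine (sup_le_sup_right (a := Ideal.span {τ (D ^ j)}) ?_ _) H
      refine Ideal.span_le.2 ?_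
      rintro _ rfl
      refine mem_tI ?_
      refine le_JT hG _ ?_
      refine le_wF (Ideal.span {D}) ϖ (a := j) (b := 0) (by simp) ?_
      simp [Ideal.span_singleton_pow, Ideal.mem_span_singleton]
  obtain ⟨e₀, he₀⟩ := h1
  have h2 := hG.lift (p := p) (Nat.le_max_left e₀ g) he₀
  set e := max e₀ g with he
  obtain ⟨c, hc⟩ : ∃ c, e = g + c := ⟨e - g, by omega⟩
  have hq : p ^ e = p ^ g * p ^ c := by rw [hc, pow_add]
  have hpg : 0 < p ^ g := pow_pos hp.out.pos g
  have hpc : 0 < p ^ c := pow_pos hp.out.pos c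
  -- inclusion of ideals
  have h3 : wF (Ideal.span {D}) ϖ m j (m * j * p ^ e) ≤
      Ideal.span {(rt p g D ^ (p ^ g - 1)) ^ p ^ (e + f), (ϖ ^ M) ^ p ^ (e + f)} := by
    unfold wF
    refine iSup_le fun a => iSup_le fun b => iSup_le fun h => ?_
    rw [Ideal.span_singleton_pow, Ideal.span_singleton_mul_span_singleton]
    refine Ideal.span_le.2 ?_
    rintro _ rfl
    have eD : (rt p g D ^ (p ^ g - 1)) ^ p ^ (e + f) = D ^ ((p ^ g - 1) * (p ^ c * j)) := by
      rw [← pow_mul]
      have : (p ^ g - 1) * p ^ (e + f) = p ^ g * ((p ^ g - 1) * (p ^ c * j)) := by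
        rw [pow_add, hq]; ring
      rw [this, pow_mul, rt_pow]
    have eϖ : (ϖ ^ M) ^ p ^ (e + f) = ϖ ^ (M * (p ^ e * j)) := by
      rw [← pow_mul, pow_add]
    rw [eD, eϖ]
    by_cases hab : (p ^ g - 1) * (p ^ c * j) ≤ a
    · have : D ^ a * ϖ ^ b = D ^ (a - (p ^ g - 1) * (p ^ c * j)) * ϖ ^ b *
          D ^ ((p ^ g - 1) * (p ^ c * j)) := by
        rw [mul_assoc, mul_comm (ϖ ^ b), ← mul_assoc, ← pow_add, Nat.sub_add_cancel hab]
      rw [this]
      exact Ideal.mul_mem_left _ _ (Ideal.subset_span (by simp))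
    · have hb : M * (p ^ e * j) ≤ b := by
        by_contra hcon
        push Not at hab hcon
        -- a < (p^g-1) p^c j, b < M p^e j ⟹ m a + j b < m j p^e
        obtain ⟨G1, hG1⟩ : ∃ G1, p ^ g = G1 + 1 := ⟨p ^ g - 1, by omega⟩
        rw [hG1] at hab hm hq
        simp only [Nat.add_sub_cancel] at hab
        rw [hq] at h hcon
        have h4 : m * a + j * b < m * a + j * (M * ((G1 + 1) * p ^ c * j)) :=
          Nat.add_lt_add_left (Nat.mul_lt_mul_of_pos_left hcon hjpos) _
        have h5 : m * a ≤ m * (G1 * (p ^ c * j)) := Nat.mul_le_mul_left _ hab.le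
        have h6 : m * (G1 * (p ^ c * j)) + j * (M * ((G1 + 1) * p ^ c * j)) =
            m * j * ((G1 + 1) * p ^ c) := by
          rw [hm]; ring
        omega
      have : D ^ a * ϖ ^ b = D ^ a * ϖ ^ (b - M * (p ^ e * j)) * ϖ ^ (M * (p ^ e * j)) := by
        rw [mul_assoc, ← pow_add, Nat.sub_add_cancel hb]
      rw [this]
      exact Ideal.mul_mem_left _ _ (Ideal.subset_span (by simp))
  have h4 := h3 h2
  apply mem_span_pair_of_pow (p := p) (e := e + f)
  have : (rt p f h₀ * x) ^ p ^ (e + f) = (h₀ * x ^ j) ^ p ^ e := by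
    rw [mul_pow, mul_pow, ← pow_mul, add_comm e f, pow_add, pow_mul, rt_pow]
  rwa [this]

end perfect

end Crest.Agent.R183.Digit
end

-- ▼ part R183/Fam3
section

/-!
R183 / Fam3 (helper778): sharps in `P_*` (Riemann extension for sharps, from helper266's digit
trick) for a `π`-complete perfect ring.
-/

set_option autoImplicit false
set_option linter.unusedSectionVars false

namespace Crest.Agent.R183.Fam

open WittVector Crest.Agent.R183.Amp Crest.Agent.R183.Om

universe u

section

variable {p : ℕ} [hp : Fact p.Prime] {P : Type u} [CommRing P] [CharP P p] [PerfectRing P p]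

lemma digit_rt (e : ℕ) (x : P) : Digit.rt p e x = rt (p := p) e x :=
  (Digit.rt_unique (Amp.rt_pow (p := p) e x)).symm

omit hp [CharP P p] [PerfectRing P p] in
lemma regMod_pow {π δ : P} (hπ : Reg π) (hδ : RegMod δ π) (M : ℕ) : RegMod δ (π ^ M) := by
  induction M with
  | zero => intro x _; simp
  | succ M ih =>
    rintro x ⟨y, hy⟩
    have h1 : π ∣ δ * x := ⟨π ^ M * y, by rw [hy, pow_succ']; ring⟩
    obtain ⟨x', rfl⟩ := hδ _ h1
    have h2 : δ * x' = π ^ M * y := by
      rw [← sub_eq_zero]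
      apply hπ
      rw [pow_succ'] at hy
      linear_combination hy
    rw [pow_succ']
    exact mul_dvd_mul_left π (ih _ ⟨y, h2⟩)

omit hp [CharP P p] [PerfectRing P p] in
lemma reg_of_regMod {π δ : P} [hc : IsAdicComplete (Ideal.span {π}) P] (hπ : Reg π)
    (hδ : RegMod δ π) : Reg δ := by
  intro x hx
  apply IsHausdorff.haus hc.toIsHausdorff
  intro M
  rw [SModEq.zero, smul_eq_mul, Ideal.mul_top, Ideal.span_singleton_pow, Ideal.mem_span_singleton]
  exact regMod_pow hπ hδ M x (by rw [hx]; exact dvd_zero _)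

omit hp [CharP P p] [PerfectRing P p] in
/-- principal ideals generated by divisors of `π δ` are `π`-adically closed. -/
lemma dvd_of_forall_mem {π δ : P} [hc : IsAdicComplete (Ideal.span {π}) P] (hπ : Reg π)
    (hδ : RegMod δ π) {s s' a : P} (hs : s * s' = π * δ)
    (h : ∀ M : ℕ, a ∈ Ideal.span {s, π ^ M}) : s ∣ a := by
  have h1 : ∀ M, ∃ b d, a = s * b + π ^ M * d := by
    intro M
    obtain ⟨b, d, hbd⟩ := Ideal.mem_span_pair.1 (h M)
    exact ⟨b, d, by rw [← hbd]; ring⟩
  choose b d hbd using h1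
  have h2 : ∀ M, π ^ M ∣ b (M + 2) - b (M + 1) := by
    intro M
    have h3 : π ^ (M + 1) ∣ s * (b (M + 2) - b (M + 1)) :=
      ⟨d (M + 1) - π * d (M + 2), by
        have e1 := hbd (M + 1)
        have e2 := hbd (M + 2)
        rw [pow_succ π (M + 1)] at e2
        linear_combination e1 - e2⟩
    have h4 : π ^ (M + 1) ∣ π * (δ * (b (M + 2) - b (M + 1))) := by
      have : π * (δ * (b (M + 2) - b (M + 1))) = s' * (s * (b (M + 2) - b (M + 1))) := by
        linear_combination -(b (M + 2) - b (M + 1)) * hs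
      rw [this]
      exact h3.mul_left _
    obtain ⟨t, ht⟩ := h4
    apply regMod_pow hπ hδ M
    refine ⟨t, ?_⟩
    rw [← sub_eq_zero]
    apply hπ
    rw [pow_succ'] at ht
    linear_combination ht
  choose u hu using h2
  obtain ⟨σ, hσ⟩ := exists_series π u
  have h5 : ∀ M, b (M + 1) = b 1 + ∑ i ∈ Finset.range M, π ^ i * u i := by
    intro M
    induction M with
    | zero => simp
    | succ M ih =>
      rw [Finset.sum_range_succ, ← add_assoc, ← ih, ← hu M]
      ring
  refine ⟨b 1 + σ, ?_⟩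
  rw [← sub_eq_zero]
  apply IsHausdorff.haus hc.toIsHausdorff
  intro M
  rw [SModEq.zero, smul_eq_mul, Ideal.mul_top, Ideal.span_singleton_pow, Ideal.mem_span_singleton]
  obtain ⟨t, ht⟩ := hσ M
  refine ⟨π * d (M + 1) - s * t, ?_⟩
  have e1 := hbd (M + 1)
  rw [h5 M, pow_succ] at e1
  linear_combination e1 - s * ht

variable {Ω : Type*} [CommRing Ω] (θ : WittVector p P →+* Ω)

/-- **Riemann extension for sharps.** -/
theorem dvd_of_sharp {π δ : P} [hc : IsAdicComplete (Ideal.span {π}) P] (hπ : Reg π)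
    (hδ : RegMod δ π) (hθ : Function.Surjective θ)
    (hker : RingHom.ker θ = Ideal.span {xi 1 π}) {t : P}
    (h : ∀ e, sh θ (π * δ) ∣ sh θ (rt (p := p) e (π * δ)) * sh θ t) (e : ℕ) :
    π * δ ∣ rt (p := p) e (π * δ) * t := by
  set c := π * δ with hcdef
  have key : ∀ g : ℕ, rt (p := p) g c ^ (p ^ g - 1) ∣ rt (p := p) g c * t := by
    intro g
    refine dvd_of_forall_mem (s' := rt (p := p) g c) hπ hδ ?_ ?_
    · rw [← pow_succ, Nat.sub_add_cancel (pow_pos hp.out.pos g), Amp.rt_pow]
    · intro M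
      obtain ⟨ω, hω⟩ := h g
      obtain ⟨w, rfl⟩ := hθ ω
      have h1 : teichmuller p (rt (p := p) g c * t) - teichmuller p c * w ∈ RingHom.ker θ := by
        have h3 : teichmuller p (rt (p := p) g c * t) =
          teichmuller p (rt (p := p) g c) * teichmuller p t := map_mul _ _ _
        rw [RingHom.mem_ker, map_sub, h3, map_mul θ, map_mul θ, sub_eq_zero]
        exact hω
      rw [hker] at h1
      have h2 := Digit.riemann_pair (p := p) (P := P) (ϖ := π) (D := c) (x := t)
        (h₀ := rt (p := p) g c) (u := 1) isUnit_one 0 (by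
          have e1 : teichmuller p (rt (p := p) g c * t ^ p ^ 0) =
              teichmuller p (c ^ p ^ 0) * w +
                (teichmuller p (rt (p := p) g c * t) - teichmuller p c * w) := by
            simp
          rw [e1]
          refine Submodule.add_mem_sup ?_ ?_
          · exact Ideal.mul_mem_right _ _ (Ideal.mem_span_singleton_self _)
          · exact h1) g M
      rw [digit_rt, digit_rt, rt_zero] at h2
      exact h2
  have hk := key (e + 1)
  obtain ⟨b, hb⟩ := hk
  refine ⟨rt (p := p) (e + 1) c ^ (p - 2) * b, ?_⟩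
  have h1 : rt (p := p) e c = rt (p := p) (e + 1) c ^ (p - 2) *
      (rt (p := p) (e + 1) c * rt (p := p) (e + 1) c) := by
    rw [← sq, ← pow_add, Nat.sub_add_cancel hp.out.two_le, rt_succ_pow]
  have h2 : c = rt (p := p) (e + 1) c ^ (p ^ (e + 1) - 1) * rt (p := p) (e + 1) c := by
    rw [← pow_succ, Nat.sub_add_cancel (pow_pos hp.out.pos _), Amp.rt_pow]
  rw [h1]
  linear_combination rt (p := p) (e + 1) c ^ (p - 2) * rt (p := p) (e + 1) c * hb -
    rt (p := p) (e + 1) c ^ (p - 2) * b * h2

variable {L : Type u} [CommRing L] [Algebra P L]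

theorem exists_star {π δ : P} [hc : IsAdicComplete (Ideal.span {π}) P] (hπ : Reg π)
    (hδ : RegMod δ π) (hθ : Function.Surjective θ)
    (hker : RingHom.ker θ = Ideal.span {xi 1 π})
    (hcL : IsUnit (algebraMap P L (π * δ))) {t : P}
    (h : ∀ e, sh θ (π * δ) ∣ sh θ (rt (p := p) e (π * δ)) * sh θ t) :
    ∃ y : Ps p L (π * δ), algebraMap P L t = algebraMap P L (π * δ) * (y : L) := by
  obtain ⟨v, hv⟩ := hcL.exists_right_inv
  refine ⟨⟨v * algebraMap P L t, ?_⟩, ?_⟩
  · intro e
    obtain ⟨b, hb⟩ := dvd_of_sharp θ hπ hδ hθ hker h e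
    refine ⟨b, ?_⟩
    have h1 := congrArg (algebraMap P L) hb
    rw [map_mul, map_mul (algebraMap P L) (π * δ) b] at h1
    linear_combination v * h1 + algebraMap P L b * hv
  · show _ = algebraMap P L (π * δ) * (v * algebraMap P L t)
    linear_combination -(algebraMap P L t) * hv

end

end Crest.Agent.R183.Fam
end

-- ▼ part R183/Amp5
section

/-!
R183 / Amp5 : the amplifier read in `Omega`, for a surjection `θ : W(P) → Omega` with kernel
generated by `p u - [π]`.  `♯ a = θ [a]`.
-/

set_option autoImplicit false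

namespace Crest.Agent.R183.Amp

universe u

open WittVector

section

variable {p : ℕ} [hp : Fact p.Prime] {P : Type u} [CommRing P] [CharP P p] [PerfectRing P p]

omit [CharP P p] [PerfectRing P p] in
lemma span_theta {Ω : Type*} [CommRing Ω] (θ : WittVector p P →+* Ω) {ι : Type*} (y : ι → P) :
    Ideal.span (Set.range fun i => θ (teichmuller p (y i))) =
      Ideal.map θ (Ideal.span (Set.range fun i => teichmuller p (y i))) := by
  rw [Ideal.map_span, ← Set.range_comp]
  rfl

/-- The amplifier in `Omega`: `x` a finite family of sharps with `p ∈ (x♯)`, `(x♯)^{c+1} ⊆ (z♯)(x♯)^c`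
and `p^M ∈ (z♯)`.  Then there is `n` with `(x♯) ⊆ (♯(z^{1/q}))^N` whenever `n + N ≤ q = p^e`. -/
theorem amplifier_omega {Ω : Type*} [CommRing Ω] (θ : WittVector p P →+* Ω)
    (hθ : Function.Surjective θ) (u : WittVector p P) (hu : IsUnit u) (π : P)
    (hker : RingHom.ker θ = Ideal.span {xi u π})
    (hπ : π ∈ Ideal.jacobson (⊥ : Ideal P))
    {ι κ : Type*} [Finite ι] [Fintype κ] (x : ι → P) (z : κ → P) (M c : ℕ)
    (H1 : (p : Ω) ^ M ∈ Ideal.span (Set.range fun i => θ (teichmuller p (z i))))
    (H2 : Ideal.span (Set.range fun i => θ (teichmuller p (x i))) ^ (c + 1) ≤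
      Ideal.span (Set.range fun i => θ (teichmuller p (z i))) *
        Ideal.span (Set.range fun i => θ (teichmuller p (x i))) ^ c)
    (H3 : (p : Ω) ∈ Ideal.span (Set.range fun i => θ (teichmuller p (x i)))) :
    ∃ n : ℕ, ∀ e N : ℕ, n + N ≤ p ^ e →
      Ideal.span (Set.range fun i => θ (teichmuller p (x i))) ≤
        Ideal.span (Set.range fun i => θ (teichmuller p (rt (p := p) e (z i)))) ^ N := by
  -- pull back
  have key : ∀ I J : Ideal (WittVector p P), Ideal.map θ I ≤ Ideal.map θ J →
      I ≤ J ⊔ Ideal.span {xi u π} := by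
    intro I J h
    have h1 : I ≤ Ideal.comap θ (Ideal.map θ J) := (Ideal.le_comap_map).trans (Ideal.comap_mono h)
    rw [Ideal.comap_map_of_surjective _ hθ] at h1
    have h2 : Ideal.comap θ ⊥ = Ideal.span {xi u π} := by rw [← hker]; rfl
    rwa [h2] at h1
  have hx := span_theta θ x
  have hz := span_theta θ z
  obtain ⟨n, hn⟩ := amplifier x z u hu π hπ M c
    (by
      have := key (Ideal.span {(p : WittVector p P) ^ M})
        (Ideal.span (Set.range fun i => teichmuller p (z i)))
        (by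
          rw [← hz, Ideal.map_span, Set.image_singleton, Ideal.span_singleton_le_iff_mem, map_pow,
            map_natCast]
          exact H1)
      exact this (Ideal.mem_span_singleton_self _))
    (by
      refine key _ _ ?_
      rw [Ideal.map_pow, Ideal.map_mul, Ideal.map_pow, ← hx, ← hz]
      exact H2)
    (by
      have := key (Ideal.span {(p : WittVector p P)})
        (Ideal.span (Set.range fun i => teichmuller p (x i)))
        (by
          rw [← hx, Ideal.map_span, Set.image_singleton, Ideal.span_singleton_le_iff_mem,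
            map_natCast]
          exact H3)
      exact this (Ideal.mem_span_singleton_self _))
  refine ⟨n, fun e N hN => ?_⟩
  have h1 := Ideal.map_mono (f := θ) (hn e N hN)
  rw [Ideal.map_sup, Ideal.map_pow] at h1
  have h2 : Ideal.map θ (Ideal.span {xi u π}) = ⊥ := by
    rw [Ideal.map_span, Set.image_singleton]
    have : xi u π ∈ RingHom.ker θ := by rw [hker]; exact Ideal.mem_span_singleton_self _
    rw [RingHom.mem_ker.1 this]
    simp
  rw [h2, sup_bot_eq, ← hx, ← span_theta θ (fun i => rt (p := p) e (z i))] at h1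
  exact h1

end

end Crest.Agent.R183.Amp
end

-- ▼ part R183/Fam4
section

/-!
R183 / Fam4 (helper778): the amplifier with a UNIFORM constant, by applying helper902's amplifier
to a product.
-/

set_option autoImplicit false
set_option linter.unusedSectionVars false

namespace Crest.Agent.R183.Fam

open WittVector Crest.Agent.R183.Amp Crest.Agent.R183.Om

universe u

/-! ### products -/

section Prod

variable {ι : Type} {A : ι → Type u} [∀ i, CommRing (A i)]

lemma mem_of_span {k : ℕ} (y : Fin k → ∀ i, A i) (a : ∀ i, A i)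
    (h : ∀ i, a i ∈ (Ideal.span (Set.range y)).map (Pi.evalRingHom A i)) :
    a ∈ Ideal.span (Set.range y) := by
  have h1 : ∀ i, ∃ c : Fin k → A i, ∑ j, c j * y j i = a i := by
    intro i
    have := h i
    rw [Ideal.map_span, ← Set.range_comp] at this
    exact (Ideal.mem_span_range_iff_exists_fun).1 this
  choose c hc using h1
  rw [Ideal.mem_span_range_iff_exists_fun]
  refine ⟨fun j i => c i j, ?_⟩
  funext i
  rw [Finset.sum_apply, ← hc i]
  rfl

lemma mem_of_fg {J : Ideal (∀ i, A i)} (hJ : J.FG) (a : ∀ i, A i)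
    (h : ∀ i, a i ∈ J.map (Pi.evalRingHom A i)) : a ∈ J := by
  obtain ⟨k, y, hy⟩ := Submodule.fg_iff_exists_fin_generating_family.1 hJ
  have hy' : J = Ideal.span (Set.range y) := hy.symm
  rw [hy'] at h ⊢
  exact mem_of_span y a h

lemma le_of_fg {I J : Ideal (∀ i, A i)} (hJ : J.FG)
    (h : ∀ i, I.map (Pi.evalRingHom A i) ≤ J.map (Pi.evalRingHom A i)) : I ≤ J :=
  fun a ha => mem_of_fg hJ a fun i => h i (Ideal.mem_map_of_mem _ ha)

end Prod

section ProdW

variable {p : ℕ} [hp : Fact p.Prime] {ι : Type} {P : ι → Type u} [∀ i, CommRing (P i)]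

lemma pi_ext {w v : WittVector p (∀ i, P i)}
    (h : ∀ i, WittVector.map (Pi.evalRingHom P i) w = WittVector.map (Pi.evalRingHom P i) v) :
    w = v := by
  ext n i
  have := congrArg (fun x => WittVector.coeff x n) (h i)
  simpa [WittVector.map_coeff] using this

lemma pi_exists (w : ∀ i, WittVector p (P i)) :
    ∃ v : WittVector p (∀ i, P i), ∀ i, WittVector.map (Pi.evalRingHom P i) v = w i := by
  refine ⟨WittVector.mk p fun n i => (w i).coeff n, fun i => ?_⟩
  ext n
  rw [WittVector.map_coeff, coeff_mk]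
  rfl

lemma pi_charP [Nonempty ι] [∀ i, CharP (P i) p] : CharP (∀ i, P i) p := by
  have : Nontrivial (∀ i, P i) := by
    obtain ⟨i⟩ := ‹Nonempty ι›
    have : ∀ j, Nontrivial (P j) := fun j => CharP.nontrivial_of_char_ne_one (R := P j) hp.out.ne_one
    exact Pi.nontrivial_at i
  rw [CharP.charP_iff_prime_eq_zero hp.out]
  funext i
  rw [Pi.natCast_apply, CharP.cast_eq_zero]
  rfl

lemma pi_perfect [∀ i, PerfectRing (P i) p] : PerfectRing (∀ i, P i) p := by
  refine ⟨⟨?_, ?_⟩⟩
  · intro x y hxy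
    funext i
    have h1 : (x i) ^ p = (y i) ^ p := congrFun hxy i
    exact (PerfectRing.bijective_frobenius (R := P i) (p := p)).1 h1
  · intro y
    have h1 : ∀ i, ∃ x : P i, x ^ p = y i := fun i =>
      (PerfectRing.bijective_frobenius (R := P i) (p := p)).2 (y i)
    choose x hx using h1
    exact ⟨x, funext hx⟩

end ProdW

/-- One instance of the amplifier problem. -/
structure Cand (p : ℕ) [Fact p.Prime] (a b M c : ℕ) : Type (u + 1) where
  P : Type u
  [ring : CommRing P]
  [charP : CharP P p]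
  [perf : PerfectRing P p]
  Ω : Type u
  [ringΩ : CommRing Ω]
  θ : WittVector p P →+* Ω
  surj : Function.Surjective θ
  π : P
  ker : RingHom.ker θ = Ideal.span {xi 1 π}
  jac : π ∈ Ideal.jacobson (⊥ : Ideal P)
  x : Fin a → P
  z : Fin b → P
  H1 : (p : Ω) ^ M ∈ Ideal.span (Set.range fun i => θ (teichmuller p (z i)))
  H2 : Ideal.span (Set.range fun i => θ (teichmuller p (x i))) ^ (c + 1) ≤
      Ideal.span (Set.range fun i => θ (teichmuller p (z i))) *
        Ideal.span (Set.range fun i => θ (teichmuller p (x i))) ^ c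
  H3 : (p : Ω) ∈ Ideal.span (Set.range fun i => θ (teichmuller p (x i)))

attribute [instance] Cand.ring Cand.charP Cand.perf Cand.ringΩ

/-- The conclusion of the amplifier. -/
def Cand.Good {p : ℕ} [Fact p.Prime] {a b M c : ℕ} (D : Cand.{u} p a b M c) (n : ℕ) : Prop :=
  ∀ e N : ℕ, n + N ≤ p ^ e →
      Ideal.span (Set.range fun i => D.θ (teichmuller p (D.x i))) ≤
        Ideal.span (Set.range fun i => D.θ (teichmuller p (rt (p := p) e (D.z i)))) ^ N

/-- **Uniform amplifier.** -/
theorem exists_uniform (p : ℕ) [hp : Fact p.Prime] (a b M c : ℕ) :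
    ∃ n : ℕ, ∀ D : Cand.{u} p a b M c, D.Good n := by
  by_contra hcon
  push Not at hcon
  choose D hD using hcon
  have i1 : CharP (∀ n, (D n).P) p := pi_charP
  have i2 : PerfectRing (∀ n, (D n).P) p := pi_perfect
  let ev : ∀ n, (∀ n, (D n).P) →+* (D n).P := fun n => Pi.evalRingHom (fun n => (D n).P) n
  let Θ : WittVector p (∀ n, (D n).P) →+* (∀ n, (D n).Ω) :=
    RingHom.pi fun n => (D n).θ.comp (WittVector.map (ev n))
  have hΘ : ∀ w n, Θ w n = (D n).θ (WittVector.map (ev n) w) := fun _ _ => rfl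
  have hΘt : ∀ (y : ∀ n, (D n).P) n, Θ (teichmuller p y) n = (D n).θ (teichmuller p (y n)) := by
    intro y n
    rw [hΘ, WittVector.map_teichmuller]
    rfl
  have hsurj : Function.Surjective Θ := by
    intro ω
    choose w hw using fun n => (D n).surj (ω n)
    obtain ⟨v, hv⟩ := pi_exists w
    refine ⟨v, ?_⟩
    funext n
    rw [hΘ, ← hw n]
    congr 1
    exact hv n
  let π : ∀ n, (D n).P := fun n => (D n).π
  have hxi : ∀ n, WittVector.map (ev n) (xi (1 : WittVector p (∀ n, (D n).P)) π) =
      xi 1 (D n).π := by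
    intro n; rw [map_xi, map_one]; rfl
  have hker : RingHom.ker Θ = Ideal.span {xi (1 : WittVector p (∀ n, (D n).P)) π} := by
    apply le_antisymm
    · intro w hw
      rw [RingHom.mem_ker] at hw
      have h1 : ∀ n, ∃ v, WittVector.map (ev n) w = xi 1 (D n).π * v := by
        intro n
        have h2 : WittVector.map (ev n) w ∈ RingHom.ker (D n).θ := congrFun hw n
        rw [(D n).ker, Ideal.mem_span_singleton] at h2
        exact h2
      choose v hv using h1
      obtain ⟨V, hV⟩ := pi_exists v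
      rw [Ideal.mem_span_singleton]
      refine ⟨V, pi_ext fun n => ?_⟩
      have h3 : WittVector.map (ev n) V = v n := hV n
      show WittVector.map (ev n) w = WittVector.map (ev n) (xi 1 π * V)
      rw [map_mul, hxi, h3, hv]
    · rw [Ideal.span_singleton_le_iff_mem, RingHom.mem_ker]
      funext n
      rw [hΘ, hxi]
      have : xi 1 (D n).π ∈ RingHom.ker (D n).θ := by
        rw [(D n).ker]; exact Ideal.mem_span_singleton_self _
      exact this
  have hjac : π ∈ Ideal.jacobson (⊥ : Ideal (∀ n, (D n).P)) := by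
    rw [Ideal.mem_jacobson_bot]
    intro y
    rw [Pi.isUnit_iff]
    intro n
    exact Ideal.mem_jacobson_bot.1 (D n).jac (y n)
  let x : Fin a → ∀ n, (D n).P := fun i n => (D n).x i
  let z : Fin b → ∀ n, (D n).P := fun i n => (D n).z i
  have hmapx : ∀ n, (Ideal.span (Set.range fun i => Θ (teichmuller p (x i)))).map
      (Pi.evalRingHom (fun n => (D n).Ω) n) =
        Ideal.span (Set.range fun i => (D n).θ (teichmuller p ((D n).x i))) := by
    intro n
    rw [Ideal.map_span, ← Set.range_comp]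
    congr 2
    funext i
    exact hΘt (x i) n
  have hmapz : ∀ n, (Ideal.span (Set.range fun i => Θ (teichmuller p (z i)))).map
      (Pi.evalRingHom (fun n => (D n).Ω) n) =
        Ideal.span (Set.range fun i => (D n).θ (teichmuller p ((D n).z i))) := by
    intro n
    rw [Ideal.map_span, ← Set.range_comp]
    congr 2
    funext i
    exact hΘt (z i) n
  have hmapr : ∀ e n, (Ideal.span (Set.range fun i => Θ (teichmuller p (rt (p := p) e (z i))))).map
      (Pi.evalRingHom (fun n => (D n).Ω) n) =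
        Ideal.span (Set.range fun i => (D n).θ (teichmuller p (rt (p := p) e ((D n).z i)))) := by
    intro e n
    rw [Ideal.map_span, ← Set.range_comp]
    congr 2
    funext i
    have h1 := hΘt (rt (p := p) e (z i)) n
    have h2 : (rt (p := p) e (z i)) n = rt (p := p) e ((D n).z i) := rt_map (ev n) e (z i)
    rw [h2] at h1
    exact h1
  have hfgx : (Ideal.span (Set.range fun i => Θ (teichmuller p (x i)))).FG :=
    Submodule.fg_span (Set.finite_range _)
  have hfgz : (Ideal.span (Set.range fun i => Θ (teichmuller p (z i)))).FG :=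
    Submodule.fg_span (Set.finite_range _)
  obtain ⟨n, hn⟩ := amplifier_omega Θ hsurj 1 isUnit_one π hker hjac x z M c
    (by
      refine mem_of_fg hfgz _ fun n => ?_
      rw [hmapz]
      exact (D n).H1)
    (by
      refine le_of_fg (hfgz.mul (hfgx.pow)) fun n => ?_
      rw [Ideal.map_pow, Ideal.map_mul, Ideal.map_pow, hmapx, hmapz]
      exact (D n).H2)
    (by
      refine mem_of_fg hfgx _ fun n => ?_
      rw [hmapx]
      exact (D n).H3)
  apply hD n
  intro e N hN
  have h1 := Ideal.map_mono (f := Pi.evalRingHom (fun n => (D n).Ω) n) (hn e N hN)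
  rw [Ideal.map_pow, hmapx, hmapr] at h1
  exact h1

end Crest.Agent.R183.Fam
end

-- ▼ part R183/Fam5
section

/-!
R183 / Fam5 (helper778): finitely many coefficients witness the relation
`𝔞^(c+1) ⊆ (w) 𝔞^c`.
-/

set_option autoImplicit false
set_option linter.unusedSectionVars false

namespace Crest.Agent.R183.Fam

open Ideal

lemma span_pow_eq {R : Type*} [CommRing R] {α : Type*} (x : α → R) (n : ℕ) :
    Ideal.span (Set.range x) ^ n =
      Ideal.span (Set.range fun ν : Fin n → α => ∏ j, x (ν j)) := by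
  induction n with
  | zero => simp
  | succ n ih =>
    rw [pow_succ', ih, Ideal.span_mul_span']
    congr 1
    ext y
    rw [Set.mem_mul]
    constructor
    · rintro ⟨_, ⟨i, rfl⟩, _, ⟨ν, rfl⟩, rfl⟩
      refine ⟨Fin.cons i ν, ?_⟩
      simp [Fin.prod_univ_succ]
    · rintro ⟨ν, rfl⟩
      refine ⟨x (ν 0), ⟨_, rfl⟩, _, ⟨fun j => ν j.succ, rfl⟩, ?_⟩
      simp [Fin.prod_univ_succ]

lemma span_mul_pow_eq {R : Type*} [CommRing R] {α β : Type*} (x : α → R) (z : β → R) (n : ℕ) :
    Ideal.span (Set.range z) * Ideal.span (Set.range x) ^ n =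
      Ideal.span (Set.range fun t : β × (Fin n → α) => z t.1 * ∏ j, x (t.2 j)) := by
  rw [span_pow_eq, Ideal.span_mul_span']
  congr 1
  ext y
  rw [Set.mem_mul]
  constructor
  · rintro ⟨_, ⟨i, rfl⟩, _, ⟨ν, rfl⟩, rfl⟩
    exact ⟨(i, ν), rfl⟩
  · rintro ⟨⟨i, ν⟩, rfl⟩
    exact ⟨_, ⟨i, rfl⟩, _, ⟨ν, rfl⟩, rfl⟩

theorem spread {T : Type*} [CommRing T] (p : ℕ) {a b : ℕ} (x : Fin a → T) (z : Fin b → T) (c M : ℕ)
    (H1 : (p : T) ^ M ∈ Ideal.span (Set.range z))
    (H2 : Ideal.span (Set.range x) ^ (c + 1) ≤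
      Ideal.span (Set.range z) * Ideal.span (Set.range x) ^ c)
    (H3 : (p : T) ∈ Ideal.span (Set.range x)) :
    ∃ F : Finset T, (∀ i, x i ∈ F) ∧ (∀ i, z i ∈ F) ∧
      ∀ (S : Subring T) (_ : ∀ r ∈ F, r ∈ S) (x' : Fin a → S) (_ : ∀ i, (x' i : T) = x i)
        (z' : Fin b → S) (_ : ∀ i, (z' i : T) = z i),
        (p : S) ^ M ∈ Ideal.span (Set.range z') ∧
        Ideal.span (Set.range x') ^ (c + 1) ≤
          Ideal.span (Set.range z') * Ideal.span (Set.range x') ^ c ∧
        (p : S) ∈ Ideal.span (Set.range x') := by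
  classical
  obtain ⟨c1, hc1⟩ := (Ideal.mem_span_range_iff_exists_fun).1 H1
  obtain ⟨c3, hc3⟩ := (Ideal.mem_span_range_iff_exists_fun).1 H3
  have h2 : ∀ ν : Fin (c + 1) → Fin a, ∃ c2 : Fin b × (Fin c → Fin a) → T,
      ∑ t, c2 t * (z t.1 * ∏ j, x (t.2 j)) = ∏ j, x (ν j) := by
    intro ν
    rw [← Ideal.mem_span_range_iff_exists_fun, ← span_mul_pow_eq]
    apply H2
    rw [span_pow_eq]
    exact Ideal.subset_span ⟨ν, rfl⟩
  choose c2 hc2 using h2
  refine ⟨Finset.univ.image x ∪ Finset.univ.image z ∪ Finset.univ.image c1 ∪ Finset.univ.image c3 ∪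
    Finset.univ.image (fun s : (Fin (c + 1) → Fin a) × (Fin b × (Fin c → Fin a)) => c2 s.1 s.2),
    fun i => by simp, fun i => by simp, ?_⟩
  intro S hS x' hx' z' hz'
  have m1 : ∀ i, c1 i ∈ S := fun i => hS _ (by simp)
  have m3 : ∀ i, c3 i ∈ S := fun i => hS _ (by simp)
  have m2 : ∀ ν t, c2 ν t ∈ S := fun ν t => hS _ (by
    rw [Finset.mem_union]
    right
    rw [Finset.mem_image]
    exact ⟨(ν, t), Finset.mem_univ _, rfl⟩)
  refine ⟨?_, ?_, ?_⟩
  · rw [Ideal.mem_span_range_iff_exists_fun]
    refine ⟨fun i => ⟨c1 i, m1 i⟩, ?_⟩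
    apply Subtype.ext
    push_cast
    simp only [hz']
    exact hc1
  · rw [span_pow_eq, Ideal.span_le]
    rintro _ ⟨ν, rfl⟩
    rw [SetLike.mem_coe, span_mul_pow_eq, Ideal.mem_span_range_iff_exists_fun]
    refine ⟨fun t => ⟨c2 ν t, m2 ν t⟩, ?_⟩
    apply Subtype.ext
    push_cast
    simp only [hz', hx']
    exact hc2 ν
  · rw [Ideal.mem_span_range_iff_exists_fun]
    refine ⟨fun i => ⟨c3 i, m3 i⟩, ?_⟩
    apply Subtype.ext
    push_cast
    simp only [hx']
    exact hc3

end Crest.Agent.R183.Fam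
end

-- ▼ part R183/Fam6
section

/-!
R183 / Fam6 (helper778): block (F), AMPLITUDE on `Ω_*`, with a uniform constant.
-/

set_option autoImplicit false
set_option linter.unusedSectionVars false

namespace Crest.Agent.R183.Fam

open WittVector Crest.Agent.R183.Amp Crest.Agent.R183.Om

universe u v

section Core

variable {p : ℕ} [hp : Fact p.Prime] {P : Type u} [CommRing P] [CharP P p] [PerfectRing P p]
variable {Q : Type u} [CommRing Q] [CharP Q p] [PerfectRing Q p]
variable {T : Type v} [CommRing T] {K : Type u} [CommRing K]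

/-- the amplifier for a ring homomorphism `ψ : W(Q) → K` with kernel `(p - [π])` -/
theorem core {a b c : ℕ} (x : Fin a → T) (w : Fin b → T) {F : Finset T}
    (hFx : ∀ i, x i ∈ F) (hFz : ∀ i, w i ∈ F)
    (hFr : ∀ (S : Subring T) (_ : ∀ r ∈ F, r ∈ S) (x' : Fin a → S) (_ : ∀ i, (x' i : T) = x i)
        (z' : Fin b → S) (_ : ∀ i, (z' i : T) = w i),
        (p : S) ^ (c + 1) ∈ Ideal.span (Set.range z') ∧
        Ideal.span (Set.range x') ^ (c + 1) ≤
          Ideal.span (Set.range z') * Ideal.span (Set.range x') ^ c ∧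
        (p : S) ∈ Ideal.span (Set.range x'))
    {n : ℕ} (hn : ∀ D : Cand.{u} p a b (c + 1) c, D.Good n)
    (ψ : WittVector p Q →+* K) (π : Q) (hkψ : RingHom.ker ψ = Ideal.span {xi 1 π})
    (hjac : π ∈ Ideal.jacobson (⊥ : Ideal Q)) (g : T →+* K)
    (hsh : ∀ r ∈ F, ∃ Y : Q, ψ (teichmuller p Y) = g r) {e N : ℕ} (hN : n + N ≤ p ^ e) :
    ∃ (ξ : Fin a → ψ.range) (η : Fin b → ψ.range), (∀ i, (ξ i : K) = g (x i)) ∧
      (∀ i, (η i : K) ^ p ^ e = g (w i)) ∧
      ∀ i, ξ i ∈ Ideal.span (Set.range η) ^ N := by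
  -- the subring of `T`
  let S : Subring T := ψ.range.comap g
  have hFS : ∀ r ∈ F, r ∈ S := by
    intro r hr
    obtain ⟨Y, hY⟩ := hsh r hr
    exact ⟨_, hY⟩
  obtain ⟨R1, R2, R3⟩ := hFr S hFS (fun i => ⟨x i, hFS _ (hFx i)⟩) (fun _ => rfl)
    (fun i => ⟨w i, hFS _ (hFz i)⟩) (fun _ => rfl)
  let gS : S →+* ψ.range := (g.comp S.subtype).codRestrict ψ.range (fun r => r.2)
  choose Yx hYx using fun i => hsh (x i) (hFx i)
  choose Yz hYz using fun i => hsh (w i) (hFz i)
  have hxs : ∀ i, ψ.rangeRestrict (teichmuller p (Yx i)) = gS ⟨x i, hFS _ (hFx i)⟩ :=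
    fun i => Subtype.ext (hYx i)
  have hzs : ∀ i, ψ.rangeRestrict (teichmuller p (Yz i)) = gS ⟨w i, hFS _ (hFz i)⟩ :=
    fun i => Subtype.ext (hYz i)
  have hmx : Ideal.span (Set.range fun i => ψ.rangeRestrict (teichmuller p (Yx i))) =
      (Ideal.span (Set.range fun i : Fin a => (⟨x i, hFS _ (hFx i)⟩ : S))).map gS := by
    rw [Ideal.map_span, ← Set.range_comp]
    congr 2
    funext i
    exact hxs i
  have hmz : Ideal.span (Set.range fun i => ψ.rangeRestrict (teichmuller p (Yz i))) =
      (Ideal.span (Set.range fun i : Fin b => (⟨w i, hFS _ (hFz i)⟩ : S))).map gS := by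
    rw [Ideal.map_span, ← Set.range_comp]
    congr 2
    funext i
    exact hzs i
  let D : Cand.{u} p a b (c + 1) c :=
    { P := Q
      Ω := ψ.range
      θ := ψ.rangeRestrict
      surj := ψ.rangeRestrict_surjective
      π := π
      ker := by rw [RingHom.ker_rangeRestrict, hkψ]
      jac := hjac
      x := Yx
      z := Yz
      H1 := by
        rw [hmz]
        have := Ideal.mem_map_of_mem gS R1
        rwa [map_pow, map_natCast] at this
      H2 := by
        rw [hmx, hmz]
        have := Ideal.map_mono (f := gS) R2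
        rwa [Ideal.map_pow, Ideal.map_mul, Ideal.map_pow] at this
      H3 := by
        rw [hmx]
        have := Ideal.mem_map_of_mem gS R3
        rwa [map_natCast] at this }
  have hmain := hn D e N hN
  refine ⟨fun i => ψ.rangeRestrict (teichmuller p (Yx i)),
    fun i => ψ.rangeRestrict (teichmuller p (rt (p := p) e (Yz i))), hYx, ?_, ?_⟩
  · intro i
    show ψ (teichmuller p (rt (p := p) e (Yz i))) ^ p ^ e = _
    rw [← map_pow, ← map_pow, Amp.rt_pow, hYz]
  · intro i
    exact hmain (Ideal.subset_span ⟨i, rfl⟩)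

end Core

section Compare

variable {p : ℕ} [hp : Fact p.Prime] {T : Type v} [CommRing T]
variable {Ω : Type u} [CommRing Ω] {K : Type u} [CommRing K] [Algebra Ω K]

/-- comparison of two systems of `p^e`-th roots -/
theorem compare {a b : ℕ} (x : Fin a → T) (w : Fin b → T)
    (d : Heb.Data p Ω K) [IsAdicComplete (Ideal.span {(p : Ω)}) Ω]
    (hpu : (p : Ω) ∈ nonunits Ω) (hK : Lat.Bounded d)
    (g : T →+* K) (hg : ∀ r, g r ∈ Lat.star d)
    (hu : ∀ i, IsUnit (g (w i))) {e N : ℕ} (y : Fin b → K) (hy : ∀ i, y i ^ p ^ e = g (w i))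
    (Λ : Subring K) (hΛ : ∀ z ∈ Λ, z ∈ Lat.star d)
    (ξ : Fin a → Λ) (η : Fin b → Λ) (hξ : ∀ i, (ξ i : K) = g (x i))
    (hη : ∀ i, (η i : K) ^ p ^ e = g (w i))
    (hmain : ∀ i, ξ i ∈ Ideal.span (Set.range η) ^ N) :
    ∃ y' : Fin b → Lat.star d, (∀ i, (y' i : K) = y i) ∧
      ∀ r ∈ Ideal.span (Set.range x), (⟨g r, hg r⟩ : Lat.star d) ∈ Ideal.span (Set.range y') ^ N := by
  let ι : Λ →+* Lat.star d := Λ.subtype.codRestrict (Lat.star d) (fun z => hΛ z z.2)
  have hq : p ^ e ≠ 0 := pow_ne_zero _ hp.out.ne_zero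
  have hyu : ∀ i, IsUnit (y i) := by
    intro i
    have := hu i
    rw [← hy i] at this
    exact (isUnit_pow_iff hq).1 this
  have hU : ∀ i, ∃ v : K, v ∈ Lat.star d ∧ (η i : K) = v * y i ∧ v ^ p ^ e = 1 := by
    intro i
    obtain ⟨yi, hyi⟩ := (hyu i).exists_right_inv
    have h1 : ((η i : K) * yi) ^ p ^ e = 1 := by
      rw [mul_pow, hη i, ← hy i, ← mul_pow, hyi, one_pow]
    refine ⟨(η i : K) * yi, hK.mem_star hpu ?_, ?_, h1⟩
    · refine IsIntegral.of_pow (pow_pos hp.out.pos e) ?_
      rw [h1]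
      exact isIntegral_one
    · linear_combination -(η i : K) * hyi
  choose v hv hvy hv1 using hU
  have hystar : ∀ i, y i ∈ Lat.star d := by
    intro i
    have h1 : y i = v i ^ (p ^ e - 1) * (η i : K) := by
      rw [hvy i, ← mul_assoc, ← pow_succ, Nat.sub_add_cancel (pow_pos hp.out.pos e), hv1, one_mul]
    rw [h1]
    exact (Lat.star d).mul_mem ((Lat.star d).pow_mem (hv i) _) (hΛ _ (η i).2)
  refine ⟨fun i => ⟨y i, hystar i⟩, fun _ => rfl, ?_⟩
  let gs : T →+* Lat.star d := g.codRestrict (Lat.star d) hg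
  have hle : Ideal.span (Set.range fun i => ι (η i)) ≤
      Ideal.span (Set.range fun i => (⟨y i, hystar i⟩ : Lat.star d)) := by
    rw [Ideal.span_le]
    rintro _ ⟨i, rfl⟩
    have h1 : ι (η i) = (⟨v i, hv i⟩ : Lat.star d) * ⟨y i, hystar i⟩ := Subtype.ext (hvy i)
    show ι (η i) ∈ _
    rw [h1]
    exact Ideal.mul_mem_left _ _ (Ideal.subset_span ⟨i, rfl⟩)
  intro r hr
  have h1 : gs r ∈ (Ideal.span (Set.range x)).map gs := Ideal.mem_map_of_mem _ hr
  refine (?_ : (Ideal.span (Set.range x)).map gs ≤ _) h1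
  rw [Ideal.map_span, Ideal.span_le]
  rintro _ ⟨_, ⟨i, rfl⟩, rfl⟩
  have h3 := Ideal.mem_map_of_mem ι (hmain i)
  rw [Ideal.map_pow, Ideal.map_span, ← Set.range_comp] at h3
  have h4 := Ideal.pow_right_mono hle N h3
  have h5 : gs (x i) = ι (ξ i) := Subtype.ext (hξ i).symm
  rw [SetLike.mem_coe, h5]
  exact h4

end Compare

section Env

variable {p : ℕ} [hp : Fact p.Prime]
variable {Ω : Type u} [CommRing Ω] {K : Type u} [CommRing K] [Algebra Ω K]

/-- existence of `ψ : W(P_*) → Ω_*` -/
theorem exists_psi (d : Heb.Data p Ω K) [IsAdicComplete (Ideal.span {(p : Ω)}) Ω]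
    (hpu : (p : Ω) ∈ nonunits Ω) :
    ∃ (Q : Type u) (_ : CommRing Q) (_ : CharP Q p) (_ : PerfectRing Q p)
      (ψ : WittVector p Q →+* K) (π : Q), RingHom.ker ψ = Ideal.span {xi 1 π} ∧
      π ∈ Ideal.jacobson (⊥ : Ideal Q) ∧ (∀ z ∈ ψ.range, z ∈ Lat.star d) ∧
      ∀ (r : K) (_ : r ∈ Lat.star d) (s : ℕ → Ω) (_ : ∀ e, s (e + 1) ^ p = s e)
        (_ : algebraMap Ω K (s 0) = algebraMap Ω K (Lat.mu d 0) * r),
        ∃ Y : Q, ψ (teichmuller p Y) = r := by
  -- tilt
  have hPD : PData p Ω d.ϖ := ⟨d.ϖ0, d.hϖ, Reg.wreg d.reg_p, d.fsurj, d.finj⟩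
  obtain ⟨P, _, _, _, θ, π, hθ, hker, hπ, hπu, hPc, hrt, hroot⟩ := exists_tilt hPD d.reg_p hpu
  obtain ⟨δ, hδ⟩ := hroot d.δ d.hδ
  have hce : ∀ e, sh θ (rt (p := p) e (π * δ)) = Lat.mu d e := by
    intro e
    rw [map_mul, sh_mul, hrt, hδ]
    rfl
  have hc0 : sh θ (π * δ) = Lat.mu d 0 := by
    have := hce 0
    rwa [rt_zero] at this
  have hδπ : RegMod δ π := by
    intro x hx
    have h1 : (p : Ω) ∣ sh θ (δ * x) := (sharp_dvd_p_iff θ hθ hker).2 hx
    have h2 : sh θ δ = d.δ 0 := by
      have := hδ 0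
      rwa [rt_zero] at this
    rw [sh_mul, h2] at h1
    exact (sharp_dvd_p_iff θ hθ hker).1 (d.reg_D _ h1)
  have hδr : Reg δ := reg_of_regMod hπ hδπ
  -- the localisation
  have hcreg : π * δ ∈ nonZeroDivisors P := by
    rw [mem_nonZeroDivisors_iff_right]
    intro x hx
    apply hδr
    apply hπ
    rw [← hx]; ring
  obtain ⟨L, _, _, hL⟩ : ∃ (L : Type u) (_ : CommRing L) (_ : Algebra P L),
      L = Localization.Away (π * δ) ∧ CharP L p ∧ PerfectRing L p ∧
      Function.Injective (algebraMap P L) ∧ IsUnit (algebraMap P L (π * δ)) := by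
    have hinj : Function.Injective (algebraMap P (Localization.Away (π * δ))) :=
      IsLocalization.injective _ ((Submonoid.powers_le.2 hcreg))
    have hPn : Nontrivial P := CharP.nontrivial_of_char_ne_one (R := P) hp.out.ne_one
    have hLn : Nontrivial (Localization.Away (π * δ)) := hinj.nontrivial
    have i1 : CharP (Localization.Away (π * δ)) p := charP_away (p := p) (π * δ)
    have i2 : PerfectRing (Localization.Away (π * δ)) p := perfect_away (p := p) (π * δ)
    exact ⟨_, inferInstance, inferInstance, rfl, i1, i2, hinj, IsLocalization.Away.algebraMap_isUnit _⟩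
  obtain ⟨-, i1, i2, hinj, hcL⟩ := hL
  have i3 : CharP (Ps p L (π * δ)) p := charP_Ps (p := p) (π * δ)
  have i4 : PerfectRing (Ps p L (π * δ)) p := perfect_Ps (p := p) (π * δ)
  have hcK : IsUnit (algebraMap Ω K (sh θ (π * δ))) := by
    rw [hc0]; exact Lat.isUnit_mu d 0
  refine ⟨Ps p L (π * δ), inferInstance, i3, i4, psi hinj θ (π * δ) hcK, toPs p (π * δ) π,
    ker_psi hinj θ hker d.inj hcL hcK, pi_mem_jacobson π δ hinj hcL, ?_, ?_⟩
  · rintro _ ⟨v, rfl⟩ e
    refine ⟨θ (low (π * δ) e v), ?_⟩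
    rw [← hce]
    exact psi_low hinj θ (π * δ) hcK e v
  · intro r hr s hs hs0
    obtain ⟨t, ht⟩ := hroot s hs
    have ht0 : sh θ t = s 0 := by
      have := ht 0
      rwa [rt_zero] at this
    obtain ⟨Y, hY⟩ := exists_star (L := L) θ hπ hδπ hθ hker hcL (t := t) (by
      intro e
      obtain ⟨ω, hω⟩ := hr e
      refine ⟨ω, d.inj ?_⟩
      rw [map_mul (algebraMap Ω K), map_mul (algebraMap Ω K), hce, ht0, hs0, hc0, ← hω]
      ring)
    refine ⟨Y, ?_⟩
    apply hcK.mul_left_cancel
    rw [psi_teich hinj θ (π * δ) hcK Y hY, ht0, hs0, hc0]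

end Env

/-- **Amplitude.**  `𝔞^(c+1) ⊆ (w) 𝔞^c` and `p ∈ 𝔞` in `T`.  Then there are `n` and a finite set
`F ⊆ T` such that for every perfectoid `Ω` (`Heb.Data`), every `g : T → Ω_*` such that the elements
`pD g(r)`, `r ∈ F`, have compatible `p`-power roots in `Ω`, and all `y_i` with
`y_i^(p^e) = g(w_i)` (units of `K`): `g(𝔞) ⊆ (y)^N Ω_*` as soon as `n + N ≤ p^e`. -/
theorem amplitude (p : ℕ) [hp : Fact p.Prime] {T : Type v} [CommRing T] (𝔞 : Ideal T)
    (h𝔞 : 𝔞.FG) (hp𝔞 : (p : T) ∈ 𝔞) {b : ℕ} (w : Fin b → T) (c : ℕ)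
    (hw : 𝔞 ^ (c + 1) ≤ Ideal.span (Set.range w) * 𝔞 ^ c) :
    ∃ (n : ℕ) (F : Finset T), ∀ (Ω K : Type u) [CommRing Ω] [CommRing K] [Algebra Ω K]
      (d : Heb.Data p Ω K) [IsAdicComplete (Ideal.span {(p : Ω)}) Ω]
      (_ : (p : Ω) ∈ nonunits Ω) (_ : Lat.Bounded d)
      (g : T →+* K) (hg : ∀ r, g r ∈ Lat.star d)
      (_ : ∀ r ∈ F, ∃ s : ℕ → Ω, (∀ e, s (e + 1) ^ p = s e) ∧
        algebraMap Ω K (s 0) = algebraMap Ω K (Lat.mu d 0) * g r)
      (_ : ∀ i, IsUnit (g (w i))) (e N : ℕ) (_ : n + N ≤ p ^ e)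
      (y : Fin b → K) (_ : ∀ i, y i ^ p ^ e = g (w i)),
      ∃ y' : Fin b → Lat.star d, (∀ i, (y' i : K) = y i) ∧
        ∀ r ∈ 𝔞, (⟨g r, hg r⟩ : Lat.star d) ∈ Ideal.span (Set.range y') ^ N := by
  classical
  obtain ⟨a, x, hx⟩ := Submodule.fg_iff_exists_fin_generating_family.1 h𝔞
  have hx' : 𝔞 = Ideal.span (Set.range x) := hx.symm
  subst hx'
  have H1 : (p : T) ^ (c + 1) ∈ Ideal.span (Set.range w) :=
    Ideal.mul_le_left (hw (Ideal.pow_mem_pow hp𝔞 (c + 1)))
  obtain ⟨F, hFx, hFz, hFr⟩ := spread p x w c (c + 1) H1 hw hp𝔞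
  obtain ⟨n, hn⟩ := exists_uniform.{u} p a b (c + 1) c
  refine ⟨n, F, ?_⟩
  intro Ω K _ _ _ d _ hpu hK g hg hF hu e N hN y hy
  obtain ⟨Q, _, _, _, ψ, π, hkψ, hjac, hstar, hY⟩ := exists_psi d hpu
  obtain ⟨ξ, η, h1, h2, h3⟩ := core x w hFx hFz hFr hn ψ π hkψ hjac g
    (fun r hr => by
      obtain ⟨s, hs, hs0⟩ := hF r hr
      exact hY (g r) (hg r) s hs hs0) hN
  exact compare x w d hpu hK g hg hu y hy ψ.range hstar ξ η h1 h2 h3

end Crest.Agent.R183.Fam
end

-- ▼ part R183/MixAdj
section

set_option autoImplicit false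

open Polynomial

namespace Crest.Agent.R183.Lat.Split

universe u

/-- auxiliary form, with a basis. -/
theorem exists_adjoin_aux {A₀ K To : Type u} [CommRing A₀] [CommRing K] [CommRing To]
    [Algebra A₀ K] [Algebra A₀ To] {ι : Type} [Fintype ι] [DecidableEq ι]
    (S : Split A₀ K To ι) {q : ℕ} (hq0 : 0 < q) (hq : IsUnit (q : K)) (ζ : Fin q → K)
    (hζ : (X ^ q - 1 : K[X]) = ∏ l, (X - Polynomial.C (ζ l))) {d : ℕ} (z : Fin d → To)
    (hz : ∀ j i, IsUnit (S.g j (z i))) (η : ι → Fin d → K) (hη : ∀ j i, η j i ^ q = S.g j (z i)) :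
    ∃ (C : Type u) (_ : CommRing C) (_ : Algebra To C) (_ : Algebra A₀ C)
      (_ : IsScalarTower A₀ To C) (κ : Type) (_ : Fintype κ) (_ : DecidableEq κ)
      (S' : Split A₀ K C κ) (ρ : κ → ι) (Y : Fin d → C) (m : Type) (_ : Fintype m)
      (_ : Module.Basis m To C),
      (∀ k c, S'.g k (algebraMap To C c) = S.g (ρ k) c) ∧
      (∀ i, Y i ^ q = algebraMap To C (z i)) ∧
      (∀ k i, ∃ ω : K, ω ^ q = 1 ∧ S'.g k (Y i) = η (ρ k) i * ω) ∧ S'.s = S.s ∧
      (Nontrivial To → Nonempty m) := by
  induction d with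
  | zero =>
    exact ⟨To, inferInstance, inferInstance, inferInstance, inferInstance, ι, inferInstance,
      inferInstance, S, id, fun i => i.elim0, Unit, inferInstance, Module.Basis.singleton Unit To,
      fun k c => rfl, fun i => i.elim0, fun k i => i.elim0, rfl, fun _ => inferInstance⟩
  | succ d ih =>
    obtain ⟨C, _, _, _, _, κ, _, _, S', ρ, Y, m, _, bas, h1, h2, h3, h4, h5⟩ :=
      ih (fun i => z i.succ) (fun j i => hz j i.succ) (fun j i => η j i.succ)
        (fun j i => hη j i.succ)
    have hadj := exists_adjoin S' hq0 hq ζ hζ (algebraMap To C (z 0))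
      (fun k => by rw [h1]; exact hz _ _) (fun k => η (ρ k) 0) (fun k => by rw [h1]; exact hη _ _)
    obtain ⟨F, hF⟩ : ∃ F : Polynomial C, F = X ^ q - Polynomial.C (algebraMap To C (z 0)) :=
      ⟨_, rfl⟩
    rw [← hF] at hadj
    obtain ⟨S'', g1, g2, -, g4⟩ := hadj
    have hFm : F.Monic := hF ▸ monic_X_pow_sub_C _ hq0.ne'
    have hroot : AdjoinRoot.root F ^ q = algebraMap C (AdjoinRoot F) (algebraMap To C (z 0)) := by
      have e := (congrArg (eval₂ (AdjoinRoot.of F) (AdjoinRoot.root F)) hF).symm.trans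
        (AdjoinRoot.eval₂_root F)
      rw [eval₂_sub, eval₂_X_pow, eval₂_C, sub_eq_zero] at e
      exact e
    refine ⟨AdjoinRoot F, inferInstance, inferInstance, inferInstance, ?_, κ × Fin q, inferInstance,
      inferInstance, S'', fun k => ρ k.1,
      Fin.cons (AdjoinRoot.root F) (fun i => algebraMap C (AdjoinRoot F) (Y i)),
      m × Fin F.natDegree, inferInstance, bas.smulTower (AdjoinRoot.powerBasisAux' hFm),
      ?_, ?_, ?_, ?_, ?_⟩
    · refine IsScalarTower.of_algebraMap_eq fun x => ?_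
      rw [IsScalarTower.algebraMap_apply A₀ C (AdjoinRoot F),
        IsScalarTower.algebraMap_apply To C (AdjoinRoot F), IsScalarTower.algebraMap_apply A₀ To C]
    · rintro ⟨k, l⟩ c
      rw [IsScalarTower.algebraMap_apply To C (AdjoinRoot F), g1, h1]
    · intro i
      refine Fin.cases ?_ (fun i => ?_) i
      · rw [Fin.cons_zero, hroot, ← IsScalarTower.algebraMap_apply]
      · rw [Fin.cons_succ, ← map_pow, h2, ← IsScalarTower.algebraMap_apply]
    · rintro ⟨k, l⟩ i
      refine Fin.cases ?_ (fun i => ?_) i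
      · exact ⟨ζ l, root_pow_eq ζ hζ l, by rw [Fin.cons_zero, g2]⟩
      · obtain ⟨ω, hω, hω'⟩ := h3 k i
        exact ⟨ω, hω, by rw [Fin.cons_succ, g1, hω']⟩
    · rw [g4, h4]
    · intro hT
      obtain ⟨i⟩ := h5 hT
      have hC : Nontrivial C := by
        refine ⟨bas i, 0, bas.ne_zero i⟩
      have hdeg : F.natDegree = q := by rw [hF]; exact natDegree_X_pow_sub_C
      exact ⟨(i, ⟨0, by rw [hdeg]; exact hq0⟩)⟩

/-- **Iterated adjunction of `q`-th roots.** -/
theorem exists_adjoin_all {A₀ K To : Type u} [CommRing A₀] [CommRing K] [CommRing To]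
    [Algebra A₀ K] [Algebra A₀ To] {ι : Type} [Fintype ι] [DecidableEq ι]
    (S : Split A₀ K To ι) {q : ℕ} (hq0 : 0 < q) (hq : IsUnit (q : K)) (ζ : Fin q → K)
    (hζ : (X ^ q - 1 : K[X]) = ∏ l, (X - Polynomial.C (ζ l))) {d : ℕ} (z : Fin d → To)
    (hz : ∀ j i, IsUnit (S.g j (z i))) (η : ι → Fin d → K) (hη : ∀ j i, η j i ^ q = S.g j (z i)) :
    ∃ (C : Type u) (_ : CommRing C) (_ : Algebra To C) (_ : Algebra A₀ C)
      (_ : IsScalarTower A₀ To C) (κ : Type) (_ : Fintype κ) (_ : DecidableEq κ)
      (S' : Split A₀ K C κ) (ρ : κ → ι) (Y : Fin d → C),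
      (∀ k c, S'.g k (algebraMap To C c) = S.g (ρ k) c) ∧
      (∀ i, Y i ^ q = algebraMap To C (z i)) ∧
      (∀ k i, ∃ ω : K, ω ^ q = 1 ∧ S'.g k (Y i) = η (ρ k) i * ω) ∧ S'.s = S.s ∧
      ∃ (n : ℕ) (x' : Fin n → C), 0 < n ∧
        (∀ y : C, ∃ v : Fin n → To, y = ∑ i, algebraMap To C (v i) * x' i) ∧
        ∀ v : Fin n → To, ∑ i, algebraMap To C (v i) * x' i = 0 → ∀ i, v i = 0 := by
  obtain ⟨C, i1, i2, i3, i4, κ, i5, i6, S', ρ, Y, m, i7, bas, h1, h2, h3, h4, h5⟩ :=
    exists_adjoin_aux S hq0 hq ζ hζ z hz η hη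
  refine ⟨C, i1, i2, i3, i4, κ, i5, i6, S', ρ, Y, h1, h2, h3, h4, ?_⟩
  rcases subsingleton_or_nontrivial To with hT | hT
  · have hC : Subsingleton C := (algebraMap To C).codomain_trivial
    exact ⟨1, fun _ => 0, one_pos, fun y => ⟨fun _ => 0, Subsingleton.elim _ _⟩,
      fun v _ i => Subsingleton.elim _ _⟩
  · have := h5 hT
    let b' := bas.reindex (Fintype.equivFin m)
    refine ⟨Fintype.card m, b', Fintype.card_pos, fun y => ⟨b'.repr y, ?_⟩, fun v hv i => ?_⟩
    · conv_lhs => rw [← b'.sum_repr y]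
      exact Finset.sum_congr rfl fun i _ => Algebra.smul_def _ _
    · have hv' : ∑ i, v i • b' i = 0 := by
        rw [← hv]
        exact Finset.sum_congr rfl fun i _ => Algebra.smul_def _ _
      exact Fintype.linearIndependent_iff.1 b'.linearIndependent v hv' i

end Crest.Agent.R183.Lat.Split
end

-- ▼ part R183/Mix4
section

/-!
R183 / Mix4 (helper902) : the mixed characteristic stage.
-/

set_option autoImplicit false
set_option linter.unusedSectionVars false

open Polynomial

namespace Crest.Agent.R183.Mix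

open Crest.Agent.R183.Om Crest.Agent.R183.Env Crest.Agent.R183.Lat Crest.Agent.R183.Glue
open Crest.Agent.R183.Heb

universe u v

/-- the conclusion of `Fam.amplitude`. -/
def AmpHyp (p : ℕ) [Fact p.Prime] {R : Type v} [CommRing R] (𝔞 : Ideal R) {b : ℕ} (w : Fin b → R)
    (n : ℕ) (F : Finset R) : Prop :=
  ∀ (Ω K : Type u) [CommRing Ω] [CommRing K] [Algebra Ω K]
      (d : Heb.Data p Ω K) [IsAdicComplete (Ideal.span {(p : Ω)}) Ω]
      (_ : (p : Ω) ∈ nonunits Ω) (_ : Lat.Bounded d)
      (g : R →+* K) (hg : ∀ r, g r ∈ Lat.star d)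
      (_ : ∀ r ∈ F, ∃ s : ℕ → Ω, (∀ e, s (e + 1) ^ p = s e) ∧
        algebraMap Ω K (s 0) = algebraMap Ω K (Lat.mu d 0) * g r)
      (_ : ∀ i, IsUnit (g (w i))) (e N : ℕ) (_ : n + N ≤ p ^ e)
      (y : Fin b → K) (_ : ∀ i, y i ^ p ^ e = g (w i)),
      ∃ y' : Fin b → Lat.star d, (∀ i, (y' i : K) = y i) ∧
        ∀ r ∈ 𝔞, (⟨g r, hg r⟩ : Lat.star d) ∈ Ideal.span (Set.range y') ^ N

section roots

variable {p : ℕ} [hp : Fact p.Prime] {A K : Type*} [CommRing A] [CommRing K] [Algebra A K]

theorem mu_pow (d : Data p A K) (e : ℕ) : mu d e ^ p ^ e = mu d 0 := by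
  induction e with
  | zero => simp
  | succ e ih => rw [pow_succ, mul_comm, pow_mul, mu_succ, ih]

theorem roots_pow {σ : ℕ → A} (h : ∀ e, σ (e + 1) ^ p = σ e) (e : ℕ) : σ e ^ p ^ e = σ 0 := by
  induction e with
  | zero => simp
  | succ e ih => rw [pow_succ, mul_comm, pow_mul, h, ih]

/-- a `p^e`-th root of `x` from a root system of `pD x`. -/
theorem exists_root_of_sharp (d : Data p A K) {x : K} {σ : ℕ → A} (h : ∀ e, σ (e + 1) ^ p = σ e)
    (h0 : algebraMap A K (σ 0) = algebraMap A K (mu d 0) * x) (e : ℕ) :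
    ∃ y : K, y ^ p ^ e = x := by
  obtain ⟨i, hi⟩ := (isUnit_mu d e).exists_right_inv
  refine ⟨algebraMap A K (σ e) * i, ?_⟩
  have h1 : algebraMap A K (mu d 0) * i ^ p ^ e = 1 := by
    rw [← mu_pow d e, map_pow, ← mul_pow, hi, one_pow]
  rw [mul_pow, ← map_pow, roots_pow h, h0]
  linear_combination x * h1

end roots

variable {p : ℕ} [hp : Fact p.Prime] {A₀ : Type u} [CommRing A₀] {ϖ : ℕ → A₀}

/-- **The stage.** -/
theorem exists_stage (M₀ : Model p A₀ ϖ) {D : A₀} (hD : RegMod D (p : A₀))
    {R T To : Type u} [CommRing R] [CommRing T] [CommRing To] [Algebra R T] [Algebra T To]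
    [Algebra R To] [IsScalarTower R T To] [Algebra A₀ To] [Algebra.IsIntegral A₀ To]
    (f : A₀[X]) (hf : f.Monic) (θ : To) (hθ : aeval θ f = 0)
    (hinj : ∀ h : A₀[X], aeval θ h = 0 → f ∣ h) (M : ℕ)
    (hspan : ∀ c : To, ∃ h : A₀[X], ((p : A₀) * D) ^ M • c = aeval θ h)
    (hsep : ∃ u v : A₀[X], u * f + v * derivative f = C (((p : A₀) * D) ^ M))
    {b g : ℕ} (z : Fin b → R)
    (hz : ∀ i, ∃ z' : To, algebraMap R To (z i) * z' = algebraMap A₀ To (((p : A₀) * D) ^ M))
    (𝔞R : Ideal R) (n₀ : ℕ) (F : Finset R) (hamp : AmpHyp.{u, u} p 𝔞R z n₀ F)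
    (yT : Fin g → T) (e N : ℕ) (hN : n₀ + N ≤ p ^ e)
    (hy : ∀ j, ∃ η : A₀, algebraMap A₀ To η ^ (p ^ e) = algebraMap T To (yT j))
    (𝔞 : Ideal T) (h𝔞 : 𝔞 ≤ 𝔞R.map (algebraMap R T) ⊔ Ideal.span (Set.range yT))
    (t : Fin (b + g) → T) (τ : List A₀)
    (ht : (List.ofFn fun i => algebraMap T To (t i)) = (τ ++ [(p : A₀)]).map (algebraMap A₀ To))
    (hreg : ∀ n : ℕ, 0 < n → RegL A₀ (τ.map (· ^ n) ++ [(p : A₀) ^ n]))
    (DR : R) (hDR : algebraMap R To DR = algebraMap A₀ To D)
    (k₀ : ℕ) (hk₀ : (p : T) ^ k₀ ∈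
      Ideal.span (Set.range (Fin.append (fun i => algebraMap R T (z i)) yT))) :
    ∃ k : ℕ, Nonempty (Core.Stage T To (Fin.append (fun i => algebraMap R T (z i)) yT) t
      (algebraMap R T (((p : R) * DR) ^ k)) 𝔞 (p ^ e) N) := by
  classical
  have hq0 : 0 < p ^ e := pow_pos hp.out.pos e
  -- the family of elements to be made sharp
  let r : Fin (F.card + b) → To :=
    Fin.append (fun i => algebraMap R To ((F.equivFin.symm i : F) : R))
      (fun i => algebraMap R To (z i))
  obtain ⟨E, S, hSs, hσ, ζ, hζ⟩ := exists_level M₀ hD f hf θ hθ hinj M hspan hsep r (p ^ e) hq0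
  have hσF : ∀ j, ∀ x ∈ F, ∃ σ : ℕ → E.A, (∀ e, σ (e + 1) ^ p = σ e) ∧
      algebraMap E.A E.K (σ 0) = algebraMap E.A E.K (mu E.data 0) * S.g j (algebraMap R To x) := by
    intro j x hx
    obtain ⟨σ, h1, h2⟩ := hσ j (Fin.castAdd b (F.equivFin ⟨x, hx⟩))
    refine ⟨σ, h1, ?_⟩
    rw [h2]
    simp [r]
  have hσz : ∀ j (i : Fin b), ∃ σ : ℕ → E.A, (∀ e, σ (e + 1) ^ p = σ e) ∧
      algebraMap E.A E.K (σ 0) =
        algebraMap E.A E.K (mu E.data 0) * S.g j (algebraMap R To (z i)) := by
    intro j i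
    obtain ⟨σ, h1, h2⟩ := hσ j (Fin.natAdd F.card i)
    refine ⟨σ, h1, ?_⟩
    rw [h2]
    simp [r]
  -- the roots of `g_j (z_i)`
  have hη : ∀ j (i : Fin b), ∃ y : E.K, y ^ p ^ e = S.g j (algebraMap R To (z i)) := by
    intro j i
    obtain ⟨σ, h1, h2⟩ := hσz j i
    exact exists_root_of_sharp E.data h1 h2 e
  choose η hη using hη
  have hzu : ∀ j (i : Fin b), IsUnit (S.g j (algebraMap R To (z i))) := by
    intro j i
    obtain ⟨z', hz'⟩ := hz i
    have h1 := congrArg (S.g j) hz'
    rw [map_mul, AlgHom.commutes] at h1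
    have h2 := E.unit_pow M
    rw [← h1] at h2
    exact isUnit_of_mul_isUnit_left h2
  have hqK : IsUnit ((p ^ e : ℕ) : E.K) := by
    have h1 := E.unit_p
    rw [map_natCast] at h1
    rw [Nat.cast_pow]
    exact h1.pow e
  -- adjoin the roots
  obtain ⟨C', _, _, _, _, κ, _, _, S', ρ, Yz, h1, h2, h3, h4, c, x', hc, hsp, hind⟩ :=
    Split.exists_adjoin_all S hq0 hqK ζ hζ (fun i => algebraMap R To (z i)) hzu η hη
  have hfin : Module.Finite To C' := by
    refine ⟨⟨Finset.image x' Finset.univ, ?_⟩⟩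
    rw [eq_top_iff]
    intro y _
    obtain ⟨v, hv⟩ := hsp y
    rw [hv]
    refine Submodule.sum_mem _ fun i _ => ?_
    rw [← Algebra.smul_def]
    exact Submodule.smul_mem _ _ (Submodule.subset_span (by simp))
  have hint : Algebra.IsIntegral A₀ C' := Algebra.IsIntegral.trans To
  have hloc : IsLocalization.Away (mu E.data 0) E.K := by rw [E.mu_zero]; exact E.loc
  have hP := M₀.props
  have hPE := E.M.props
  have hcA₀ : IsAdicComplete (Ideal.span {(p : A₀)}) A₀ := hP.2.2.1
  obtain ⟨out⟩ := Lat.exists_out hP.1 hP.2.1 hPE.1 hPE.2.1 hPE.2.2.2 E.good D hD E.data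
    (fun e => rfl) E.δ0 S' M (by rw [h4, hSs])
  -- the roots of the `y_j`
  choose η₀ hη₀ using hy
  let Y : Fin (b + g) → C' := Fin.append Yz (fun j => algebraMap A₀ C' (η₀ j))
  let w : Fin (b + g) → T := Fin.append (fun i => algebraMap R T (z i)) yT
  have hY : ∀ i, Y i ^ (p ^ e) = algebraMap To C' (algebraMap T To (w i)) := by
    intro i
    refine Fin.addCases (fun i => ?_) (fun i => ?_) i
    · simp only [Y, w, Fin.append_left]
      rw [h2, ← IsScalarTower.algebraMap_apply R T To]
    · simp only [Y, w, Fin.append_right]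
      rw [IsScalarTower.algebraMap_apply A₀ To C', ← map_pow, hη₀]
  have hYq : ∀ i, algebraMap To C' (algebraMap T To (w i)) ∈
      (Ideal.span (Set.range Y)) ^ N := by
    intro i
    rw [← hY i]
    have hmem : Y i ∈ Ideal.span (Set.range Y) := Ideal.subset_span ⟨i, rfl⟩
    exact Ideal.pow_le_pow_right (show N ≤ p ^ e by omega) (Ideal.pow_mem_pow hmem _)
  have hspw : ∀ x ∈ Ideal.span (Set.range w), algebraMap To C' (algebraMap T To x) ∈
      (Ideal.span (Set.range Y)) ^ N := by
    intro x hx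
    have h5 : Ideal.span (Set.range w) ≤
        ((Ideal.span (Set.range Y)) ^ N).comap ((algebraMap To C').comp (algebraMap T To)) := by
      rw [Ideal.span_le]
      rintro _ ⟨i, rfl⟩
      exact hYq i
    exact h5 hx
  -- amplitude
  have hampC : ∀ r ∈ 𝔞, ∀ j, gs S' out.hstar j (algebraMap To C' (algebraMap T To r)) ∈
      ((Ideal.span (Set.range Y)) ^ N).map (gs S' out.hstar j) := by
    intro r hr j
    have h5 : 𝔞R.map (algebraMap R T) ⊔ Ideal.span (Set.range yT) ≤
        (((Ideal.span (Set.range Y)) ^ N).map (gs S' out.hstar j)).comap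
          ((gs S' out.hstar j).comp ((algebraMap To C').comp (algebraMap T To))) := by
      refine sup_le ?_ ?_
      · rw [Ideal.map_le_iff_le_comap]
        intro x hx
        let G : R →+* E.K := (S'.g j : C' →+* E.K).comp
          ((algebraMap To C').comp (algebraMap R To))
        have hG : ∀ x, G x = S.g (ρ j) (algebraMap R To x) := fun x => h1 j _
        have hGs : ∀ x, G x ∈ star E.data := fun x => out.hstar j _
        obtain ⟨y', hy', h6⟩ := hamp E.A E.K E.data E.p_nonunit E.bounded G hGs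
          (by
            intro x hx
            obtain ⟨σ, h7, h8⟩ := hσF (ρ j) x hx
            exact ⟨σ, h7, by rw [h8, hG]⟩)
          (fun i => by rw [hG]; exact hzu _ _) e N hN (fun i => S'.g j (Yz i))
          (fun i => by
            rw [← map_pow, h2]
            rfl)
        have h7 := h6 x hx
        have h8 : Ideal.span (Set.range y') ≤ (Ideal.span (Set.range Y)).map (gs S' out.hstar j) := by
          rw [Ideal.span_le]
          rintro _ ⟨i, rfl⟩
          have h9 : y' i = gs S' out.hstar j (Yz i) := Subtype.ext (hy' i)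
          rw [h9]
          refine Ideal.mem_map_of_mem _ (Ideal.subset_span ⟨Fin.castAdd g i, ?_⟩)
          simp [Y]
        have h10 : (⟨G x, hGs x⟩ : star E.data) ∈
            ((Ideal.span (Set.range Y)) ^ N).map (gs S' out.hstar j) := by
          rw [Ideal.map_pow]
          exact Ideal.pow_right_mono h8 N h7
        rw [Ideal.mem_comap, Ideal.mem_comap]
        have h11 : ((gs S' out.hstar j).comp ((algebraMap To C').comp (algebraMap T To)))
            (algebraMap R T x) = (⟨G x, hGs x⟩ : star E.data) := by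
          apply Subtype.ext
          show S'.g j (algebraMap To C' (algebraMap T To (algebraMap R T x))) = G x
          rw [← IsScalarTower.algebraMap_apply R T To]
          rfl
        rw [h11]
        exact h10
      · rw [Ideal.span_le]
        rintro _ ⟨i, rfl⟩
        have h6 := hYq (Fin.natAdd b i)
        have h6' : algebraMap To C' (algebraMap T To (yT i)) ∈ (Ideal.span (Set.range Y)) ^ N := by
          simpa [w] using h6
        have h7 : gs S' out.hstar j (algebraMap To C' (algebraMap T To (yT i))) ∈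
          ((Ideal.span (Set.range Y)) ^ N).map (gs S' out.hstar j) := Ideal.mem_map_of_mem _ h6'
        exact h7
    exact h5 (h𝔞 hr)
  let kk := M + M + (out.l.M + 1)
  refine ⟨kk, ⟨BCM.StageData.stage (F := out.F) (T := T) (To := To) (w := w) (t := t)
    (Δ := algebraMap R T (((p : R) * DR) ^ kk)) (𝔞 := 𝔞) (q := p ^ e) (N := N) ?_ out.tower⟩⟩
  exact
    { Y := Y
      hY := hY
      c := c
      hc := hc
      x' := x'
      span := hsp
      indep := hind
      e₀ := 1
      g1 := fun x => by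
        rw [out.hv₀]
        exact BCM.frame_g1 x
      g2 := fun y => by
        obtain ⟨x, hx⟩ := BCM.frame_g2 out.coord y
        exact ⟨x, by rw [out.hv₀]; exact hx⟩
      δ₁ := ((p : A₀) * D) ^ (out.l.M + 1)
      g3 := out.g3
      δ₀ := S'.s
      g4 := fun y hy => BCM.frame_g4 out.coord
        (fun x hx => by
          have h5 : S'.s = ((p : A₀) * D) ^ M := by rw [h4, hSs]
          rw [h5] at hx
          have h6 : Reg ((p : A₀) * D) := hP.2.1.mul (Reg.of_regMod hP.2.1 sep_of_isAdicComplete hD)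
          have h7 : ∀ (n : ℕ) (x : A₀), ((p : A₀) * D) ^ n * x = 0 → x = 0 := by
            intro n
            induction n with
            | zero => intro x hx; simpa using hx
            | succ n ih =>
              intro x hx
              rw [pow_succ, mul_assoc] at hx
              exact h6 _ (ih _ hx)
          exact h7 M x hx) y hy
      hΔ := by
        have h5 : S'.s = ((p : A₀) * D) ^ M := by rw [h4, hSs]
        rw [← IsScalarTower.algebraMap_apply R T To, map_pow, map_mul, map_natCast, hDR,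
          ← map_natCast (algebraMap A₀ To) p, ← map_mul, ← map_pow,
          ← IsScalarTower.algebraMap_apply A₀ To C', h5]
        congr 1
        simp only [kk]
        ring
      τ := τ
      hτ := by
        intro n hn
        have h5 : (List.ofFn fun i => algebraMap To C' (algebraMap T To (t i))) =
            (τ ++ [(p : A₀)]).map (algebraMap A₀ C') := by
          have h6 := congrArg (List.map (algebraMap To C')) ht
          rw [List.map_map] at h6
          rw [List.map_ofFn] at h6
          have h7 : (⇑(algebraMap To C') ∘ fun i => algebraMap T To (t i)) =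
            fun i => algebraMap To C' (algebraMap T To (t i)) := rfl
          rw [h7] at h6
          rw [h6]
          congr 1
          funext x
          exact (IsScalarTower.algebraMap_apply A₀ To C' x).symm
        rw [h5]
        simp [List.map_map, Function.comp_def]
      reg := by
        intro n hn
        exact out.regL _ (regL_of_flatAt (E.good.flat n) E.good.reg _ (hreg n hn))
      k := k₀
      hk := by
        have h5 := hspw _ hk₀
        rwa [map_pow, map_pow, map_natCast, map_natCast, ← map_natCast (algebraMap A₀ C') p] at h5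
      amp := fun r hr l hl => out.amp _ _ (hampC r hr) l hl }

end Crest.Agent.R183.Mix
end

-- ▼ part R183/MixCoh
section

set_option autoImplicit false

namespace Crest.Agent.R183.MixCoh

open IsLocalRing Cohen Om

section coh

variable {p : ℕ} {C : Type*} [CommRing C] [IsLocalRing C] (hC : IsCohen p C) (d : ℕ)

include hC

theorem isDomain_mv : IsDomain (MvPowerSeries (Fin d) C) := by
  have := hC.isDVR_dom
  exact NoZeroDivisors.to_isDomain _

theorem isNoetherianRing_mv : IsNoetherianRing (MvPowerSeries (Fin d) C) := by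
  have := hC.isNoetherianRing
  infer_instance

theorem isIntegrallyClosed_mv [IsDomain (MvPowerSeries (Fin d) C)] :
    IsIntegrallyClosed (MvPowerSeries (Fin d) C) := by
  have := hC.isDVR_dom
  have := hC.isDVR
  exact Cic.isIntegrallyClosed_mvPowerSeries_dvr C d

theorem charZero_mv [Fact p.Prime] : CharZero (MvPowerSeries (Fin d) C) := by
  have := hC.charZero
  exact charZero_of_injective_algebraMap (R := C) (MvPowerSeries.C_injective)

theorem natCast_dvd_iff (f : MvPowerSeries (Fin d) C) : (p : MvPowerSeries (Fin d) C) ∣ f ↔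
    MvPowerSeries.map (residue C) f = 0 := by
  have hk : ∀ x, residue C x = 0 ↔ (p : C) ∣ x := by
    intro x
    rw [residue_eq_zero_iff, hC.maximalIdeal_eq, Ideal.mem_span_singleton]
  have hco : ∀ (g : MvPowerSeries (Fin d) C) m, MvPowerSeries.coeff m ((p : MvPowerSeries (Fin d) C) * g)
      = p * MvPowerSeries.coeff m g := by
    intro g m
    rw [← nsmul_eq_mul, map_nsmul, nsmul_eq_mul]
  constructor
  · rintro ⟨g, rfl⟩
    ext m
    rw [MvPowerSeries.coeff_map, hco, map_zero, (hk _).2 (Dvd.intro _ rfl)]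
  · intro h
    have h1 : ∀ m, (p : C) ∣ MvPowerSeries.coeff m f := by
      intro m
      rw [← hk, ← MvPowerSeries.coeff_map, h, map_zero]
    choose c hc using h1
    let g : MvPowerSeries (Fin d) C := fun m => c m
    have hg : ∀ m, MvPowerSeries.coeff m g = c m := fun m => rfl
    refine ⟨g, ?_⟩
    ext m
    rw [hco, hc m, hg]

theorem prime_mv [Fact p.Prime] : Prime (p : MvPowerSeries (Fin d) C) := by
  have := charZero_mv hC d
  refine ⟨Nat.cast_ne_zero.2 (Fact.out : p.Prime).ne_zero, ?_, ?_⟩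
  · intro h
    have h1 := h.map (MvPowerSeries.map (σ := Fin d) (residue C))
    rw [(natCast_dvd_iff hC d _).1 dvd_rfl] at h1
    exact not_isUnit_zero h1
  · intro a b hab
    rw [natCast_dvd_iff hC d, map_mul] at hab
    rw [natCast_dvd_iff hC d, natCast_dvd_iff hC d]
    exact mul_eq_zero.1 hab

end coh

/-- an element prime to a prime is regular modulo it. -/
theorem regMod_of_prime {A : Type*} [CommRing A] {p D : A} (hp : Prime p) (hD : ¬ p ∣ D) :
    RegMod D p := fun _ hx => (hp.dvd_or_dvd hx).resolve_left hD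

/-- flat base change of `RegMod`. -/
theorem regMod_of_flat {A A' : Type*} [CommRing A] [CommRing A'] [Algebra A A'] [Module.Flat A A']
    {p D : A} (h : RegMod D p) : RegMod (algebraMap A A' D) (algebraMap A A' p) := by
  rintro x ⟨y, hxy⟩
  have h1 : ∑ i : Fin 2, (![D, -p] : Fin 2 → A) i • (![x, y] : Fin 2 → A') i = 0 := by
    rw [Fin.sum_univ_two]
    simp only [Matrix.cons_val_zero, Matrix.cons_val_one, Algebra.smul_def, map_neg]
    rw [hxy]; ring
  obtain ⟨k, a, z, h2, h3⟩ := Module.Flat.isTrivialRelation_of_sum_smul_eq_zero (R := A) (M := A') h1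
  have h4 : ∀ j, p ∣ a 0 j := by
    intro j
    have := h3 j
    rw [Fin.sum_univ_two] at this
    simp only [Matrix.cons_val_zero, Matrix.cons_val_one] at this
    refine h _ ⟨a 1 j, ?_⟩
    linear_combination this
  choose b hb using h4
  have h5 := h2 0
  simp only [Matrix.cons_val_zero] at h5
  rw [h5]
  refine Finset.dvd_sum fun j _ => ?_
  rw [hb j, Algebra.smul_def, map_mul, mul_assoc]
  exact Dvd.intro _ rfl

/-- flat base change of `RegMod` modulo a natural number. -/
theorem regMod_of_flat_natCast {A A' : Type*} [CommRing A] [CommRing A'] [Algebra A A']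
    [Module.Flat A A'] {p : ℕ} {D : A} (h : RegMod D (p : A)) :
    RegMod (algebraMap A A' D) (p : A') := by
  have := regMod_of_flat (A' := A') h
  rwa [map_natCast] at this

end Crest.Agent.R183.MixCoh
end

-- ▼ part R183/MixAlg
section

set_option autoImplicit false

open Polynomial nonZeroDivisors

namespace Crest.Agent.R183.MixAlg

universe u

section aux

variable {A : Type*} [CommRing A] [IsDomain A] {K : Type*} [Field K] [Algebra A K]
  [IsFractionRing A K]

/-- Clearing the denominators of a polynomial over the fraction field. -/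
theorem exists_clear (h : K[X]) : ∃ (b : A) (h' : A[X]), b ≠ 0 ∧
    h'.map (algebraMap A K) = C (algebraMap A K b) * h := by
  obtain ⟨b, hbm, hb⟩ := IsLocalization.integerNormalization_spec A⁰ h
  refine ⟨b, IsLocalization.integerNormalization A⁰ h, nonZeroDivisors.ne_zero hbm, ?_⟩
  rw [hb, ← Polynomial.smul_eq_C_mul, algebraMap_smul]

/-- Factor out the powers of a prime: `E ∣ (p D) ^ M` with `D` prime to `p`. -/
theorem exists_factor [IsNoetherianRing A] {p E : A} (hp : Prime p) (hE : E ≠ 0) :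
    ∃ (D : A) (M : ℕ), ¬ p ∣ D ∧ D ≠ 0 ∧ E ∣ (p * D) ^ M := by
  obtain ⟨k, D, hD, hED⟩ := WfDvdMonoid.max_power_factor hE hp.irreducible
  refine ⟨D, k + 1, hD, ?_, ?_⟩
  · rintro rfl
    exact hD (dvd_zero _)
  · rw [hED, mul_pow]
    exact mul_dvd_mul (pow_dvd_pow _ (Nat.le_succ k)) (dvd_pow_self _ (Nat.succ_ne_zero k))

end aux

section main

attribute [local instance] FractionRing.liftAlgebra

/-- The element `θ` and the denominators, in the form of nonzero elements of `A`. -/
theorem exists_theta {A R : Type u} [CommRing A] [IsDomain A] [CharZero A] [CommRing R]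
    [IsDomain R] [Algebra A R] [Module.Finite A R]
    (hinj : Function.Injective (algebraMap A R)) :
    ∃ (θ : R), ∀ c : R, ∃ (b : A) (h : A[X]), b ≠ 0 ∧ b • c = aeval θ h := by
  classical
  have : FaithfulSMul A R := (faithfulSMul_iff_algebraMap_injective A R).2 hinj
  have : Module.IsTorsionFree A R := inferInstance
  let K := FractionRing A
  let L := FractionRing R
  have : FiniteDimensional K L := inferInstance
  have : CharZero K := charZero_of_injective_algebraMap (IsFractionRing.injective A K)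
  obtain ⟨α, hα⟩ := Field.exists_primitive_element K L
  obtain ⟨⟨θ, ⟨_, a, ha, rfl⟩⟩, hrs⟩ := IsLocalization.surj (Algebra.algebraMapSubmonoid R A⁰) α
  have ha0 : a ≠ 0 := nonZeroDivisors.ne_zero ha
  have haK : algebraMap A K a ≠ 0 := by
    rw [Ne, FaithfulSMul.algebraMap_eq_zero_iff]
    exact ha0
  simp only at hrs
  have hrs' : α * algebraMap K L (algebraMap A K a) = algebraMap R L θ := by
    rw [← hrs, ← IsScalarTower.algebraMap_apply A K L, IsScalarTower.algebraMap_apply A R L]
  have hθ : IntermediateField.adjoin K {algebraMap R L θ} = ⊤ := by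
    rw [eq_top_iff, ← hα, IntermediateField.adjoin_simple_le_iff]
    have h1 : α = (algebraMap K L (algebraMap A K a))⁻¹ * algebraMap R L θ := by
      rw [← hrs']
      have h0 : algebraMap K L (algebraMap A K a) ≠ 0 := by
        rw [Ne, FaithfulSMul.algebraMap_eq_zero_iff]
        exact haK
      rw [mul_comm α, inv_mul_cancel_left₀ h0]
    rw [h1, ← map_inv₀]
    exact mul_mem (IntermediateField.algebraMap_mem _ _)
      (IntermediateField.mem_adjoin_simple_self _ _)
  refine ⟨θ, fun c => ?_⟩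
  have hc : algebraMap R L c ∈ (IntermediateField.adjoin K {algebraMap R L θ}).toSubalgebra := by
    rw [hθ]; trivial
  rw [IntermediateField.adjoin_simple_toSubalgebra_of_isAlgebraic
    (Algebra.IsAlgebraic.isAlgebraic _), Algebra.adjoin_singleton_eq_range_aeval] at hc
  obtain ⟨h, hh⟩ := hc
  obtain ⟨b, h', hb, hh'⟩ := exists_clear (A := A) h
  refine ⟨b, h', hb, ?_⟩
  apply IsFractionRing.injective R L
  have h2 : algebraMap R L (aeval θ h') = aeval (algebraMap R L θ) (h'.map (algebraMap A K)) := by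
    rw [aeval_map_algebraMap, aeval_algebraMap_apply]
  rw [h2, hh', map_mul, aeval_C, Algebra.smul_def, map_mul,
    ← IsScalarTower.algebraMap_apply A K L, ← IsScalarTower.algebraMap_apply A R L]
  congr 1
  exact hh.symm

theorem exists_bezout {A R : Type u} [CommRing A] [IsDomain A] [IsIntegrallyClosed A]
    [CharZero A] [CommRing R] [IsDomain R] [Algebra A R] [Module.Finite A R]
    (hinj : Function.Injective (algebraMap A R)) (θ : R) :
    ∃ (b : A) (u v : A[X]), b ≠ 0 ∧
      u * minpoly A θ + v * derivative (minpoly A θ) = C b := by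
  classical
  have : FaithfulSMul A R := (faithfulSMul_iff_algebraMap_injective A R).2 hinj
  have : Module.IsTorsionFree A R := inferInstance
  let K := FractionRing A
  let L := FractionRing R
  have : FiniteDimensional K L := inferInstance
  have : CharZero K := charZero_of_injective_algebraMap (IsFractionRing.injective A K)
  have hint : IsIntegral A θ := Algebra.IsIntegral.isIntegral θ
  have h1 := minpoly.isIntegrallyClosed_eq_field_fractions K L hint
  have hsep : (minpoly K (algebraMap R L θ)).Separable :=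
    (minpoly.irreducible (Algebra.IsIntegral.isIntegral _)).separable
  rw [h1] at hsep
  obtain ⟨a, b, hab⟩ := hsep
  obtain ⟨b₁, u, hb₁, hu⟩ := exists_clear (A := A) a
  obtain ⟨b₂, v, hb₂, hv⟩ := exists_clear (A := A) b
  refine ⟨b₁ * b₂, C b₂ * u, C b₁ * v, mul_ne_zero hb₁ hb₂, ?_⟩
  apply Polynomial.map_injective _ (IsFractionRing.injective A K)
  rw [Polynomial.map_add, Polynomial.map_mul, Polynomial.map_mul, Polynomial.map_mul,
    Polynomial.map_mul, hu, hv, ← Polynomial.derivative_map, map_C, map_C, map_C, map_mul, C_mul]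
  linear_combination (C (algebraMap A K b₁) * C (algebraMap A K b₂)) * hab

end main

/-- **(ALG)**: a generator up to denominators `(p D) ^ M`, `p ∤ D`. -/
theorem exists_alg {A R : Type u} [CommRing A] [IsDomain A] [IsIntegrallyClosed A]
    [IsNoetherianRing A] [CharZero A] [CommRing R] [IsDomain R] [Algebra A R] [Module.Finite A R]
    (hinj : Function.Injective (algebraMap A R)) (p : ℕ) (hp : Prime (p : A)) {d : ℕ}
    (z : Fin d → R) (hz : ∀ i, z i ≠ 0) :
    ∃ (f : A[X]) (θ : R) (D : A) (M : ℕ), f.Monic ∧ 0 < f.natDegree ∧ aeval θ f = 0 ∧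
      (∀ h : A[X], aeval θ h = 0 → f ∣ h) ∧ ¬ (p : A) ∣ D ∧ D ≠ 0 ∧
      (∀ c : R, ∃ h : A[X], ((p : A) * D) ^ M • c = aeval θ h) ∧
      (∃ u v : A[X], u * f + v * derivative f = C (((p : A) * D) ^ M)) ∧
      (∀ i, ∃ z' : R, z i * z' = algebraMap A R (((p : A) * D) ^ M)) := by
  classical
  have : FaithfulSMul A R := (faithfulSMul_iff_algebraMap_injective A R).2 hinj
  have : Module.IsTorsionFree A R := inferInstance
  obtain ⟨θ, hθ⟩ := exists_theta (A := A) (R := R) hinj
  have hint : IsIntegral A θ := Algebra.IsIntegral.isIntegral θ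
  choose b h hb hbh using hθ
  obtain ⟨s, hs⟩ := (Module.Finite.fg_top : (⊤ : Submodule A R).FG)
  -- first denominator
  let E₁ : A := ∏ c ∈ s, b c
  have hE₁ : E₁ ≠ 0 := Finset.prod_ne_zero_iff.2 fun c _ => hb c
  have hE₁c : ∀ c : R, ∃ g : A[X], E₁ • c = aeval θ g := by
    intro c
    have hc : c ∈ Submodule.span A (s : Set R) := by rw [hs]; trivial
    induction hc using Submodule.span_induction with
    | mem x hx =>
      obtain ⟨e, he⟩ := Finset.dvd_prod_of_mem b (Finset.mem_coe.1 hx)
      refine ⟨C e * h x, ?_⟩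
      show (∏ c ∈ s, b c) • x = _
      rw [he, map_mul, aeval_C, ← hbh x, mul_comm (b x) e, mul_smul, Algebra.smul_def e]
    | zero => exact ⟨0, by simp⟩
    | add x y _ _ hx hy =>
      obtain ⟨g₁, hg₁⟩ := hx
      obtain ⟨g₂, hg₂⟩ := hy
      exact ⟨g₁ + g₂, by rw [smul_add, hg₁, hg₂, map_add]⟩
    | smul a x _ hx =>
      obtain ⟨g, hg⟩ := hx
      exact ⟨C a * g, by rw [smul_comm, hg, map_mul, aeval_C, Algebra.smul_def]⟩
  -- second denominator
  obtain ⟨E₂, u, v, hE₂, huv⟩ := exists_bezout hinj θ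
  -- third denominator
  have h3 : ∀ i, ∃ r : A, r ≠ 0 ∧ z i ∣ algebraMap A R r := fun i =>
    (Algebra.IsAlgebraic.isAlgebraic (R := A) (z i)).exists_nonzero_dvd
      (mem_nonZeroDivisors_of_ne_zero (hz i))
  choose r hr hzr using h3
  let E₃ : A := ∏ i, r i
  have hE₃ : E₃ ≠ 0 := Finset.prod_ne_zero_iff.2 fun c _ => hr c
  obtain ⟨D, M, hpD, hD0, hED⟩ := exists_factor hp (mul_ne_zero (mul_ne_zero hE₁ hE₂) hE₃)
  obtain ⟨m₁, hm₁⟩ : E₁ ∣ ((p : A) * D) ^ M :=
    ((Dvd.intro _ rfl).trans (Dvd.intro _ rfl)).trans hED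
  obtain ⟨m₂, hm₂⟩ : E₂ ∣ ((p : A) * D) ^ M :=
    ((Dvd.intro_left _ rfl).trans (Dvd.intro _ rfl)).trans hED
  have hd₃ : E₃ ∣ ((p : A) * D) ^ M := (Dvd.intro_left _ rfl).trans hED
  refine ⟨minpoly A θ, θ, D, M, minpoly.monic hint, minpoly.natDegree_pos hint,
    minpoly.aeval A θ, fun g hg => minpoly.isIntegrallyClosed_dvd hint hg, hpD, hD0, ?_, ?_, ?_⟩
  · intro c
    obtain ⟨g, hg⟩ := hE₁c c
    refine ⟨C m₁ * g, ?_⟩
    rw [hm₁, map_mul, aeval_C, ← hg, mul_comm E₁ m₁, mul_smul, Algebra.smul_def m₁]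
  · refine ⟨C m₂ * u, C m₂ * v, ?_⟩
    rw [hm₂, mul_assoc, mul_assoc, ← mul_add, huv, C_mul, mul_comm]
  · intro i
    have : z i ∣ algebraMap A R (((p : A) * D) ^ M) :=
      (hzr i).trans (map_dvd (algebraMap A R) ((Finset.dvd_prod_of_mem r (Finset.mem_univ i)).trans hd₃))
    obtain ⟨z', hz'⟩ := this
    exact ⟨z', hz'.symm⟩

end Crest.Agent.R183.MixAlg
end

-- ▼ part R183/MixBC
section

/-!
R183 / MixBC (helper778) : block (BC) of helper902's list: base change of the order `A[θ] ⊆ R`
along an ARBITRARY `A → Om` on which `s` is a nonzerodivisor.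
-/

set_option autoImplicit false
set_option linter.unusedSectionVars false

open Polynomial

namespace Crest.Agent.R183.MixBC

universe u

section

variable {A R : Type u} [CommRing A] [CommRing R] [Algebra A R]

theorem modByMonic_eq_of_aeval {f : A[X]} (hf : f.Monic) {θ : R}
    (hinj : ∀ h : A[X], aeval θ h = 0 → f ∣ h) {g h : A[X]} (e : aeval θ g = aeval θ h) :
    g %ₘ f = h %ₘ f := by
  have h1 : f ∣ g - h := hinj _ (by rw [map_sub, e, sub_self])
  have h2 : (g - h) %ₘ f = 0 := (modByMonic_eq_zero_iff_dvd hf).2 h1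
  rw [sub_modByMonic] at h2
  exact sub_eq_zero.1 h2

theorem aeval_modByMonic {f : A[X]} {θ : R} (hθ : aeval θ f = 0) (g : A[X]) :
    aeval θ (g %ₘ f) = aeval θ g := by
  conv_rhs => rw [← modByMonic_add_div g f]
  rw [map_add, map_mul, hθ, zero_mul, add_zero]

/-- the `A`-linear coordinate map `R → A[X]`, `aeval θ (φ c) = s • c`. -/
theorem exists_coord {f : A[X]} (hf : f.Monic) {θ : R} (hθ : aeval θ f = 0)
    (hinj : ∀ h : A[X], aeval θ h = 0 → f ∣ h) (s : A)
    (hspan : ∀ c : R, ∃ h : A[X], s • c = aeval θ h) :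
    ∃ φ : R →ₗ[A] A[X], ∀ c, aeval θ (φ c) = s • c := by
  choose h hh using hspan
  refine ⟨{ toFun := fun c => h c %ₘ f, map_add' := ?_, map_smul' := ?_ }, ?_⟩
  · intro c d
    rw [← add_modByMonic]
    refine modByMonic_eq_of_aeval hf hinj ?_
    rw [map_add, ← hh, ← hh, ← hh, smul_add]
  · intro a c
    rw [RingHom.id_apply, ← smul_modByMonic]
    refine modByMonic_eq_of_aeval hf hinj ?_
    rw [map_smul, ← hh, ← hh, smul_comm]
  · intro c
    show aeval θ (h c %ₘ f) = s • c
    rw [aeval_modByMonic hθ, ← hh]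

end

theorem bc {A R Om To : Type u} [CommRing A] [CommRing R] [CommRing Om] [CommRing To]
    [Algebra A R] [Algebra A Om] [Algebra A To] [Algebra R To] [Algebra Om To]
    [IsScalarTower A R To] [IsScalarTower A Om To] [hP : Algebra.IsPushout A R Om To]
    (f : A[X]) (hf : f.Monic) (θ : R) (hθ : aeval θ f = 0)
    (hinj : ∀ h : A[X], aeval θ h = 0 → f ∣ h) (s : A)
    (hspan : ∀ c : R, ∃ h : A[X], s • c = aeval θ h)
    (hs : ∀ x : Om, algebraMap A Om s * x = 0 → x = 0) :
    (∀ h : Om[X], aeval (algebraMap R To θ) h = 0 → f.map (algebraMap A Om) ∣ h) ∧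
      (∀ c : To, ∃ h : Om[X], algebraMap A Om s • c = aeval (algebraMap R To θ) h) := by
  obtain ⟨φ, hφ⟩ := exists_coord hf hθ hinj s hspan
  have hb : IsBaseChange Om (IsScalarTower.toAlgHom A R To).toLinearMap := hP.symm.out
  -- the extended coordinate map
  let ψ₀ : R →ₗ[A] Om[X] := (Polynomial.mapAlgHom (Algebra.ofId A Om)).toLinearMap ∘ₗ φ
  let ψ : To →ₗ[Om] Om[X] := hb.lift ψ₀
  have hψ : ∀ c : R, ψ (algebraMap R To c) = (φ c).map (algebraMap A Om) := by
    intro c
    exact hb.lift_eq ψ₀ c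
  have haev : ∀ g : A[X], aeval (algebraMap R To θ) (g.map (algebraMap A Om)) =
      algebraMap R To (aeval θ g) := by
    intro g
    rw [aeval_map_algebraMap, aeval_algebraMap_apply]
  have h1 : ∀ c : To, aeval (algebraMap R To θ) (ψ c) = algebraMap A Om s • c := by
    intro c
    induction c using hb.inductionOn with
    | zero => rw [map_zero, map_zero, smul_zero]
    | tmul c =>
      show aeval _ (ψ (algebraMap R To c)) = _ • algebraMap R To c
      rw [hψ, haev, hφ, algebraMap_smul, Algebra.smul_def, map_mul,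
        ← IsScalarTower.algebraMap_apply, Algebra.smul_def]
    | smul a c hc => rw [map_smul, map_smul, hc, smul_comm]
    | add c d hc hd => rw [map_add, map_add, hc, hd, smul_add]
  refine ⟨?_, fun c => ⟨ψ c, (h1 c).symm⟩⟩
  have h2 : ∀ h : Om[X], f.map (algebraMap A Om) ∣
      ψ (aeval (algebraMap R To θ) h) - algebraMap A Om s • h := by
    intro h
    induction h using Polynomial.induction_on' with
    | add g h hg hh =>
      have := dvd_add hg hh
      rw [map_add, map_add, smul_add]
      convert this using 1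
      ring
    | monomial n a =>
      have e1 : aeval (algebraMap R To θ) (monomial n a) = a • algebraMap R To (θ ^ n) := by
        rw [aeval_monomial, map_pow, Algebra.smul_def]
      have e2 : f ∣ φ (θ ^ n) - s • X ^ n := by
        refine hinj _ ?_
        rw [map_sub, hφ, map_smul, map_pow, aeval_X, sub_self]
      have e3 : f.map (algebraMap A Om) ∣
          (φ (θ ^ n)).map (algebraMap A Om) - algebraMap A Om s • X ^ n := by
        have := Polynomial.map_dvd (algebraMap A Om) e2
        rw [Polynomial.map_sub] at this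
        convert this using 2
        rw [smul_eq_C_mul, smul_eq_C_mul, Polynomial.map_mul, map_C, Polynomial.map_pow, map_X]
      have e4 : ψ (aeval (algebraMap R To θ) (monomial n a)) - algebraMap A Om s • monomial n a =
          C a * ((φ (θ ^ n)).map (algebraMap A Om) - algebraMap A Om s • X ^ n) := by
        rw [e1, map_smul, hψ, ← C_mul_X_pow_eq_monomial, mul_sub, smul_eq_C_mul, smul_eq_C_mul,
          smul_eq_C_mul]
        ring
      rw [e4]
      exact e3.mul_left _
  intro h hh
  have h3 := h2 h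
  rw [hh, map_zero, zero_sub, dvd_neg] at h3
  have hf' : (f.map (algebraMap A Om)).Monic := hf.map _
  rw [← modByMonic_eq_zero_iff_dvd hf'] at h3 ⊢
  rw [smul_modByMonic] at h3
  ext i
  have h4 : (algebraMap A Om s • (h %ₘ f.map (algebraMap A Om))).coeff i = 0 := by
    rw [h3, coeff_zero]
  rw [coeff_smul, smul_eq_mul] at h4
  rw [hs _ h4, coeff_zero]


end Crest.Agent.R183.MixBC
end

-- ▼ part R183/MixReg2
section

/-!
R183 / MixReg2 : regular sequences `(X_i^n, .., p^n)` (last entry first) on `W(K)[[X]]`.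
-/

set_option autoImplicit false
set_option linter.unusedSectionVars false

namespace Crest.Agent.R183.MixReg2

open Crest.Agent.R183.Glue

section

variable {n : ℕ} {R : Type*} [CommRing R]

local notation "PS" => MvPowerSeries (Fin n) R

theorem mem_span_iff (k : ℕ) (a : R) (l : List (Fin n)) (f : PS) :
    f ∈ Ideal.span {y : PS | y ∈ l.map (fun i => (MvPowerSeries.X i : PS) ^ k) ++
        [MvPowerSeries.C a]} ↔
      ∀ m : Fin n →₀ ℕ, (∀ i ∈ l, m i < k) → a ∣ MvPowerSeries.coeff m f := by
  classical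
  constructor
  · intro hf
    induction hf using Submodule.span_induction with
    | mem x hx =>
      intro m hm
      rcases List.mem_append.1 hx with hx | hx
      · obtain ⟨i, hi, rfl⟩ := List.mem_map.1 hx
        have := (MvPowerSeries.X_pow_dvd_iff.1 (dvd_refl ((MvPowerSeries.X i : PS) ^ k))) m
          (hm i hi)
        rw [this]
        exact dvd_zero _
      · rw [List.mem_singleton] at hx
        rw [hx, MvPowerSeries.coeff_C]
        split_ifs
        · exact dvd_rfl
        · exact dvd_zero _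
    | zero => intro m _; rw [map_zero]; exact dvd_zero _
    | add x y _ _ h1 h2 => intro m hm; rw [map_add]; exact dvd_add (h1 m hm) (h2 m hm)
    | smul b x _ h1 =>
      intro m hm
      rw [smul_eq_mul, MvPowerSeries.coeff_mul]
      refine Finset.dvd_sum fun q hq => ?_
      rw [Finset.HasAntidiagonal.mem_antidiagonal] at hq
      refine Dvd.dvd.mul_left (h1 q.2 (fun i hi => lt_of_le_of_lt ?_ (hm i hi))) _
      rw [← hq, Finsupp.add_apply]
      exact Nat.le_add_left _ _
  · revert f
    induction l with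
    | nil =>
      intro f hf
      have hf' : ∀ m, ∃ c, MvPowerSeries.coeff m f = a * c := fun m => hf m (by simp)
      choose c hc using hf'
      let c' : PS := fun m => c m
      have : f = MvPowerSeries.C a * c' := by
        ext m
        rw [MvPowerSeries.coeff_C_mul, hc m]
        rfl
      rw [this]
      exact Ideal.mul_mem_right _ _ (Ideal.subset_span (by simp))
    | cons i l ih =>
      intro f hf
      let f1 : PS := fun m => if m i < k then 0 else MvPowerSeries.coeff m f
      let f2 : PS := fun m => if m i < k then MvPowerSeries.coeff m f else 0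
      have h1 : ∀ m, MvPowerSeries.coeff m f1 = if m i < k then 0 else MvPowerSeries.coeff m f :=
        fun m => rfl
      have h2 : ∀ m, MvPowerSeries.coeff m f2 = if m i < k then MvPowerSeries.coeff m f else 0 :=
        fun m => rfl
      have e : f = f1 + f2 := by
        ext m
        rw [map_add, h1, h2]
        split_ifs <;> simp
      rw [e]
      refine Ideal.add_mem _ ?_ ?_
      · have h3 : (MvPowerSeries.X i : PS) ^ k ∣ f1 := by
          rw [MvPowerSeries.X_pow_dvd_iff]
          intro m hm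
          rw [h1, if_pos hm]
        obtain ⟨g, hg⟩ := h3
        rw [hg]
        exact Ideal.mul_mem_right _ _ (Ideal.subset_span (by simp))
      · have h3 := ih f2 (fun m hm => by
          rw [h2]
          split_ifs with h
          · apply hf m
            intro j hj
            rcases List.mem_cons.1 hj with rfl | hj
            · exact h
            · exact hm j hj
          · exact dvd_zero _)
        refine Ideal.span_mono ?_ h3
        intro y hy
        exact List.mem_cons_of_mem _ hy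

theorem regL_aux (k : ℕ) (a : R) (ha : ∀ x : R, a * x = 0 → x = 0) (l : List (Fin n))
    (hl : l.Nodup) :
    RegL PS (l.map (fun i => (MvPowerSeries.X i : PS) ^ k) ++ [MvPowerSeries.C a]) := by
  classical
  induction l with
  | nil =>
    refine ⟨trivial, fun f hf => ?_⟩
    have h1 : Ideal.span {y : PS | y ∈ ([] : List PS)} = ⊥ := by simp
    rw [h1, Submodule.bot_smul, Submodule.mem_bot] at hf ⊢
    ext m
    rw [map_zero]
    apply ha
    have h2 := congrArg (MvPowerSeries.coeff m) hf
    rwa [smul_eq_mul, MvPowerSeries.coeff_C_mul, map_zero] at h2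
  | cons i l ih =>
    rw [List.nodup_cons] at hl
    refine ⟨ih hl.2, ?_⟩
    intro f hf
    have hf' : (MvPowerSeries.X i : PS) ^ k * f ∈ Ideal.span
        {y : PS | y ∈ l.map (fun i => (MvPowerSeries.X i : PS) ^ k) ++ [MvPowerSeries.C a]} := by
      have h3 := hf
      rw [smul_eq_mul, smul_eq_mul, Ideal.mul_top] at h3
      exact h3
    rw [smul_eq_mul, Ideal.mul_top]
    refine (mem_span_iff k a l f).2 ?_
    rw [mem_span_iff] at hf'
    intro m hm
    have h1 := hf' (m + Finsupp.single i k) (by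
      intro j hj
      rw [Finsupp.add_apply, Finsupp.single_apply, if_neg, add_zero]
      · exact hm j hj
      · rintro rfl; exact hl.1 hj)
    rw [MvPowerSeries.X_pow_eq, add_comm, MvPowerSeries.coeff_add_monomial_mul, one_mul] at h1
    exact h1

end

theorem regL_witt (p : ℕ) [Fact p.Prime] (K : Type*) [Field K] [CharP K p] [PerfectRing K p]
    (m n : ℕ) :
    RegL (MvPowerSeries (Fin m) (WittVector p K))
      (((List.ofFn fun i : Fin m => (MvPowerSeries.X i : MvPowerSeries (Fin m) (WittVector p K))).map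
        (· ^ n)) ++ [(p : MvPowerSeries (Fin m) (WittVector p K)) ^ n]) := by
  have hreg : ∀ x : WittVector p K, (p : WittVector p K) ^ n * x = 0 → x = 0 := by
    induction n with
    | zero => intro x hx; simpa using hx
    | succ n ih =>
      intro x hx
      rw [pow_succ, mul_assoc] at hx
      have h1 := ih _ hx
      exact (mul_eq_zero.1 h1).resolve_left (WittVector.p_nonzero p K)
  have h := regL_aux (n := m) n ((p : WittVector p K) ^ n) hreg (List.finRange m)
    (List.nodup_finRange m)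
  rw [List.map_ofFn]
  rw [← List.ofFn_eq_map] at h
  rw [map_pow, map_natCast] at h
  exact h

end Crest.Agent.R183.MixReg2
end

-- ▼ part R183/Mix5

/-!
R183 / Mix5 (helper902) : `CoreM.MixStage p`.
-/

set_option autoImplicit false
set_option linter.unusedSectionVars false

open Polynomial

namespace Crest.Agent.R183.Mix

open Crest.Agent.R183.Om Crest.Agent.R183.Env Crest.Agent.R183.Lat Crest.Agent.R183.Glue
open Crest.Agent.R183.Heb Crest.Agent.R183.CoreM Crest.Agent.R183.RD Crest.Agent.R183.Cohen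
open IsLocalRing Crest.Agent.R183.M
open scoped nonZeroDivisors

universe u v

/-- regular sequences on `Ω₀`. -/
theorem regL_omega (p : ℕ) [hp : Fact p.Prime] (K : Type u) [Field K] [CharP K p] [PerfectRing K p]
    (m : ℕ) (Ω₀ : Type u) [CommRing Ω₀] [Algebra (Boo p K m) Ω₀] [Algebra (AW p K m) Ω₀]
    [IsScalarTower (AW p K m) (Boo p K m) Ω₀]
    (hc : IsCompl (p : Boo p K m) (algebraMap (Boo p K m) Ω₀)) (hr : Reg (p : Ω₀))
    (n : ℕ) (hn : 0 < n) :
    RegL Ω₀ ((List.ofFn fun i : Fin m => algebraMap (AW p K m) Ω₀ (MvPowerSeries.X i)).map (· ^ n)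
      ++ [(p : Ω₀) ^ n]) := by
  have h1 := MixReg2.regL_witt p K m n
  have hf : W.FlatAt (algebraMap (AW p K m) Ω₀) ((p : AW p K m) ^ n) := by
    rw [IsScalarTower.algebraMap_eq (AW p K m) (Boo p K m) Ω₀]
    refine W.FlatAt.comp (flatAt_of_flat _) ?_
    rw [map_pow, map_natCast]
    exact flatAt_of_isCompl hc n
  have hra : W.RegAt (algebraMap (AW p K m) Ω₀) (p : AW p K m) := by
    intro b hb
    rw [map_natCast] at hb
    exact hr b hb
  have h2 := regL_of_flatAt hf hra _ h1
  rw [List.map_append, List.map_map] at h2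
  rw [List.map_ofFn] at h2 ⊢
  simp only [List.map_cons, List.map_nil, map_pow, map_natCast] at h2
  convert h2 using 3
  funext i
  simp

theorem reg_pow_eq {Ω : Type*} [CommRing Ω] {P : Ω} (h : Reg P) (n : ℕ) :
    ∀ x : Ω, P ^ n * x = 0 → x = 0 := by
  induction n with
  | zero => intro x hx; simpa using hx
  | succ n ih =>
    intro x hx
    rw [pow_succ, mul_assoc] at hx
    exact h _ (ih _ hx)

/-- **The stages over an abstract Cohen factorisation.** -/
theorem stages_aux (p : ℕ) [hp : Fact p.Prime] {A R A' T Ω To : Type u} [CommRing A] [IsDomain A]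
    [IsIntegrallyClosed A] [IsNoetherianRing A] [CharZero A] [CommRing R] [IsDomain R]
    [CommRing A'] [CommRing T] [CommRing Ω] [CommRing To]
    [Algebra A R] [Module.Finite A R] [Algebra A A'] [Module.Flat A A'] [Algebra A T]
    [Algebra R T] [Algebra A' T] [IsScalarTower A R T] [IsScalarTower A A' T]
    [Algebra.IsPushout A R A' T] [Algebra A' Ω] [Algebra T To] [Algebra A' To] [Algebra Ω To]
    [IsScalarTower A' T To] [IsScalarTower A' Ω To] [Algebra.IsPushout A' Ω T To]
    (hinj : Function.Injective (algebraMap A R)) (hpA : Prime (p : A)) {ϖ : ℕ → Ω}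
    (M₀ : Model p Ω ϖ)
    (hRM : ∀ D : A', RegMod D (p : A') → RegMod (algebraMap A' Ω D) (p : Ω))
    (𝔪 : Ideal R) (h𝔪 : 𝔪.FG) (hp𝔪 : (p : R) ∈ 𝔪) {b g : ℕ} (z : Fin b → R)
    (hz0 : ∀ i, z i ≠ 0) (c : ℕ) (hred : 𝔪 ^ (c + 1) ≤ Ideal.span (Set.range z) * 𝔪 ^ c)
    (yT : Fin g → T)
    (hy : ∀ e j, ∃ η : Ω, algebraMap Ω To η ^ (p ^ e) = algebraMap T To (yT j))
    (𝔞 : Ideal T) (h𝔞 : 𝔞 ≤ 𝔪.map (algebraMap R T) ⊔ Ideal.span (Set.range yT))
    (t : Fin (b + g) → T) (τ : List Ω)
    (ht : (List.ofFn fun i => algebraMap T To (t i)) = (τ ++ [(p : Ω)]).map (algebraMap Ω To))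
    (hreg : ∀ n : ℕ, 0 < n → RegL Ω (τ.map (· ^ n) ++ [(p : Ω) ^ n]))
    (k₀ : ℕ) (hk₀ : (p : T) ^ k₀ ∈
      Ideal.span (Set.range (Fin.append (fun i => algebraMap R T (z i)) yT))) :
    ∃ c' : ℕ, ∀ e : ℕ, c' < p ^ e → ∃ Δ : R, Δ ∈ R⁰ ∧ Nonempty (Core.Stage T To
      (Fin.append (fun i => algebraMap R T (z i)) yT) t (algebraMap R T Δ) 𝔞 (p ^ e)
      (p ^ e - c')) := by
  obtain ⟨f, θ, D, M, hf, hfd, hθ, hinjθ, hpD, hD0, hspan, hsep, hz'⟩ :=
    MixAlg.exists_alg hinj p hpA z hz0
  obtain ⟨n₀, F, hamp⟩ := Fam.amplitude.{u, u} p 𝔪 h𝔪 hp𝔪 z c hred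
  -- the algebra structures
  let _ : Algebra A Ω := ((algebraMap A' Ω).comp (algebraMap A A')).toAlgebra
  have _ : IsScalarTower A A' Ω := .of_algebraMap_eq fun _ => rfl
  let _ : Algebra R To := ((algebraMap T To).comp (algebraMap R T)).toAlgebra
  have _ : IsScalarTower R T To := .of_algebraMap_eq fun _ => rfl
  let _ : Algebra A To := ((algebraMap A' To).comp (algebraMap A A')).toAlgebra
  have _ : IsScalarTower A A' To := .of_algebraMap_eq fun _ => rfl
  have _ : IsScalarTower A T To := .of_algebraMap_eq fun x => by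
    rw [IsScalarTower.algebraMap_apply A A' T, ← IsScalarTower.algebraMap_apply A' T To]
    rfl
  have _ : IsScalarTower A R To := .of_algebraMap_eq fun x => by
    rw [IsScalarTower.algebraMap_apply R T To, ← IsScalarTower.algebraMap_apply A R T,
      ← IsScalarTower.algebraMap_apply A T To]
  have _ : IsScalarTower A Ω To := .of_algebraMap_eq fun x => by
    rw [IsScalarTower.algebraMap_apply A A' Ω, ← IsScalarTower.algebraMap_apply A' Ω To]
    rfl
  have hPsym : Algebra.IsPushout A' T Ω To := Algebra.IsPushout.symm inferInstance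
  have hP1 : Algebra.IsPushout A A' R T := Algebra.IsPushout.symm inferInstance
  -- the big rectangle
  have hP2 : Algebra.IsPushout A Ω R To :=
    (Algebra.IsPushout.comp_iff A A' R T (T := Ω) (T' := To)).2 inferInstance
  have hP3 : Algebra.IsPushout A R Ω To := hP2.symm
  have hfinT : Module.Finite A' T := pushout_finite A R A' T
  have hfinTo : Module.Finite Ω To := pushout_finite A' T Ω To
  have hint : Algebra.IsIntegral Ω To := inferInstance
  -- `D` in `Ω`
  have hRA : RegMod D (p : A) := MixCoh.regMod_of_prime hpA hpD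
  have hRA' : RegMod (algebraMap A A' D) (p : A') := MixCoh.regMod_of_flat_natCast hRA
  have hRΩ : RegMod (algebraMap A Ω D) (p : Ω) := hRM _ hRA'
  have hP := M₀.props
  have hcA₀ : IsAdicComplete (Ideal.span {(p : Ω)}) Ω := hP.2.2.1
  have hpow : algebraMap A Ω (((p : A) * D) ^ M) = ((p : Ω) * algebraMap A Ω D) ^ M := by
    rw [map_pow, map_mul, map_natCast]
  have hregpow : ∀ x : Ω, algebraMap A Ω (((p : A) * D) ^ M) * x = 0 → x = 0 := by
    rw [hpow]
    exact reg_pow_eq (hP.2.1.mul (Reg.of_regMod hP.2.1 sep_of_isAdicComplete hRΩ)) M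
  obtain ⟨hb1, hb2⟩ := MixBC.bc (To := To) f hf θ hθ hinjθ (((p : A) * D) ^ M) hspan hregpow
  rw [hpow] at hb2
  refine ⟨n₀, fun e he => ?_⟩
  obtain ⟨k, hk⟩ := exists_stage M₀ hRΩ (R := R) (T := T) (To := To) (f.map (algebraMap A Ω))
    (hf.map _) (algebraMap R To θ) (by
      rw [aeval_map_algebraMap, aeval_algebraMap_apply, hθ, map_zero]) hb1 M hb2 (by
      obtain ⟨u, v, huv⟩ := hsep
      refine ⟨u.map (algebraMap A Ω), v.map (algebraMap A Ω), ?_⟩
      rw [derivative_map, ← Polynomial.map_mul, ← Polynomial.map_mul, ← Polynomial.map_add, huv,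
        Polynomial.map_C, hpow]) z (by
      intro i
      obtain ⟨z', hz'⟩ := hz' i
      refine ⟨algebraMap R To z', ?_⟩
      rw [← map_mul, hz', ← hpow, ← IsScalarTower.algebraMap_apply A R To,
        ← IsScalarTower.algebraMap_apply A Ω To]) 𝔪 n₀ F hamp yT e (p ^ e - n₀) (by omega)
      (hy e) 𝔞 h𝔞 t τ ht hreg (algebraMap A R D) (by
        rw [← IsScalarTower.algebraMap_apply A R To, ← IsScalarTower.algebraMap_apply A Ω To])
      k₀ hk₀
  refine ⟨((p : R) * algebraMap A R D) ^ k, ?_, hk⟩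
  refine pow_mem (mul_mem ?_ ?_) k
  · rw [mem_nonZeroDivisors_iff_ne_zero]
    intro h
    apply hpA.ne_zero
    apply hinj
    rw [map_natCast, h, map_zero]
  · rw [mem_nonZeroDivisors_iff_ne_zero]
    intro h
    apply hD0
    apply hinj
    rw [h, map_zero]

theorem rt_pow_pow {B : Type u} [CommRing B] (p : ℕ) (hp : 0 < p) {d : ℕ} (t : Fin d → B)
    (e : ℕ) (i : Fin d) :
    BInf.rt p t hp e i ^ (p ^ e) = algebraMap B (BInf.BInf p t) (t i) := by
  induction e with
  | zero => rw [pow_zero, pow_one, BInf.rt_zero]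
  | succ e ih => rw [pow_succ, mul_comm, pow_mul, BInf.rt_succ_pow, ih]

/-- **The mixed characteristic stages exist.** -/
theorem mixStage (p : ℕ) [hp : Fact p.Prime] : MixStage.{u} p := by
  intro d g C₀ K R T S Ω₀ To _ _ _ _ _ _ _ _ _ _ _ _ _ _ _ _ _ _ _ _ _ _ _ _ _ _ _ _ _ _ _ _ _ _
    π hC h hinj hX z c hzm hz0 hred M₀ hcompl htrans
  have hAd : IsDomain (AA C₀ d) := MixCoh.isDomain_mv hC d
  have hAn : IsNoetherianRing (AA C₀ d) := MixCoh.isNoetherianRing_mv hC d
  have hAi : IsIntegrallyClosed (AA C₀ d) := MixCoh.isIntegrallyClosed_mv hC d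
  have hAc : CharZero (AA C₀ d) := MixCoh.charZero_mv hC d
  have hAp : Prime (p : AA C₀ d) := MixCoh.prime_mv hC d
  have hfR := h.finite_R
  have hflat := h.flat_A'
  have hlA' := h.local_A'
  have hlR := h.local_R
  have hlT := h.local_T
  have hlA'T := h.local_A'T
  have hpR : (p : R) ∈ maximalIdeal R := by
    rw [mem_maximalIdeal, mem_nonunits_iff]
    intro hu
    have h1 : IsUnit (algebraMap (AA C₀ d) R (p : AA C₀ d)) := by rwa [map_natCast]
    exact hAp.not_isUnit (isUnit_of_map_unit _ _ h1)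
  have hpT : (p : T) ∈ maximalIdeal T := by
    rw [mem_maximalIdeal, mem_nonunits_iff]
    intro hu
    have h1 : IsUnit (algebraMap R T (p : R)) := by rwa [map_natCast]
    have h2 := isUnit_of_map_unit _ _ h1
    exact (mem_nonunits_iff.1 ((mem_maximalIdeal _).1 hpR)) h2
  -- `t`
  let x : Fin (d + g) → AW p K (d + g) := fun i => MvPowerSeries.X i
  have hlen : d + 1 + g = (d + g) + 1 := by omega
  let t' : Fin ((d + g) + 1) → T := Fin.snoc (fun i => algebraMap (AW p K (d + g)) T (x i)) (p : T)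
  let t : Fin (d + 1 + g) → T := fun i => t' (Fin.cast hlen i)
  have htm : ∀ i, t i ∈ maximalIdeal T := by
    intro i
    have : ∀ j, t' j ∈ maximalIdeal T := by
      intro j
      refine Fin.lastCases ?_ (fun j => ?_) j
      · simp only [t', Fin.snoc_last]
        exact hpT
      · simp only [t', Fin.snoc_castSucc]
        rw [mem_maximalIdeal, mem_nonunits_iff]
        intro hu
        have h2 : IsUnit (x j) := isUnit_of_map_unit _ _ hu
        have h3 : IsUnit (MvPowerSeries.constantCoeff (x j)) := h2.map _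
        rw [MvPowerSeries.constantCoeff_X] at h3
        exact not_isUnit_zero h3
    exact this _
  refine ⟨t, htm, ?_⟩
  refine stages_aux p (A := AA C₀ d) (R := R) (A' := AW p K (d + g)) (T := T) (Ω := Ω₀) (To := To)
    hinj hAp M₀ ?_ (maximalIdeal R) (IsNoetherian.noetherian _) hpR z hz0 c hred.le
    (fun j : Fin g => YT p K d g T j) ?_ (maximalIdeal T) ?_ t
    (List.ofFn fun i => algebraMap (AW p K (d + g)) Ω₀ (x i)) ?_
    (fun n hn => regL_omega p K (d + g) Ω₀ hcompl M₀.props.2.1 n hn) (c + 1) ?_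
  · -- regularity modulo `p`
    intro D hD
    rw [IsScalarTower.algebraMap_apply (AW p K (d + g)) (Boo p K (d + g)) Ω₀]
    exact htrans _ (BInf.regMod_algebraMap hD)
  · -- roots of the `y_j`
    intro e j
    refine ⟨algebraMap (Boo p K (d + g)) Ω₀
      (BInf.rt p (BInf.tb (d + g) p (WittVector p K)) hp.out.pos e (Fin.natAdd d j).succ), ?_⟩
    rw [← map_pow, ← map_pow, rt_pow_pow]
    have h1 : BInf.tb (d + g) p (WittVector p K) (Fin.natAdd d j).succ =
      MvPowerSeries.X (Fin.natAdd d j) := rfl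
    rw [h1, ← IsScalarTower.algebraMap_apply (AW p K (d + g)) (Boo p K (d + g)) Ω₀,
      ← IsScalarTower.algebraMap_apply (AW p K (d + g)) Ω₀ To]
    rw [YT, yvar_apply, ← IsScalarTower.algebraMap_apply (AW p K (d + g)) T To]
  · -- the maximal ideal of `T`
    rw [← h.max]
    refine sup_le le_sup_left (le_trans ?_ le_sup_right)
    rw [Ideal.span_le]
    rintro _ ⟨j, hj, rfl⟩
    exact Ideal.subset_span ⟨⟨j, hj⟩, rfl⟩
  · -- the list
    have h1 : (List.ofFn fun i => algebraMap T To (t i)) =
        List.ofFn fun i => algebraMap T To (t' i) := by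
      rw [List.ofFn_congr hlen]
      rfl
    rw [h1, List.ofFn_succ']
    simp only [t', Fin.snoc_last, Fin.snoc_castSucc, map_natCast, List.concat_eq_append,
      List.map_append, List.map_ofFn, List.map_cons, List.map_nil]
    congr 2
    funext i
    show _ = algebraMap Ω₀ To (algebraMap (AW p K (d + g)) Ω₀ (x i))
    rw [← IsScalarTower.algebraMap_apply (AW p K (d + g)) T To,
      ← IsScalarTower.algebraMap_apply (AW p K (d + g)) Ω₀ To]
  · -- `p ^ (c + 1) ∈ (w)`
    have h1 := h.reduction z c hred.le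
    have h2 : (p : T) ^ (c + 1) ∈ maximalIdeal T ^ (c + 1) := Ideal.pow_mem_pow hpT (c + 1)
    exact Ideal.mul_le_left (h1 h2)

end Crest.Agent.R183.Mix
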