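import Crest.Agent.R183.RD6
import Crest.Agent.R183.CohenNoether
import Crest.Agent.R183.CohenWitt

-- ▼ part R183/RD7
section

/-!
# R183, block RD (helper680), part 7: construction of `T = R ⊗_A A'` from coefficient rings
-/

set_option autoImplicit false

namespace Crest.Agent.R183.RD

open TensorProduct IsLocalRing MvPowerSeries Crest.Agent.R183.M Crest.Agent.R183.Cohen

universe u v w

section Coeff

variable {C₀ Λ : Type*} [CommRing C₀] [CommRing Λ] [IsLocalRing C₀] [IsLocalRing Λ] {r g : ℕ}
  (γ : C₀ →+* MvPowerSeries (Fin g) Λ)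

/-- the augmentation `Λ[[y]][[t]] → κ[[y]]` -/
noncomputable def eps (Λ : Type*) [CommRing Λ] [IsLocalRing Λ] (r g : ℕ) :
    MvPowerSeries (Fin r) (MvPowerSeries (Fin g) Λ) →+*
    MvPowerSeries (Fin g) (ResidueField Λ) :=
  (MvPowerSeries.map (residue Λ)).comp constantCoeff

theorem eps_C_C (x : Λ) : eps Λ r g (C (C x)) = C (residue Λ x) := by
  simp [eps]

theorem eps_X (i : Fin r) : eps Λ r g (X i) = 0 := by
  simp [eps]

theorem eps_C (q : MvPowerSeries (Fin g) Λ) : eps Λ r g (C q) = MvPowerSeries.map (residue Λ) q := by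
  simp [eps]

theorem eps_surjective : Function.Surjective (eps Λ r g) := by
  intro f
  have h : ∀ m, ∃ x : Λ, residue Λ x = coeff m f := fun m => residue_surjective _
  choose x hx using h
  let q : MvPowerSeries (Fin g) Λ := fun m => x m
  have hq : ∀ m, coeff m q = x m := fun m => rfl
  refine ⟨C q, ?_⟩
  rw [eps_C]
  ext m
  rw [coeff_map, hq]
  exact hx m

theorem exists_eq_C_mul {x0 : Λ} (hx0 : maximalIdeal Λ = Ideal.span {x0})
    (q : MvPowerSeries (Fin g) Λ) (hq : MvPowerSeries.map (residue Λ) q = 0) :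
    ∃ q', q = C x0 * q' := by
  have h : ∀ m, ∃ y : Λ, coeff m q = x0 * y := by
    intro m
    have h1 : residue Λ (coeff m q) = 0 := by
      rw [← coeff_map, hq, map_zero]
    rw [residue_eq_zero_iff, hx0, Ideal.mem_span_singleton] at h1
    exact h1
  choose y hy using h
  let q' : MvPowerSeries (Fin g) Λ := fun m => y m
  have hq' : ∀ m, coeff m q' = y m := fun m => rfl
  refine ⟨q', ?_⟩
  ext m
  rw [coeff_C_mul, hy m, hq']

theorem ker_eps {x0 : Λ} (hx0 : maximalIdeal Λ = Ideal.span {x0}) {c0 : C₀}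
    (hc0 : maximalIdeal C₀ = Ideal.span {c0}) (hγ : γ c0 = C x0) :
    RingHom.ker (eps Λ r g) =
      (maximalIdeal (MvPowerSeries (Fin r) C₀)).map (MvPowerSeries.map γ) := by
  have hm : maximalIdeal (MvPowerSeries (Fin r) C₀) =
      (maximalIdeal C₀).map (C : C₀ →+* MvPowerSeries (Fin r) C₀) ⊔
        Ideal.span (Set.range (X : Fin r → MvPowerSeries (Fin r) C₀)) :=
    maximalIdeal_mvPowerSeries
  have hCm : (C c0 : MvPowerSeries (Fin r) C₀) ∈ maximalIdeal (MvPowerSeries (Fin r) C₀) := by
    rw [hm]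
    have h0 : c0 ∈ maximalIdeal C₀ := by
      rw [hc0]
      exact Ideal.mem_span_singleton_self _
    exact Ideal.mem_sup_left (Ideal.mem_map_of_mem _ h0)
  have hXm : ∀ i, (X i : MvPowerSeries (Fin r) C₀) ∈ maximalIdeal (MvPowerSeries (Fin r) C₀) := by
    intro i
    rw [hm]
    exact Ideal.mem_sup_right (Ideal.subset_span ⟨i, rfl⟩)
  apply le_antisymm
  · intro f hf
    rw [RingHom.mem_ker] at hf
    obtain ⟨q', hq'⟩ := exists_eq_C_mul hx0 (constantCoeff f) hf
    have h1 : f - C (constantCoeff f) ∈ Ideal.span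
        (X '' (Set.univ : Set (Fin r)) :
          Set (MvPowerSeries (Fin r) (MvPowerSeries (Fin g) Λ))) := by
      rw [mem_span_X_iff]
      intro m hm
      have : m = 0 := by
        ext j
        exact hm j trivial
      rw [this, map_sub, coeff_zero_C, coeff_zero_eq_constantCoeff_apply, sub_self]
    have h2 : f = (f - C (constantCoeff f)) + C (constantCoeff f) := by ring
    rw [h2]
    refine add_mem ?_ ?_
    · refine (Ideal.span_le.2 ?_) h1
      rintro _ ⟨i, _, rfl⟩
      have : (X i : MvPowerSeries (Fin r) (MvPowerSeries (Fin g) Λ)) =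
          MvPowerSeries.map γ (X i) := by rw [map_X]
      rw [this]
      exact Ideal.mem_map_of_mem _ (hXm i)
    · rw [hq', map_mul]
      have : (C (C x0) : MvPowerSeries (Fin r) (MvPowerSeries (Fin g) Λ)) =
          MvPowerSeries.map γ (C c0) := by rw [map_C, hγ]
      rw [this]
      exact Ideal.mul_mem_right _ _ (Ideal.mem_map_of_mem _ hCm)
  · rw [hm, Ideal.map_sup, sup_le_iff, Ideal.map_map, hc0, Ideal.map_span, Ideal.map_span,
      Set.image_singleton, Ideal.span_singleton_le_iff_mem, Ideal.span_le]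
    constructor
    · rw [RingHom.mem_ker, RingHom.comp_apply, map_C, hγ, eps_C_C]
      have : residue Λ x0 = 0 := by
        rw [residue_eq_zero_iff, hx0]; exact Ideal.mem_span_singleton_self _
      rw [this, map_zero]
    · rintro _ ⟨_, ⟨i, rfl⟩, rfl⟩
      show MvPowerSeries.map γ (X i) ∈ RingHom.ker (eps Λ r g)
      rw [map_X, RingHom.mem_ker, eps_X]

theorem isLocalHom_map {x0 : Λ} (hx0 : maximalIdeal Λ = Ideal.span {x0}) {c0 : C₀}
    (hc0 : maximalIdeal C₀ = Ideal.span {c0}) (hγ : γ c0 = C x0) :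
    IsLocalHom (MvPowerSeries.map (σ := Fin r) γ) := by
  refine ((local_hom_TFAE (MvPowerSeries.map (σ := Fin r) γ)).out 0 2).2 ?_
  rw [← ker_eps γ hx0 hc0 hγ]
  exact IsLocalRing.le_maximalIdeal (RingHom.ker_ne_top _)

end Coeff

/-- All the properties of the Cohen factorisation `R → T → S`, `T = R ⊗_A A'`. -/
structure IsCohenFact (A R A' T S : Type*) [CommRing A] [CommRing R] [CommRing A'] [CommRing T]
    [CommRing S] [Algebra A R] [Algebra A A'] [Algebra A T] [Algebra R T] [Algebra A' T]
    [Algebra R S]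
    [IsLocalRing A] [IsLocalRing R] [IsLocalRing A'] [IsLocalRing T] [IsLocalRing S]
    (g : ℕ) (π : T →+* S) (Y : ℕ → T) : Prop where
  /-- `R` is finite over `A` -/
  finite_R : Module.Finite A R
  /-- same residue field -/
  res_R : ∀ r : R, ∃ a : A, r - algebraMap A R a ∈ maximalIdeal R
  /-- `A'` is flat over `A` -/
  flat_A' : Module.Flat A A'
  /-- local -/
  local_A' : IsLocalHom (algebraMap A A')
  /-- local -/
  local_R : IsLocalHom (algebraMap A R)
  /-- `T` is flat over `R` -/
  flat_T : Module.Flat R T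
  /-- `T` is finite over `A'` -/
  finite_T : Module.Finite A' T
  /-- local -/
  local_T : IsLocalHom (algebraMap R T)
  /-- local -/
  local_A'T : IsLocalHom (algebraMap A' T)
  /-- `T → S` is surjective -/
  surjective : Function.Surjective π
  /-- already `A' → S` is surjective -/
  surjective' : Function.Surjective (π.comp (algebraMap A' T))
  /-- compatibility -/
  comp : π.comp (algebraMap R T) = algebraMap R S
  /-- same residue field -/
  res_T : ∀ x : T, ∃ a : A', x - algebraMap A' T a ∈ maximalIdeal T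
  /-- the closed fibre -/
  prime : ∀ i ≤ g, (pr R T Y i).IsPrime
  /-- the closed fibre -/
  notMem : ∀ i < g, Y i ∉ pr R T Y i
  /-- the closed fibre -/
  max : pr R T Y g = maximalIdeal T

section Main

theorem mem_maximalIdeal_of_local {A B : Type*} [CommRing A] [CommRing B] [IsLocalRing A]
    [IsLocalRing B] (f : A →+* B) (hf : IsLocalHom f) {x : A} (hx : x ∈ maximalIdeal A) :
    f x ∈ maximalIdeal B := by
  rw [mem_maximalIdeal] at hx ⊢
  intro h
  exact hx (hf.map_nonunit x h)

/-- The construction of `T` (given instances). -/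
theorem exists_T_aux {C₀ Λ R S A' T : Type*} [CommRing C₀] [CommRing Λ] [CommRing R] [CommRing S]
    [CommRing A'] [CommRing T] [IsLocalRing C₀] [IsNoetherianRing C₀] [IsLocalRing Λ]
    [IsNoetherianRing Λ]
    [IsLocalRing R] [IsNoetherianRing R] [IsAdicComplete (maximalIdeal R) R]
    [IsLocalRing S] [IsNoetherianRing S] [IsAdicComplete (maximalIdeal S) S]
    [Algebra R S] [IsLocalHom (algebraMap R S)] {r g : ℕ}
    {x0 : Λ} (hx0 : maximalIdeal Λ = Ideal.span {x0})
    {c0 : C₀} (hc0 : maximalIdeal C₀ = Ideal.span {c0})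
    (γ : C₀ →+* MvPowerSeries (Fin g) Λ) (hγ : γ c0 = C x0) (hγflat : γ.Flat)
    (φ : C₀ →+* R) (hφ : IsLocalHom φ) (hφres : ∀ x : R, ∃ c : C₀, x - φ c ∈ maximalIdeal R)
    (t : Fin r → R) (ht : ∀ i, t i ∈ maximalIdeal R)
    (hfin : (psEval (maximalIdeal R) φ t ht).Finite)
    (ψ : MvPowerSeries (Fin g) Λ →+* S) (hψ : Function.Surjective ψ)
    (hcomp : ψ.comp γ = (algebraMap R S).comp φ)
    (e : A' ≃+* MvPowerSeries (Fin r) (MvPowerSeries (Fin g) Λ))
    [instAR : Algebra (MvPowerSeries (Fin r) C₀) R]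
    [instAA' : Algebra (MvPowerSeries (Fin r) C₀) A']
    (hAR : algebraMap (MvPowerSeries (Fin r) C₀) R = psEval (maximalIdeal R) φ t ht)
    (hAA' : algebraMap (MvPowerSeries (Fin r) C₀) A' =
      (e.symm : MvPowerSeries (Fin r) (MvPowerSeries (Fin g) Λ) →+* A').comp
          (MvPowerSeries.map γ))
    [Algebra (MvPowerSeries (Fin r) C₀) T] [Algebra R T]
    [Algebra A' T] [IsScalarTower (MvPowerSeries (Fin r) C₀) R T]
    [IsScalarTower (MvPowerSeries (Fin r) C₀) A' T]
    [Algebra.IsPushout (MvPowerSeries (Fin r) C₀) R A' T] [IsLocalRing A'] :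
    ∃ (_ : IsLocalRing T) (π : T →+* S),
      IsCohenFact (MvPowerSeries (Fin r) C₀) R A' T S g π
        (fun j => algebraMap A' T (e.symm (C (varSeq Λ g j)))) ∧
      (∀ q : MvPowerSeries (Fin g) Λ, π (algebraMap A' T (e.symm (C q))) = ψ q) ∧
      (∀ i : Fin r, π (algebraMap A' T (e.symm (X i))) = algebraMap R S (t i)) := by
  have hfinR : Module.Finite (MvPowerSeries (Fin r) C₀) R := by
    have h1 : (algebraMap (MvPowerSeries (Fin r) C₀) R).Finite := by rw [hAR]; exact hfin
    exact (RingHom.finite_algebraMap).1 h1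
  have hfinT : Module.Finite A' T := pushout_finite (MvPowerSeries (Fin r) C₀) R A' T
  have hflA' : Module.Flat (MvPowerSeries (Fin r) C₀) A' := by
    have h1 : (MvPowerSeries.map (σ := Fin r) γ).Flat := flat_mvPowerSeries_map r γ hγflat
    have h2 : ((e.symm : MvPowerSeries (Fin r) (MvPowerSeries (Fin g) Λ) →+* A').comp
          (MvPowerSeries.map γ)).Flat :=
      RingHom.Flat.comp h1 (RingHom.Flat.of_bijective e.symm.bijective)
    rw [← hAA'] at h2
    exact (RingHom.flat_algebraMap_iff).1 h2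
  have hflT : Module.Flat R T := pushout_flat (MvPowerSeries (Fin r) C₀) R A' T
  have hlocAA' : IsLocalHom (algebraMap (MvPowerSeries (Fin r) C₀) A') := by
    have h1 : IsLocalHom (MvPowerSeries.map (σ := Fin r) γ) := isLocalHom_map γ hx0 hc0 hγ
    rw [hAA']
    have h2 : IsLocalHom (e.symm : MvPowerSeries (Fin r) (MvPowerSeries (Fin g) Λ) →+* A') :=
      ⟨fun a ha => by
        have : IsUnit (e.symm a) := ha
        exact (MulEquiv.isUnit_map e.symm).1 this⟩
    exact RingHom.isLocalHom_comp _ _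
  -- `A → R` is local
  have hmA : maximalIdeal (MvPowerSeries (Fin r) C₀) =
      (maximalIdeal C₀).map (C : C₀ →+* MvPowerSeries (Fin r) C₀) ⊔
        Ideal.span (Set.range (X : Fin r → MvPowerSeries (Fin r) C₀)) :=
    maximalIdeal_mvPowerSeries
  have hlocAR : IsLocalHom (algebraMap (MvPowerSeries (Fin r) C₀) R) := by
    refine ((local_hom_TFAE (algebraMap (MvPowerSeries (Fin r) C₀) R)).out 0 2).2 ?_
    rw [hmA, Ideal.map_sup, Ideal.map_map, sup_le_iff, hAR]
    constructor
    · have h1 : (psEval (maximalIdeal R) φ t ht).comp (C : C₀ →+* MvPowerSeries (Fin r) C₀) = φ := by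
        ext c
        exact psEval_C _ _ _ ht c
      rw [h1]
      exact ((local_hom_TFAE φ).out 0 2).1 hφ
    · rw [Ideal.map_span, Ideal.span_le]
      rintro _ ⟨_, ⟨i, rfl⟩, rfl⟩
      show psEval (maximalIdeal R) φ t ht (X i) ∈ maximalIdeal R
      rw [psEval_X]
      exact ht i
  have hres : ∀ x : R, ∃ a : MvPowerSeries (Fin r) C₀,
      x - algebraMap (MvPowerSeries (Fin r) C₀) R a ∈ maximalIdeal R := by
    intro x
    obtain ⟨c, hc⟩ := hφres x
    refine ⟨C c, ?_⟩
    rw [hAR, psEval_C]
    exact hc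
  -- the map `A' → S`
  have htS : ∀ i, algebraMap R S (t i) ∈ maximalIdeal S := fun i =>
    mem_maximalIdeal_of_local _ ‹IsLocalHom (algebraMap R S)› (ht i)
  let η : A' →+* S := (psEval (maximalIdeal S) ψ (fun i => algebraMap R S (t i)) htS).comp
    (e : A' →+* MvPowerSeries (Fin r) (MvPowerSeries (Fin g) Λ))
  have hηC : ∀ q : MvPowerSeries (Fin g) Λ, η (e.symm (C q)) = ψ q := by
    intro q
    show psEval (maximalIdeal S) ψ _ htS (e (e.symm (C q))) = ψ q
    rw [RingEquiv.apply_symm_apply, psEval_C]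
  have hηX : ∀ i : Fin r, η (e.symm (X i)) = algebraMap R S (t i) := by
    intro i
    show psEval (maximalIdeal S) ψ _ htS (e (e.symm (X i))) = _
    rw [RingEquiv.apply_symm_apply, psEval_X]
  have hcompat : (algebraMap R S).comp (algebraMap (MvPowerSeries (Fin r) C₀) R) =
      η.comp (algebraMap (MvPowerSeries (Fin r) C₀) A') := by
    have h1 : (algebraMap R S).comp (algebraMap (MvPowerSeries (Fin r) C₀) R) =
        psEval (maximalIdeal S) ((algebraMap R S).comp φ) (fun i => algebraMap R S (t i)) htS := by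
      refine eq_psEval _ _ _ htS _ ?_ ?_
      · intro c
        rw [RingHom.comp_apply, hAR, psEval_C]
        rfl
      · intro i
        rw [RingHom.comp_apply, hAR, psEval_X]
    have h2 : η.comp (algebraMap (MvPowerSeries (Fin r) C₀) A') =
        psEval (maximalIdeal S) ((algebraMap R S).comp φ) (fun i => algebraMap R S (t i)) htS := by
      refine eq_psEval _ _ _ htS _ ?_ ?_
      · intro c
        rw [RingHom.comp_apply, hAA']
        show η (e.symm (MvPowerSeries.map γ (C c))) = _
        rw [map_C, hηC, ← hcomp]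
        rfl
      · intro i
        rw [RingHom.comp_apply, hAA']
        show η (e.symm (MvPowerSeries.map γ (X i))) = _
        rw [map_X, hηX]
    rw [h1, h2]
  obtain ⟨π, hπR, hπA⟩ := exists_desc (MvPowerSeries (Fin r) C₀) R A' T (algebraMap R S) η hcompat
  have hπR' : ∀ x, π (algebraMap R T x) = algebraMap R S x := fun x =>
    congrArg (fun k : R →+* S => k x) hπR
  have hπA' : ∀ x, π (algebraMap A' T x) = η x := fun x =>
    congrArg (fun k : A' →+* S => k x) hπA
  have hηsurj : Function.Surjective η := by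
    intro s
    obtain ⟨q, rfl⟩ := hψ s
    exact ⟨_, hηC q⟩
  have hηloc : IsLocalHom η := IsLocalHom.of_surjective η hηsurj
  obtain ⟨hTloc, hTmax⟩ := isLocalRing_pushout (A := MvPowerSeries (Fin r) C₀) (R := R) (A' := A')
    (T := T) hres π
    (fun x hx => by
      rw [hπR']
      exact mem_maximalIdeal_of_local _ ‹IsLocalHom (algebraMap R S)› hx)
    (fun x hx => by
      rw [hπA']
      exact mem_maximalIdeal_of_local _ hηloc hx)
  -- closed fibre
  obtain ⟨ε, hε⟩ : ∃ ε : A' →+* MvPowerSeries (Fin g) (ResidueField Λ),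
      ∀ x, ε x = eps Λ r g (e x) :=
    ⟨(eps Λ r g).comp (e : A' →+* MvPowerSeries (Fin r) (MvPowerSeries (Fin g) Λ)), fun x => rfl⟩
  have hker : RingHom.ker ε =
      (maximalIdeal (MvPowerSeries (Fin r) C₀)).map
        (algebraMap (MvPowerSeries (Fin r) C₀) A') := by
    have h1 := ker_eps (r := r) γ hx0 hc0 hγ
    rw [hAA', ← Ideal.map_map, ← h1]
    ext x
    rw [RingHom.mem_ker, hε]
    constructor
    · intro hx
      have : x = (e.symm : MvPowerSeries (Fin r) (MvPowerSeries (Fin g) Λ) →+* A') (e x) := by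
        show x = e.symm (e x)
        rw [RingEquiv.symm_apply_apply]
      rw [this]
      exact Ideal.mem_map_of_mem _ hx
    · intro hx
      have h2 := Ideal.mem_map_of_mem (e : A' →+* MvPowerSeries (Fin r)
        (MvPowerSeries (Fin g) Λ)) hx
      rw [Ideal.map_map] at h2
      have h3 : (e : A' →+* MvPowerSeries (Fin r) (MvPowerSeries (Fin g) Λ)).comp
        (e.symm : MvPowerSeries (Fin r) (MvPowerSeries (Fin g) Λ) →+* A') = RingHom.id _ := by
        ext x
        simp
      rw [h3, Ideal.map_id] at h2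
      exact h2
  obtain ⟨χ, hχ1, hχ2⟩ := exists_fibre_hom (A := MvPowerSeries (Fin r) C₀) (R := R) (A' := A')
    (T := T) hres ε hker.ge
  have hχker : RingHom.ker χ = (maximalIdeal R).map (algebraMap R T) :=
    ker_fibre_hom (A := MvPowerSeries (Fin r) C₀) (R := R) (A' := A')
    (T := T) hres ε hker χ hχ1 hχ2
  have hχA : ∀ x, χ (algebraMap A' T x) = eps Λ r g (e x) := fun x => by
    rw [← hε, ← hχ1]
    rfl
  clear hχ1 hχ2 hker
  have hχsurj : Function.Surjective χ := by
    intro f
    obtain ⟨x, hx⟩ := eps_surjective (Λ := Λ) (r := r) (g := g) f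
    refine ⟨algebraMap A' T (e.symm x), ?_⟩
    rw [hχA, RingEquiv.apply_symm_apply, hx]
  have hvar : ∀ j, MvPowerSeries.map (residue Λ) (varSeq Λ g j) = varSeq (ResidueField Λ) g j := by
    intro j
    unfold varSeq
    split_ifs with h
    · rw [map_X]
    · rw [map_zero]
  have hY : ∀ j, χ (algebraMap A' T (e.symm (C (varSeq Λ g j)))) = varSeq (ResidueField Λ) g j := by
    intro j
    rw [hχA, RingEquiv.apply_symm_apply, eps_C, hvar]
  have hmaxT : maximalIdeal T = (maximalIdeal R).map (algebraMap R T) ⊔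
      (maximalIdeal A').map (algebraMap A' T) := hTmax
  have hlocRT : IsLocalHom (algebraMap R T) := by
    refine ((local_hom_TFAE (algebraMap R T)).out 0 2).2 ?_
    rw [hmaxT]
    exact le_sup_left
  have hlocA'T : IsLocalHom (algebraMap A' T) := by
    refine ((local_hom_TFAE (algebraMap A' T)).out 0 2).2 ?_
    rw [hmaxT]
    exact le_sup_right
  refine ⟨hTloc, π, ?_, ?_, ?_⟩
  · exact
    { finite_R := hfinR
      res_R := hres
      flat_A' := hflA'
      local_A' := hlocAA'
      local_R := hlocAR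
      flat_T := hflT
      finite_T := hfinT
      local_T := hlocRT
      local_A'T := hlocA'T
      surjective := by
        intro s
        obtain ⟨x, rfl⟩ := hηsurj s
        exact ⟨_, hπA' x⟩
      surjective' := by
        intro s
        obtain ⟨x, rfl⟩ := hηsurj s
        exact ⟨_, hπA' x⟩
      comp := hπR
      res_T := by
        intro x
        obtain ⟨a, ha⟩ := exists_sub_mem (A := MvPowerSeries (Fin r) C₀) (R := R) (A' := A') hres x
        refine ⟨a, ?_⟩
        rw [hmaxT]
        exact Ideal.mem_sup_left ha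
      prime := fun i hi => pr_isPrime χ hχsurj hχker _ hY i hi
      notMem := fun i hi => Y_notMem_pr χ hχsurj hχker _ hY i hi
      max := pr_eq_maximalIdeal χ hχsurj hχker _ hY }
  · intro q
    rw [hπA', hηC]
  · intro i
    rw [hπA', hηX]

/-- The construction of `T`. `C₀`, `Λ` = coefficient rings (fields or Cohen rings), `γ` = a lift of
`C₀ → R → S` through `ψ : Λ[[y]] → S`; `e` identifies `A'` with `Λ[[y]][[t]]`. -/
theorem exists_T {C₀ Λ R S A' : Type u} [CommRing C₀] [CommRing Λ] [CommRing R] [CommRing S]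
    [CommRing A'] [IsLocalRing C₀] [IsNoetherianRing C₀] [IsLocalRing Λ] [IsNoetherianRing Λ]
    [IsLocalRing R] [IsNoetherianRing R] [IsAdicComplete (maximalIdeal R) R]
    [IsLocalRing S] [IsNoetherianRing S] [IsAdicComplete (maximalIdeal S) S]
    [Algebra R S] [IsLocalHom (algebraMap R S)] {r g : ℕ}
    {x0 : Λ} (hx0 : maximalIdeal Λ = Ideal.span {x0})
    {c0 : C₀} (hc0 : maximalIdeal C₀ = Ideal.span {c0})
    (γ : C₀ →+* MvPowerSeries (Fin g) Λ) (hγ : γ c0 = C x0) (hγflat : γ.Flat)
    (φ : C₀ →+* R) (hφ : IsLocalHom φ) (hφres : ∀ x : R, ∃ c : C₀, x - φ c ∈ maximalIdeal R)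
    (t : Fin r → R) (ht : ∀ i, t i ∈ maximalIdeal R)
    (hfin : (psEval (maximalIdeal R) φ t ht).Finite)
    (ψ : MvPowerSeries (Fin g) Λ →+* S) (hψ : Function.Surjective ψ)
    (hcomp : ψ.comp γ = (algebraMap R S).comp φ)
    (e : A' ≃+* MvPowerSeries (Fin r) (MvPowerSeries (Fin g) Λ)) :
    ∃ (_ : Algebra (MvPowerSeries (Fin r) C₀) R) (_ : Algebra (MvPowerSeries (Fin r) C₀) A')
      (T : Type u) (_ : CommRing T) (_ : Algebra (MvPowerSeries (Fin r) C₀) T) (_ : Algebra R T)
      (_ : Algebra A' T) (_ : IsScalarTower (MvPowerSeries (Fin r) C₀) R T)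
      (_ : IsScalarTower (MvPowerSeries (Fin r) C₀) A' T)
      (_ : Algebra.IsPushout (MvPowerSeries (Fin r) C₀) R A' T)
      (_ : IsLocalRing A') (_ : IsNoetherianRing A') (_ : IsLocalRing T) (_ : IsNoetherianRing T)
      (π : T →+* S),
      IsCohenFact (MvPowerSeries (Fin r) C₀) R A' T S g π
        (fun j => algebraMap A' T (e.symm (C (varSeq Λ g j)))) ∧
      algebraMap (MvPowerSeries (Fin r) C₀) R = psEval (maximalIdeal R) φ t ht ∧
      algebraMap (MvPowerSeries (Fin r) C₀) A' =
        (e.symm : MvPowerSeries (Fin r) (MvPowerSeries (Fin g) Λ) →+* A').comp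
          (MvPowerSeries.map γ) ∧
      (∀ q : MvPowerSeries (Fin g) Λ, π (algebraMap A' T (e.symm (C q))) = ψ q) ∧
      (∀ i : Fin r, π (algebraMap A' T (e.symm (X i))) = algebraMap R S (t i)) := by
  let instAR : Algebra (MvPowerSeries (Fin r) C₀) R := (psEval (maximalIdeal R) φ t ht).toAlgebra
  let instAA' : Algebra (MvPowerSeries (Fin r) C₀) A' :=
    ((e.symm : MvPowerSeries (Fin r) (MvPowerSeries (Fin g) Λ) →+* A').comp
          (MvPowerSeries.map γ)).toAlgebra
  have hlocN : IsLocalRing (MvPowerSeries (Fin r) (MvPowerSeries (Fin g) Λ)) := inferInstance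
  have hlocA' : IsLocalRing A' := e.symm.isLocalRing
  have hnoeA' : IsNoetherianRing A' := isNoetherianRing_of_ringEquiv _ e.symm
  let instA'T : Algebra A' (TensorProduct (MvPowerSeries (Fin r) C₀) R A') :=
    Algebra.TensorProduct.rightAlgebra
  have hpush : Algebra.IsPushout (MvPowerSeries (Fin r) C₀) R A'
    (TensorProduct (MvPowerSeries (Fin r) C₀) R A') := TensorProduct.isPushout
  have hst : IsScalarTower (MvPowerSeries (Fin r) C₀) A'
    (TensorProduct (MvPowerSeries (Fin r) C₀) R A') :=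
    Algebra.TensorProduct.right_isScalarTower
  have hfinR : Module.Finite (MvPowerSeries (Fin r) C₀) R := hfin
  have hfinT : Module.Finite A' (TensorProduct (MvPowerSeries (Fin r) C₀) R A') :=
    pushout_finite (MvPowerSeries (Fin r) C₀) R A' _
  have hnoeT : IsNoetherianRing (TensorProduct (MvPowerSeries (Fin r) C₀) R A') :=
    IsNoetherianRing.of_finite A' _
  obtain ⟨hTloc, π, h1, h2, h3⟩ := exists_T_aux (T := TensorProduct (MvPowerSeries (Fin r) C₀) R A')
    hx0 hc0 γ hγ hγflat φ hφ hφres t ht hfin ψ hψ hcomp e rfl rfl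
  exact ⟨instAR, instAA', TensorProduct (MvPowerSeries (Fin r) C₀) R A', inferInstance,
    inferInstance, inferInstance, instA'T, inferInstance, hst, hpush, hlocA', hnoeA', hTloc, hnoeT,
    π, h1, rfl, rfl, h2, h3⟩

end Main

end Crest.Agent.R183.RD
end

-- ▼ part R183/RD8

/-!
# R183, block RD (helper680), part 8: a power series ring over a complete Noetherian local ring is
complete; surjectivity of `Λ[[y]] → S`.
-/

set_option autoImplicit false
set_option linter.unusedSectionVars false

namespace Crest.Agent.R183.RD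

open TensorProduct IsLocalRing MvPowerSeries Crest.Agent.R183.M Crest.Agent.R183.Cohen

universe u v w

section Complete

variable {Λ : Type*} [CommRing Λ] [IsLocalRing Λ] {σ : Type*} [Finite σ]

omit [Finite σ] in
theorem mem_maximalIdeal_mv_iff (f : MvPowerSeries σ Λ) :
    f ∈ maximalIdeal (MvPowerSeries σ Λ) ↔ constantCoeff f ∈ maximalIdeal Λ := by
  rw [mem_maximalIdeal, mem_nonunits_iff, MvPowerSeries.isUnit_iff_constantCoeff,
    mem_maximalIdeal, mem_nonunits_iff]

theorem C_mem_pow {c : Λ} {n : ℕ} (hc : c ∈ maximalIdeal Λ ^ n) :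
    (C c : MvPowerSeries σ Λ) ∈ maximalIdeal (MvPowerSeries σ Λ) ^ n := by
  have h1 : (C c : MvPowerSeries σ Λ) ∈ (maximalIdeal Λ ^ n).map (C : Λ →+* MvPowerSeries σ Λ) :=
    Ideal.mem_map_of_mem _ hc
  rw [Ideal.map_pow] at h1
  refine Ideal.pow_right_mono ?_ n h1
  rw [Ideal.map_le_iff_le_comap]
  intro x hx
  rw [Ideal.mem_comap, mem_maximalIdeal_mv_iff, constantCoeff_C]
  exact hx

theorem span_X_le : Ideal.span (Set.range (X : σ → MvPowerSeries σ Λ)) ≤
    maximalIdeal (MvPowerSeries σ Λ) := by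
  rw [Ideal.span_le]
  rintro _ ⟨i, rfl⟩
  show (X i : MvPowerSeries σ Λ) ∈ maximalIdeal (MvPowerSeries σ Λ)
  rw [mem_maximalIdeal_mv_iff, constantCoeff_X]
  exact zero_mem _

theorem monomial_mem_pow {x : σ →₀ ℕ} {c : Λ} {n : ℕ}
    (hc : c ∈ maximalIdeal Λ ^ (n - Finsupp.degree x)) :
    monomial x c ∈ maximalIdeal (MvPowerSeries σ Λ) ^ n := by
  classical
  have h1 : monomial x c = C c * monomial x (1 : Λ) := by
    ext y
    rw [coeff_C_mul, coeff_monomial, coeff_monomial]
    split_ifs <;> simp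
  have h2 : monomial x (1 : Λ) ∈ maximalIdeal (MvPowerSeries σ Λ) ^ (Finsupp.degree x) := by
    refine Ideal.pow_right_mono span_X_le _ (mem_span_X_pow ?_)
    intro y hy
    rw [coeff_monomial, if_neg]
    rintro rfl
    exact lt_irrefl _ hy
  have h3 := Ideal.mul_mem_mul (C_mem_pow (σ := σ) hc) h2
  rw [h1]
  rw [← pow_add] at h3
  exact Ideal.pow_le_pow_right (by omega) h3

theorem mem_pow_of_coeff {n : ℕ} {f : MvPowerSeries σ Λ}
    (hf : ∀ x : σ →₀ ℕ, coeff x f ∈ maximalIdeal Λ ^ (n - Finsupp.degree x)) :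
    f ∈ maximalIdeal (MvPowerSeries σ Λ) ^ n := by
  classical
  have h1 : f = (f - ((truncTotal n f : MvPolynomial σ Λ) : MvPowerSeries σ Λ)) +
      ((truncTotal n f : MvPolynomial σ Λ) : MvPowerSeries σ Λ) := by ring
  rw [h1]
  refine add_mem ?_ ?_
  · refine Ideal.pow_right_mono span_X_le _ (mem_span_X_pow ?_)
    intro x hx
    rw [map_sub, MvPolynomial.coeff_coe, coeff_truncTotal _ hx, sub_self]
  · have h2 : ((truncTotal n f : MvPolynomial σ Λ) : MvPowerSeries σ Λ) =
        ∑ x ∈ (truncTotal n f).support, monomial x ((truncTotal n f).coeff x) := by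
      conv_lhs => rw [(truncTotal n f).as_sum]
      rw [← MvPolynomial.coeToMvPowerSeries.ringHom_apply, map_sum]
      exact Finset.sum_congr rfl fun x _ => MvPolynomial.coe_monomial _ _
    rw [h2]
    refine Ideal.sum_mem _ fun x _ => monomial_mem_pow ?_
    rw [coeff_truncTotal_eq_ite]
    split_ifs
    · exact hf x
    · exact zero_mem _

theorem coeff_mem_of_mem_pow (n : ℕ) : ∀ {f : MvPowerSeries σ Λ}
    (_ : f ∈ maximalIdeal (MvPowerSeries σ Λ) ^ n) (x : σ →₀ ℕ),
    coeff x f ∈ maximalIdeal Λ ^ (n - Finsupp.degree x) := by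
  classical
  have h1 : ∀ {f : MvPowerSeries σ Λ} (_ : f ∈ maximalIdeal (MvPowerSeries σ Λ)) (x : σ →₀ ℕ),
      coeff x f ∈ maximalIdeal Λ ^ (1 - Finsupp.degree x) := by
    intro f hf x
    by_cases hx : x = 0
    · subst hx
      rw [coeff_zero_eq_constantCoeff_apply, map_zero, Nat.sub_zero, pow_one]
      exact (mem_maximalIdeal_mv_iff f).1 hf
    · have : Finsupp.degree x ≠ 0 := by
        rwa [Ne, Finsupp.degree_eq_zero_iff]
      have h2 : 1 - Finsupp.degree x = 0 := by omega
      rw [h2, pow_zero, Ideal.one_eq_top]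
      trivial
  induction n with
  | zero =>
    intro f _ x
    rw [Nat.zero_sub, pow_zero, Ideal.one_eq_top]
    trivial
  | succ n ih =>
    intro f hf x
    rw [pow_succ] at hf
    refine Submodule.mul_induction_on hf ?_ ?_
    · intro a ha b hb
      rw [coeff_mul]
      refine Ideal.sum_mem _ ?_
      rintro ⟨u, v⟩ huv
      rw [Finset.HasAntidiagonal.mem_antidiagonal] at huv
      have h2 := Ideal.mul_mem_mul (ih ha u) (h1 hb v)
      rw [← pow_add] at h2
      refine Ideal.pow_le_pow_right ?_ h2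
      have h3 : Finsupp.degree x = Finsupp.degree u + Finsupp.degree v := by
        rw [← huv, map_add]
      omega
    · intro a b ha hb
      rw [map_add]
      exact add_mem ha hb

theorem isAdicComplete_mv [IsNoetherianRing Λ] [IsAdicComplete (maximalIdeal Λ) Λ] :
    IsAdicComplete (maximalIdeal (MvPowerSeries σ Λ)) (MvPowerSeries σ Λ) := by
  have hH : IsHausdorff (maximalIdeal (MvPowerSeries σ Λ)) (MvPowerSeries σ Λ) :=
    IsHausdorff.of_isLocalRing _ _ (maximalIdeal.isMaximal _).ne_top
  refine { hH with prec' := ?_ }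
  intro f hf
  have hf' : ∀ {m n : ℕ}, m ≤ n → f m - f n ∈ maximalIdeal (MvPowerSeries σ Λ) ^ m := by
    intro m n hmn
    have := hf hmn
    rw [SModEq.sub_mem, smul_eq_mul, Ideal.mul_top] at this
    exact this
  have hlim : ∀ x : σ →₀ ℕ, ∃ L : Λ, ∀ n,
      coeff x (f (n + Finsupp.degree x)) - L ∈ maximalIdeal Λ ^ n := by
    intro x
    have h1 := IsPrecomplete.prec (I := maximalIdeal Λ) (M := Λ) inferInstance
      (f := fun n => coeff x (f (n + Finsupp.degree x))) (by
        intro m n hmn
        rw [SModEq.sub_mem, smul_eq_mul, Ideal.mul_top, ← map_sub]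
        have h2 := coeff_mem_of_mem_pow _ (hf' (show m + Finsupp.degree x ≤ n + Finsupp.degree x
          by omega)) x
        rwa [Nat.add_sub_cancel] at h2)
    obtain ⟨L, hL⟩ := h1
    refine ⟨L, fun n => ?_⟩
    have := hL n
    rwa [SModEq.sub_mem, smul_eq_mul, Ideal.mul_top] at this
  choose L hL using hlim
  let g : MvPowerSeries σ Λ := fun x => L x
  have hg : ∀ x, coeff x g = L x := fun x => rfl
  refine ⟨g, fun n => ?_⟩
  rw [SModEq.sub_mem, smul_eq_mul, Ideal.mul_top]
  refine mem_pow_of_coeff fun x => ?_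
  rw [map_sub, hg]
  by_cases hx : Finsupp.degree x ≤ n
  · have := hL x (n - Finsupp.degree x)
    rwa [Nat.sub_add_cancel hx] at this
  · have h2 : n - Finsupp.degree x = 0 := by omega
    rw [h2, pow_zero, Ideal.one_eq_top]
    trivial

end Complete

section Surj

variable {Λ S : Type*} [CommRing Λ] [IsLocalRing Λ] [IsNoetherianRing Λ]
  [CommRing S] [IsLocalRing S] [IsNoetherianRing S] [IsAdicComplete (maximalIdeal S) S]
  {σ : Type*} [Finite σ]

theorem psEval_surjective [IsPrecomplete (maximalIdeal Λ) Λ] (w : Λ →+* S) (hw : IsLocalHom w)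
    (hres : Function.Surjective ((residue S).comp w)) (s : σ → S)
    (hs : ∀ i, s i ∈ maximalIdeal S) (hgen : maximalIdeal S ≤ Ideal.span (Set.range s)) :
    Function.Surjective (psEval (maximalIdeal S) w s hs) := by
  have hfin : (psEval (maximalIdeal S) w s hs).Finite := by
    refine psEval_finite w s hw (RingHom.Finite.of_surjective _ hres) hs 1 ?_
    rw [pow_one]
    exact hgen.trans le_sup_right
  let _ : Algebra (MvPowerSeries σ Λ) S := (psEval (maximalIdeal S) w s hs).toAlgebra
  have hfin' : Module.Finite (MvPowerSeries σ Λ) S := hfin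
  have hsm : ∀ (q : MvPowerSeries σ Λ) (x : S), q • x = psEval (maximalIdeal S) w s hs q * x :=
    fun _ _ => rfl
  have hN : (⊤ : Submodule (MvPowerSeries σ Λ) S) ≤
      LinearMap.range (Algebra.linearMap (MvPowerSeries σ Λ) S) := by
    refine Submodule.le_of_le_smul_of_le_jacobson_bot (I := maximalIdeal (MvPowerSeries σ Λ))
      hfin'.fg_top (IsLocalRing.maximalIdeal_le_jacobson ⊥) ?_
    intro x _
    obtain ⟨l, hl⟩ := hres (residue S x)
    have h1 : x - w l ∈ maximalIdeal S := by
      rw [← residue_eq_zero_iff, map_sub, sub_eq_zero]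
      exact hl.symm
    have h2 : x = w l + (x - w l) := by ring
    rw [h2]
    refine Submodule.add_mem_sup ⟨C l, ?_⟩ ?_
    · show psEval (maximalIdeal S) w s hs (C l) = w l
      rw [psEval_C]
    · have h3 := hgen h1
      refine Submodule.span_induction (p := fun y _ => y ∈
        (maximalIdeal (MvPowerSeries σ Λ) • ⊤ : Submodule (MvPowerSeries σ Λ) S)) ?_ ?_ ?_ ?_ h3
      · rintro _ ⟨i, rfl⟩
        have h4 : s i = (X i : MvPowerSeries σ Λ) • (1 : S) := by
          rw [hsm, psEval_X, mul_one]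
        rw [h4]
        refine Submodule.smul_mem_smul ?_ trivial
        rw [mem_maximalIdeal_mv_iff, constantCoeff_X]
        exact zero_mem _
      · exact zero_mem _
      · intro x y _ _ hx hy
        exact add_mem hx hy
      · intro a y _ hy
        refine Submodule.smul_induction_on hy ?_ ?_
        · intro q hq z _
          rw [smul_eq_mul, hsm, ← mul_assoc, mul_comm a, mul_assoc, ← hsm]
          exact Submodule.smul_mem_smul hq trivial
        · intro u v hu hv
          rw [smul_add]
          exact add_mem hu hv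
  intro x
  obtain ⟨q, hq⟩ := hN (x := x) trivial
  exact ⟨q, hq⟩

/-- A Noetherian local ring has a finite set of generators of its maximal ideal. -/
theorem exists_gens (S : Type*) [CommRing S] [IsLocalRing S] [IsNoetherianRing S] :
    ∃ (g : ℕ) (s : Fin g → S), (∀ i, s i ∈ maximalIdeal S) ∧
      maximalIdeal S ≤ Ideal.span (Set.range s) := by
  obtain ⟨g, s, hs, _⟩ := exists_min_gens (maximalIdeal S) (IsNoetherian.noetherian _)
  exact ⟨g, s, fun i => hs ▸ Ideal.subset_span ⟨i, rfl⟩, hs.ge⟩

end Surj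

section Reduction

/-- `(I + J)^{n+1} ⊆ I^{n+1} + J (I + J)^n` -/
theorem sup_pow_succ_le {A : Type*} [CommRing A] (I J : Ideal A) (n : ℕ) :
    (I ⊔ J) ^ (n + 1) ≤ I ^ (n + 1) ⊔ J * (I ⊔ J) ^ n := by
  induction n with
  | zero => simp
  | succ n ih =>
    calc (I ⊔ J) ^ (n + 1 + 1) = (I ⊔ J) * (I ⊔ J) ^ (n + 1) := pow_succ' _ _
      _ ≤ (I ⊔ J) * (I ^ (n + 1) ⊔ J * (I ⊔ J) ^ n) := Ideal.mul_mono_right ih
      _ = I * I ^ (n + 1) ⊔ J * I ^ (n + 1) ⊔ (I ⊔ J) * (J * (I ⊔ J) ^ n) := by
          rw [Ideal.mul_sup, Ideal.sup_mul]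
      _ ≤ I ^ (n + 1 + 1) ⊔ J * (I ⊔ J) ^ (n + 1) := by
          refine sup_le (sup_le ?_ ?_) ?_
          · rw [← pow_succ']
            exact le_sup_left
          · exact (Ideal.mul_mono_right (Ideal.pow_right_mono le_sup_left _)).trans le_sup_right
          · rw [mul_left_comm, ← pow_succ']
            exact le_sup_right

/-- If `z` reduces `m_R` and `m_T = m_R T + (Y)` then `(z, Y)` reduces `m_T`. -/
theorem reduction_T {R T : Type*} [CommRing R] [IsLocalRing R] [CommRing T] [IsLocalRing T]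
    [Algebra R T] {d g : ℕ} (z : Fin d → R) (Y : Fin g → T) (c : ℕ)
    (hz : maximalIdeal R ^ (c + 1) ≤ Ideal.span (Set.range z) * maximalIdeal R ^ c)
    (hT : maximalIdeal T = (maximalIdeal R).map (algebraMap R T) ⊔ Ideal.span (Set.range Y)) :
    maximalIdeal T ^ (c + 1) ≤
      Ideal.span (Set.range (Fin.append (fun i => algebraMap R T (z i)) Y)) *
        maximalIdeal T ^ c := by
  have hr : Ideal.span (Set.range (Fin.append (fun i => algebraMap R T (z i)) Y)) =
      (Ideal.span (Set.range z)).map (algebraMap R T) ⊔ Ideal.span (Set.range Y) := by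
    rw [Ideal.map_span, ← Ideal.span_union]
    congr 1
    ext x
    constructor
    · rintro ⟨i, rfl⟩
      refine Fin.addCases (fun i => ?_) (fun i => ?_) i
      · left
        rw [Fin.append_left]
        exact ⟨_, ⟨i, rfl⟩, rfl⟩
      · right
        rw [Fin.append_right]
        exact ⟨i, rfl⟩
    · rintro (⟨_, ⟨i, rfl⟩, rfl⟩ | ⟨i, rfl⟩)
      · exact ⟨Fin.castAdd g i, by rw [Fin.append_left]⟩
      · exact ⟨Fin.natAdd d i, by rw [Fin.append_right]⟩
  rw [hr, Ideal.sup_mul]
  conv_lhs => rw [hT]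
  refine (sup_pow_succ_le _ _ c).trans (sup_le ?_ ?_)
  · rw [← Ideal.map_pow]
    refine (Ideal.map_mono hz).trans ?_
    rw [Ideal.map_mul, Ideal.map_pow]
    refine le_trans (Ideal.mul_mono_right (Ideal.pow_right_mono ?_ c)) le_sup_left
    rw [hT]
    exact le_sup_left
  · rw [← hT]
    exact le_sup_right

end Reduction

end Crest.Agent.R183.RD
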