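import Crest.Agent.R183.Z14
import Crest.Agent.R183.Z15
import Crest.Agent.R183.HSRank
import Mathlib
import Crest.Agent.R183.CohenNoether
import Crest.Agent.R183.Top

-- ▼ part R183/Z16
section

set_option autoImplicit false

/-! # R183 block [8b]: equal characteristic zero, abstract form -/

namespace Crest.Agent.R183.Z

open IsLocalRing MvPowerSeries Crest.Agent.R183.M Crest.Agent.R183.HS Filter TensorProduct
open scoped Nat Topology

variable {K : Type} [Field K] {d : ℕ}

theorem genR_span_eq {R κ : Type} [CommRing R] [IsLocalRing R] [Algebra (PS d K) R] [Fintype κ]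
    (v : κ → R) (hv : Submodule.span (PS d K) (Set.range v) = ⊤) (a : κ → K)
    (ha : ∀ k, v k - algebraMap (PS d K) R (C (a k)) ∈ maximalIdeal R)
    (hx : ∀ i, algebraMap (PS d K) R (X i) ∈ maximalIdeal R) :
    Ideal.span (Set.range (genR d v a)) = maximalIdeal R := by
  classical
  have hle : Ideal.span (Set.range (genR d v a)) ≤ maximalIdeal R := by
    rw [Ideal.span_le]
    rintro _ ⟨(k | i), rfl⟩
    · exact ha k
    · exact hx i
  apply le_antisymm hle
  have hxg : ∀ i, algebraMap (PS d K) R (X i) ∈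
      Ideal.span (Set.range (genR d v a)) := fun i => Ideal.subset_span ⟨Sum.inr i, rfl⟩
  have hB : ∀ f : PS d K, algebraMap (PS d K) R f -
      algebraMap (PS d K) R (C (constantCoeff f)) ∈ Ideal.span (Set.range (genR d v a)) := by
    intro f
    have h1 : f - C (constantCoeff f) ∈ XI (Fin d) K := by
      have := (mem_XI_pow_iff (σ := Fin d) (N := 1) (f := f - C (constantCoeff f))).2 ?_
      · rwa [pow_one] at this
      · intro α hα
        have : α = 0 := by
          have : α.degree = 0 := by omega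
          exact (Finsupp.degree_eq_zero_iff α).1 this
        subst this
        simp
    have h2 := Ideal.mem_map_of_mem (algebraMap (PS d K) R) h1
    rw [XI, Ideal.map_span, ← Set.range_comp] at h2
    have h3 : Ideal.span (Set.range (algebraMap (PS d K) R ∘
        fun i => (X i : PS d K))) ≤ Ideal.span (Set.range (genR d v a)) := by
      rw [Ideal.span_le]
      rintro _ ⟨i, rfl⟩
      exact hxg i
    have h4 := h3 h2
    rw [map_sub] at h4
    exact h4
  intro s hs
  have h1 : s ∈ Submodule.span (PS d K) (Set.range v) := by rw [hv]; trivial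
  rw [Submodule.mem_span_range_iff_exists_fun] at h1
  obtain ⟨e, he⟩ := h1
  set z : K := ∑ k, constantCoeff (e k) * a k with hz
  have h2 : s - algebraMap (PS d K) R (C z) ∈ Ideal.span (Set.range (genR d v a)) := by
    have h3 : s - algebraMap (PS d K) R (C z) = ∑ k, ((algebraMap (PS d K) R (e k) -
        algebraMap (PS d K) R (C (constantCoeff (e k)))) * v k +
        algebraMap (PS d K) R (C (constantCoeff (e k))) *
          (v k - algebraMap (PS d K) R (C (a k)))) := by
      rw [hz, map_sum, map_sum, ← he, ← Finset.sum_sub_distrib]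
      refine Finset.sum_congr rfl fun k _ => ?_
      rw [Algebra.smul_def, map_mul, map_mul]
      ring
    rw [h3]
    refine Ideal.sum_mem _ fun k _ => Ideal.add_mem _ (Ideal.mul_mem_right _ _ (hB _))
      (Ideal.mul_mem_left _ _ (Ideal.subset_span ⟨Sum.inl k, rfl⟩))
  have h4 : algebraMap (PS d K) R (C z) ∈ maximalIdeal R := by
    have := Ideal.sub_mem _ hs (hle h2)
    rwa [sub_sub_cancel] at this
  have h5 : z = 0 := by
    by_contra h0
    have h6 : IsUnit (algebraMap (PS d K) R (C z)) :=
      ((isUnit_iff_ne_zero.2 h0).map (C (σ := Fin d) (R := K))).map (algebraMap (PS d K) R)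
    exact ((mem_maximalIdeal _).1 h4) h6
  rw [h5] at h2
  simpa using h2

set_option maxHeartbeats 1000000 in
theorem eq0_abs (htr : Transfer d K) (hp : ∀ p, p.Prime → MAINp p d) {k : Type} [Field k]
    [Algebra (PS d k) (PS d K)] (hinjk : Function.Injective (algebraMap (PS d k) (PS d K)))
    (hX : ∀ i, algebraMap (PS d k) (PS d K) (X i) = X i)
    (hC : ∀ a : k, ∃ z : K, algebraMap (PS d k) (PS d K) (C a) = C z)
    {R S : Type} [CommRing R] [CommRing S] [IsLocalRing R] [IsNoetherianRing R] [IsLocalRing S]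
    [IsNoetherianRing S] [Algebra (PS d k) R] [Module.Finite (PS d k) R]
    (hinj : Function.Injective (algebraMap (PS d k) R))
    [Algebra R S] [Module.Flat R S] [Algebra (PS d K) S] [Module.Finite (PS d K) S]
    (hcompat : ∀ f, algebraMap R S (algebraMap (PS d k) R f) =
      algebraMap (PS d K) S (algebraMap (PS d k) (PS d K) f))
    (hresR : ∀ r : R, ∃ a : k, r - algebraMap (PS d k) R (C a) ∈ maximalIdeal R)
    (hxR : ∀ i, algebraMap (PS d k) R (X i) ∈ maximalIdeal R) (t : ℕ)
    (hm : maximalIdeal R ^ (t + 1) ≤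
      Ideal.span (Set.range fun i => algebraMap (PS d k) R (X i)) * maximalIdeal R ^ t)
    (hresS : ∀ s : S, ∃ z : K, s - algebraMap (PS d K) S (C z) ∈ maximalIdeal S)
    (hxS : ∀ i, algebraMap (PS d K) S (X i) ∈ maximalIdeal S) (c : ℕ)
    (hn : maximalIdeal S ^ c ≤ Ideal.span (Set.range fun i => algebraMap (PS d K) S (X i)))
    (y : Fin d → S) (hy : ∀ i, y i ∈ maximalIdeal S) (c2 : ℕ)
    (hy2 : maximalIdeal S ^ (c2 + 1) = Ideal.span (Set.range y) * maximalIdeal S ^ c2) :
    ∃ c : ℝ, UBf (hs R R) d c ∧ LBf (hs S S) d c := by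
  classical
  -- rank data of `R`
  obtain ⟨nv, v, hv⟩ := Module.Finite.exists_fin (R := PS d k) (M := R)
  obtain ⟨ρ, hρ, D, hD, e, lam, phi, hlam, hphi⟩ := rankdata v hv hinj
  choose resR hresR' using hresR
  have hspanR := genR_span_eq v hv (fun j => resR (v j)) (fun j => hresR' _) hxR
  -- upper bound for `R`
  have hUB : UBf (hs R R) d ρ := by
    have h1 : UBf (hs (PS d k) R) d ρ := by
      have := UBf_of_map (ringKrullDim_PS_le d k) (UBf_PS d k) phi D hD hphi
      rwa [mul_one] at this
    refine h1.mono_left fun N => ?_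
    refine hs_le_of_finite ?_ N
    rw [map_XI_eq, Ideal.span_le]
    rintro _ ⟨i, rfl⟩
    exact hxR i
  refine ⟨ρ, hUB, ?_⟩
  -- base change
  let _ : Algebra R (PS d K ⊗[PS d k] R) := Algebra.TensorProduct.rightAlgebra
  have hright : ∀ r : R, algebraMap R (PS d K ⊗[PS d k] R) r = 1 ⊗ₜ r := fun r => rfl
  have hkey : ∀ r : PS d k, algebraMap R (PS d K ⊗[PS d k] R) (algebraMap (PS d k) R r) =
      algebraMap (PS d K) (PS d K ⊗[PS d k] R) (algebraMap (PS d k) (PS d K) r) := by
    intro r
    have h1 : algebraMap R (PS d K ⊗[PS d k] R) (algebraMap (PS d k) R r) =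
        algebraMap (PS d k) (PS d K ⊗[PS d k] R) r :=
      (Algebra.TensorProduct.includeRight : R →ₐ[PS d k] PS d K ⊗[PS d k] R).commutes r
    rw [h1]
    exact IsScalarTower.algebraMap_apply (PS d k) (PS d K) (PS d K ⊗[PS d k] R) r
  choose zk hzk using hC
  -- the map to `S`
  let _ : Algebra (PS d k) S := ((algebraMap R S).comp (algebraMap (PS d k) R)).toAlgebra
  have htow1 : IsScalarTower (PS d k) R S := IsScalarTower.of_algebraMap_eq' rfl
  have htow2 : IsScalarTower (PS d k) (PS d K) S := IsScalarTower.of_algebraMap_eq' (by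
    ext f
    exact hcompat f)
  let θ : (PS d K ⊗[PS d k] R) →ₐ[PS d k] S := Algebra.TensorProduct.productMap
    (IsScalarTower.toAlgHom (PS d k) (PS d K) S) (IsScalarTower.toAlgHom (PS d k) R S)
  let _ : Algebra (PS d K ⊗[PS d k] R) S := θ.toRingHom.toAlgebra
  have hθ1 : ∀ f : PS d K, algebraMap (PS d K ⊗[PS d k] R) S
      (algebraMap (PS d K) (PS d K ⊗[PS d k] R) f) = algebraMap (PS d K) S f := by
    intro f
    change θ (f ⊗ₜ 1) = _
    rw [Algebra.TensorProduct.productMap_left_apply]
    rfl
  have hθ2 : ∀ r : R, algebraMap (PS d K ⊗[PS d k] R) S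
      (algebraMap R (PS d K ⊗[PS d k] R) r) = algebraMap R S r := by
    intro r
    change θ (1 ⊗ₜ r) = _
    rw [Algebra.TensorProduct.productMap_right_apply]
    rfl
  have htow3 : IsScalarTower (PS d K) (PS d K ⊗[PS d k] R) S :=
    IsScalarTower.of_algebraMap_eq fun f => (hθ1 f).symm
  have htow4 : IsScalarTower R (PS d K ⊗[PS d k] R) S :=
    IsScalarTower.of_algebraMap_eq fun f => (hθ2 f).symm
  have hnt : Nontrivial (PS d K ⊗[PS d k] R) :=
    RingHom.domain_nontrivial (algebraMap (PS d K ⊗[PS d k] R) S)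
  have hfinR' : Module.Finite (PS d K) (PS d K ⊗[PS d k] R) := inferInstance
  have hNR' : IsNoetherianRing (PS d K ⊗[PS d k] R) := IsNoetherianRing.of_finite (PS d K) _
  have hfinS : Module.Finite (PS d K ⊗[PS d k] R) S :=
    Module.Finite.of_restrictScalars_finite (PS d K) (PS d K ⊗[PS d k] R) S
  -- generators of `R'`
  let v' : Fin nv → PS d K ⊗[PS d k] R := fun j => algebraMap R _ (v j)
  have hv' : Submodule.span (PS d K) (Set.range v') = ⊤ := by
    rw [eq_top_iff]
    rintro s -
    induction s using TensorProduct.induction_on with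
    | zero => exact Submodule.zero_mem _
    | add s1 s2 h1 h2 => exact Submodule.add_mem _ h1 h2
    | tmul f r =>
      have h1 : r ∈ Submodule.span (PS d k) (Set.range v) := by rw [hv]; trivial
      rw [Submodule.mem_span_range_iff_exists_fun] at h1
      obtain ⟨e, rfl⟩ := h1
      rw [TensorProduct.tmul_sum]
      refine Submodule.sum_mem _ fun j _ => ?_
      have h2 : f ⊗ₜ[PS d k] (e j • v j) = (f * algebraMap (PS d k) (PS d K) (e j)) •
          algebraMap R (PS d K ⊗[PS d k] R) (v j) := by
        rw [hright, TensorProduct.smul_tmul', TensorProduct.tmul_smul, TensorProduct.smul_tmul']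
        congr 1
        rw [Algebra.smul_def, smul_eq_mul, mul_one, mul_comm]
      rw [h2]
      exact Submodule.smul_mem _ _ (Submodule.subset_span ⟨j, rfl⟩)
  let a' : Fin nv → K := fun j => zk (resR (v j))
  have hgen' : ∀ s, genR d v' a' s = algebraMap R (PS d K ⊗[PS d k] R)
      (genR d v (fun j => resR (v j)) s) := by
    rintro (j | i)
    · change algebraMap R _ (v j) - algebraMap (PS d K) _ (C (zk (resR (v j)))) =
        algebraMap R _ (v j - algebraMap (PS d k) R (C (resR (v j))))
      rw [map_sub, hkey, hzk]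
    · change algebraMap (PS d K) _ (X i) = algebraMap R _ (algebraMap (PS d k) R (X i))
      rw [hkey, hX]
  have hspan' : Ideal.span (Set.range (genR d v' a')) =
      (maximalIdeal R).map (algebraMap R (PS d K ⊗[PS d k] R)) := by
    rw [← hspanR, Ideal.map_span, ← Set.range_comp]
    congr 2
    funext s
    exact hgen' s
  have hxspan : (Ideal.span (Set.range fun i => algebraMap (PS d k) R (X i))).map
      (algebraMap R (PS d K ⊗[PS d k] R)) =
      Ideal.span (Set.range fun i => algebraMap (PS d K) (PS d K ⊗[PS d k] R) (X i)) := by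
    rw [Ideal.map_span, ← Set.range_comp]
    congr 2
    funext i
    change algebraMap R _ (algebraMap (PS d k) R (X i)) = _
    rw [hkey, hX]
  have hm' : Ideal.span (Set.range (genR d v' a')) ^ (t + 1) ≤
      Ideal.span (Set.range fun i => algebraMap (PS d K) (PS d K ⊗[PS d k] R) (X i)) *
        Ideal.span (Set.range (genR d v' a')) ^ t := by
    have := Ideal.map_mono (f := algebraMap R (PS d K ⊗[PS d k] R)) hm
    rw [Ideal.map_pow, Ideal.map_mul, Ideal.map_pow, hxspan, ← hspan'] at this
    exact this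
  -- `R'` is local
  obtain ⟨hloc', hmax', -⟩ := local_of_cert v' hv' a' (Ideal.span (Set.range (genR d v' a')))
    (fun j => Ideal.subset_span ⟨Sum.inl j, rfl⟩) (fun i => Ideal.subset_span ⟨Sum.inr i, rfl⟩)
    (t + 1) (hm'.trans Ideal.mul_le_left)
  have hfree : Module.Free (PS d K ⊗[PS d k] R) S :=
    free_of_residue_ext (R := R) (R' := PS d K ⊗[PS d k] R) (S := S) (by rw [hmax', hspan'])
  -- the linear map
  let l1 : R →ₗ[PS d k] (Fin ρ → PS d K) :=
    LinearMap.pi fun i => (Algebra.linearMap (PS d k) (PS d K)).comp ((LinearMap.proj i).comp lam)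
  have hl1 : ∀ r i, l1 r i = algebraMap (PS d k) (PS d K) (lam r i) := fun r i => rfl
  let lam' : (PS d K ⊗[PS d k] R) →ₗ[PS d K] (Fin ρ → PS d K) := LinearMap.liftBaseChange (PS d K) l1
  have hlam' : ∀ i, lam' (algebraMap R _ (e i)) =
      Pi.single i (algebraMap (PS d k) (PS d K) D) := by
    intro i
    rw [hright]
    change LinearMap.liftBaseChange (PS d K) l1 (1 ⊗ₜ e i) = _
    rw [LinearMap.liftBaseChange_tmul, one_smul]
    funext j
    rw [hl1, hlam]
    by_cases hij : j = i
    · subst hij
      simp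
    · simp [Pi.single_eq_of_ne hij]
  have hD' : algebraMap (PS d k) (PS d K) D ≠ 0 := fun h => hD (hinjk (by rw [h, map_zero]))
  -- parameters
  have hy3 : maximalIdeal S ^ (c2 + 1) ≤ Ideal.span (Set.range y) := by
    rw [hy2]; exact Ideal.mul_le_left
  have key : ∀ q : ℕ, 0 < q → (ρ : ℝ) ≤
      ((Module.length S (S ⧸ Ideal.span (Set.range fun i => y i ^ q))).toNat : ℝ) /
      (q : ℝ) ^ d := by
    intro q hq
    refine Sdata htr hp v' hv' a' t hm' hρ lam' _ hD' _ hlam' ?_ ?_ c ?_ y hy (c2 + 1) hy3 q hq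
    · intro s
      obtain ⟨z, hz⟩ := hresS s
      exact ⟨z, by rw [hθ1]; exact hz⟩
    · intro i
      rw [hθ1]
      exact hxS i
    · refine hn.trans (le_of_eq ?_)
      congr 2
      funext i
      rw [hθ1]
  rcases Nat.eq_zero_or_pos d with hd0 | hd0
  · -- dimension zero
    subst hd0
    have h1 := key 1 one_pos
    rw [pow_zero, div_one] at h1
    have hbot : ∀ z : Fin 0 → S, Ideal.span (Set.range z) = ⊥ := by
      intro z
      rw [Set.range_eq_empty, Ideal.span_empty]
    rw [hbot] at hy3
    intro ε hε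
    filter_upwards [eventually_ge_atTop (c2 + 1)] with N hN
    have h2 : maximalIdeal S ^ N = ⊥ := by
      rw [eq_bot_iff]
      exact (Ideal.pow_le_pow_right hN).trans hy3
    rw [M.hs_self, h2]
    rw [hbot] at h1
    simp only [pow_zero, mul_one, Nat.factorial_zero, Nat.cast_one, one_mul]
    linarith
  · obtain ⟨r, C', hUBS, hLBS, hlen, -⟩ := rank_theorem y hy c2 hy2
    have h2 : (ρ : ℝ) ≤ r := by
      have h3 : ∀ q : ℕ, 0 < q → (ρ : ℝ) ≤ r + (C' : ℝ) / q := by
        intro q hq
        refine (key q hq).trans ?_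
        have h4 : (Module.length S (S ⧸ Ideal.span (Set.range fun i => y i ^ q))).toNat ≤
            r * q ^ d + C' * q ^ (d - 1) := by
          have := ENat.toNat_le_toNat (hlen q) (ENat.natCast_ne_top _)
          rwa [ENat.toNat_natCast] at this
        have h5 : ((Module.length S (S ⧸ Ideal.span (Set.range fun i => y i ^ q))).toNat : ℝ) ≤
            r * (q : ℝ) ^ d + C' * (q : ℝ) ^ (d - 1) := by exact_mod_cast h4
        have hq' : (0 : ℝ) < q := by exact_mod_cast hq
        rw [div_le_iff₀ (by positivity)]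
        refine h5.trans (le_of_eq ?_)
        have h6 : (q : ℝ) ^ d = q * (q : ℝ) ^ (d - 1) := by
          rw [← pow_succ']
          congr 1
          omega
        rw [add_mul]
        congr 1
        rw [h6]
        field_simp
      have h4 : Tendsto (fun q : ℕ => (r : ℝ) + (C' : ℝ) / (q : ℝ)) atTop (𝓝 ((r : ℝ) + 0)) :=
        tendsto_const_nhds.add (tendsto_const_div_atTop_nhds_zero_nat (C' : ℝ))
      rw [add_zero] at h4
      exact ge_of_tendsto h4 (by
        filter_upwards [eventually_gt_atTop 0] with q hq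
        exact h3 q hq)
    exact hLBS.mono h2

end Crest.Agent.R183.Z
end

-- ▼ part R183/TA1
section

/-!
Transfer theorem (Artin approximation from an ultraproduct of fields to its factors), part 1:
evaluation maps, the statement `TR`, the base case and the Weierstrass step.
-/

set_option autoImplicit false

namespace Crest.Agent.R183.TA

open MvPowerSeries

section Ev

variable {L R R' : Type} [CommRing L] [CommRing R] [CommRing R']

/-- Evaluation of a polynomial in `X_0..X_{d-1}` and unknowns `Y_t` with coefficients in `L`,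
in a power series ring over an `L`-algebra `R`. -/
noncomputable def ev {d : ℕ} {τ : Type} (θ : L →+* R) (y : τ → MvPowerSeries (Fin d) R) :
    MvPolynomial (Fin d ⊕ τ) L →+* MvPowerSeries (Fin d) R :=
  MvPolynomial.eval₂Hom ((C (σ := Fin d) (R := R)).comp θ) (Sum.elim X y)

@[simp] lemma ev_C {d : ℕ} {τ : Type} (θ : L →+* R) (y : τ → MvPowerSeries (Fin d) R) (c : L) :
    ev θ y (MvPolynomial.C c) = C (θ c) := by
  simp [ev]

@[simp] lemma ev_X_inl {d : ℕ} {τ : Type} (θ : L →+* R) (y : τ → MvPowerSeries (Fin d) R)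
    (j : Fin d) : ev θ y (MvPolynomial.X (Sum.inl j)) = X j := by
  simp [ev]

@[simp] lemma ev_X_inr {d : ℕ} {τ : Type} (θ : L →+* R) (y : τ → MvPowerSeries (Fin d) R)
    (t : τ) : ev θ y (MvPolynomial.X (Sum.inr t)) = y t := by
  simp [ev]

lemma map_ev {d : ℕ} {τ : Type} (θ : L →+* R) (χ : R →+* R') (y : τ → MvPowerSeries (Fin d) R)
    (f : MvPolynomial (Fin d ⊕ τ) L) :
    map χ (ev θ y f) = ev (χ.comp θ) (fun t => map χ (y t)) f := by
  have h : (map χ).comp (ev θ y) = ev (χ.comp θ) (fun t => map χ (y t)) := by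
    apply MvPolynomial.ringHom_ext
    · intro c; simp
    · rintro (j | t) <;> simp
  exact congrArg (fun g => g f) h

lemma finSuccEquiv_map {d : ℕ} (χ : R →+* R') (f : MvPowerSeries (Fin (d + 1)) R) :
    finSuccEquiv R' d (map χ f) = PowerSeries.map (map χ) (finSuccEquiv R d f) := by
  ext k x
  rw [coeff_coeff_finSuccEquiv, coeff_map, PowerSeries.coeff_map, coeff_map,
    coeff_coeff_finSuccEquiv]

/-- The generic substitution `X_0 ↦ X`, `X_{j+1} ↦ X_j`, `Y_t ↦ ρ_t`. -/
noncomputable def Gam {d : ℕ} {τ τ' : Type} (ρ : τ → Polynomial (MvPolynomial (Fin d ⊕ τ') L)) :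
    MvPolynomial (Fin (d + 1) ⊕ τ) L →+* Polynomial (MvPolynomial (Fin d ⊕ τ') L) :=
  MvPolynomial.eval₂Hom (Polynomial.C.comp MvPolynomial.C)
    (Sum.elim (Fin.cons Polynomial.X (fun j => Polynomial.C (MvPolynomial.X (Sum.inl j)))) ρ)

lemma dvd_ev_sub {d : ℕ} {τ τ' : Type} (θ : L →+* R)
    (ρ : τ → Polynomial (MvPolynomial (Fin d ⊕ τ') L)) (z : τ' → MvPowerSeries (Fin d) R)
    (a : PowerSeries (MvPowerSeries (Fin d) R)) (w : τ → MvPowerSeries (Fin (d + 1)) R)
    (hw : ∀ t, a ∣ finSuccEquiv R d (w t) -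
      (((ρ t).map (ev θ z) : Polynomial (MvPowerSeries (Fin d) R)) : PowerSeries _))
    (f : MvPolynomial (Fin (d + 1) ⊕ τ) L) :
    a ∣ finSuccEquiv R d (ev θ w f) -
      (((Gam ρ f).map (ev θ z) : Polynomial (MvPowerSeries (Fin d) R)) : PowerSeries _) := by
  have h : ((Ideal.Quotient.mk (Ideal.span {a})).comp
      (((finSuccEquiv R d).toRingEquiv.toRingHom).comp (ev θ w))) =
      ((Ideal.Quotient.mk (Ideal.span {a})).comp
      ((Polynomial.coeToPowerSeries.ringHom).comp
        ((Polynomial.mapRingHom (ev θ z)).comp (Gam ρ)))) := by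
    apply MvPolynomial.ringHom_ext
    · intro c
      simp [Gam]
    · rintro (j | t)
      · refine Fin.cases ?_ (fun j => ?_) j
        · simp [Gam]
        · simp [Gam]
      · have := hw t
        rw [← Ideal.mem_span_singleton, ← Ideal.Quotient.eq] at this
        simpa [Gam] using this
  have h2 := congrArg (fun g => g f) h
  rw [← Ideal.mem_span_singleton, ← Ideal.Quotient.eq]
  simpa using h2

end Ev


section Jd

variable {R R' : Type} [CommRing R] [CommRing R']

/-- Power series all of whose coefficients of total degree `< M` vanish. -/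
def Jd (d : ℕ) (R : Type) [CommRing R] (M : ℕ) : Ideal (MvPowerSeries (Fin d) R) where
  carrier := {f | ∀ α : Fin d →₀ ℕ, α.degree < M → coeff α f = 0}
  add_mem' := by
    intro f g hf hg α hα
    rw [map_add, hf α hα, hg α hα, add_zero]
  zero_mem' := by
    intro α _
    simp
  smul_mem' := by
    intro c f hf α hα
    rw [smul_eq_mul, coeff_mul]
    apply Finset.sum_eq_zero
    intro p hp
    have hp' : p.1 + p.2 = α := Finset.HasAntidiagonal.mem_antidiagonal.mp hp
    have : p.2.degree < M := by
      have h2 : α.degree = p.1.degree + p.2.degree := by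
        rw [← hp', map_add]
      omega
    rw [hf _ this, mul_zero]


lemma mem_Jd_iff_order {d M : ℕ} {f : MvPowerSeries (Fin d) R} :
    f ∈ Jd d R M ↔ (M : ℕ∞) ≤ f.order := by
  constructor
  · intro h
    apply MvPowerSeries.le_order
    intro α hα
    exact h α (by exact_mod_cast hα)
  · intro h α hα
    apply coeff_of_lt_order
    exact lt_of_lt_of_le (by exact_mod_cast hα) h

lemma Jd_mono {d M N : ℕ} (h : M ≤ N) : Jd d R N ≤ Jd d R M :=
  fun _ hf α hα => hf α (lt_of_lt_of_le hα h)


lemma degree_cons {d : ℕ} (k : ℕ) (x : Fin d →₀ ℕ) : (Finsupp.cons k x).degree = k + x.degree := by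
  rw [Finsupp.degree_eq_sum, Finsupp.degree_eq_sum, Fin.sum_univ_succ]
  simp

lemma symm_mem_Jd {d M : ℕ} (G : PowerSeries (MvPowerSeries (Fin d) R))
    (hG : ∀ k, PowerSeries.coeff k G ∈ Jd d R M) : (finSuccEquiv R d).symm G ∈ Jd (d + 1) R M := by
  intro α hα
  rw [← Finsupp.cons_tail α, ← coeff_coeff_finSuccEquiv, AlgEquiv.apply_symm_apply]
  apply hG
  rw [← Finsupp.cons_tail α, degree_cons] at hα
  omega

variable {L : Type} [CommRing L]

lemma ev_sub_mem_Jd {d M : ℕ} {τ : Type} (θ : L →+* R) (y y' : τ → MvPowerSeries (Fin d) R)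
    (h : ∀ t, y t - y' t ∈ Jd d R M) (f : MvPolynomial (Fin d ⊕ τ) L) :
    ev θ y f - ev θ y' f ∈ Jd d R M := by
  have h1 : (Ideal.Quotient.mk (Jd d R M)).comp (ev θ y) =
      (Ideal.Quotient.mk (Jd d R M)).comp (ev θ y') := by
    apply MvPolynomial.ringHom_ext
    · intro c; simp
    · rintro (j | t)
      · simp
      · simpa using (Ideal.Quotient.eq.mpr (h t))
  have h2 := congrArg (fun g => g f) h1
  exact Ideal.Quotient.eq.mp h2

end Jd

section Lift

variable {R K : Type} [CommRing R] [CommRing K]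

lemma exists_map_eq {σ : Type} (π : R →+* K) (hs : Function.Surjective π)
    (g : MvPowerSeries σ K) : ∃ g' : MvPowerSeries σ R, map π g' = g := by
  choose s hs' using hs
  let g' : MvPowerSeries σ R := fun α => s (coeff α g)
  refine ⟨g', ?_⟩
  ext α
  rw [coeff_map]
  exact hs' _

lemma exists_psmap_eq {d : ℕ} (π : R →+* K) (hs : Function.Surjective π)
    (g : PowerSeries (MvPowerSeries (Fin d) K)) :
    ∃ g' : PowerSeries (MvPowerSeries (Fin d) R), PowerSeries.map (map π) g' = g := by
  choose s hs' using exists_map_eq (σ := Fin d) π hs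
  refine ⟨PowerSeries.mk fun k => s (PowerSeries.coeff k g), ?_⟩
  ext1 k
  rw [PowerSeries.coeff_map, PowerSeries.coeff_mk]
  exact hs' _

end Lift

section Ultra

variable {ι : Type} (U : Ultrafilter ι) (κ : ι → Type) [∀ i, Field (κ i)] {K : Type} [Field K]
  (π : (∀ i, κ i) →+* K)

/-- The transfer property in `d` variables. -/
def TR (d : ℕ) : Prop :=
  ∀ (τ : Type) [Finite τ] (y : τ → MvPowerSeries (Fin d) K) (M : ℕ),
    ∃ y' : τ → MvPowerSeries (Fin d) (∀ i, κ i),
      (∀ f : MvPolynomial (Fin d ⊕ τ) (∀ i, κ i), ev π y f = 0 →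
        ∀ᶠ i in (U : Filter ι), map (Pi.evalRingHom κ i) (ev (RingHom.id _) y' f) = 0) ∧
      ∀ t, map π (y' t) - y t ∈ Jd d K M

variable (hπ : ∀ a : (∀ i, κ i), π a = 0 ↔ ∀ᶠ i in (U : Filter ι), a i = 0)
  (hs : Function.Surjective π)

include hπ hs in
theorem TR_zero : TR U κ π 0 := by
  intro τ _ y M
  choose y' hy' using fun t => exists_map_eq π hs (y t)
  refine ⟨y', ?_, ?_⟩
  · intro f hf
    have h1 : map π (ev (RingHom.id _) y' f) = 0 := by
      rw [map_ev]
      simpa [hy'] using hf
    have h2 : π (coeff 0 (ev (RingHom.id _) y' f)) = 0 := by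
      rw [← coeff_map, h1]
      simp
    filter_upwards [(hπ _).mp h2] with i hi
    ext α
    rw [Subsingleton.elim α 0, coeff_map]
    simpa using hi
  · intro t
    rw [hy', sub_self]
    exact Ideal.zero_mem _

end Ultra

end Crest.Agent.R183.TA
end

-- ▼ part R183/TA2
section

/-!
Transfer theorem, part 2: the Weierstrass step.
-/

set_option autoImplicit false

namespace Crest.Agent.R183.TA

open MvPowerSeries

section Local

variable {K : Type} [Field K]

lemma mem_maximalIdeal_iff {d : ℕ} (f : MvPowerSeries (Fin d) K) :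
    f ∈ IsLocalRing.maximalIdeal (MvPowerSeries (Fin d) K) ↔ constantCoeff f = 0 := by
  rw [IsLocalRing.mem_maximalIdeal, mem_nonunits_iff, isUnit_iff_constantCoeff, isUnit_iff_ne_zero,
    not_not]

lemma mem_span_X {R : Type} [CommRing R] : ∀ (d : ℕ) (f : MvPowerSeries (Fin d) R),
    constantCoeff f = 0 → f ∈ Ideal.span (Set.range (X : Fin d → MvPowerSeries (Fin d) R)) := by
  intro d
  induction d with
  | zero =>
    intro f hf
    have : f = 0 := by
      ext α
      rw [Subsingleton.elim α 0, coeff_zero_eq_constantCoeff_apply, hf]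
      simp
    rw [this]
    exact Ideal.zero_mem _
  | succ d ih =>
    intro f hf
    have h0 : constantCoeff (PowerSeries.constantCoeff (finSuccEquiv R d f)) = 0 := by
      rw [← PowerSeries.coeff_zero_eq_constantCoeff_apply, ← coeff_zero_eq_constantCoeff_apply,
        coeff_coeff_finSuccEquiv, Finsupp.cons_zero_zero, coeff_zero_eq_constantCoeff_apply, hf]
    have h1 := ih _ h0
    have h2 : finSuccEquiv R d f = PowerSeries.C (PowerSeries.constantCoeff (finSuccEquiv R d f)) +
        PowerSeries.X * (PowerSeries.mk fun p => PowerSeries.coeff (p + 1) (finSuccEquiv R d f)) := by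
      conv_lhs => rw [PowerSeries.eq_X_mul_shift_add_const (finSuccEquiv R d f)]
      rw [add_comm]
    have h3 : f = (finSuccEquiv R d).symm
        (PowerSeries.C (PowerSeries.constantCoeff (finSuccEquiv R d f))) +
        X 0 * (finSuccEquiv R d).symm
          (PowerSeries.mk fun p => PowerSeries.coeff (p + 1) (finSuccEquiv R d f)) := by
      apply (finSuccEquiv R d).injective
      rw [map_add, map_mul, AlgEquiv.apply_symm_apply, AlgEquiv.apply_symm_apply,
        finSuccEquiv_X_zero]
      exact h2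
    rw [h3]
    refine Ideal.add_mem _ ?_ (Ideal.mul_mem_right _ _ (Ideal.subset_span ⟨0, rfl⟩))
    let φ : MvPowerSeries (Fin d) R →+* MvPowerSeries (Fin (d + 1)) R :=
      ((finSuccEquiv R d).symm.toRingEquiv.toRingHom).comp PowerSeries.C
    have h4 : φ (PowerSeries.constantCoeff (finSuccEquiv R d f)) ∈
        Ideal.map φ (Ideal.span (Set.range X)) := Ideal.mem_map_of_mem _ h1
    rw [Ideal.map_span] at h4
    refine Ideal.span_mono ?_ h4
    rintro _ ⟨_, ⟨j, rfl⟩, rfl⟩
    refine ⟨j.succ, ?_⟩
    apply (finSuccEquiv R d).injective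
    simp [φ]

lemma maximalIdeal_eq_span {d : ℕ} :
    IsLocalRing.maximalIdeal (MvPowerSeries (Fin d) K) =
      Ideal.span (Set.range (X : Fin d → MvPowerSeries (Fin d) K)) := by
  apply le_antisymm
  · intro f hf
    exact mem_span_X d f ((mem_maximalIdeal_iff f).mp hf)
  · rw [Ideal.span_le]
    rintro _ ⟨j, rfl⟩
    exact (mem_maximalIdeal_iff _).mpr (by simp)

instance {d : ℕ} : IsAdicComplete (IsLocalRing.maximalIdeal (MvPowerSeries (Fin d) K))
    (MvPowerSeries (Fin d) K) := by
  rw [maximalIdeal_eq_span]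
  infer_instance

/-- A polynomial divisible (as a power series) by a distinguished polynomial is divisible as a
polynomial. -/
lemma modByMonic_eq_zero_of_dvd {A : Type} [CommRing A] [IsLocalRing A]
    [IsAdicComplete (IsLocalRing.maximalIdeal A) A] (a : Polynomial A)
    (ha : a.IsDistinguishedAt (IsLocalRing.maximalIdeal A)) (G : Polynomial A)
    (h : (a : PowerSeries A) ∣ (G : PowerSeries A)) : G %ₘ a = 0 := by
  obtain ⟨v, hv⟩ := h
  have hD : (a : PowerSeries A).IsWeierstrassDivisorAt (IsLocalRing.maximalIdeal A) :=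
    ha.isWeierstrassDivisorAt'
  have hdeg : a.degree = ((((a : PowerSeries A).map
      (Ideal.Quotient.mk (IsLocalRing.maximalIdeal A))).order.toNat : ℕ) : WithBot ℕ) := by
    have h1 := ha.coe_natDegree_eq_order_map (a : PowerSeries A) 1
      (by
        rw [map_one, ← Ideal.ne_top_iff_one]
        exact Ideal.IsPrime.ne_top') (by simp)
    rw [← h1, Polynomial.degree_eq_natDegree ha.monic.ne_zero]
    simp
  have h1 : (a : PowerSeries A) * ((G /ₘ a : Polynomial A) : PowerSeries A) +
      ((G %ₘ a : Polynomial A) : PowerSeries A) = (a : PowerSeries A) * v +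
      ((0 : Polynomial A) : PowerSeries A) := by
    rw [← Polynomial.coe_mul, ← Polynomial.coe_add, add_comm, Polynomial.modByMonic_add_div,
      ← hv]
    simp
  have h2 := hD.eq_of_mul_add_eq_mul_add (r := G %ₘ a) (r' := 0) (q := ((G /ₘ a : Polynomial A) : PowerSeries A)) (q' := v)
    (by rw [← hdeg]; exact Polynomial.degree_modByMonic_lt _ ha.monic)
    (by
      rw [Polynomial.degree_zero]
      exact WithBot.bot_lt_coe _) h1
  exact h2.2

end Local

end Crest.Agent.R183.TA
end

-- ▼ part R183/TA3
section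

/-!
Transfer theorem, part 3: the Weierstrass step.
-/

set_option autoImplicit false

namespace Crest.Agent.R183.TA

open MvPowerSeries

section PolyOf

variable {A A' : Type} [CommRing A] [CommRing A']

noncomputable def polyOf {r : ℕ} (c : Fin r → A) : Polynomial A :=
  ∑ j : Fin r, Polynomial.C (c j) * Polynomial.X ^ (j : ℕ)

noncomputable def monicOf {r : ℕ} (c : Fin r → A) : Polynomial A :=
  Polynomial.X ^ r + polyOf c

lemma coeff_polyOf {r : ℕ} (c : Fin r → A) (l : ℕ) :
    (polyOf c).coeff l = if h : l < r then c ⟨l, h⟩ else 0 := by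
  unfold polyOf
  rw [Polynomial.finsetSum_coeff]
  simp only [Polynomial.coeff_C_mul, Polynomial.coeff_X_pow]
  split_ifs with h
  · rw [Finset.sum_eq_single ⟨l, h⟩]
    · simp
    · intro b _ hb
      rw [if_neg, mul_zero]
      intro hl
      apply hb
      ext
      exact hl.symm
    · simp
  · apply Finset.sum_eq_zero
    intro b _
    rw [if_neg, mul_zero]
    intro hl
    exact h (hl ▸ b.2)

lemma coeff_monicOf {r : ℕ} (c : Fin r → A) (l : ℕ) :
    (monicOf c).coeff l = if h : l < r then c ⟨l, h⟩ else if l = r then 1 else 0 := by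
  unfold monicOf
  rw [Polynomial.coeff_add, coeff_polyOf, Polynomial.coeff_X_pow]
  split_ifs with h1 h2 h3
  · omega
  · simp
  · simp
  · simp

lemma map_polyOf {r : ℕ} (φ : A →+* A') (c : Fin r → A) :
    (polyOf c).map φ = polyOf (fun j => φ (c j)) := by
  unfold polyOf
  simp [Polynomial.map_sum]

lemma map_monicOf {r : ℕ} (φ : A →+* A') (c : Fin r → A) :
    (monicOf c).map φ = monicOf (fun j => φ (c j)) := by
  unfold monicOf
  simp [map_polyOf]

lemma monic_monicOf {r : ℕ} (c : Fin r → A) : (monicOf c).Monic := by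
  unfold monicOf
  exact Polynomial.monic_X_pow_add (Polynomial.degree_sum_fin_lt c)

lemma eq_polyOf {r : ℕ} (p : Polynomial A) (hp : p.degree < (r : WithBot ℕ)) :
    p = polyOf (fun j : Fin r => p.coeff j) := by
  ext l
  rw [coeff_polyOf]
  split_ifs with h
  · rfl
  · exact Polynomial.coeff_eq_zero_of_degree_lt (lt_of_lt_of_le hp (by exact_mod_cast not_lt.mp h))

lemma eq_monicOf (p : Polynomial A) (hp : p.Monic) :
    p = monicOf (fun j : Fin p.natDegree => p.coeff j) := by
  ext l
  rw [coeff_monicOf]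
  split_ifs with h1 h2
  · rfl
  · rw [h2]; exact hp
  · exact Polynomial.coeff_eq_zero_of_natDegree_lt (by omega)

end PolyOf

section CC

variable {F : Type} [CommRing F]

lemma cc_coeff_mul {d r : ℕ} (c : Fin r → MvPowerSeries (Fin d) F)
    (hc : ∀ j, constantCoeff (c j) = 0) (v : PowerSeries (MvPowerSeries (Fin d) F)) :
    constantCoeff (PowerSeries.coeff r ((monicOf c : PowerSeries (MvPowerSeries (Fin d) F)) * v)) =
      constantCoeff (PowerSeries.constantCoeff v) := by
  rw [PowerSeries.coeff_mul, map_sum, Finset.sum_eq_single (r, 0)]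
  · rw [Polynomial.coeff_coe, coeff_monicOf]
    simp
  · intro b hb hne
    have hb' := Finset.HasAntidiagonal.mem_antidiagonal.mp hb
    rw [map_mul, Polynomial.coeff_coe, coeff_monicOf]
    have hlt : b.1 < r := by
      rcases Nat.lt_or_ge b.1 r with h | h
      · exact h
      · exfalso
        apply hne
        have h1 : b.1 = r := by omega
        have h2 : b.2 = 0 := by omega
        exact Prod.ext h1 h2
    rw [dif_pos hlt, hc, zero_mul]
  · intro h
    exfalso
    apply h
    simp

lemma cons_zero_eq_single {d : ℕ} (r : ℕ) :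
    (Finsupp.cons r (0 : Fin d →₀ ℕ)) = Finsupp.single 0 r := by
  ext j
  refine Fin.cases ?_ (fun j => ?_) j
  · simp
  · simp

lemma coeff_single_eq {d : ℕ} (r : ℕ) (f : MvPowerSeries (Fin (d + 1)) F) :
    coeff (Finsupp.single 0 r) f =
      constantCoeff (PowerSeries.coeff r (finSuccEquiv F d f)) := by
  rw [← coeff_zero_eq_constantCoeff_apply, coeff_coeff_finSuccEquiv, cons_zero_eq_single]

end CC

lemma eventually_map_eq_zero {ι : Type} (U : Filter ι) {Z : Type} [CommRing Z] {A : ι → Type}
    [∀ i, CommRing (A i)] (φ : ∀ i, Z →+* A i) (P : Polynomial Z)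
    (h : ∀ l, ∀ᶠ i in U, φ i (P.coeff l) = 0) : ∀ᶠ i in U, P.map (φ i) = 0 := by
  have h1 : ∀ᶠ i in U, ∀ l ∈ P.support, φ i (P.coeff l) = 0 :=
    (Filter.eventually_all_finset P.support).mpr (fun l _ => h l)
  filter_upwards [h1] with i hi
  ext l
  rw [Polynomial.coeff_map, Polynomial.coeff_zero]
  by_cases hl : l ∈ P.support
  · exact hi l hl
  · rw [Polynomial.notMem_support_iff.mp hl, map_zero]

end Crest.Agent.R183.TA
end

-- ▼ part R183/TA4
section

/-!
Transfer theorem, part 4: the Weierstrass step.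
-/

set_option autoImplicit false

namespace Crest.Agent.R183.TA

open MvPowerSeries

variable {ι : Type} (U : Ultrafilter ι) (κ : ι → Type) [∀ i, Field (κ i)] {K : Type} [Field K]
  (π : (∀ i, κ i) →+* K)
  (hπ : ∀ a : (∀ i, κ i), π a = 0 ↔ ∀ᶠ i in (U : Filter ι), a i = 0)
  (hs : Function.Surjective π)

include hπ hs in
theorem weier {d : ℕ} (hTR : TR U κ π d) {τ : Type} [Finite τ]
    (y : τ → MvPowerSeries (Fin (d + 1)) K) {s : Type} [Finite s]
    (H : s → MvPolynomial (Fin (d + 1) ⊕ τ) (∀ i, κ i)) (hH : ∀ k, ev π y (H k) = 0)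
    (D : MvPolynomial (Fin (d + 1) ⊕ τ) (∀ i, κ i))
    (hD : ∃ r, coeff (Finsupp.single 0 r) (ev π y D) ≠ 0) (M : ℕ) :
    ∃ y0 : τ → MvPowerSeries (Fin (d + 1)) (∀ i, κ i),
      (∀ᶠ i in (U : Filter ι), ∀ k, map (Pi.evalRingHom κ i) (ev (RingHom.id _) y0 D) ∣
        map (Pi.evalRingHom κ i) (ev (RingHom.id _) y0 (H k))) ∧
      ∀ t, map π (y0 t) - y t ∈ Jd (d + 1) K M := by
  classical
  -- Weierstrass preparation over `K`
  obtain ⟨a, v, hav⟩ : ∃ (a : Polynomial (MvPowerSeries (Fin d) K))
      (v : PowerSeries (MvPowerSeries (Fin d) K)),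
      (finSuccEquiv K d (ev π y D)).IsWeierstrassFactorization a v := by
    apply PowerSeries.exists_isWeierstrassFactorization
    obtain ⟨r, hr⟩ := hD
    intro h0
    apply hr
    rw [coeff_single_eq]
    have h1 := congrArg (PowerSeries.coeff r) h0
    rw [PowerSeries.coeff_map, map_zero, IsLocalRing.residue_eq_zero_iff,
      mem_maximalIdeal_iff] at h1
    exact h1
  have ha := hav.isDistinguishedAt
  have hav' := hav.eq_mul
  have hvu := hav.isUnit
  have hdeg : ((a : PowerSeries (MvPowerSeries (Fin d) K)).map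
      (Ideal.Quotient.mk (IsLocalRing.maximalIdeal (MvPowerSeries (Fin d) K)))).order.toNat =
      a.natDegree := by
    have h1 := ha.coe_natDegree_eq_order_map (a : PowerSeries _) 1
      (by
        rw [map_one, ← Ideal.ne_top_iff_one]
        exact Ideal.IsPrime.ne_top') (by simp)
    rw [← h1]
    simp
  -- Weierstrass division
  have hdiv : ∀ t, ∃ (q : PowerSeries (MvPowerSeries (Fin d) K))
      (ρ : Polynomial (MvPowerSeries (Fin d) K)), ρ.degree < (a.natDegree : WithBot ℕ) ∧
      finSuccEquiv K d (y t) = a * q + ρ := by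
    intro t
    have h1 := ha.isWeierstrassDivisorAt'.isWeierstrassDivisionAt_div_mod
      (finSuccEquiv K d (y t))
    refine ⟨_, _, ?_, h1.eq_mul_add⟩
    have h2 := h1.degree_lt
    rw [hdeg] at h2
    exact h2
  choose q ρ hρdeg hq using hdiv
  set r := a.natDegree with hr
  -- the unknowns of level `d`
  let z : Fin r ⊕ (τ × Fin r) → MvPowerSeries (Fin d) K :=
    Sum.elim (fun j => a.coeff j) (fun p => (ρ p.1).coeff p.2)
  let ag : Polynomial (MvPolynomial (Fin d ⊕ (Fin r ⊕ (τ × Fin r))) (∀ i, κ i)) :=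
    monicOf (fun j : Fin r => MvPolynomial.X (Sum.inr (Sum.inl j)))
  let ρg : τ → Polynomial (MvPolynomial (Fin d ⊕ (Fin r ⊕ (τ × Fin r))) (∀ i, κ i)) :=
    fun t => polyOf (fun j : Fin r => MvPolynomial.X (Sum.inr (Sum.inr (t, j))))
  have hagm : ag.Monic := monic_monicOf _
  have hag : ag.map (ev π z) = a := by
    rw [map_monicOf]
    conv_rhs => rw [eq_monicOf a ha.monic]
    congr 1
    funext j
    simp [z]
  have hρg : ∀ t, (ρg t).map (ev π z) = ρ t := by
    intro t
    rw [map_polyOf]
    conv_rhs => rw [eq_polyOf (ρ t) (hρdeg t)]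
    congr 1
    funext j
    simp [z]
  obtain ⟨z', hz1, hz2⟩ := hTR _ z (max M (r + 1))
  choose q' hq' using fun t => exists_psmap_eq π hs (q t)
  -- lift
  let y0 : τ → MvPowerSeries (Fin (d + 1)) (∀ i, κ i) := fun t =>
    (finSuccEquiv (∀ i, κ i) d).symm
      (((ag.map (ev (RingHom.id _) z') : Polynomial _) : PowerSeries _) * q' t +
        (((ρg t).map (ev (RingHom.id _) z') : Polynomial _) : PowerSeries _))
  -- formula for images of y0
  have key : ∀ (F : Type) [CommRing F] (χ : (∀ i, κ i) →+* F) (t : τ),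
      finSuccEquiv F d (map χ (y0 t)) =
        ((ag.map (ev χ (fun u => map χ (z' u))) : Polynomial _) : PowerSeries _) *
          PowerSeries.map (map χ) (q' t) +
        (((ρg t).map (ev χ (fun u => map χ (z' u))) : Polynomial _) : PowerSeries _) := by
    intro F _ χ t
    have h1 : (map χ).comp (ev (RingHom.id _) z') = ev χ (fun u => map χ (z' u)) := by
      refine RingHom.ext fun f => ?_
      rw [RingHom.comp_apply, map_ev, RingHom.comp_id]
    rw [finSuccEquiv_map]
    simp only [y0]
    rw [AlgEquiv.apply_symm_apply, map_add, map_mul, ← Polynomial.polynomial_map_coe,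
      ← Polynomial.polynomial_map_coe, Polynomial.map_map, Polynomial.map_map, h1]
  -- relations at level d
  have hrelK : ∀ f : MvPolynomial (Fin (d + 1) ⊕ τ) (∀ i, κ i),
      ((a : PowerSeries _) ∣ finSuccEquiv K d (ev π y f)) →
      ∀ l, ev π z ((Gam ρg f %ₘ ag).coeff l) = 0 := by
    intro f hf l
    have h1 : (a : PowerSeries (MvPowerSeries (Fin d) K)) ∣ finSuccEquiv K d (ev π y f) -
        (((Gam ρg f).map (ev π z) : Polynomial (MvPowerSeries (Fin d) K)) : PowerSeries _) := by
      apply dvd_ev_sub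
      intro t
      rw [hρg, hq]
      exact ⟨q t, by ring⟩
    have h2 : (a : PowerSeries (MvPowerSeries (Fin d) K)) ∣
        (((Gam ρg f).map (ev π z) : Polynomial (MvPowerSeries (Fin d) K)) : PowerSeries _) := by
      have := dvd_sub hf h1
      simpa using this
    have h3 := modByMonic_eq_zero_of_dvd a ha _ h2
    rw [← Polynomial.coeff_map, Polynomial.map_modByMonic _ hagm, hag, h3, Polynomial.coeff_zero]
  have hrel : ∀ f : MvPolynomial (Fin (d + 1) ⊕ τ) (∀ i, κ i),
      ((a : PowerSeries _) ∣ finSuccEquiv K d (ev π y f)) →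
      ∀ᶠ i in (U : Filter ι),
        ((ag.map (ev (Pi.evalRingHom κ i) (fun u => map (Pi.evalRingHom κ i) (z' u))) :
          Polynomial _) : PowerSeries _) ∣
        finSuccEquiv (κ i) d (map (Pi.evalRingHom κ i) (ev (RingHom.id _) y0 f)) := by
    intro f hf
    have h1 := hrelK f hf
    have h2 : ∀ᶠ i in (U : Filter ι), (Gam ρg f %ₘ ag).map
        (ev (Pi.evalRingHom κ i) (fun u => map (Pi.evalRingHom κ i) (z' u))) = 0 := by
      apply eventually_map_eq_zero (U : Filter ι)
        (fun i => ev (Pi.evalRingHom κ i) (fun u => map (Pi.evalRingHom κ i) (z' u)))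
      intro l
      filter_upwards [hz1 _ (h1 l)] with i hi
      rw [map_ev, RingHom.comp_id] at hi
      exact hi
    filter_upwards [h2] with i hi
    rw [Polynomial.map_modByMonic _ hagm, Polynomial.modByMonic_eq_zero_iff_dvd (hagm.map _)] at hi
    obtain ⟨w, hw⟩ := hi
    rw [map_ev, RingHom.comp_id]
    have h3 := dvd_ev_sub (Pi.evalRingHom κ i) ρg (fun u => map (Pi.evalRingHom κ i) (z' u))
      ((ag.map (ev (Pi.evalRingHom κ i) (fun u => map (Pi.evalRingHom κ i) (z' u))) :
          Polynomial _) : PowerSeries _) (fun t => map (Pi.evalRingHom κ i) (y0 t))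
      (by
        intro t
        rw [key (κ i) (Pi.evalRingHom κ i) t]
        exact ⟨PowerSeries.map (map (Pi.evalRingHom κ i)) (q' t), by ring⟩) f
    have h4 : ((ag.map (ev (Pi.evalRingHom κ i) (fun u => map (Pi.evalRingHom κ i) (z' u))) :
          Polynomial _) : PowerSeries _) ∣
        (((Gam ρg f).map (ev (Pi.evalRingHom κ i) (fun u => map (Pi.evalRingHom κ i) (z' u))) :
          Polynomial (MvPowerSeries (Fin d) (κ i))) : PowerSeries (MvPowerSeries (Fin d) (κ i))) := by
      rw [hw, Polynomial.coe_mul]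
      exact dvd_mul_right _ _
    have := dvd_add h3 h4
    simpa using this
  -- closeness
  have hclose : ∀ t, map π (y0 t) - y t ∈ Jd (d + 1) K (max M (r + 1)) := by
    intro t
    have h1 : map π (y0 t) - y t = (finSuccEquiv K d).symm
        ((((ag.map (ev π (fun u => map π (z' u))) - a : Polynomial _)) : PowerSeries _)) *
          (finSuccEquiv K d).symm (q t) +
        (finSuccEquiv K d).symm
        (((((ρg t).map (ev π (fun u => map π (z' u))) - ρ t : Polynomial _)) :
          PowerSeries _)) := by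
      apply (finSuccEquiv K d).injective
      rw [map_sub, key K π t, hq t, hq' t, map_add, map_mul, AlgEquiv.apply_symm_apply,
        AlgEquiv.apply_symm_apply, AlgEquiv.apply_symm_apply, Polynomial.coe_sub,
        Polynomial.coe_sub]
      ring
    rw [h1]
    refine Ideal.add_mem _ (Ideal.mul_mem_right _ _ (symm_mem_Jd _ ?_)) (symm_mem_Jd _ ?_)
    · intro l
      rw [Polynomial.coeff_coe, Polynomial.coeff_sub, ← hag, map_monicOf, map_monicOf,
        coeff_monicOf, coeff_monicOf]
      split_ifs with h2 h3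
      · have := hz2 (Sum.inl ⟨l, h2⟩)
        simpa using this
      · simp
      · simp
    · intro l
      rw [Polynomial.coeff_coe, Polynomial.coeff_sub, ← hρg, map_polyOf, map_polyOf,
        coeff_polyOf, coeff_polyOf]
      split_ifs with h2
      · have := hz2 (Sum.inr (t, ⟨l, h2⟩))
        simpa using this
      · simp
  refine ⟨y0, ?_, fun t => Jd_mono (le_max_left _ _) (hclose t)⟩
  -- unit part
  have hunit : ∀ᶠ i in (U : Filter ι),
      coeff (Finsupp.single 0 r) (map (Pi.evalRingHom κ i) (ev (RingHom.id _) y0 D)) ≠ 0 := by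
    have h1 : coeff (Finsupp.single 0 r) (ev π y D) ≠ 0 := by
      rw [coeff_single_eq, hav', eq_monicOf a ha.monic]
      rw [cc_coeff_mul]
      · exact fun h => by
          have h2 := (PowerSeries.isUnit_iff_constantCoeff.mp hvu)
          rw [isUnit_iff_constantCoeff, h] at h2
          exact not_isUnit_zero h2
      · intro j
        have := ha.toIsWeaklyEisensteinAt.mem j.2
        exact (mem_maximalIdeal_iff _).mp this
    have h2 : coeff (Finsupp.single 0 r) (map π (ev (RingHom.id _) y0 D)) ≠ 0 := by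
      have h3 := ev_sub_mem_Jd (M := max M (r + 1)) π (fun t => map π (y0 t)) y
        hclose D
      have h4 := h3 (Finsupp.single 0 r) (by
        rw [Finsupp.degree_single]
        exact lt_of_lt_of_le (Nat.lt_succ_self r) (le_max_right _ _))
      rw [map_sub, sub_eq_zero] at h4
      rw [map_ev, RingHom.comp_id, h4]
      exact h1
    rw [coeff_map] at h2
    have h3 : ¬ ∀ᶠ i in (U : Filter ι), (coeff (Finsupp.single 0 r)
        (ev (RingHom.id _) y0 D)) i = 0 := fun h => h2 ((hπ _).mpr h)
    have h4 := Ultrafilter.eventually_not.mpr h3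
    filter_upwards [h4] with i hi
    rw [coeff_map]
    exact hi
  have hsmall : ∀ᶠ i in (U : Filter ι), ∀ j : Fin r,
      constantCoeff (map (Pi.evalRingHom κ i) (z' (Sum.inl j))) = 0 := by
    rw [Filter.eventually_all]
    intro j
    have h1 : constantCoeff (map π (z' (Sum.inl j))) = 0 := by
      have h2 := hz2 (Sum.inl j) 0 (by
        rw [map_zero]
        exact lt_of_lt_of_le (Nat.succ_pos r) (le_max_right _ _))
      rw [coeff_zero_eq_constantCoeff_apply, map_sub, sub_eq_zero] at h2
      rw [h2]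
      exact (mem_maximalIdeal_iff _).mp (ha.toIsWeaklyEisensteinAt.mem j.2)
    rw [← coeff_zero_eq_constantCoeff_apply, coeff_map] at h1
    filter_upwards [(hπ _).mp h1] with i hi
    rw [← coeff_zero_eq_constantCoeff_apply, coeff_map]
    exact hi
  have hD' := hrel D (by rw [hav']; exact dvd_mul_right _ _)
  have hH' : ∀ᶠ i in (U : Filter ι), ∀ k,
        ((ag.map (ev (Pi.evalRingHom κ i) (fun u => map (Pi.evalRingHom κ i) (z' u))) :
          Polynomial _) : PowerSeries _) ∣
        finSuccEquiv (κ i) d (map (Pi.evalRingHom κ i) (ev (RingHom.id _) y0 (H k))) := by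
    rw [Filter.eventually_all]
    intro k
    exact hrel (H k) (by rw [hH, map_zero]; exact dvd_zero _)
  filter_upwards [hunit, hsmall, hD', hH'] with i h1 h2 h3 h4 k
  obtain ⟨w, hw⟩ := h3
  have hwu : IsUnit w := by
    rw [PowerSeries.isUnit_iff_constantCoeff, isUnit_iff_constantCoeff, isUnit_iff_ne_zero]
    intro h0
    apply h1
    rw [coeff_single_eq, hw, map_monicOf, cc_coeff_mul, h0]
    intro j
    simpa using h2 j
  rw [← map_dvd_iff (finSuccEquiv (κ i) d), hw]
  exact (hwu.mul_right_dvd).mpr (h4 k)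

end Crest.Agent.R183.TA
end

-- ▼ part R183/EZ1
section

/-!
# Transfer theorem, block T1: one-variable Tougeron-Hensel and the triangular system lemma
-/

namespace Crest.Agent.R183.EZ

open Polynomial

universe u v w

/-- A polynomial `1 + X + (terms of degree ≥ 2 with coefficients in `m`)` over a Henselian local
ring has a root. -/
theorem exists_root_one_add_X {C : Type*} [CommRing C] [HenselianLocalRing C] (Q : C[X])
    (h0 : Q.coeff 0 = 1) (h1 : Q.coeff 1 = 1)
    (h2 : ∀ i, 2 ≤ i → Q.coeff i ∈ IsLocalRing.maximalIdeal C) : ∃ v : C, Q.eval v = 0 := by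
  classical
  set N : ℕ := Q.natDegree + 2 with hN
  set F : C[X] := reflect N Q with hF
  have hcoef : ∀ i, F.coeff i = Q.coeff (revAt N i) := fun i => coeff_reflect N Q i
  have hFN : F.coeff N = 1 := by
    rw [hcoef, revAt_le le_rfl]; simp [h0]
  have hFdeg : F.natDegree ≤ N := by
    rw [natDegree_le_iff_coeff_eq_zero]
    intro k hk
    rw [hcoef, revAt_eq_self_of_lt hk]
    exact coeff_eq_zero_of_natDegree_lt (by omega)
  have hmon : F.Monic := monic_of_natDegree_le_of_coeff_eq_one N hFdeg hFN
  -- reduction modulo the maximal ideal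
  have hmapQ : Q.map (IsLocalRing.residue C) = 1 + X := by
    ext i
    rw [coeff_map]
    rcases i with _ | _ | i
    · simp [h0]
    · simp [h1, coeff_one]
    · have := h2 (i + 2) (by omega)
      rw [(IsLocalRing.residue_eq_zero_iff _).2 this]
      simp [coeff_one, coeff_X]
  have hmapF : F.map (IsLocalRing.residue C) = X ^ N + X ^ (N - 1) := by
    rw [hF, ← reflect_map, hmapQ, reflect_add]
    congr 1
    · have := reflect_C (1 : IsLocalRing.ResidueField C) N
      rwa [map_one, one_mul] at this
    · have := reflect_monomial (R := IsLocalRing.ResidueField C) N 1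
      rw [pow_one, revAt_le (by omega)] at this
      exact this
  have hN1 : N = (N - 1) + 1 := by omega
  have hN2 : N - 1 = (N - 2) + 1 := by omega
  have he : F.eval (-1) ∈ IsLocalRing.maximalIdeal C := by
    rw [← IsLocalRing.residue_eq_zero_iff]
    have : IsLocalRing.residue C (F.eval (-1)) = (F.map (IsLocalRing.residue C)).eval (-1) := by
      have := (Polynomial.eval_map_apply (IsLocalRing.residue C) (p := F) (-1 : C))
      simpa using this.symm
    rw [this, hmapF, eval_add, eval_pow, eval_pow, eval_X]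
    rw [show N = (N - 1) + 1 from hN1, pow_succ]
    simp
  have hd : IsUnit (F.derivative.eval (-1)) := by
    rw [← not_not (a := IsUnit _), ← mem_nonunits_iff, ← IsLocalRing.mem_maximalIdeal,
      ← IsLocalRing.residue_eq_zero_iff]
    have : IsLocalRing.residue C (F.derivative.eval (-1)) =
        ((F.map (IsLocalRing.residue C)).derivative).eval (-1) := by
      have := (Polynomial.eval_map_apply (IsLocalRing.residue C) (p := F.derivative) (-1 : C))
      rw [derivative_map]
      simpa using this.symm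
    rw [this, hmapF, derivative_add, derivative_X_pow, derivative_X_pow, eval_add, eval_mul,
      eval_mul, eval_pow, eval_pow, eval_X]
    simp only [map_natCast, eval_natCast]
    have hcast : (N : IsLocalRing.ResidueField C) = ((N - 1 : ℕ) : IsLocalRing.ResidueField C) + 1 := by
      rw [← Nat.cast_succ]
      congr 1
    have hpow : (-1 : IsLocalRing.ResidueField C) ^ (N - 1) = - (-1) ^ (N - 1 - 1) := by
      rw [hN2, pow_succ]
      simp
    rw [hcast, hpow]
    intro h
    have h' : (-1 : IsLocalRing.ResidueField C) ^ (N - 1 - 1) = 0 := by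
      linear_combination -h
    exact pow_ne_zero _ (neg_ne_zero.2 one_ne_zero) h'
  obtain ⟨a, ha, ha1⟩ := HenselianLocalRing.is_henselian F hmon (-1) he hd
  have hau : IsUnit a := by
    rw [← not_not (a := IsUnit _), ← mem_nonunits_iff, ← IsLocalRing.mem_maximalIdeal]
    intro h
    have h3 : (-1 : C) ∈ IsLocalRing.maximalIdeal C := by
      have := Ideal.sub_mem _ h ha1
      rwa [sub_sub_cancel] at this
    exact (Ideal.ne_top_iff_one _).1 (IsLocalRing.maximalIdeal.isMaximal C).ne_top
      (by simpa using (Ideal.neg_mem_iff _).2 h3)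
  obtain ⟨a, rfl⟩ := hau
  refine ⟨((a⁻¹ : Cˣ) : C), ?_⟩
  have inst : Invertible ((a⁻¹ : Cˣ) : C) := ⟨(a : C), by simp, by simp⟩
  have key := eval₂_reflect_eq_zero_iff (RingHom.id C) ((a⁻¹ : Cˣ) : C) N Q (by omega)
  have hinv : ⅟((a⁻¹ : Cˣ) : C) = (a : C) := invOf_eq_right_inv (by simp)
  rw [hinv] at key
  exact key.1 ha

/-- One-variable Tougeron-Hensel lemma: an approximate root `s` with `P(s) ∈ (P'(s)² t)`,
`t ∈ m`, can be moved to an exact root `z` with `z - s ∈ (P'(s) t)`. -/
theorem hensel_tougeron {S : Type*} [CommRing S] [HenselianLocalRing S] (P : S[X]) (s t : S)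
    (ht : t ∈ IsLocalRing.maximalIdeal S) (h : (P.derivative.eval s) ^ 2 * t ∣ P.eval s) :
    ∃ z, P.eval z = 0 ∧ P.derivative.eval s * t ∣ z - s := by
  obtain ⟨e, he⟩ := h
  set p1 : S := P.derivative.eval s with hp1
  set τ : S := t * e with hτ
  set U : S[X] := divX (divX (taylor s P)) with hU
  have hT : taylor s P = X ^ 2 * U + C p1 * X + C (P.eval s) := by
    have e1 := divX_mul_X_add (taylor s P)
    have e2 := divX_mul_X_add (divX (taylor s P))
    rw [taylor_coeff_zero] at e1
    rw [coeff_divX, taylor_coeff_one] at e2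
    rw [← e1, ← e2, ← hU, ← hp1]
    ring
  have hTev : ∀ v : S, P.eval (s + v) = v ^ 2 * U.eval v + p1 * v + P.eval s := by
    intro v
    have := congrArg (Polynomial.eval v) hT
    rw [taylor_eval] at this
    rw [add_comm s v, this]
    simp
  set Q : S[X] := 1 + X + C τ * (X ^ 2 * U.comp (C (p1 * τ) * X)) with hQ
  have hτm : τ ∈ IsLocalRing.maximalIdeal S := Ideal.mul_mem_right _ _ ht
  obtain ⟨v, hv⟩ := exists_root_one_add_X Q
    (by simp [hQ])
    (by simp [hQ, coeff_X_pow_mul', coeff_one])
    (by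
      intro i hi
      rw [hQ, coeff_add, coeff_add, coeff_C_mul]
      have h1 : (1 : S[X]).coeff i = 0 := by rw [coeff_one]; simp; omega
      have h2 : (X : S[X]).coeff i = 0 := by rw [coeff_X]; simp; omega
      rw [h1, h2, zero_add, zero_add]
      exact Ideal.mul_mem_right _ _ hτm)
  refine ⟨s + p1 * τ * v, ?_, ?_⟩
  · rw [hTev, he]
    have hQv : 1 + v + τ * ((v ^ 2) * U.eval (p1 * τ * v)) = 0 := by
      simpa [hQ, eval_comp] using hv
    have : p1 ^ 2 * t * e = p1 ^ 2 * τ := by rw [hτ]; ring
    rw [this]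
    linear_combination (p1 ^ 2 * τ) * hQv
  · rw [add_sub_cancel_left, hτ]
    exact ⟨e * v, by ring⟩

section Step

variable {R : Type*} {M : Type*} [CommRing R] [CommRing M] [IsDomain M] [CharZero M]

omit [CharZero M] in
/-- If every coefficient of `f` has a multiplier outside the kernel moving it into the ideal `I`,
then so does `f`. -/
theorem exists_mul_mem_map_C (ev : R →+* M) (I : Ideal R)
    (hI : ∀ f, ev f = 0 → ∃ a, ev a ≠ 0 ∧ a * f ∈ I) (f : R[X])
    (hf : ∀ k, ev (f.coeff k) = 0) : ∃ a, ev a ≠ 0 ∧ C a * f ∈ I.map (C : R →+* R[X]) := by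
  classical
  choose a ha hmem using fun k => hI (f.coeff k) (hf k)
  refine ⟨∏ k ∈ f.support, a k, ?_, ?_⟩
  · rw [map_prod]
    exact Finset.prod_ne_zero_iff.2 fun k _ => ha k
  · rw [Ideal.mem_map_C_iff]
    intro n
    rw [coeff_C_mul]
    by_cases hn : n ∈ f.support
    · obtain ⟨b, hb⟩ := Finset.dvd_prod_of_mem a hn
      rw [hb, show a n * b * f.coeff n = b * (a n * f.coeff n) by ring]
      exact Ideal.mul_mem_left _ _ (hmem n)
    · rw [notMem_support_iff.1 hn, mul_zero]
      exact Ideal.zero_mem _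

/-- The dichotomy for one new element `y0`: transcendental or algebraic. -/
theorem dichotomy (ev : R →+* M) (y0 : M) :
    (∀ G : R[X], G.eval₂ ev y0 = 0 → ∀ k, ev (G.coeff k) = 0) ∨
    ∃ (G : R[X]) (n : ℕ), G.natDegree ≤ n ∧ G.eval₂ ev y0 = 0 ∧ ev (G.coeff n) ≠ 0 ∧
      G.derivative.eval₂ ev y0 ≠ 0 ∧
      ∀ f : R[X], f.degree < n → f.eval₂ ev y0 = 0 → ∀ k, ev (f.coeff k) = 0 := by
  classical
  by_cases hA : ∀ G : R[X], G.eval₂ ev y0 = 0 → ∀ k, ev (G.coeff k) = 0
  · exact Or.inl hA
  right
  push Not at hA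
  have hex : ∃ n, ∃ G : R[X], G.natDegree ≤ n ∧ G.eval₂ ev y0 = 0 ∧ ∃ k, ev (G.coeff k) ≠ 0 := by
    obtain ⟨G, hG, k, hk⟩ := hA
    exact ⟨G.natDegree, G, le_rfl, hG, k, hk⟩
  set n := Nat.find hex with hn
  obtain ⟨G, hGn, hG0, k, hk⟩ := Nat.find_spec hex
  rw [← hn] at hGn
  have hmin : ∀ f : R[X], f.degree < n → f.eval₂ ev y0 = 0 → ∀ k, ev (f.coeff k) = 0 := by
    intro f hf hf0
    by_contra hcon
    push Not at hcon
    obtain ⟨j, hj⟩ := hcon
    have hf1 : f ≠ 0 := by
      rintro rfl
      exact hj (by simp)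
    have hlt : f.natDegree < n := (natDegree_lt_iff_degree_lt hf1).2 hf
    exact Nat.find_min hex hlt ⟨f, le_rfl, hf0, j, hj⟩
  have hcoef : ev (G.coeff n) ≠ 0 := by
    intro hcon
    have hkn : k ≠ n := by
      rintro rfl
      exact hk hcon
    set G2 : R[X] := G - C (G.coeff n) * X ^ n with hG2
    have hd2 : G2.degree < n := by
      rw [degree_lt_iff_coeff_zero]
      intro m hm
      rw [hG2, coeff_sub, coeff_C_mul, coeff_X_pow]
      rcases eq_or_lt_of_le hm with rfl | hm
      · simp
      · rw [coeff_eq_zero_of_natDegree_lt (lt_of_le_of_lt hGn hm), if_neg hm.ne']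
        simp
    have h0 : G2.eval₂ ev y0 = 0 := by
      rw [hG2, eval₂_sub, hG0, eval₂_mul, eval₂_C, hcon, zero_mul, sub_zero]
    have := hmin G2 hd2 h0 k
    rw [hG2, coeff_sub, coeff_C_mul, coeff_X_pow, if_neg hkn, mul_zero, sub_zero] at this
    exact hk this
  refine ⟨G, n, hGn, hG0, hcoef, ?_, hmin⟩
  have hn0 : n ≠ 0 := by
    intro h0
    rw [h0] at hGn hcoef
    have : G = C (G.coeff 0) := eq_C_of_natDegree_le_zero hGn
    rw [this, eval₂_C] at hG0
    exact hcoef hG0
  intro hcon
  have hd : G.derivative.degree < n := by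
    rw [degree_lt_iff_coeff_zero]
    intro m hm
    rw [coeff_derivative, coeff_eq_zero_of_natDegree_lt (by omega), zero_mul]
  have := hmin _ hd hcon (n - 1)
  rw [coeff_derivative, Nat.sub_add_cancel (Nat.one_le_iff_ne_zero.2 hn0), map_mul, map_add,
    map_natCast, map_one] at this
  rcases mul_eq_zero.1 this with h | h
  · exact hcoef h
  · have h' : ((n : ℕ) : M) = 0 := by
      have : ((n - 1 + 1 : ℕ) : M) = 0 := by exact_mod_cast h
      rwa [Nat.sub_add_cancel (Nat.one_le_iff_ne_zero.2 hn0)] at this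
    exact hn0 (Nat.cast_eq_zero.1 h')

omit [CharZero M] in
/-- Pseudo-division by a polynomial of minimal degree. -/
theorem exists_mul_mem_sup (ev : R →+* M) (y0 : M) (I : Ideal R)
    (hI : ∀ f, ev f = 0 → ∃ a, ev a ≠ 0 ∧ a * f ∈ I) (G : R[X]) (n : ℕ) (hGn : G.natDegree ≤ n)
    (hG0 : G.eval₂ ev y0 = 0) (hcoef : ev (G.coeff n) ≠ 0)
    (hmin : ∀ f : R[X], f.degree < n → f.eval₂ ev y0 = 0 → ∀ k, ev (f.coeff k) = 0)
    (f : R[X]) (hf : f.eval₂ ev y0 = 0) :
    ∃ a, ev a ≠ 0 ∧ C a * f ∈ I.map (C : R →+* R[X]) ⊔ Ideal.span {G} := by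
  suffices H : ∀ (N : ℕ) (f : R[X]), f.degree < ((n + N : ℕ) : WithBot ℕ) →
      f.eval₂ ev y0 = 0 →
      ∃ a, ev a ≠ 0 ∧ C a * f ∈ I.map (C : R →+* R[X]) ⊔ Ideal.span {G} by
    refine H (f.natDegree + 1) f (lt_of_le_of_lt degree_le_natDegree ?_) hf
    exact_mod_cast (by omega : f.natDegree < n + (f.natDegree + 1))
  intro N
  induction N with
  | zero =>
    intro f hf hf0
    obtain ⟨a, ha, hmem⟩ := exists_mul_mem_map_C ev I hI f (hmin f (by simpa using hf) hf0)
    exact ⟨a, ha, Ideal.mem_sup_left hmem⟩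
  | succ N ih =>
    intro f hf hf0
    set c := f.coeff (n + N) with hc
    set l := G.coeff n with hl
    set f1 : R[X] := C l * f - C c * X ^ N * G with hf1
    have hd1 : f1.degree < ((n + N : ℕ) : WithBot ℕ) := by
      rw [degree_lt_iff_coeff_zero]
      intro m hm
      rw [hf1, coeff_sub, coeff_C_mul, mul_assoc, coeff_C_mul, coeff_X_pow_mul', if_pos (by omega)]
      rcases eq_or_lt_of_le hm with rfl | hm
      · rw [← hc, Nat.add_sub_cancel, ← hl]
        ring
      · have h1 : f.coeff m = 0 := by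
          rw [degree_lt_iff_coeff_zero] at hf
          exact hf m (by omega)
        have h2 : G.coeff (m - N) = 0 := coeff_eq_zero_of_natDegree_lt (by omega)
        rw [h1, h2]
        simp
    have h0 : f1.eval₂ ev y0 = 0 := by
      rw [hf1, eval₂_sub, eval₂_mul, eval₂_mul, hf0, hG0]
      simp
    obtain ⟨a, ha, hmem⟩ := ih f1 hd1 h0
    refine ⟨a * l, by rw [map_mul]; exact mul_ne_zero ha hcoef, ?_⟩
    have : C (a * l) * f = C a * f1 + C a * (C c * X ^ N) * G := by
      rw [hf1, C_mul]
      ring
    rw [this]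
    exact Ideal.add_mem _ hmem (Ideal.mem_sup_right
      (Ideal.mul_mem_left _ _ (Ideal.mem_span_singleton_self _)))

end Step

/-- Evaluation of a polynomial with coefficients in `MvPolynomial (Fin n) B` obtained from
`finSuccEquiv`. -/
theorem eval₂_finSuccEquiv {B : Type*} {S : Type*} [CommRing B] [CommRing S] (ψ : B →+* S)
    (n : ℕ) (y : Fin (n + 1) → S) (f : MvPolynomial (Fin (n + 1)) B) :
    (MvPolynomial.finSuccEquiv B n f).eval₂ (MvPolynomial.eval₂Hom ψ (Fin.tail y)) (y 0) =
      MvPolynomial.eval₂ ψ y f := by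
  have h : ((Polynomial.eval₂RingHom (MvPolynomial.eval₂Hom ψ (Fin.tail y)) (y 0)).comp
      (MvPolynomial.finSuccEquiv B n : MvPolynomial (Fin (n + 1)) B →+* _)) =
      MvPolynomial.eval₂Hom ψ y := by
    apply MvPolynomial.ringHom_ext
    · intro r
      simp [MvPolynomial.finSuccEquiv_apply]
    · intro i
      refine Fin.cases ?_ (fun j => ?_) i
      · simp [MvPolynomial.finSuccEquiv_apply]
      · simp [MvPolynomial.finSuccEquiv_apply, Fin.tail]
  exact congrArg (fun g => g f) h

/-- **Triangular system lemma.** Here `ι` need not be injective. -/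
theorem triangular' {B : Type u} {M : Type v} [CommRing B] [CommRing M] [IsDomain M] [CharZero M]
    (ι : B →+* M) : ∀ (n : ℕ) (y : Fin n → M),
    ∃ (H : Finset (MvPolynomial (Fin n) B)) (δ : MvPolynomial (Fin n) B) (e : ℕ),
      (∀ h ∈ H, MvPolynomial.eval₂ ι y h = 0) ∧ MvPolynomial.eval₂ ι y δ ≠ 0 ∧
      (∀ f, MvPolynomial.eval₂ ι y f = 0 → ∃ a, MvPolynomial.eval₂ ι y a ≠ 0 ∧
        a * f ∈ Ideal.span (H : Set (MvPolynomial (Fin n) B)) ⊔
          (RingHom.ker ι).map MvPolynomial.C) ∧
      ∀ (S : Type w) [CommRing S] [HenselianLocalRing S] (ψ : B →+* S) (ys : Fin n → S) (t : S),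
        t ∈ IsLocalRing.maximalIdeal S →
        (∀ h ∈ H, (MvPolynomial.eval₂ ψ ys δ) ^ e * t ∣ MvPolynomial.eval₂ ψ ys h) →
        ∃ yb : Fin n → S, (∀ i, t ∣ yb i - ys i) ∧ ∀ h ∈ H, MvPolynomial.eval₂ ψ yb h = 0 := by
  classical
  intro n
  induction n with
  | zero =>
    intro y
    refine ⟨∅, 1, 0, by simp, by simp, ?_, ?_⟩
    · intro f hf
      refine ⟨1, by simp, ?_⟩
      rw [MvPolynomial.eq_C_of_isEmpty f, MvPolynomial.eval₂_C] at hf
      rw [MvPolynomial.eq_C_of_isEmpty f, one_mul]
      exact Ideal.mem_sup_right (Ideal.mem_map_of_mem _ hf)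
    · intro S _ _ ψ ys t _ _
      exact ⟨ys, fun i => by simp, by simp⟩
  | succ n ih =>
    intro y
    obtain ⟨H', δ', e', hH', hδ', hmul', hlift'⟩ := ih (Fin.tail y)
    set E := MvPolynomial.finSuccEquiv B n with hE
    set ev' : MvPolynomial (Fin n) B →+* M := MvPolynomial.eval₂Hom ι (Fin.tail y) with hev'
    -- evaluation of pulled back polynomials
    have hpull : ∀ {S : Type w} [CommRing S] (ψ : B →+* S) (ys : Fin (n + 1) → S)
        (G : Polynomial (MvPolynomial (Fin n) B)), MvPolynomial.eval₂ ψ ys (E.symm G) =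
          G.eval₂ (MvPolynomial.eval₂Hom ψ (Fin.tail ys)) (ys 0) := by
      intro S _ ψ ys G
      rw [← eval₂_finSuccEquiv, ← hE, E.apply_symm_apply]
    have hpullM : ∀ (G : Polynomial (MvPolynomial (Fin n) B)), MvPolynomial.eval₂ ι y (E.symm G) =
          G.eval₂ ev' (y 0) := by
      intro G
      rw [← eval₂_finSuccEquiv, ← hE, E.apply_symm_apply]
    set I : Ideal (MvPolynomial (Fin n) B) := Ideal.span (H' : Set (MvPolynomial (Fin n) B)) ⊔
          (RingHom.ker ι).map MvPolynomial.C with hIdef
    have hI : ∀ f, ev' f = 0 → ∃ a, ev' a ≠ 0 ∧ a * f ∈ I := hmul'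
    set j : MvPolynomial (Fin n) B → MvPolynomial (Fin (n + 1)) B := fun h => E.symm (C h) with hj
    have hspan : ∀ g ∈ I.map (C : MvPolynomial (Fin n) B →+* _), E.symm g ∈
          Ideal.span ((H'.image j : Finset _) : Set (MvPolynomial (Fin (n + 1)) B)) ⊔
            (RingHom.ker ι).map MvPolynomial.C := by
      intro g hg
      have := Ideal.mem_map_of_mem (E.symm : _ →+* MvPolynomial (Fin (n + 1)) B) hg
      rw [hIdef, Ideal.map_sup, Ideal.map_sup, Ideal.map_span, Ideal.map_span, ← Set.image_comp,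
        Ideal.map_map, Ideal.map_map] at this
      rw [Finset.coe_image]
      have hcomp : ((E.symm : Polynomial (MvPolynomial (Fin n) B) →+*
          MvPolynomial (Fin (n + 1)) B).comp C).comp MvPolynomial.C = MvPolynomial.C := by
        ext1 r
        change E.symm (C (MvPolynomial.C r)) = MvPolynomial.C r
        rw [AlgEquiv.symm_apply_eq, hE, MvPolynomial.finSuccEquiv_apply]
        simp
      rw [← hcomp]
      exact this
    have hfE : ∀ f, (E f).eval₂ ev' (y 0) = MvPolynomial.eval₂ ι y f := fun f =>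
      eval₂_finSuccEquiv ι n y f
    rcases dichotomy ev' (y 0) with hA | ⟨G, m, hGm, hG0, hcoef, hder, hmin⟩
    · refine ⟨H'.image j, j δ', e', ?_, ?_, ?_, ?_⟩
      · intro h hh
        obtain ⟨h', hh', rfl⟩ := Finset.mem_image.1 hh
        rw [hj, hpullM, eval₂_C]
        exact hH' h' hh'
      · rw [hj, hpullM, eval₂_C]
        exact hδ'
      · intro f hf
        obtain ⟨a, ha, hmem⟩ := exists_mul_mem_map_C ev' _ hI (E f)
          (hA (E f) (by rw [hfE]; exact hf))
        refine ⟨j a, by rw [hj, hpullM, eval₂_C]; exact ha, ?_⟩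
        have := hspan _ hmem
        rwa [map_mul, E.symm_apply_apply] at this
      · intro S _ _ ψ ys t ht hdvd
        obtain ⟨yb, hyb1, hyb2⟩ := hlift' S ψ (Fin.tail ys) t ht (by
          intro h hh
          have := hdvd (j h) (Finset.mem_image_of_mem _ hh)
          rw [hj, hpull, hpull, eval₂_C, eval₂_C] at this
          exact this)
        refine ⟨Fin.cons (ys 0) yb, ?_, ?_⟩
        · intro i
          refine Fin.cases ?_ (fun k => ?_) i
          · simp
          · exact hyb1 k
        · intro h hh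
          obtain ⟨h', hh', rfl⟩ := Finset.mem_image.1 hh
          rw [hj, hpull, eval₂_C, Fin.tail_cons]
          exact hyb2 h' hh'
    · refine ⟨insert (E.symm G) (H'.image j), E.symm (C δ' * G.derivative), e' + 2, ?_, ?_, ?_, ?_⟩
      · intro h hh
        rcases Finset.mem_insert.1 hh with rfl | hh
        · rw [hpullM]
          exact hG0
        · obtain ⟨h', hh', rfl⟩ := Finset.mem_image.1 hh
          rw [hj, hpullM, eval₂_C]
          exact hH' h' hh'
      · rw [hpullM, eval₂_mul, eval₂_C]
        exact mul_ne_zero hδ' hder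
      · intro f hf
        obtain ⟨a, ha, hmem⟩ := exists_mul_mem_sup ev' (y 0) _ hI G m hGm hG0 hcoef hmin (E f)
          (by rw [hfE]; exact hf)
        refine ⟨j a, by rw [hj, hpullM, eval₂_C]; exact ha, ?_⟩
        rw [Finset.coe_insert, Ideal.span_insert, sup_assoc]
        obtain ⟨g1, hg1, g2, hg2, hsum⟩ := Submodule.mem_sup.1 hmem
        have h3 : j a * f = E.symm g2 + E.symm g1 := by
          have : C a * E f = g1 + g2 := hsum.symm
          have := congrArg E.symm this
          rw [map_mul, E.symm_apply_apply, map_add] at this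
          calc j a * f = E.symm g1 + E.symm g2 := this
            _ = E.symm g2 + E.symm g1 := by ring
        rw [h3]
        refine Submodule.add_mem_sup ?_ (hspan _ hg1)
        obtain ⟨c, hc⟩ := Ideal.mem_span_singleton.1 hg2
        rw [hc, map_mul]
        exact Ideal.mul_mem_right _ _ (Ideal.mem_span_singleton_self _)
      · intro S _ _ ψ ys t ht hdvd
        set ys' := Fin.tail ys with hys'
        set d' : S := MvPolynomial.eval₂ ψ ys' δ' with hd'
        set g' : S := G.derivative.eval₂ (MvPolynomial.eval₂Hom ψ ys') (ys 0) with hg'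
        have hδ : MvPolynomial.eval₂ ψ ys (E.symm (C δ' * G.derivative)) = d' * g' := by
          rw [hpull, eval₂_mul, eval₂_C]
          rfl
        rw [hδ] at hdvd
        set t' : S := t * g' ^ 2 with ht'
        have ht'm : t' ∈ IsLocalRing.maximalIdeal S := Ideal.mul_mem_right _ _ ht
        obtain ⟨yb, hyb1, hyb2⟩ := hlift' S ψ ys' t' ht'm (by
          intro h hh
          have := hdvd (j h) (Finset.mem_insert_of_mem (Finset.mem_image_of_mem _ hh))
          rw [hj, hpull, eval₂_C] at this
          refine dvd_trans ?_ this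
          exact ⟨d' ^ 2 * g' ^ e', by rw [← hd', ht']; ring⟩)
        -- the one variable polynomials
        set P0 : S[X] := G.map (MvPolynomial.eval₂Hom ψ ys') with hP0
        set P : S[X] := G.map (MvPolynomial.eval₂Hom ψ yb) with hP
        have hcong : ∀ f : MvPolynomial (Fin n) B, t' ∣
            MvPolynomial.eval₂Hom ψ yb f - MvPolynomial.eval₂Hom ψ ys' f := by
          intro f
          rw [← Ideal.mem_span_singleton, ← Ideal.Quotient.mk_eq_mk_iff_sub_mem]
          have : (Ideal.Quotient.mk (Ideal.span {t'})).comp (MvPolynomial.eval₂Hom ψ yb) =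
              (Ideal.Quotient.mk (Ideal.span {t'})).comp (MvPolynomial.eval₂Hom ψ ys') := by
            apply MvPolynomial.ringHom_ext
            · intro r
              simp
            · intro i
              simp only [RingHom.comp_apply, MvPolynomial.coe_eval₂Hom, MvPolynomial.eval₂_X]
              rw [Ideal.Quotient.mk_eq_mk_iff_sub_mem, Ideal.mem_span_singleton]
              exact hyb1 i
          exact congrArg (fun g => g f) this
        have hcong2 : ∀ f : Polynomial (MvPolynomial (Fin n) B), t' ∣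
            f.eval₂ (MvPolynomial.eval₂Hom ψ yb) (ys 0) -
              f.eval₂ (MvPolynomial.eval₂Hom ψ ys') (ys 0) := by
          intro f
          rw [eval₂_eq_sum_range, eval₂_eq_sum_range, ← Finset.sum_sub_distrib]
          refine Finset.dvd_sum fun i _ => ?_
          rw [← sub_mul]
          exact Dvd.dvd.mul_right (hcong _) _
        have hPs : P.eval (ys 0) = G.eval₂ (MvPolynomial.eval₂Hom ψ yb) (ys 0) := by
          rw [hP, eval_map]
        have hPds : P.derivative.eval (ys 0) =
            G.derivative.eval₂ (MvPolynomial.eval₂Hom ψ yb) (ys 0) := by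
          rw [hP, derivative_map, eval_map]
        -- derivative is `g'` times a unit
        obtain ⟨q, hq⟩ := hcong2 G.derivative
        rw [← hPds, ← hg'] at hq
        have hunit : IsUnit (1 + t * g' * q) := by
          have hm : t * g' * q ∈ IsLocalRing.maximalIdeal S :=
            Ideal.mul_mem_right _ _ (Ideal.mul_mem_right _ _ ht)
          by_contra hcon
          have h1 : (1 + t * g' * q) ∈ IsLocalRing.maximalIdeal S := by
            rw [IsLocalRing.mem_maximalIdeal]; exact hcon
          have := Ideal.sub_mem _ h1 hm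
          rw [add_sub_cancel_right] at this
          exact (Ideal.ne_top_iff_one _).1 (IsLocalRing.maximalIdeal.isMaximal S).ne_top this
        have hder' : P.derivative.eval (ys 0) = g' * (1 + t * g' * q) := by
          rw [ht'] at hq
          linear_combination hq
        obtain ⟨u, hu⟩ := hunit
        have hdvdP : (P.derivative.eval (ys 0)) ^ 2 * t ∣ P.eval (ys 0) := by
          have h1 : g' ^ 2 * t ∣ P.eval (ys 0) := by
            obtain ⟨q2, hq2⟩ := hcong2 G
            rw [← hPs] at hq2
            have h3 := hdvd (E.symm G) (Finset.mem_insert_self _ _)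
            rw [hpull] at h3
            have h4 : g' ^ 2 * t ∣ (d' * g') ^ (e' + 2) * t :=
              ⟨d' ^ (e' + 2) * g' ^ e', by ring⟩
            obtain ⟨q3, hq3⟩ := dvd_trans h4 h3
            refine ⟨q2 + q3, ?_⟩
            rw [ht'] at hq2
            linear_combination hq2 + hq3
          obtain ⟨c, hc⟩ := h1
          refine ⟨c * ((u⁻¹ : Sˣ) : S) ^ 2, ?_⟩
          rw [hder', ← hu, hc]
          have hui : (u : S) * ((u⁻¹ : Sˣ) : S) = 1 := by simp
          have : (g' * (u : S)) ^ 2 * t * (c * ((u⁻¹ : Sˣ) : S) ^ 2) =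
            g' ^ 2 * t * c * ((u : S) * ((u⁻¹ : Sˣ) : S)) ^ 2 := by ring
          rw [this, hui]
          ring
        obtain ⟨z, hz1, hz2⟩ := hensel_tougeron P (ys 0) t ht hdvdP
        refine ⟨Fin.cons z yb, ?_, ?_⟩
        · intro i
          refine Fin.cases ?_ (fun k => ?_) i
          · exact dvd_trans (dvd_mul_left _ _) hz2
          · exact dvd_trans (dvd_mul_right _ _) (hyb1 k)
        · intro h hh
          rcases Finset.mem_insert.1 hh with rfl | hh
          · rw [hpull, Fin.tail_cons, Fin.cons_zero, ← eval_map]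
            exact hz1
          · obtain ⟨h', hh', rfl⟩ := Finset.mem_image.1 hh
            rw [hj, hpull, eval₂_C, Fin.tail_cons]
            exact hyb2 h' hh'


/-- **Triangular system lemma**, indexed by an arbitrary finite type, with the relations
indexed by `Fin r`. -/
theorem triangular_finite {B : Type u} {M : Type v} [CommRing B] [CommRing M] [IsDomain M]
    [CharZero M] (ι : B →+* M) (τ : Type*) [Finite τ] (y : τ → M) :
    ∃ (r : ℕ) (H : Fin r → MvPolynomial τ B) (δ : MvPolynomial τ B) (e : ℕ),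
      (∀ k, MvPolynomial.eval₂ ι y (H k) = 0) ∧ MvPolynomial.eval₂ ι y δ ≠ 0 ∧
      (∀ f, MvPolynomial.eval₂ ι y f = 0 → ∃ a, MvPolynomial.eval₂ ι y a ≠ 0 ∧
        a * f ∈ Ideal.span (Set.range H) ⊔ (RingHom.ker ι).map MvPolynomial.C) ∧
      ∀ (S : Type w) [CommRing S] [HenselianLocalRing S] (ψ : B →+* S) (ys : τ → S) (t : S),
        t ∈ IsLocalRing.maximalIdeal S →
        (∀ k, (MvPolynomial.eval₂ ψ ys δ) ^ e * t ∣ MvPolynomial.eval₂ ψ ys (H k)) →
        ∃ yb : τ → S, (∀ i, t ∣ yb i - ys i) ∧ ∀ k, MvPolynomial.eval₂ ψ yb (H k) = 0 := by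
  classical
  obtain ⟨n, ⟨g⟩⟩ := Finite.exists_equiv_fin τ
  obtain ⟨H, δ, e, h1, h2, h3, h4⟩ := triangular'.{u, v, w} ι n (y ∘ g.symm)
  obtain ⟨r, ⟨q⟩⟩ := Finite.exists_equiv_fin (H : Type _)
  refine ⟨r, fun k => MvPolynomial.rename g.symm ((q.symm k : H) : MvPolynomial (Fin n) B),
    MvPolynomial.rename g.symm δ, e, ?_, ?_, ?_, ?_⟩
  · intro k
    rw [MvPolynomial.eval₂_rename]
    exact h1 _ (q.symm k).2
  · rw [MvPolynomial.eval₂_rename]
    exact h2
  · intro f hf
    obtain ⟨a, ha, hmem⟩ := h3 (MvPolynomial.rename g f) (by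
      rw [MvPolynomial.eval₂_rename]
      convert hf using 2
      ext i
      simp)
    refine ⟨MvPolynomial.rename g.symm a, by rw [MvPolynomial.eval₂_rename]; exact ha, ?_⟩
    have := Ideal.mem_map_of_mem
      (MvPolynomial.rename g.symm : MvPolynomial (Fin n) B →ₐ[B] MvPolynomial τ B).toRingHom hmem
    rw [Ideal.map_sup, Ideal.map_span, Ideal.map_map] at this
    have e1 : (MvPolynomial.rename g.symm : MvPolynomial (Fin n) B →ₐ[B] MvPolynomial τ B).toRingHom
        (a * MvPolynomial.rename g f) = MvPolynomial.rename g.symm a * f := by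
      rw [map_mul]
      congr 1
      change MvPolynomial.rename g.symm (MvPolynomial.rename g f) = f
      rw [MvPolynomial.rename_rename]
      simp
    have e2 : (MvPolynomial.rename g.symm :
        MvPolynomial (Fin n) B →ₐ[B] MvPolynomial τ B).toRingHom.comp MvPolynomial.C =
          MvPolynomial.C := by
      ext1 r
      change MvPolynomial.rename g.symm (MvPolynomial.C r) = _
      rw [MvPolynomial.rename_C]
    rw [e1, e2] at this
    have hle : Ideal.span ((MvPolynomial.rename g.symm :
        MvPolynomial (Fin n) B →ₐ[B] MvPolynomial τ B).toRingHom '' (H : Set _)) ≤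
        Ideal.span (Set.range fun k => MvPolynomial.rename g.symm
          ((q.symm k : H) : MvPolynomial (Fin n) B)) := by
      apply Ideal.span_mono
      rintro _ ⟨h, hh, rfl⟩
      exact ⟨q ⟨h, hh⟩, by simp⟩
    exact sup_le_sup_right hle _ this
  · intro S _ _ ψ ys t ht hdvd
    obtain ⟨yb, hy1, hy2⟩ := h4 S ψ (ys ∘ g.symm) t ht (by
      intro h hh
      have := hdvd (q ⟨h, hh⟩)
      simpa only [MvPolynomial.eval₂_rename, Equiv.symm_apply_apply] using this)
    refine ⟨yb ∘ g, ?_, ?_⟩
    · intro i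
      have := hy1 (g i)
      simpa using this
    · intro k
      rw [MvPolynomial.eval₂_rename]
      have := hy2 _ (q.symm k).2
      convert this using 2
      ext i
      simp

end Crest.Agent.R183.EZ
end

-- ▼ part R183/EZ2
section

/-!
# Power series over a field: maximal ideal, completeness, Henselianity
-/

namespace Crest.Agent.R183.EZ

open MvPowerSeries

/-- A power series in `Fin n` variables with zero constant coefficient lies in the ideal generated
by the variables (any commutative ring of coefficients). -/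
theorem mem_span_range_X {A : Type*} [CommRing A] : ∀ (n : ℕ) (f : MvPowerSeries (Fin n) A),
    constantCoeff f = 0 → f ∈ Ideal.span (Set.range (X : Fin n → MvPowerSeries (Fin n) A)) := by
  intro n
  induction n with
  | zero =>
    intro f hf
    have : f = 0 := by
      ext m
      rw [Subsingleton.elim m 0]
      exact hf
    rw [this]
    exact Ideal.zero_mem _
  | succ n ih =>
    intro f hf
    set E := MvPowerSeries.finSuccEquiv A n with hE
    set F := E f with hF
    have hf' : f = E.symm F := by rw [hF, E.symm_apply_apply]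
    have h0 : constantCoeff (PowerSeries.constantCoeff F) = 0 := by
      have := coeff_coeff_finSuccEquiv f (k := 0) (x := 0)
      rw [Finsupp.cons_zero_zero] at this
      have h2 : coeff 0 (PowerSeries.coeff 0 F) = coeff 0 f := this
      rw [PowerSeries.coeff_zero_eq_constantCoeff] at h2
      exact h2.trans hf
    have hX : F = PowerSeries.X * (PowerSeries.mk fun i => PowerSeries.coeff (i + 1) F) +
        PowerSeries.C (PowerSeries.constantCoeff F) := PowerSeries.eq_X_mul_shift_add_const F
    rw [hf', hX, map_add, map_mul]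
    refine Ideal.add_mem _ (Ideal.mul_mem_right _ _ (Ideal.subset_span ⟨0, ?_⟩)) ?_
    · rw [eq_comm, AlgEquiv.symm_apply_eq, hE, finSuccEquiv_X_zero]
    · have h1 := ih _ h0
      have h3 := Ideal.mem_map_of_mem
        ((E.symm : PowerSeries (MvPowerSeries (Fin n) A) →+* MvPowerSeries (Fin (n + 1)) A).comp
          PowerSeries.C) h1
      rw [Ideal.map_span] at h3
      refine Ideal.span_mono ?_ h3
      rintro _ ⟨_, ⟨j, rfl⟩, rfl⟩
      refine ⟨j.succ, ?_⟩
      change _ = E.symm (PowerSeries.C (X j))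
      rw [eq_comm, AlgEquiv.symm_apply_eq, hE, finSuccEquiv_X_succ]

theorem ker_constantCoeff_eq {A : Type*} [CommRing A] (n : ℕ) :
    RingHom.ker (constantCoeff (σ := Fin n) (R := A)) = Ideal.span (Set.range X) := by
  apply le_antisymm
  · intro f hf
    exact mem_span_range_X n f hf
  · rw [Ideal.span_le]
    rintro _ ⟨j, rfl⟩
    change constantCoeff (X j) = 0
    simp

section Field

variable (n : ℕ) (κ : Type*) [Field κ]

theorem maximalIdeal_eq_ker :
    IsLocalRing.maximalIdeal (MvPowerSeries (Fin n) κ) = RingHom.ker constantCoeff := by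
  ext f
  rw [IsLocalRing.mem_maximalIdeal, mem_nonunits_iff, MvPowerSeries.isUnit_iff_constantCoeff,
    isUnit_iff_ne_zero, not_not, RingHom.mem_ker]

theorem maximalIdeal_eq_span :
    IsLocalRing.maximalIdeal (MvPowerSeries (Fin n) κ) = Ideal.span (Set.range X) := by
  rw [maximalIdeal_eq_ker, ker_constantCoeff_eq]

instance isAdicComplete_maximalIdeal :
    IsAdicComplete (IsLocalRing.maximalIdeal (MvPowerSeries (Fin n) κ))
      (MvPowerSeries (Fin n) κ) := by
  rw [maximalIdeal_eq_span]
  infer_instance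

end Field

/-- A local ring which is complete for its maximal ideal is Henselian. -/
theorem henselianLocalRing_of_isAdicComplete (R : Type*) [CommRing R] [IsLocalRing R]
    [IsAdicComplete (IsLocalRing.maximalIdeal R) R] : HenselianLocalRing R where
  is_henselian := by
    intro f hf a₀ h1 h2
    exact HenselianRing.is_henselian f hf a₀ h1 (h2.map (Ideal.Quotient.mk _))

instance henselianLocalRing_mvPowerSeries (n : ℕ) (κ : Type*) [Field κ] :
    HenselianLocalRing (MvPowerSeries (Fin n) κ) :=
  henselianLocalRing_of_isAdicComplete _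

end Crest.Agent.R183.EZ
end

-- ▼ part R183/T0_Coord
section

set_option autoImplicit false

/-!
R183, block [8a], T2 (b),(c): integer shears of power series rings, naturality, inverse, order;
a nonzero power series over a field of characteristic zero becomes regular in `X 0`.
-/

namespace Crest.Agent.R183.T0

open MvPowerSeries

universe u v

section shear

variable {d : ℕ}

/-- the substitution vector `X 0 ↦ X 0`, `X j.succ ↦ X j.succ + c j • X 0` -/
noncomputable def shearVec (R : Type u) [CommRing R] (c : Fin d → ℤ) :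
    Fin (d + 1) → MvPowerSeries (Fin (d + 1)) R :=
  Fin.cons (X 0) (fun j => X j.succ + (c j) • X 0)

theorem constantCoeff_shearVec (R : Type u) [CommRing R] (c : Fin d → ℤ) (i : Fin (d + 1)) :
    constantCoeff (shearVec R c i) = 0 := by
  refine Fin.cases ?_ (fun j => ?_) i
  · simp [shearVec]
  · simp [shearVec]

theorem hasSubst_shearVec (R : Type u) [CommRing R] (c : Fin d → ℤ) :
    HasSubst (shearVec R c) :=
  hasSubst_of_constantCoeff_zero (constantCoeff_shearVec R c)

/-- the shear automorphism -/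
noncomputable def shear (R : Type u) [CommRing R] (c : Fin d → ℤ) :
    MvPowerSeries (Fin (d + 1)) R →+* MvPowerSeries (Fin (d + 1)) R :=
  (substAlgHom (R := R) (hasSubst_shearVec R c)).toRingHom

theorem shear_apply {R : Type u} [CommRing R] (c : Fin d → ℤ) (f : MvPowerSeries (Fin (d + 1)) R) :
    shear R c f = subst (shearVec R c) f := by
  change substAlgHom (R := R) (hasSubst_shearVec R c) f = _
  rw [coe_substAlgHom]

theorem shear_C {R : Type u} [CommRing R] (c : Fin d → ℤ) (r : R) :
    shear R c (C r) = C r := by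
  exact (substAlgHom (R := R) (hasSubst_shearVec R c)).commutes r

theorem shear_X_zero {R : Type u} [CommRing R] (c : Fin d → ℤ) :
    shear R c (X 0) = X 0 := by
  rw [shear_apply, subst_X (hasSubst_shearVec R c)]
  rfl

theorem shear_X_succ {R : Type u} [CommRing R] (c : Fin d → ℤ) (j : Fin d) :
    shear R c (X j.succ) = X j.succ + (c j) • X 0 := by
  rw [shear_apply, subst_X (hasSubst_shearVec R c)]
  rfl

theorem shear_neg_shear {R : Type u} [CommRing R] (c : Fin d → ℤ)
    (f : MvPowerSeries (Fin (d + 1)) R) : shear R (-c) (shear R c f) = f := by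
  rw [shear_apply, shear_apply, subst_comp_subst_apply (hasSubst_shearVec R c)
    (hasSubst_shearVec R (-c))]
  have : (fun s => subst (shearVec R (-c)) (shearVec R c s)) = X := by
    funext s
    rw [← shear_apply]
    refine Fin.cases ?_ (fun j => ?_) s
    · exact shear_X_zero _
    · change shear R (-c) (X j.succ + (c j) • X 0) = _
      rw [map_add, map_zsmul, shear_X_succ, shear_X_zero]
      simp
  rw [this]
  exact congrFun subst_self f

theorem shear_shear_neg {R : Type u} [CommRing R] (c : Fin d → ℤ)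
    (f : MvPowerSeries (Fin (d + 1)) R) : shear R c (shear R (-c) f) = f := by
  have := shear_neg_shear (-c) f
  rwa [neg_neg] at this

theorem map_shear {R : Type u} {R' : Type v} [CommRing R] [CommRing R'] (θ : R →+* R')
    (c : Fin d → ℤ) (f : MvPowerSeries (Fin (d + 1)) R) :
    map θ (shear R c f) = shear R' c (map θ f) := by
  rw [shear_apply, map_subst (hasSubst_shearVec R c), shear_apply]
  congr 1
  funext i
  refine Fin.cases ?_ (fun j => ?_) i
  · change map θ (X 0) = X 0
    rw [map_X]
  · change map θ (X j.succ + (c j) • X 0) = X j.succ + (c j) • X 0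
    rw [map_add, map_zsmul, map_X, map_X]

theorem one_le_order_shearVec (R : Type u) [CommRing R] (c : Fin d → ℤ) (i : Fin (d + 1)) :
    (1 : ℕ∞) ≤ (shearVec R c i).order :=
  one_le_order_iff_constCoeff_eq_zero.mpr (constantCoeff_shearVec R c i)

theorem order_le_shear {R : Type u} [CommRing R] (c : Fin d → ℤ)
    (f : MvPowerSeries (Fin (d + 1)) R) : f.order ≤ (shear R c f).order := by
  rw [shear_apply]
  refine le_trans ?_ (le_order_subst (hasSubst_shearVec R c) f)
  calc f.order = 1 * f.order := by rw [one_mul]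
    _ ≤ _ := mul_le_mul_left (le_iInf (one_le_order_shearVec R c)) _

/-- restriction to the `X 0`-axis -/
noncomputable def axis (R : Type u) [CommRing R] (d : ℕ) :
    MvPowerSeries (Fin (d + 1)) R →+* PowerSeries R :=
  (PowerSeries.map (constantCoeff (σ := Fin d) (R := R))).comp
    (MvPowerSeries.finSuccEquiv R d : MvPowerSeries (Fin (d + 1)) R →+* _)

theorem coeff_axis {R : Type u} [CommRing R] (f : MvPowerSeries (Fin (d + 1)) R) (k : ℕ) :
    PowerSeries.coeff k (axis R d f) = coeff (Finsupp.single 0 k) f := by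
  change PowerSeries.coeff k (PowerSeries.map (constantCoeff (σ := Fin d) (R := R))
    (MvPowerSeries.finSuccEquiv R d f)) = _
  rw [PowerSeries.coeff_map, ← coeff_zero_eq_constantCoeff_apply, coeff_coeff_finSuccEquiv]
  have : (Finsupp.cons k (0 : Fin d →₀ ℕ)) = Finsupp.single 0 k := by
    ext i
    refine Fin.cases ?_ (fun j => ?_) i
    · simp
    · simp
  rw [this]

theorem axis_X_zero (R : Type u) [CommRing R] : axis R d (X 0) = PowerSeries.X := by
  change PowerSeries.map (constantCoeff (σ := Fin d) (R := R))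
    (MvPowerSeries.finSuccEquiv R d (X 0)) = _
  rw [finSuccEquiv_X_zero, PowerSeries.map_X]

theorem axis_X_succ (R : Type u) [CommRing R] (j : Fin d) : axis R d (X j.succ) = 0 := by
  change PowerSeries.map (constantCoeff (σ := Fin d) (R := R))
    (MvPowerSeries.finSuccEquiv R d (X j.succ)) = _
  rw [finSuccEquiv_X_succ, PowerSeries.map_C, constantCoeff_X, map_zero]

theorem axis_shearVec {R : Type u} [CommRing R] (c : Fin d → ℤ) (i : Fin (d + 1)) :
    axis R d (shearVec R c i) =
      PowerSeries.C (((Fin.cons 1 c : Fin (d + 1) → ℤ) i : ℤ) : R) * PowerSeries.X := by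
  refine Fin.cases ?_ (fun j => ?_) i
  · change axis R d (X 0) = _
    rw [axis_X_zero]; simp
  · change axis R d (X j.succ + (c j) • X 0) = _
    rw [map_add, map_zsmul, axis_X_succ, axis_X_zero]
    simp

theorem coeff_single_prod {R : Type u} [CommRing R] (c : Fin d → ℤ) (m : Fin (d + 1) →₀ ℕ)
    (n : ℕ) :
    coeff (Finsupp.single 0 n) (m.prod fun s k => (shearVec R c s) ^ k) =
      if m.degree = n then ∏ j : Fin d, ((c j : ℤ) : R) ^ (m j.succ) else 0 := by
  rw [← coeff_axis]
  have h1 : axis R d (m.prod fun s k => (shearVec R c s) ^ k) =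
      PowerSeries.C (∏ j : Fin d, ((c j : ℤ) : R) ^ (m j.succ)) * PowerSeries.X ^ m.degree := by
    rw [Finsupp.prod_fintype _ _ (by intro i; rw [pow_zero]), map_prod]
    simp only [map_pow, axis_shearVec, mul_pow]
    rw [Finset.prod_mul_distrib, Fin.prod_univ_succ]
    congr 1
    · simp only [Fin.cons_zero, Int.cast_one, map_one, one_pow, one_mul, Fin.cons_succ]
      rw [map_prod]
      simp
    · rw [Finset.prod_pow_eq_pow_sum]
      congr 1
      rw [Finsupp.degree_eq_sum]
  rw [h1, PowerSeries.coeff_C_mul, PowerSeries.coeff_X_pow]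
  by_cases h : m.degree = n
  · rw [if_pos h.symm, if_pos h, mul_one]
  · rw [if_neg (Ne.symm h), if_neg h, mul_zero]

/-- coefficient of a pure power of `X 0` after a shear -/
theorem coeff_single_shear {R : Type u} [CommRing R] (c : Fin d → ℤ) (n : ℕ)
    (f : MvPowerSeries (Fin (d + 1)) R) :
    coeff (Finsupp.single 0 n) (shear R c f) =
      ∑ m ∈ (Finset.univ : Finset (Fin (d + 1))).finsuppAntidiag n,
        coeff m f * ∏ j : Fin d, ((c j : ℤ) : R) ^ (m j.succ) := by
  classical
  rw [shear_apply, coeff_subst (hasSubst_shearVec R c)]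
  have hmem : ∀ m : Fin (d + 1) →₀ ℕ, m ∈ (Finset.univ : Finset (Fin (d + 1))).finsuppAntidiag n
      ↔ m.degree = n := by
    intro m
    rw [Finset.mem_finsuppAntidiag, Finsupp.degree_eq_sum]
    simp
  rw [finsum_eq_sum_of_support_subset (s := (Finset.univ : Finset (Fin (d + 1))).finsuppAntidiag n)]
  · apply Finset.sum_congr rfl
    intro m hm
    rw [coeff_single_prod, if_pos ((hmem m).mp hm), smul_eq_mul]
  · intro m hm
    rw [Function.mem_support] at hm
    rw [Finset.mem_coe, hmem]
    by_contra hne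
    apply hm
    rw [coeff_single_prod, if_neg hne, smul_zero]

/-- a nonzero power series over a field of characteristic zero becomes regular in `X 0` after an
integer shear -/
theorem exists_shear_regular {K : Type u} [Field K] [CharZero K]
    (H : MvPowerSeries (Fin (d + 1)) K) (hH : H ≠ 0) :
    ∃ (c : Fin d → ℤ) (r : ℕ), coeff (Finsupp.single 0 r) (shear K c H) ≠ 0 := by
  classical
  obtain ⟨m₀, hm₀⟩ : ∃ m₀, coeff m₀ H ≠ 0 := by
    by_contra h
    push Not at h
    exact hH (MvPowerSeries.ext h)
  set n := m₀.degree with hn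
  set S := (Finset.univ : Finset (Fin (d + 1))).finsuppAntidiag n with hS
  have hmem : ∀ m : Fin (d + 1) →₀ ℕ, m ∈ S ↔ m.degree = n := by
    intro m
    rw [hS, Finset.mem_finsuppAntidiag, Finsupp.degree_eq_sum]
    simp
  let p : MvPolynomial (Fin d) K := ∑ m ∈ S, MvPolynomial.monomial (Finsupp.tail m) (coeff m H)
  have htail : ∀ m ∈ S, ∀ m' ∈ S, Finsupp.tail m = Finsupp.tail m' → m = m' := by
    intro m hm m' hm' h
    have h1 := (hmem m).mp hm
    have h2 := (hmem m').mp hm'
    rw [Finsupp.degree_eq_sum, Fin.sum_univ_succ] at h1 h2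
    have h3 : ∀ j : Fin d, m j.succ = m' j.succ := by
      intro j
      have := DFunLike.congr_fun h j
      rwa [Finsupp.tail_apply, Finsupp.tail_apply] at this
    have h4 : ∑ j : Fin d, m j.succ = ∑ j : Fin d, m' j.succ :=
      Finset.sum_congr rfl (fun j _ => h3 j)
    ext i
    refine Fin.cases ?_ (fun j => h3 j) i
    omega
  have hp : p ≠ 0 := by
    intro h0
    have h1 : MvPolynomial.coeff (Finsupp.tail m₀) p = coeff m₀ H := by
      change MvPolynomial.coeff (Finsupp.tail m₀)
        (∑ m ∈ S, MvPolynomial.monomial (Finsupp.tail m) (coeff m H)) = _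
      rw [MvPolynomial.coeff_sum, Finset.sum_eq_single m₀]
      · rw [MvPolynomial.coeff_monomial, if_pos rfl]
      · intro m hm hne
        rw [MvPolynomial.coeff_monomial, if_neg]
        intro h
        exact hne (htail m hm m₀ ((hmem m₀).mpr rfl) h)
      · intro h
        exact absurd ((hmem m₀).mpr rfl) h
    rw [h0, MvPolynomial.coeff_zero] at h1
    exact hm₀ h1.symm
  have hex : ∃ c : Fin d → ℤ, MvPolynomial.eval (fun j => ((c j : ℤ) : K)) p ≠ 0 := by
    by_contra h
    push Not at h
    apply hp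
    refine MvPolynomial.funext_set (fun _ => Set.range (Int.cast : ℤ → K))
      (fun _ => Set.infinite_range_of_injective Int.cast_injective) ?_
    intro x hx
    rw [Set.mem_pi] at hx
    choose c hc using fun j => hx j (Set.mem_univ j)
    have : x = fun j => ((c j : ℤ) : K) := by funext j; exact (hc j).symm
    rw [this, h c, map_zero]
  obtain ⟨c, hc⟩ := hex
  refine ⟨c, n, ?_⟩
  rw [coeff_single_shear]
  convert hc using 1
  change _ = MvPolynomial.eval (fun j => ((c j : ℤ) : K))
    (∑ m ∈ S, MvPolynomial.monomial (Finsupp.tail m) (coeff m H))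
  rw [map_sum]
  apply Finset.sum_congr rfl
  intro m _
  rw [MvPolynomial.eval_monomial, Finsupp.prod_fintype _ _ (by intro i; rw [pow_zero])]
  congr 1

end shear

end Crest.Agent.R183.T0
end

-- ▼ part R183/TA5
section

/-!
Transfer theorem, part 5: coordinate change and the induction step.
-/

set_option autoImplicit false

namespace Crest.Agent.R183.TA

open MvPowerSeries

section Shear

variable {L R : Type} [CommRing L] [CommRing R]

/-- the shear on polynomials -/
noncomputable def Sh {d : ℕ} {τ : Type} (c : Fin d → ℤ) :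
    MvPolynomial (Fin (d + 1) ⊕ τ) L →+* MvPolynomial (Fin (d + 1) ⊕ τ) L :=
  MvPolynomial.eval₂Hom MvPolynomial.C
    (Sum.elim (Fin.cons (MvPolynomial.X (Sum.inl 0))
      (fun j => MvPolynomial.X (Sum.inl j.succ) + (c j) • MvPolynomial.X (Sum.inl 0)))
      (fun t => MvPolynomial.X (Sum.inr t)))

lemma ev_Sh {d : ℕ} {τ : Type} (θ : L →+* R) (c : Fin d → ℤ)
    (z : τ → MvPowerSeries (Fin (d + 1)) R) (f : MvPolynomial (Fin (d + 1) ⊕ τ) L) :
    ev θ (fun t => T0.shear R c (z t)) (Sh c f) = T0.shear R c (ev θ z f) := by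
  have h : (ev θ (fun t => T0.shear R c (z t))).comp (Sh c) = (T0.shear R c).comp (ev θ z) := by
    apply MvPolynomial.ringHom_ext
    · intro r
      simp [Sh, T0.shear_C]
    · rintro (j | t)
      · refine Fin.cases ?_ (fun j => ?_) j
        · simp [Sh, T0.shear_X_zero]
        · simp [Sh, T0.shear_X_succ]
      · simp [Sh]
  exact congrArg (fun g => g f) h

end Shear

variable {ι : Type} (U : Ultrafilter ι) (κ : ι → Type) [∀ i, Field (κ i)] {K : Type} [Field K]
  (π : (∀ i, κ i) →+* K)
  (hπ : ∀ a : (∀ i, κ i), π a = 0 ↔ ∀ᶠ i in (U : Filter ι), a i = 0)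
  (hs : Function.Surjective π)

include hπ hs in
theorem weier' [CharZero K] {d : ℕ} (hTR : TR U κ π d) {τ : Type} [Finite τ]
    (y : τ → MvPowerSeries (Fin (d + 1)) K) {s : Type} [Finite s]
    (H : s → MvPolynomial (Fin (d + 1) ⊕ τ) (∀ i, κ i)) (hH : ∀ k, ev π y (H k) = 0)
    (D : MvPolynomial (Fin (d + 1) ⊕ τ) (∀ i, κ i)) (hD : ev π y D ≠ 0) (M : ℕ) :
    ∃ y0 : τ → MvPowerSeries (Fin (d + 1)) (∀ i, κ i),
      (∀ᶠ i in (U : Filter ι), ∀ k, map (Pi.evalRingHom κ i) (ev (RingHom.id _) y0 D) ∣
        map (Pi.evalRingHom κ i) (ev (RingHom.id _) y0 (H k))) ∧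
      ∀ t, map π (y0 t) - y t ∈ Jd (d + 1) K M := by
  obtain ⟨c, r, hr⟩ := T0.exists_shear_regular (ev π y D) hD
  obtain ⟨y1, h1, h2⟩ := weier U κ π hπ hs hTR (fun t => T0.shear K c (y t))
    (fun k => Sh c (H k)) (by intro k; rw [ev_Sh, hH, map_zero]) (Sh c D)
    ⟨r, by rw [ev_Sh]; exact hr⟩ M
  refine ⟨fun t => T0.shear _ (-c) (y1 t), ?_, ?_⟩
  · have h3 : y1 = fun t => T0.shear (∀ i, κ i) c (T0.shear _ (-c) (y1 t)) := by
      funext t
      rw [T0.shear_shear_neg]
    filter_upwards [h1] with i hi k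
    have h4 := hi k
    rw [h3, ev_Sh, ev_Sh, T0.map_shear, T0.map_shear] at h4
    have h5 := map_dvd (T0.shear (κ i) (-c)) h4
    rw [T0.shear_neg_shear, T0.shear_neg_shear] at h5
    exact h5
  · intro t
    have h3 : map π (T0.shear _ (-c) (y1 t)) - y t =
        T0.shear K (-c) (map π (y1 t) - T0.shear K c (y t)) := by
      rw [map_sub, T0.shear_neg_shear, T0.map_shear]
    rw [h3, mem_Jd_iff_order]
    exact le_trans (mem_Jd_iff_order.mp (h2 t)) (T0.order_le_shear _ _)

section Base

variable {L R : Type} [CommRing L] [CommRing R]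

noncomputable def base (d : ℕ) (θ : L →+* R) : MvPolynomial (Fin d) L →+* MvPowerSeries (Fin d) R :=
  MvPolynomial.eval₂Hom ((C (σ := Fin d) (R := R)).comp θ) X

noncomputable def Psi {d : ℕ} {τ : Type} :
    MvPolynomial τ (MvPolynomial (Fin d) L) →+* MvPolynomial (Fin d ⊕ τ) L :=
  MvPolynomial.eval₂Hom (MvPolynomial.eval₂Hom MvPolynomial.C
    (fun j => MvPolynomial.X (Sum.inl j))) (fun t => MvPolynomial.X (Sum.inr t))

noncomputable def Phi {d : ℕ} {τ : Type} :
    MvPolynomial (Fin d ⊕ τ) L →+* MvPolynomial τ (MvPolynomial (Fin d) L) :=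
  MvPolynomial.eval₂Hom (MvPolynomial.C.comp MvPolynomial.C)
    (Sum.elim (fun j => MvPolynomial.C (MvPolynomial.X j)) MvPolynomial.X)

lemma ev_Psi {d : ℕ} {τ : Type} (θ : L →+* R) (y : τ → MvPowerSeries (Fin d) R)
    (g : MvPolynomial τ (MvPolynomial (Fin d) L)) :
    ev θ y (Psi g) = MvPolynomial.eval₂ (base d θ) y g := by
  have h : (ev θ y).comp Psi = MvPolynomial.eval₂Hom (base d θ) y := by
    apply MvPolynomial.ringHom_ext
    · intro p
      have h2 : ((ev θ y).comp Psi).comp MvPolynomial.C = base d θ := by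
        apply MvPolynomial.ringHom_ext
        · intro c
          simp [Psi, base]
        · intro j
          simp [Psi, base]
      have h3 := congrArg (fun g => g p) h2
      simpa using h3
    · intro t
      simp [Psi]
  exact congrArg (fun φ => φ g) h

lemma eval_Phi {d : ℕ} {τ : Type} (θ : L →+* R) (y : τ → MvPowerSeries (Fin d) R)
    (f : MvPolynomial (Fin d ⊕ τ) L) :
    MvPolynomial.eval₂ (base d θ) y (Phi f) = ev θ y f := by
  have h : (MvPolynomial.eval₂Hom (base d θ) y).comp Phi = ev θ y := by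
    apply MvPolynomial.ringHom_ext
    · intro c
      simp [Phi, base]
    · rintro (j | t)
      · simp [Phi, base]
      · simp [Phi]
  exact congrArg (fun φ => φ f) h

lemma ev_map {L' : Type} [CommRing L'] {d : ℕ} {τ : Type} (χ : L →+* L') (θ : L' →+* R)
    (y : τ → MvPowerSeries (Fin d) R) (f : MvPolynomial (Fin d ⊕ τ) L) :
    ev θ y (MvPolynomial.map χ f) = ev (θ.comp χ) y f := by
  have h : (ev θ y).comp (MvPolynomial.map χ) = ev (θ.comp χ) y := by
    apply MvPolynomial.ringHom_ext
    · intro c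
      simp
    · rintro (j | t) <;> simp
  exact congrArg (fun φ => φ f) h

lemma base_eq_map {d : ℕ} (θ : L →+* R) (p : MvPolynomial (Fin d) L) :
    base d θ p = ((MvPolynomial.map θ p : MvPolynomial (Fin d) R) : MvPowerSeries (Fin d) R) := by
  have h : base d θ = (MvPolynomial.coeToMvPowerSeries.ringHom).comp (MvPolynomial.map θ) := by
    apply MvPolynomial.ringHom_ext
    · intro c
      simp [base]
    · intro j
      simp [base]
  exact congrArg (fun φ => φ p) h

end Base

include hπ in
lemma eventually_mvmap_eq_zero {σ : Type} (p : MvPolynomial σ (∀ i, κ i))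
    (h : MvPolynomial.map π p = 0) :
    ∀ᶠ i in (U : Filter ι), MvPolynomial.map (Pi.evalRingHom κ i) p = 0 := by
  have h1 : ∀ᶠ i in (U : Filter ι), ∀ m ∈ p.support, (MvPolynomial.coeff m p) i = 0 := by
    refine (Filter.eventually_all_finset p.support).mpr (fun m _ => ?_)
    apply (hπ _).mp
    rw [← MvPolynomial.coeff_map, h, MvPolynomial.coeff_zero]
  filter_upwards [h1] with i hi
  ext m
  rw [MvPolynomial.coeff_map, MvPolynomial.coeff_zero]
  by_cases hm : m ∈ p.support
  · exact hi m hm
  · rw [MvPolynomial.notMem_support_iff.mp hm, map_zero]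

include hπ hs in
theorem TR_succ [CharZero K] {d : ℕ} (hTR : TR U κ π d) : TR U κ π (d + 1) := by
  classical
  intro τ _ y M
  have : CharZero (MvPowerSeries (Fin (d + 1)) K) :=
    charZero_of_injective_ringHom (f := (C : K →+* MvPowerSeries (Fin (d + 1)) K))
      (MvPowerSeries.C_injective)
  have : IsDomain (MvPowerSeries (Fin (d + 1)) K) := NoZeroDivisors.to_isDomain _
  obtain ⟨r, H, δ, e, h1, h2, h3, h4⟩ := EZ.triangular_finite.{0, 0, 0} (base (d + 1) π) τ y
  -- finitely many relations over `K`
  obtain ⟨S, hS⟩ : (RingHom.ker (ev (RingHom.id K) y)).FG := IsNoetherian.noetherian _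
  have hsurj : Function.Surjective
      (MvPolynomial.map (σ := Fin (d + 1) ⊕ τ) π) := MvPolynomial.map_surjective π hs
  choose lift hlift using hsurj
  have hSker : ∀ f ∈ S, ev π y (lift f) = 0 := by
    intro f hf
    have h5 : f ∈ RingHom.ker (ev (RingHom.id K) y) := by
      rw [← hS]
      exact Ideal.subset_span hf
    rw [RingHom.mem_ker] at h5
    rw [← hlift f, ev_map, RingHom.id_comp] at h5
    exact h5
  have hmult : ∀ f : S, ∃ a : MvPolynomial τ (MvPolynomial (Fin (d + 1)) (∀ i, κ i)),
      MvPolynomial.eval₂ (base (d + 1) π) y a ≠ 0 ∧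
      a * Phi (lift f.1) ∈ Ideal.span (Set.range H) ⊔
        (RingHom.ker (base (d + 1) π)).map MvPolynomial.C := by
    intro f
    exact h3 _ (by rw [eval_Phi]; exact hSker f.1 f.2)
  choose a ha1 ha2 using hmult
  have hcoef : ∀ f : S, ∃ α : Fin (d + 1) →₀ ℕ,
      coeff α (MvPolynomial.eval₂ (base (d + 1) π) y (a f)) ≠ 0 := by
    intro f
    by_contra hcon
    push Not at hcon
    apply ha1 f
    ext α
    rw [hcon α, map_zero]
  choose α hα using hcoef
  obtain ⟨M1, hM1, hM1'⟩ : ∃ M1 : ℕ, M + 1 ≤ M1 ∧ ∀ f : S, (α f).degree < M1 := by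
    refine ⟨max (M + 1) (Finset.univ.sup (fun f : S => (α f).degree + 1)), le_max_left _ _, ?_⟩
    intro f
    refine lt_of_lt_of_le (Nat.lt_succ_self _) (le_trans ?_ (le_max_right _ _))
    exact Finset.le_sup (f := fun f : S => (α f).degree + 1) (Finset.mem_univ f)
  -- the Weierstrass step
  have hDne : ev π y (Psi δ ^ e * (MvPolynomial.X (Sum.inl 0)) ^ M1) ≠ 0 := by
    rw [map_mul, map_pow, map_pow, ev_Psi, ev_X_inl]
    refine mul_ne_zero (pow_ne_zero _ h2) (pow_ne_zero _ ?_)
    intro h0
    have h00 := congrArg (coeff (Finsupp.single (0 : Fin (d + 1)) 1)) h0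
    rw [coeff_X, if_pos rfl, map_zero] at h00
    exact one_ne_zero h00
  obtain ⟨y0, hy0, hy0c⟩ := weier' U κ π hπ hs hTR y (fun k : Fin r => Psi (H k))
    (fun k => by rw [ev_Psi]; exact h1 k) _ hDne M1
  -- Hensel
  let P : ∀ i, (τ → MvPowerSeries (Fin (d + 1)) (κ i)) → Prop := fun i yb =>
    (∀ t, (X 0 : MvPowerSeries (Fin (d + 1)) (κ i)) ^ M1 ∣
      yb t - map (Pi.evalRingHom κ i) (y0 t)) ∧
    ∀ k, MvPolynomial.eval₂ (base (d + 1) (Pi.evalRingHom κ i)) yb (H k) = 0
  have hex : ∀ᶠ i in (U : Filter ι), ∃ yb, P i yb := by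
    filter_upwards [hy0] with i hi
    apply h4 (MvPowerSeries (Fin (d + 1)) (κ i)) (base (d + 1) (Pi.evalRingHom κ i))
      (fun t => map (Pi.evalRingHom κ i) (y0 t)) (X 0 ^ M1)
    · rw [mem_maximalIdeal_iff]
      rw [map_pow, constantCoeff_X, zero_pow (by omega)]
    · intro k
      have h5 := hi k
      rw [map_ev, map_ev, RingHom.comp_id, ev_Psi, map_mul, map_pow, map_pow, ev_Psi,
        ev_X_inl] at h5
      exact h5
  let yb : ∀ i, τ → MvPowerSeries (Fin (d + 1)) (κ i) := fun i =>
    if h : ∃ yb, P i yb then h.choose else 0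
  have hyb : ∀ᶠ i in (U : Filter ι), P i (yb i) := by
    filter_upwards [hex] with i hi
    simp only [yb, dif_pos hi]
    exact hi.choose_spec
  let y' : τ → MvPowerSeries (Fin (d + 1)) (∀ i, κ i) := fun t β i => coeff β (yb i t)
  have hy' : ∀ i t, map (Pi.evalRingHom κ i) (y' t) = yb i t := by
    intro i t
    ext β
    rw [coeff_map]
    rfl
  have hyc : ∀ t, map π (y' t) - y t ∈ Jd (d + 1) K M1 := by
    intro t β hβ
    have h5 := hy0c t β hβ
    rw [map_sub, sub_eq_zero] at h5 ⊢
    rw [← h5, coeff_map, coeff_map, ← sub_eq_zero, ← map_sub, hπ]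
    filter_upwards [hyb] with i hi
    obtain ⟨w, hw⟩ := hi.1 t
    have h6 : (X 0 : MvPowerSeries (Fin (d + 1)) (κ i)) ^ M1 * w ∈ Jd (d + 1) (κ i) M1 := by
      apply Ideal.mul_mem_right
      intro γ hγ
      rw [coeff_X_pow, if_neg]
      intro h7
      rw [h7, Finsupp.degree_single] at hγ
      exact lt_irrefl _ hγ
    rw [← hw] at h6
    have h7 := h6 β hβ
    rw [map_sub, coeff_map] at h7
    exact h7
  refine ⟨y', ?_, fun t => Jd_mono (by omega) (hyc t)⟩
  -- relations
  have hev : ∀ (i : ι) (f : MvPolynomial (Fin (d + 1) ⊕ τ) (∀ i, κ i)),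
      map (Pi.evalRingHom κ i) (ev (RingHom.id _) y' f) = ev (Pi.evalRingHom κ i) (yb i) f := by
    intro i f
    rw [map_ev, RingHom.comp_id]
    simp_rw [hy']
  -- the ideal of eventually vanishing polynomials
  let N : Ideal (MvPolynomial τ (MvPolynomial (Fin (d + 1)) (∀ i, κ i))) :=
    { carrier := {g | ∀ᶠ i in (U : Filter ι),
        MvPolynomial.eval₂ (base (d + 1) (Pi.evalRingHom κ i)) (yb i) g = 0}
      add_mem' := by
        intro g g' hg hg'
        filter_upwards [hg, hg'] with i h5 h6
        rw [MvPolynomial.eval₂_add, h5, h6, add_zero]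
      zero_mem' := by
        filter_upwards with i
        exact MvPolynomial.eval₂_zero _ _
      smul_mem' := by
        intro c g hg
        filter_upwards [hg] with i h5
        rw [smul_eq_mul, MvPolynomial.eval₂_mul, h5, mul_zero] }
  have hN : Ideal.span (Set.range H) ⊔ (RingHom.ker (base (d + 1) π)).map MvPolynomial.C ≤ N := by
    refine sup_le ?_ ?_
    · rw [Ideal.span_le]
      rintro _ ⟨k, rfl⟩
      change ∀ᶠ i in (U : Filter ι), _
      filter_upwards [hyb] with i hi
      exact hi.2 k
    · rw [Ideal.map_le_iff_le_comap]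
      intro p hp
      rw [RingHom.mem_ker, base_eq_map] at hp
      have hp' : MvPolynomial.map π p = 0 := by
        apply MvPolynomial.coe_injective
        rw [hp]
        simp
      change ∀ᶠ i in (U : Filter ι), _
      filter_upwards [eventually_mvmap_eq_zero U κ π hπ p hp'] with i hi
      rw [MvPolynomial.eval₂_C, base_eq_map, hi]
      simp
  have hSv : ∀ᶠ i in (U : Filter ι), ∀ f : S,
      ev (Pi.evalRingHom κ i) (yb i) (lift f.1) = 0 := by
    rw [Filter.eventually_all]
    intro f
    have h5 : ∀ᶠ i in (U : Filter ι),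
        MvPolynomial.eval₂ (base (d + 1) (Pi.evalRingHom κ i)) (yb i)
          (a f * Phi (lift f.1)) = 0 := hN (ha2 f)
    have h6 : ∀ᶠ i in (U : Filter ι),
        MvPolynomial.eval₂ (base (d + 1) (Pi.evalRingHom κ i)) (yb i) (a f) ≠ 0 := by
      have h7 := ev_sub_mem_Jd (M := M1) π (fun t => map π (y' t)) y hyc (Psi (a f)) (α f)
        (hM1' f)
      rw [map_sub, sub_eq_zero] at h7
      have h8 : π (coeff (α f) (ev (RingHom.id _) y' (Psi (a f)))) ≠ 0 := by
        rw [← coeff_map, map_ev, RingHom.comp_id, h7, ev_Psi]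
        exact hα f
      have h9 : ¬ ∀ᶠ i in (U : Filter ι), (coeff (α f)
          (ev (RingHom.id _) y' (Psi (a f)))) i = 0 := fun h => h8 ((hπ _).mpr h)
      filter_upwards [Ultrafilter.eventually_not.mpr h9] with i hi h0
      apply hi
      have h10 := hev i (Psi (a f))
      have h12 := ev_Psi (Pi.evalRingHom κ i) (yb i) (a f)
      rw [h12, h0] at h10
      have h11 := congrArg (coeff (α f)) h10
      rw [coeff_map, map_zero] at h11
      exact h11
    filter_upwards [h5, h6] with i h7 h8
    have : IsDomain (MvPowerSeries (Fin (d + 1)) (κ i)) := NoZeroDivisors.to_isDomain _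
    rw [MvPolynomial.eval₂_mul, mul_eq_zero] at h7
    rcases h7 with h7 | h7
    · exact absurd h7 h8
    · rw [eval_Phi] at h7
      exact h7
  -- conclusion
  intro f hf
  have hfK : MvPolynomial.map π f ∈ Ideal.span (S : Set _) := by
    rw [hS, RingHom.mem_ker, ev_map, RingHom.id_comp]
    exact hf
  -- every element of the span is a combination
  have hcomb : ∀ g ∈ Ideal.span (S : Set (MvPolynomial (Fin (d + 1) ⊕ τ) K)),
      ∃ g' : MvPolynomial (Fin (d + 1) ⊕ τ) (∀ i, κ i), MvPolynomial.map π g' = g ∧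
        ∀ᶠ i in (U : Filter ι), ev (Pi.evalRingHom κ i) (yb i) g' = 0 := by
    intro g hg
    refine Submodule.span_induction (p := fun g _ => ∃ g' : MvPolynomial (Fin (d + 1) ⊕ τ)
      (∀ i, κ i), MvPolynomial.map π g' = g ∧
        ∀ᶠ i in (U : Filter ι), ev (Pi.evalRingHom κ i) (yb i) g' = 0) ?_ ?_ ?_ ?_ hg
    · intro g hg
      refine ⟨lift g, hlift g, ?_⟩
      filter_upwards [hSv] with i hi
      exact hi ⟨g, hg⟩
    · exact ⟨0, map_zero _, by filter_upwards with i; exact map_zero _⟩
    · rintro g1 g2 _ _ ⟨g1', h5, h6⟩ ⟨g2', h7, h8⟩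
      refine ⟨g1' + g2', by rw [map_add, h5, h7], ?_⟩
      filter_upwards [h6, h8] with i h9 h10
      rw [map_add, h9, h10, add_zero]
    · rintro c g _ ⟨g', h5, h6⟩
      refine ⟨lift c * g', by rw [map_mul, h5, hlift, smul_eq_mul], ?_⟩
      filter_upwards [h6] with i h9
      rw [map_mul, h9, mul_zero]
  obtain ⟨g', hg1, hg2⟩ := hcomb _ hfK
  have hdiff : MvPolynomial.map π (f - g') = 0 := by
    rw [map_sub, hg1, sub_self]
  filter_upwards [eventually_mvmap_eq_zero U κ π hπ _ hdiff, hg2] with i h5 h6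
  rw [hev]
  have h7 : ev (Pi.evalRingHom κ i) (yb i) (f - g') = 0 := by
    have h8 := ev_map (Pi.evalRingHom κ i) (RingHom.id (κ i)) (yb i) (f - g')
    rw [RingHom.id_comp, h5, map_zero] at h8
    exact h8.symm
  rw [map_sub, h6, sub_zero] at h7
  exact h7

include hπ hs in
theorem TR_all [CharZero K] (d : ℕ) : TR U κ π d := by
  induction d with
  | zero => exact TR_zero U κ π hπ hs
  | succ d ih => exact TR_succ U κ π hπ hs ih

end Crest.Agent.R183.TA
end

-- ▼ part R183/EZ4
section

/-!
# Specialisation of finitely generated subrings of a field of characteristic zero to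
# characteristic `p`
-/

namespace Crest.Agent.R183.EZ

universe u

theorem isJacobsonRing_int : IsJacobsonRing ℤ := by
  rw [isJacobsonRing_iff_prime_eq]
  intro P hP
  by_cases h : P = ⊥
  · subst h
    rw [eq_bot_iff]
    intro x hx
    rw [Ideal.mem_bot]
    have h1 := Ideal.mem_jacobson_bot.1 hx (3 * x)
    rcases Int.isUnit_iff.1 h1 with h2 | h2
    · nlinarith [sq_nonneg x, mul_self_eq_zero.1 (show x * x = 0 by nlinarith)]
    · nlinarith [sq_nonneg x]
  · exact Ideal.jacobson_eq_self_of_isMaximal (H := hP.isMaximal h)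

/-- A field which is a finitely generated ring has positive characteristic. -/
theorem exists_charP_of_finiteType (F : Type u) [Field F] [h : Algebra.FiniteType ℤ F] :
    ∃ p : ℕ, p.Prime ∧ CharP F p := by
  have := isJacobsonRing_int
  have hfin : Module.Finite ℤ F := finite_of_finite_type_of_isJacobsonRing ℤ F
  obtain ⟨p, hp⟩ := CharP.exists F
  rcases CharP.char_is_prime_or_zero F p with h1 | h1
  · exact ⟨p, h1, hp⟩
  · exfalso
    subst h1
    have : CharZero F := CharP.charP_to_charZero F
    have hinj : Function.Injective (algebraMap ℤ F) := by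
      rw [algebraMap_int_eq]
      exact Int.cast_injective
    have hint : Algebra.IsIntegral ℤ F := Algebra.IsIntegral.of_finite ℤ F
    have := isField_of_isIntegral_of_isField hinj (Field.toIsField F)
    exact Int.not_isField this

theorem exists_charP_of_ringHom_finiteType (F : Type u) [Field F] (f : ℤ →+* F)
    (hf : f.FiniteType) : ∃ p : ℕ, p.Prime ∧ CharP F p := by
  have : Algebra.FiniteType ℤ F := by
    have h1 : @Algebra.FiniteType ℤ F _ _ f.toAlgebra := hf
    have h2 : f.toAlgebra = Ring.toIntAlgebra F := Subsingleton.elim _ _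
    rwa [h2] at h1
  exact exists_charP_of_finiteType F

/-- **Specialisation.** Let `K` be a commutative ring which is a domain, `Λ` a finitely generated subring and
`g ≠ 0` in `Λ`. Then there is a homomorphism from `Λ` to a field of prime characteristic which
does not kill `g`. -/
theorem exists_specialisation {K : Type u} [CommRing K] [IsDomain K] (T : Finset K) (g : K)
    (hg : g ≠ 0) (hgT : g ∈ Subring.closure (T : Set K)) :
    ∃ (p : ℕ) (_ : p.Prime) (F : Type u) (_ : Field F) (_ : CharP F p)
      (φ : Subring.closure (T : Set K) →+* F), φ ⟨g, hgT⟩ ≠ 0 := by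
  classical
  let L := Subring.closure (T : Set K)
  let g' : L := ⟨g, hgT⟩
  have hg' : g' ≠ 0 := fun h => hg (congrArg Subtype.val h)
  have : Algebra.FiniteType ℤ L := by
    have h1 : Algebra.FiniteType ℤ (Algebra.adjoin ℤ (T : Set K)) :=
      Subalgebra.fg_iff_finiteType _ |>.1 ⟨T, rfl⟩
    have h2 : ∀ x, x ∈ Algebra.adjoin ℤ (T : Set K) ↔ x ∈ L := by
      intro x
      constructor
      · intro hx
        induction hx using Algebra.adjoin_induction with
        | mem x hx => exact Subring.subset_closure hx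
        | algebraMap r => exact (by simp : (algebraMap ℤ K r) ∈ L)
        | add x y _ _ hx hy => exact L.add_mem hx hy
        | mul x y _ _ hx hy => exact L.mul_mem hx hy
      · intro hx
        have : L ≤ (Algebra.adjoin ℤ (T : Set K)).toSubring :=
          Subring.closure_le.2 Algebra.subset_adjoin
        exact this hx
    have e : (Algebra.adjoin ℤ (T : Set K)) ≃ₐ[ℤ] L :=
      { toFun := fun x => ⟨x.1, (h2 _).1 x.2⟩
        invFun := fun x => ⟨x.1, (h2 _).2 x.2⟩
        left_inv := fun x => rfl
        right_inv := fun x => rfl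
        map_mul' := fun x y => rfl
        map_add' := fun x y => rfl
        commutes' := fun r => by ext; simp }
    exact Algebra.FiniteType.equiv h1 e
  let Lg := Localization.Away g'
  have hLg : (algebraMap L Lg).FiniteType :=
    RingHom.finiteType_algebraMap.2 (inferInstance : Algebra.FiniteType L Lg)
  have hL : (Int.castRingHom L).FiniteType := by
    rw [← algebraMap_int_eq]
    exact RingHom.finiteType_algebraMap.2 this
  have hnt : Nontrivial Lg := by
    have : IsDomain Lg := IsLocalization.isDomain_localization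
      (powers_le_nonZeroDivisors_of_noZeroDivisors hg')
    infer_instance
  obtain ⟨m, hm⟩ := Ideal.exists_maximal Lg
  let F := Lg ⧸ m
  let fF : Field F := Ideal.Quotient.field m
  have hF : ((Ideal.Quotient.mk m).comp ((algebraMap L Lg).comp (Int.castRingHom L))).FiniteType :=
    (RingHom.FiniteType.of_surjective _ Ideal.Quotient.mk_surjective).comp (hLg.comp hL)
  obtain ⟨p, hp, hchar⟩ := exists_charP_of_ringHom_finiteType F _ hF
  refine ⟨p, hp, F, fF, hchar, (Ideal.Quotient.mk m).comp (algebraMap L Lg), ?_⟩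
  have hu : IsUnit ((Ideal.Quotient.mk m) (algebraMap L Lg g')) :=
    (IsLocalization.Away.algebraMap_isUnit g').map _
  exact hu.ne_zero

end Crest.Agent.R183.EZ
end

-- ▼ part R183/EZ5
section

/-!
# Embedding a field of characteristic zero into an ultraproduct of fields of prime characteristic
-/

namespace Crest.Agent.R183.EZ

open Filter

universe u

/-- The ideal of almost everywhere vanishing families. -/
def aeZero {ι : Type*} (U : Ultrafilter ι) (κ : ι → Type*) [∀ i, Field (κ i)] :
    Ideal (∀ i, κ i) where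
  carrier := {a | ∀ᶠ i in (U : Filter ι), a i = 0}
  zero_mem' := by simp
  add_mem' := by
    intro a b ha hb
    filter_upwards [ha, hb] with i h1 h2
    rw [Pi.add_apply, h1, h2, add_zero]
  smul_mem' := by
    intro c a ha
    filter_upwards [ha] with i h1
    rw [smul_eq_mul, Pi.mul_apply, h1, mul_zero]

theorem mem_aeZero {ι : Type*} (U : Ultrafilter ι) (κ : ι → Type*) [∀ i, Field (κ i)]
    (a : ∀ i, κ i) : a ∈ aeZero U κ ↔ ∀ᶠ i in (U : Filter ι), a i = 0 := Iff.rfl

instance aeZero_isMaximal {ι : Type*} (U : Ultrafilter ι) (κ : ι → Type*) [∀ i, Field (κ i)] :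
    (aeZero U κ).IsMaximal := by
  rw [Ideal.isMaximal_iff]
  constructor
  · intro h
    rw [mem_aeZero] at h
    obtain ⟨i, hi⟩ := h.exists
    exact one_ne_zero hi
  · intro J x hJ hx hxJ
    rw [mem_aeZero, ← Ultrafilter.eventually_not] at hx
    have h1 : (1 : ∀ i, κ i) = (1 - x * (fun i => (x i)⁻¹)) + x * (fun i => (x i)⁻¹) := by ring
    rw [h1]
    refine J.add_mem (hJ ?_) (J.mul_mem_right _ hxJ)
    rw [mem_aeZero]
    filter_upwards [hx] with i hi
    rw [Pi.sub_apply, Pi.one_apply, Pi.mul_apply, mul_inv_cancel₀ hi, sub_self]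

/-- **Ultraproduct embedding.** -/
theorem exists_ultra (K : Type u) [Field K] [CharZero K] :
    ∃ (ι : Type u) (U : Ultrafilter ι) (κ : ι → Type u) (_ : ∀ i, Field (κ i)) (K' : Type u)
      (_ : Field K') (_ : CharZero K') (π : (∀ i, κ i) →+* K') (_ : K →+* K'),
      (∀ i, ∃ p : ℕ, p.Prime ∧ CharP (κ i) p) ∧ Function.Surjective π ∧
      ∀ a : (∀ i, κ i), π a = 0 ↔ ∀ᶠ i in (U : Filter ι), a i = 0 := by
  classical
  have hspec : ∀ T : Finset K, ∃ (p : ℕ) (_ : p.Prime) (F : Type u) (_ : Field F) (_ : CharP F p)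
      (φ : Subring.closure (T : Set K) →+* F), φ 1 ≠ 0 := by
    intro T
    obtain ⟨p, hp, F, h1, h2, φ, hφ⟩ := exists_specialisation T 1 one_ne_zero (Subring.one_mem _)
    exact ⟨p, hp, F, h1, h2, φ, hφ⟩
  choose p hp κ hF hchar φ _ using hspec
  let U : Ultrafilter (Finset K) := Ultrafilter.of atTop
  have hU : (U : Filter (Finset K)) ≤ atTop := Ultrafilter.of_le atTop
  let J := aeZero U κ
  let fK : Field ((∀ i, κ i) ⧸ J) := Ideal.Quotient.field J
  let s : K → ∀ i, κ i := fun b i =>
    if h : b ∈ Subring.closure ((i : Finset K) : Set K) then φ i ⟨b, h⟩ else 0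
  have hmem : ∀ b : K, ∀ᶠ i : Finset K in (U : Filter (Finset K)),
      b ∈ Subring.closure (i : Set K) := by
    intro b
    refine hU ?_
    filter_upwards [eventually_ge_atTop ({b} : Finset K)] with i hi
    exact Subring.subset_closure (hi (Finset.mem_singleton_self b))
  have hs : ∀ (b : K) (i : Finset K) (h : b ∈ Subring.closure (i : Set K)),
      s b i = φ i ⟨b, h⟩ := fun b i h => dif_pos h
  let emb : K →+* ((∀ i, κ i) ⧸ J) :=
    { toFun := fun b => Ideal.Quotient.mk J (s b)
      map_one' := by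
        have : s 1 = 1 := by
          funext i
          rw [hs 1 i (Subring.one_mem _)]
          exact map_one (φ i)
        rw [this, map_one]
      map_zero' := by
        have : s 0 = 0 := by
          funext i
          rw [hs 0 i (Subring.zero_mem _)]
          exact map_zero (φ i)
        rw [this, map_zero]
      map_mul' := by
        intro a b
        rw [← map_mul, Ideal.Quotient.mk_eq_mk_iff_sub_mem, mem_aeZero]
        filter_upwards [hmem a, hmem b] with i ha hb
        rw [Pi.sub_apply, Pi.mul_apply, hs a i ha, hs b i hb, hs _ i (Subring.mul_mem _ ha hb),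
          ← map_mul, sub_eq_zero]
        rfl
      map_add' := by
        intro a b
        rw [← map_add, Ideal.Quotient.mk_eq_mk_iff_sub_mem, mem_aeZero]
        filter_upwards [hmem a, hmem b] with i ha hb
        rw [Pi.sub_apply, Pi.add_apply, hs a i ha, hs b i hb, hs _ i (Subring.add_mem _ ha hb),
          ← map_add, sub_eq_zero]
        rfl }
  refine ⟨Finset K, U, κ, hF, (∀ i, κ i) ⧸ J, fK, charZero_of_injective_ringHom emb.injective,
    Ideal.Quotient.mk J, emb, fun i => ⟨p i, hp i, hchar i⟩, Ideal.Quotient.mk_surjective, ?_⟩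
  intro a
  rw [Ideal.Quotient.eq_zero_iff_mem, mem_aeZero]

end Crest.Agent.R183.EZ
end

-- ▼ part R183/TA6
section

/-!
Transfer from a power series ring over a field of characteristic zero to power series rings over
fields of prime characteristic: any finite set of power series generates (together with the
variables) a subring that maps to a power series ring over a field of prime characteristic.
-/

set_option autoImplicit false

namespace Crest.Agent.R183.TA

open MvPowerSeries

/-- **Transfer theorem**, with control of the coefficients of degree `< M`. -/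
theorem transfer' {K : Type} [Field K] [CharZero K] (d : ℕ)
    (T : Finset (MvPowerSeries (Fin d) K)) (M : ℕ) :
    ∃ (p : ℕ) (_ : p.Prime) (F : Type) (_ : Field F) (_ : CharP F p)
      (A : Subring (MvPowerSeries (Fin d) K)) (ψ : A →+* MvPowerSeries (Fin d) F),
      (∀ t ∈ T, t ∈ A) ∧
      (∀ i : Fin d, ∃ h : (X i : MvPowerSeries (Fin d) K) ∈ A, ψ ⟨X i, h⟩ = X i) ∧
      (∀ b : K, C b ∈ T →
        ∃ (h : (C b : MvPowerSeries (Fin d) K) ∈ A) (b' : F), ψ ⟨C b, h⟩ = C b') ∧
      (∀ (t : MvPowerSeries (Fin d) K) (_ : t ∈ T) (h : t ∈ A) (α : Fin d →₀ ℕ),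
        α.degree < M → (coeff α (ψ ⟨t, h⟩) = 0 ↔ coeff α t = 0)) := by
  classical
  obtain ⟨ι, U, κ, hκ, K', hK', hK'c, π, j, hchar, hsurj, hπ⟩ := EZ.exists_ultra K
  let τ : Type := {t // t ∈ T}
  let y : τ → MvPowerSeries (Fin d) K' := fun t => map j t.1
  obtain ⟨y', hrel, hclose⟩ := TR_all U κ π hπ hsurj d τ y M
  -- relations over `ℤ`
  let c : ℤ →+* (∀ i, κ i) := Int.castRingHom _
  let e : MvPolynomial (Fin d ⊕ τ) ℤ →+* MvPowerSeries (Fin d) K :=
    ev (Int.castRingHom K) (fun t => t.1)
  let e' : ∀ i, MvPolynomial (Fin d ⊕ τ) ℤ →+* MvPowerSeries (Fin d) (κ i) := fun i =>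
    ev (Int.castRingHom (κ i)) (fun t => map (Pi.evalRingHom κ i) (y' t))
  have hmap : ∀ {L L' : Type} [CommRing L] [CommRing L'] (θ : L' →+* L)
      (z : τ → MvPowerSeries (Fin d) L) (ϕ : ℤ →+* L') (f : MvPolynomial (Fin d ⊕ τ) ℤ),
      ev θ z (MvPolynomial.map ϕ f) = ev (Int.castRingHom L) z f := by
    intro L L' _ _ θ z ϕ f
    rw [ev_map]
    congr 2
    exact Subsingleton.elim _ _
  have hker : ∀ f : MvPolynomial (Fin d ⊕ τ) ℤ, e f = 0 →
      ∀ᶠ i in (U : Filter ι), e' i f = 0 := by
    intro f hf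
    have h1 : ev π y (MvPolynomial.map c f) = 0 := by
      rw [hmap]
      have h2 := congrArg (map j) hf
      rw [map_zero] at h2
      rw [← h2]
      simp only [e]
      rw [map_ev]
      congr 2
      exact Subsingleton.elim _ _
    filter_upwards [hrel _ h1] with i hi
    rw [map_ev, RingHom.comp_id, hmap] at hi
    exact hi
  have hker' : ∀ᶠ i in (U : Filter ι), RingHom.ker e ≤ RingHom.ker (e' i) := by
    obtain ⟨S, hS⟩ := (isNoetherianRing_iff_ideal_fg _).mp
      (inferInstance : IsNoetherianRing (MvPolynomial (Fin d ⊕ τ) ℤ)) (RingHom.ker e)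
    have h1 : ∀ᶠ i in (U : Filter ι), ∀ f : S, e' i f.1 = 0 := by
      rw [Filter.eventually_all]
      intro f
      apply hker
      rw [← RingHom.mem_ker, ← hS]
      exact Ideal.subset_span f.2
    filter_upwards [h1] with i hi
    rw [← hS, Ideal.span_le]
    intro f hf
    exact hi ⟨f, hf⟩
  -- constants
  have hconst : ∀ᶠ i in (U : Filter ι), ∀ t : τ, (∃ b : K, t.1 = C b) →
      ∃ b' : κ i, map (Pi.evalRingHom κ i) (y' t) = C b' := by
    rw [Filter.eventually_all]
    intro t
    by_cases hb : ∃ b : K, t.1 = C b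
    · obtain ⟨b, hb⟩ := hb
      obtain ⟨bt, hbt⟩ := hsurj (j b)
      have h1 : ev π y (MvPolynomial.X (Sum.inr t) - MvPolynomial.C bt) = 0 := by
        rw [map_sub, ev_X_inr, ev_C, hbt]
        simp only [y]
        rw [hb, map_C, sub_self]
      filter_upwards [hrel _ h1] with i hi _
      refine ⟨bt i, ?_⟩
      rw [map_sub, map_sub, ev_X_inr, ev_C, sub_eq_zero] at hi
      rw [hi, map_C]
      rfl
    · filter_upwards with i h
      exact absurd h hb
  -- coefficients of low degree
  have hcoef : ∀ᶠ i in (U : Filter ι), ∀ t : τ, ∀ α ∈ {α : Fin d →₀ ℕ | α.degree < M},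
      (coeff α (map (Pi.evalRingHom κ i) (y' t)) = 0 ↔ coeff α t.1 = 0) := by
    rw [Filter.eventually_all]
    intro t
    rw [Filter.eventually_all_finite (Finsupp.finite_of_degree_lt M)]
    intro α hα
    have h1 : π (coeff α (y' t)) = j (coeff α t.1) := by
      have h2 := hclose t α hα
      rw [map_sub, sub_eq_zero, coeff_map] at h2
      rw [h2]
      simp only [y]
      rw [coeff_map]
    by_cases h0 : coeff α t.1 = 0
    · rw [h0, map_zero, hπ] at h1
      filter_upwards [h1] with i hi
      rw [coeff_map]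
      exact ⟨fun _ => h0, fun _ => hi⟩
    · have h2 : ¬ ∀ᶠ i in (U : Filter ι), (coeff α (y' t)) i = 0 := by
        rw [← hπ, h1]
        simpa using h0
      filter_upwards [Ultrafilter.eventually_not.mpr h2] with i hi
      rw [coeff_map]
      exact ⟨fun h => absurd h hi, fun h => absurd h h0⟩
  obtain ⟨i, hi1, hi2, hi3⟩ := (hker'.and (hconst.and hcoef)).exists
  obtain ⟨p, hp, hcp⟩ := hchar i
  have hrange : Function.Surjective e.rangeRestrict := RingHom.rangeRestrict_surjective e
  have hle : RingHom.ker e.rangeRestrict ≤ RingHom.ker (e' i) := by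
    rw [RingHom.ker_rangeRestrict]
    exact hi1
  let ψ : e.range →+* MvPowerSeries (Fin d) (κ i) :=
    e.rangeRestrict.liftOfSurjective hrange ⟨e' i, hle⟩
  have hψ : ∀ f : MvPolynomial (Fin d ⊕ τ) ℤ, ψ (e.rangeRestrict f) = e' i f := fun f =>
    RingHom.liftOfRightInverse_comp_apply _ _ _ ⟨e' i, hle⟩ f
  have hψX : ∀ k : Fin d, e (MvPolynomial.X (Sum.inl k)) = X k := fun k => ev_X_inl _ _ _
  have hψT : ∀ t : τ, e (MvPolynomial.X (Sum.inr t)) = t.1 := fun t => ev_X_inr _ _ _
  have hT : ∀ (t : τ) (h : t.1 ∈ e.range),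
      ψ ⟨t.1, h⟩ = map (Pi.evalRingHom κ i) (y' t) := by
    intro t h
    have h1 : (⟨t.1, h⟩ : e.range) = e.rangeRestrict (MvPolynomial.X (Sum.inr t)) :=
      Subtype.ext (hψT t).symm
    rw [h1, hψ]
    exact ev_X_inr _ _ _
  refine ⟨p, hp, κ i, hκ i, hcp, e.range, ψ, ?_, ?_, ?_, ?_⟩
  · intro t ht
    exact ⟨_, hψT ⟨t, ht⟩⟩
  · intro k
    refine ⟨⟨_, hψX k⟩, ?_⟩
    have h1 : (⟨X k, ⟨_, hψX k⟩⟩ : e.range) = e.rangeRestrict (MvPolynomial.X (Sum.inl k)) :=
      Subtype.ext (hψX k).symm
    rw [h1, hψ]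
    exact ev_X_inl _ _ _
  · intro b hb
    refine ⟨⟨_, hψT ⟨_, hb⟩⟩, ?_⟩
    obtain ⟨b', hb'⟩ := hi2 ⟨_, hb⟩ ⟨b, rfl⟩
    exact ⟨b', (hT ⟨_, hb⟩ _).trans hb'⟩
  · intro t ht h α hα
    rw [hT ⟨t, ht⟩ h]
    exact hi3 ⟨t, ht⟩ α hα

/-- **Transfer theorem**. -/
theorem transfer {K : Type} [Field K] [CharZero K] (d : ℕ)
    (T : Finset (MvPowerSeries (Fin d) K)) :
    ∃ (p : ℕ) (_ : p.Prime) (F : Type) (_ : Field F) (_ : CharP F p)
      (A : Subring (MvPowerSeries (Fin d) K)) (ψ : A →+* MvPowerSeries (Fin d) F),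
      (∀ t ∈ T, t ∈ A) ∧
      (∀ i : Fin d, ∃ h : (X i : MvPowerSeries (Fin d) K) ∈ A, ψ ⟨X i, h⟩ = X i) ∧
      (∀ b : K, C b ∈ T →
        ∃ (h : (C b : MvPowerSeries (Fin d) K) ∈ A) (b' : F), ψ ⟨C b, h⟩ = C b') := by
  obtain ⟨p, hp, F, hF, hc, A, ψ, h1, h2, h3, _⟩ := transfer' d T 0
  exact ⟨p, hp, F, hF, hc, A, ψ, h1, h2, h3⟩

end Crest.Agent.R183.TA
end

-- ▼ part R183/Z17
section

set_option autoImplicit false

/-! # R183 block [8b]: equal characteristic zero -/

namespace Crest.Agent.R183.Z

open IsLocalRing MvPowerSeries Crest.Agent.R183.M Crest.Agent.R183.HS Filter TensorProduct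
open Crest.Agent.R183.Cohen
open scoped Nat Topology

/-- [8a] in the form used here. -/
theorem transfer_holds (d : ℕ) (K : Type) [Field K] [CharZero K] : Transfer d K := by
  intro T
  obtain ⟨p, hp, F, hF, hc, A, ψ, h1, h2, h3⟩ := TA.transfer d T
  refine ⟨p, F, hF, hc, A, ψ, hp, h1, h2, fun b hb => ?_⟩
  obtain ⟨h, b', hb'⟩ := h3 b hb
  exact ⟨h, b', hb'⟩

theorem pow_le_map_of_dim_eq (R S : Type) [CommRing R] [CommRing S] [IsLocalRing R]
    [IsNoetherianRing R] [IsLocalRing S] [IsNoetherianRing S] [Algebra R S]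
    [IsLocalHom (algebraMap R S)] [Module.Flat R S] (hd : ringKrullDim R = ringKrullDim S) :
    ∃ c : ℕ, maximalIdeal S ^ c ≤ (maximalIdeal R).map (algebraMap R S) := by
  have key : ∀ P : Ideal S, P.IsPrime → (maximalIdeal R).map (algebraMap R S) ≤ P →
      P = maximalIdeal S := by
    intro P hP hle
    have hcomap : P.comap (algebraMap R S) = maximalIdeal R := by
      have h1 : maximalIdeal R ≤ P.comap (algebraMap R S) := Ideal.map_le_iff_le_comap.1 hle
      have h2 : P.comap (algebraMap R S) ≠ ⊤ := (hP.comap _).ne_top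
      exact ((maximalIdeal.isMaximal R).eq_of_le h2 h1).symm
    have hlo : P.LiesOver (maximalIdeal R) := ⟨hcomap.symm⟩
    have h3 := Ideal.height_eq_height_add_of_liesOver_of_hasGoingDown (maximalIdeal R) P
    have h4 : (maximalIdeal R).height ≤ P.height := by
      rw [h3]; exact le_self_add
    have h5 : (P.height : WithBot ℕ∞) = ringKrullDim S := by
      apply le_antisymm
      · exact Ideal.height_le_ringKrullDim_of_isPrime
      · rw [← hd, ← IsLocalRing.maximalIdeal_height_eq_ringKrullDim]
        exact WithBot.coe_le_coe.2 h4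
    have h6 := Ideal.isMaximal_of_height_eq_ringKrullDim h5
    exact IsLocalRing.eq_maximalIdeal h6
  have hrad : maximalIdeal S ≤ ((maximalIdeal R).map (algebraMap R S)).radical := by
    rw [Ideal.radical_eq_sInf]
    refine le_sInf ?_
    rintro P ⟨hP1, hP2⟩
    exact (key P hP2 hP1).ge
  exact Ideal.exists_pow_le_of_le_radical_of_fg hrad (IsNoetherian.noetherian _)

theorem eqchar0 (d : ℕ) (hp : ∀ p, p.Prime → MAINp p d) (R S : Type) [CommRing R] [CommRing S]
    [IsNoetherianRing R] [IsNoetherianRing S] [IsLocalRing R] [IsLocalRing S]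
    [IsAdicComplete (maximalIdeal R) R] [IsAdicComplete (maximalIdeal S) S] [Algebra R S]
    [IsLocalHom (algebraMap R S)] [Module.Flat R S] (h0 : CharZero (ResidueField R))
    (hdR : ringKrullDim R = d) (hdS : ringKrullDim S = d) :
    ∃ c : ℝ, UBf (hs R R) d c ∧ LBf (hs S S) d c := by
  classical
  obtain ⟨σR, hσR⟩ := exists_coefficientField_charZero' R h0
  let _ : Algebra (ResidueField R) S := ((algebraMap R S).comp σR).toAlgebra
  obtain ⟨σS, hσS, hσSk⟩ := exists_coefficientField_charZero (k := ResidueField R) S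
  let ι : ResidueField R →+* ResidueField S := (residue S).comp (algebraMap (ResidueField R) S)
  have hι : ∀ a, σS (ι a) = algebraMap R S (σR a) := fun a => hσSk a
  have hK0 : CharZero (ResidueField S) := charZero_of_injective_ringHom ι.injective
  have hInfR : Infinite (ResidueField R) := CharZero.infinite _
  have hInfS : Infinite (ResidueField S) := CharZero.infinite _
  obtain ⟨x, hx, t, ht⟩ := exists_minimal_reduction hdR (le_refl (maximalIdeal R))
    (t := 1) (by rw [pow_one])
  obtain ⟨y, hy, c2, hc2⟩ := exists_minimal_reduction hdS (le_refl (maximalIdeal S))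
    (t := 1) (by rw [pow_one])
  obtain ⟨c, hc⟩ := pow_le_map_of_dim_eq R S (hdR.trans hdS.symm)
  have hx' : maximalIdeal R ^ (t + 1) ≤ Ideal.span (Set.range x) := by
    rw [ht]; exact Ideal.mul_le_left
  let xS : Fin d → S := fun i => algebraMap R S (x i)
  have hmle : (maximalIdeal R).map (algebraMap R S) ≤ maximalIdeal S :=
    ((local_hom_TFAE (algebraMap R S)).out 0 2).1 ‹_›
  have hxS : ∀ i, xS i ∈ maximalIdeal S := fun i => hmle (Ideal.mem_map_of_mem _ (hx i))
  have hcS : maximalIdeal S ^ (c * (t + 1)) ≤ Ideal.span (Set.range xS) := by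
    rw [pow_mul]
    refine (Ideal.pow_right_mono hc (t + 1)).trans ?_
    rw [← Ideal.map_pow]
    refine (Ideal.map_mono hx').trans ?_
    rw [Ideal.map_span, ← Set.range_comp]
    rfl
  have hresfin : ((residue R).comp σR).Finite := by
    have : (residue R).comp σR = RingHom.id _ := RingHom.ext hσR
    rw [this]
    exact RingHom.Finite.id _
  have hresfinS : ((residue S).comp σS).Finite := by
    have : (residue S).comp σS = RingHom.id _ := RingHom.ext hσS
    rw [this]
    exact RingHom.Finite.id _
  obtain ⟨hinjR, hfinR⟩ := noether_equal σR hresfin hdR x hx hx'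
  obtain ⟨hinjS, hfinS⟩ := noether_equal σS hresfinS hdS xS hxS hcS
  let _ : Algebra (PS d (ResidueField R)) (PS d (ResidueField S)) :=
    (MvPowerSeries.map ι).toAlgebra
  let _ : Algebra (PS d (ResidueField R)) R := (psEval (maximalIdeal R) σR x hx).toAlgebra
  let _ : Algebra (PS d (ResidueField S)) S := (psEval (maximalIdeal S) σS xS hxS).toAlgebra
  have hfinR' : Module.Finite (PS d (ResidueField R)) R := hfinR
  have hfinS' : Module.Finite (PS d (ResidueField S)) S := hfinS
  have hmapalg : ∀ f, algebraMap (PS d (ResidueField R)) (PS d (ResidueField S)) f =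
      MvPowerSeries.map ι f := fun f => rfl
  have halgR : ∀ f, algebraMap (PS d (ResidueField R)) R f =
      psEval (maximalIdeal R) σR x hx f := fun f => rfl
  have halgS : ∀ f, algebraMap (PS d (ResidueField S)) S f =
      psEval (maximalIdeal S) σS xS hxS f := fun f => rfl
  refine eq0_abs (transfer_holds d (ResidueField S)) hp (k := ResidueField R) ?_ ?_ ?_
    (R := R) (S := S) hinjR ?_ ?_ ?_ t ?_ ?_ ?_ (c * (t + 1)) ?_ y hy c2 hc2
  · intro f g hfg
    apply MvPowerSeries.ext
    intro α
    have h1 : coeff α (MvPowerSeries.map ι f) = coeff α (MvPowerSeries.map ι g) := by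
      rw [← hmapalg, ← hmapalg, hfg]
    rw [coeff_map, coeff_map] at h1
    exact ι.injective h1
  · intro i
    rw [hmapalg, map_X]
  · intro a
    exact ⟨ι a, by rw [hmapalg, map_C]⟩
  · -- compatibility
    intro f
    have h1 : (algebraMap R S).comp (psEval (maximalIdeal R) σR x hx) =
        psEval (maximalIdeal S) (algebraMap (ResidueField R) S) xS hxS := by
      apply eq_psEval
      · intro a
        rw [RingHom.comp_apply, psEval_C]
        rfl
      · intro i
        rw [RingHom.comp_apply, psEval_X]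
    have h2 : (psEval (maximalIdeal S) σS xS hxS).comp (MvPowerSeries.map ι) =
        psEval (maximalIdeal S) (algebraMap (ResidueField R) S) xS hxS := by
      apply eq_psEval
      · intro a
        rw [RingHom.comp_apply, map_C, psEval_C, hι]
        rfl
      · intro i
        rw [RingHom.comp_apply, map_X, psEval_X]
    have h3 := RingHom.congr_fun (h1.trans h2.symm) f
    exact h3
  · intro r
    refine ⟨residue R r, ?_⟩
    rw [halgR, psEval_C, ← residue_eq_zero_iff, map_sub, hσR, sub_self]
  · intro i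
    rw [halgR, psEval_X]
    exact hx i
  · rw [ht]
    apply Ideal.mul_mono_left
    rw [Ideal.span_le]
    rintro _ ⟨i, rfl⟩
    refine Ideal.subset_span ⟨i, ?_⟩
    simp only [halgR, psEval_X]
  · intro r
    refine ⟨residue S r, ?_⟩
    rw [halgS, psEval_C, ← residue_eq_zero_iff, map_sub, hσS, sub_self]
  · intro i
    rw [halgS, psEval_X]
    exact hxS i
  · refine hcS.trans ?_
    rw [Ideal.span_le]
    rintro _ ⟨i, rfl⟩
    refine Ideal.subset_span ⟨i, ?_⟩
    simp only [halgS, psEval_X]

end Crest.Agent.R183.Z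
end

-- ▼ part R183/Top2

/-!
# R183 (Lech's conjecture, S0273): the top of the assembly, with residue characteristic zero
reduced to equal characteristic `p` (helper911's `Z17.eqchar0`).
-/

set_option autoImplicit false

namespace Crest.Agent.R183.Top

open IsLocalRing Crest.Agent.R183.M

/-- Residue characteristic zero follows from equal characteristic `p`, all primes `p`. -/
theorem coreZero_of_coreEqual (H : ∀ p : ℕ, p.Prime → CoreEqual.{0, 0} p) : CoreZero.{0, 0} := by
  intro d R S _ _ _ _ _ _ _ _ _ _ _ _ _ _ _ hR0 hd hd'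
  refine Z.eqchar0 (d + 1) (fun p hp => ?_) R S hR0 hd hd'
  intro R' S' _ _ _ _ _ _ _ _ _ _ hR' hS'
  exact lechC_of_coreEqual p hp (H p hp) R' S' (CharP.cast_eq_zero R' p) _ _ hR' hS'

/-- The statement of S0273 from the two cores (equal characteristic `p` and mixed
characteristic `(0, p)`). -/
theorem result_of_two (h1 : ∀ p : ℕ, p.Prime → CoreEqual.{0, 0} p)
    (h2 : ∀ p : ℕ, p.Prime → CoreMixed.{0, 0} p) (R S : Type) [CommRing R]
    [CommRing S] [IsNoetherianRing R] [IsNoetherianRing S] [IsLocalRing R] [IsLocalRing S]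
    (f : R →+* S) (hf : IsLocalHom f) (hflat : f.Flat) (d d' : ℕ) (hd : ringKrullDim R = d)
    (hd' : ringKrullDim S = d') (e e' : ℝ)
    (he : Filter.Tendsto (fun N : ℕ => (Nat.factorial d : ℝ) *
        ((Module.length R (R ⧸ IsLocalRing.maximalIdeal R ^ N)).toNat : ℝ) / (N : ℝ) ^ d)
      Filter.atTop (nhds e))
    (he' : Filter.Tendsto (fun N : ℕ => (Nat.factorial d' : ℝ) *
        ((Module.length S (S ⧸ IsLocalRing.maximalIdeal S ^ N)).toNat : ℝ) / (N : ℝ) ^ d')
      Filter.atTop (nhds e')) :
    e ≤ e' :=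
  result_of_cases (coreZero_of_coreEqual h1) h1 h2 R S f hf hflat d d' hd hd' e e' he he'

end Crest.Agent.R183.Top
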