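import Crest.Agent.R183.AddLen
import Crest.Agent.R183.M0

-- ▼ part R183/WGrowth
section

set_option autoImplicit false

namespace Crest.Agent.R183.WG

open scoped ENNReal
open Crest.Agent.R183

universe u v

variable {A : Type u} [CommRing A] (Λ : AddLen.{u, v} A)
variable {V : Type v} [AddCommGroup V] [Module A V]

/-- the ideal `(z_i^{a_i})`. -/
def powIdeal {d : ℕ} (z : Fin d → A) (a : Fin d → ℕ) : Ideal A :=
  Ideal.span (Set.range fun i => z i ^ a i)

/-- the ideal `(z_j^{a_j} : j ≠ i)`. -/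
def powIdealNe {d : ℕ} (z : Fin d → A) (a : Fin d → ℕ) (i : Fin d) : Ideal A :=
  Ideal.span ((fun j => z j ^ a j) '' {j | j ≠ i})

lemma powIdeal_eq {d : ℕ} (z : Fin d → A) (a : Fin d → ℕ) (i : Fin d) :
    powIdeal z a = powIdealNe z a i ⊔ Ideal.span {z i ^ a i} := by
  unfold powIdeal powIdealNe
  rw [← Ideal.span_union]
  congr 1
  ext x
  simp only [Set.mem_range, Set.mem_union, Set.mem_image, Set.mem_ofPred_eq, Set.mem_singleton_iff]
  constructor
  · rintro ⟨j, rfl⟩
    by_cases h : j = i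
    · right; rw [h]
    · left; exact ⟨j, h, rfl⟩
  · rintro (⟨j, _, rfl⟩ | rfl)
    · exact ⟨j, rfl⟩
    · exact ⟨i, rfl⟩

lemma powIdealNe_update {d : ℕ} (z : Fin d → A) (a : Fin d → ℕ) (i : Fin d) (n : ℕ) :
    powIdealNe z (Function.update a i n) i = powIdealNe z a i := by
  unfold powIdealNe
  congr 1
  ext x
  simp only [Set.mem_image, Set.mem_ofPred_eq]
  constructor
  · rintro ⟨j, hj, rfl⟩
    exact ⟨j, hj, by rw [Function.update_of_ne hj]⟩
  · rintro ⟨j, hj, rfl⟩
    exact ⟨j, hj, by rw [Function.update_of_ne hj]⟩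

/-- Null-regularity: for every `i`, all exponents `a`, `b`: `(J' V : z_i^b)` equals `J' V` up to
null, `J' = (z_j^{a_j} : j ≠ i)`. -/
def NullReg {d : ℕ} (z : Fin d → A) (V : Type v) [AddCommGroup V] [Module A V] : Prop :=
  ∀ (i : Fin d) (a : Fin d → ℕ) (b : ℕ), (∀ j, 0 < a j) → 0 < b →
    Λ.le0 ((powIdealNe z a i • (⊤ : Submodule A V)).comap (LinearMap.lsmul A V (z i ^ b)))
      (powIdealNe z a i • (⊤ : Submodule A V))

/-- length of the image of `E` in `V / U`. -/
noncomputable def ell (E U : Submodule A V) : ℝ≥0∞ := Λ.L (E ⧸ U.comap E.subtype)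

lemma ell_eq_map (E U : Submodule A V) : ell Λ E U = Λ.L (E.map U.mkQ) := by
  unfold ell
  have h := Λ.L_ker_add_range (U.mkQ.comp E.subtype)
  have e : (E ⧸ U.comap E.subtype) ≃ₗ[A] E.map U.mkQ := by
    have h1 : LinearMap.ker (U.mkQ.comp E.subtype) = U.comap E.subtype := by
      rw [LinearMap.ker_comp, Submodule.ker_mkQ]
    have h2 : LinearMap.range (U.mkQ.comp E.subtype) = E.map U.mkQ := by
      rw [LinearMap.range_comp, Submodule.range_subtype]
    exact (Submodule.quotEquivOfEq _ _ h1.symm).trans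
      ((U.mkQ.comp E.subtype).quotKerEquivRange.trans (LinearEquiv.ofEq _ _ h2))
  exact Λ.L_congr e

lemma ell_congr_of_le0 (E : Submodule A V) {S T : Submodule A V} (hTS : T ≤ S)
    (h : Λ.le0 S T) : ell Λ E S = ell Λ E T :=
  Λ.L_quotient_eq_of_le0 (Submodule.comap_mono hTS) (Λ.le0_comap E.subtype h)

/-- One step of the filtration count. -/
lemma ell_step (E J : Submodule A V) (x : A) (a b : ℕ)
    (hnull : Λ.le0 (J.comap (LinearMap.lsmul A V (x ^ b))) J) :
    ell Λ E (J ⊔ (Ideal.span {x ^ a} • ⊤)) + ell Λ E (J ⊔ (Ideal.span {x ^ b} • ⊤))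
      ≤ ell Λ E (J ⊔ (Ideal.span {x ^ (a + b)} • ⊤)) := by
  set Ua := J ⊔ (Ideal.span {x ^ a} • (⊤ : Submodule A V)) with hUa
  set Ub := J ⊔ (Ideal.span {x ^ b} • (⊤ : Submodule A V)) with hUb
  set Uab := J ⊔ (Ideal.span {x ^ (a + b)} • (⊤ : Submodule A V)) with hUab
  set U1 : Submodule A V := Uab.comap (LinearMap.lsmul A V (x ^ b)) with hU1
  have hmem : ∀ (n : ℕ) (v : V), v ∈ (Ideal.span {x ^ n} • (⊤ : Submodule A V)) ↔
      ∃ w : V, v = x ^ n • w := by
    intro n v
    rw [Submodule.ideal_span_singleton_smul]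
    constructor
    · intro hv
      obtain ⟨w, _, hw⟩ := Submodule.mem_smul_pointwise_iff_exists v (x ^ n) ⊤ |>.1 hv
      exact ⟨w, hw.symm⟩
    · rintro ⟨w, rfl⟩
      exact Submodule.smul_mem_pointwise_smul w (x ^ n) ⊤ trivial
  -- `U1 = Ua` up to null
  have hle : Ua ≤ U1 := by
    rw [hUa, sup_le_iff]
    constructor
    · intro v hv
      rw [hU1, Submodule.mem_comap]
      exact Submodule.mem_sup_left (J.smul_mem _ hv)
    · intro v hv
      obtain ⟨w, rfl⟩ := (hmem a v).1 hv
      rw [hU1, Submodule.mem_comap]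
      refine Submodule.mem_sup_right ((hmem (a + b) _).2 ⟨w, ?_⟩)
      rw [LinearMap.lsmul_apply, smul_smul, ← pow_add, add_comm]
  have h0 : Λ.le0 U1 Ua := by
    have h1 : U1 ≤ J.comap (LinearMap.lsmul A V (x ^ b)) ⊔ (Ideal.span {x ^ a} • ⊤) := by
      intro v hv
      rw [hU1, Submodule.mem_comap, LinearMap.lsmul_apply, hUab, Submodule.mem_sup] at hv
      obtain ⟨j, hj, w', hw', hv⟩ := hv
      obtain ⟨w, rfl⟩ := (hmem (a + b) w').1 hw'
      rw [Submodule.mem_sup]
      refine ⟨v - x ^ a • w, ?_, x ^ a • w, (hmem a _).2 ⟨w, rfl⟩, by abel⟩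
      rw [Submodule.mem_comap, LinearMap.lsmul_apply, smul_sub, smul_smul, ← pow_add,
        add_comm b a, ← hv, add_sub_cancel_right]
      exact hj
    refine Λ.le0_mono ?_ h1 le_rfl
    exact Λ.le0_sup_right _ hnull
  rw [← ell_congr_of_le0 Λ E hle h0]
  -- the maps
  let φ : (E ⧸ U1.comap E.subtype) →ₗ[A] (E ⧸ Uab.comap E.subtype) :=
    Submodule.mapQ _ _ (LinearMap.lsmul A E (x ^ b)) (by
      intro e he
      rw [Submodule.mem_comap, hU1, Submodule.mem_comap] at he
      rw [Submodule.mem_comap, Submodule.mem_comap]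
      exact he)
  have hφ : Function.Injective φ := by
    rw [← LinearMap.ker_eq_bot, Submodule.ker_mapQ, eq_bot_iff, Submodule.map_le_iff_le_comap]
    intro e he
    rw [Submodule.mem_comap, Submodule.mem_bot, Submodule.mkQ_apply,
      Submodule.Quotient.mk_eq_zero, Submodule.mem_comap, hU1, Submodule.mem_comap]
    exact he
  have hUabUb : Uab ≤ Ub := by
    rw [hUab, hUb]
    refine sup_le_sup_left ?_ _
    intro v hv
    obtain ⟨w, rfl⟩ := (hmem (a + b) v).1 hv
    exact (hmem b _).2 ⟨x ^ a • w, by rw [smul_smul, ← pow_add, add_comm]⟩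
  let ψ : (E ⧸ Uab.comap E.subtype) →ₗ[A] (E ⧸ Ub.comap E.subtype) :=
    Submodule.factor (Submodule.comap_mono hUabUb)
  have hψ : Function.Surjective ψ := Submodule.factor_surjective _
  have hψφ : LinearMap.range φ ≤ LinearMap.ker ψ := by
    rintro _ ⟨y, rfl⟩
    obtain ⟨e, rfl⟩ := Submodule.Quotient.mk_surjective _ y
    rw [LinearMap.mem_ker]
    change (Submodule.Quotient.mk _ : E ⧸ Ub.comap E.subtype) = 0
    rw [Submodule.Quotient.mk_eq_zero, Submodule.mem_comap]
    exact Submodule.mem_sup_right ((hmem b _).2 ⟨e, rfl⟩)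
  have h2 := Λ.L_ker_add_range ψ
  have h3 : Λ.L (E ⧸ U1.comap E.subtype) ≤ Λ.L (LinearMap.ker ψ) :=
    Λ.L_le_of_injective (φ.codRestrict _ fun y => hψφ ⟨y, rfl⟩)
      (fun y y' h => hφ (congrArg Subtype.val h))
  have h4 : Λ.L (E ⧸ Ub.comap E.subtype) ≤ Λ.L (LinearMap.range ψ) := by
    rw [LinearMap.range_eq_top.2 hψ, Λ.L_congr (Submodule.topEquiv)]
  unfold ell
  rw [h2]
  exact add_le_add h3 h4

lemma powIdeal_smul_eq {d : ℕ} (z : Fin d → A) (a : Fin d → ℕ) (i : Fin d) (n : ℕ) :
    (powIdeal z (Function.update a i n) • (⊤ : Submodule A V)) =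
      (powIdealNe z a i • ⊤) ⊔ (Ideal.span {z i ^ n} • ⊤) := by
  rw [powIdeal_eq z _ i, powIdealNe_update, Function.update_self, Submodule.sup_smul]

/-- Multiplicativity in one exponent. -/
lemma mul_ell_update_le {d : ℕ} (z : Fin d → A) (hz : NullReg Λ z V) (E : Submodule A V)
    (a : Fin d → ℕ) (ha : ∀ j, 0 < a j) (i : Fin d) (n : ℕ) :
    ((n + 1 : ℕ) : ℝ≥0∞) * ell Λ E (powIdeal z (Function.update a i 1) • ⊤)
      ≤ ell Λ E (powIdeal z (Function.update a i (n + 1)) • ⊤) := by
  induction n with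
  | zero => simp
  | succ n ih =>
    have h := ell_step Λ E (powIdealNe z a i • ⊤) (z i) (n + 1) 1 (hz i a 1 ha one_pos)
    rw [← powIdeal_smul_eq, ← powIdeal_smul_eq, ← powIdeal_smul_eq] at h
    refine le_trans ?_ h
    calc ((n + 1 + 1 : ℕ) : ℝ≥0∞) * ell Λ E (powIdeal z (Function.update a i 1) • ⊤)
        = ((n + 1 : ℕ) : ℝ≥0∞) * ell Λ E (powIdeal z (Function.update a i 1) • ⊤)
          + ell Λ E (powIdeal z (Function.update a i 1) • ⊤) := by push_cast; ring
      _ ≤ _ := add_le_add ih le_rfl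

/-- `(N+1)^d * ℓ(E/(z)) ≤ ℓ(E/(z^(N+1)))`. -/
theorem pow_mul_ell_le {d : ℕ} (z : Fin d → A) (hz : NullReg Λ z V) (E : Submodule A V) (n : ℕ) :
    ((n + 1 : ℕ) : ℝ≥0∞) ^ d * ell Λ E (Ideal.span (Set.range z) • ⊤)
      ≤ ell Λ E (powIdeal z (fun _ => n + 1) • ⊤) := by
  classical
  have key : ∀ s : Finset (Fin d), ((n + 1 : ℕ) : ℝ≥0∞) ^ s.card *
      ell Λ E (powIdeal z (fun _ => 1) • ⊤)
      ≤ ell Λ E (powIdeal z (fun i => if i ∈ s then n + 1 else 1) • ⊤) := by
    intro s
    induction s using Finset.induction_on with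
    | empty => simp
    | insert i s hi ih =>
      rw [Finset.card_insert_of_notMem hi, pow_succ']
      have ha : ∀ j, 0 < (fun i => if i ∈ s then n + 1 else 1) j := by
        intro j; dsimp only; split_ifs <;> omega
      have h := mul_ell_update_le Λ z hz E (fun i => if i ∈ s then n + 1 else 1) ha i n
      have e1 : Function.update (fun i => if i ∈ s then n + 1 else 1) i 1
          = (fun i => if i ∈ s then n + 1 else 1) := by
        rw [Function.update_eq_self_iff]; simp [hi]
      have e2 : Function.update (fun i => if i ∈ s then n + 1 else 1) i (n + 1)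
          = (fun j => if j ∈ insert i s then n + 1 else 1) := by
        funext j
        by_cases hj : j = i
        · subst hj; simp
        · rw [Function.update_of_ne hj]; simp [hj]
      rw [e1, e2] at h
      refine le_trans ?_ h
      rw [mul_assoc]
      gcongr
  have h := key Finset.univ
  simp only [Finset.card_univ, Fintype.card_fin, Finset.mem_univ, if_true] at h
  have e : powIdeal z (fun _ => 1) = Ideal.span (Set.range z) := by
    unfold powIdeal; simp
  rwa [e] at h

/-- Trivial filtration bound, one exponent. -/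
lemma L_quot_pow_step (U : Submodule A V) (x : A) (n : ℕ) :
    Λ.L (V ⧸ (U ⊔ Ideal.span {x ^ n} • (⊤ : Submodule A V)))
      ≤ n * Λ.L (V ⧸ (U ⊔ Ideal.span {x} • (⊤ : Submodule A V))) := by
  have hmem : ∀ (y : A) (v : V), v ∈ (Ideal.span {y} • (⊤ : Submodule A V)) ↔
      ∃ w : V, v = y • w := by
    intro y v
    rw [Submodule.ideal_span_singleton_smul]
    constructor
    · intro hv
      obtain ⟨w, _, hw⟩ := Submodule.mem_smul_pointwise_iff_exists v y ⊤ |>.1 hv
      exact ⟨w, hw.symm⟩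
    · rintro ⟨w, rfl⟩
      exact Submodule.smul_mem_pointwise_smul w y ⊤ trivial
  induction n with
  | zero =>
    have : (U ⊔ Ideal.span {x ^ 0} • (⊤ : Submodule A V)) = ⊤ := by
      rw [eq_top_iff]
      intro v _
      exact Submodule.mem_sup_right ((hmem _ v).2 ⟨v, by simp⟩)
    rw [this]
    have : Subsingleton (V ⧸ (⊤ : Submodule A V)) := inferInstance
    rw [Λ.L_subsingleton]
    simp
  | succ n ih =>
    set U1 := U ⊔ Ideal.span {x} • (⊤ : Submodule A V) with hU1
    set Un := U ⊔ Ideal.span {x ^ n} • (⊤ : Submodule A V) with hUn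
    set Un1 := U ⊔ Ideal.span {x ^ (n + 1)} • (⊤ : Submodule A V) with hUn1
    have hle : Un1 ≤ Un := by
      rw [hUn1, hUn]
      refine sup_le_sup_left ?_ _
      intro v hv
      obtain ⟨w, rfl⟩ := (hmem _ v).1 hv
      exact (hmem _ _).2 ⟨x • w, by rw [smul_smul, ← pow_succ]⟩
    rw [Λ.L_quotient_add Un Un1 hle]
    -- `Un / Un1` is a quotient of `V / U1`
    let φ : (V ⧸ U1) →ₗ[A] (V ⧸ Un1) :=
      Submodule.mapQ _ _ (LinearMap.lsmul A V (x ^ n)) (by
        rw [hU1, sup_le_iff]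
        constructor
        · intro u hu
          exact Submodule.mem_sup_left (U.smul_mem _ hu)
        · intro u hu
          obtain ⟨w, rfl⟩ := (hmem _ u).1 hu
          refine Submodule.mem_sup_right ((hmem _ _).2 ⟨w, ?_⟩)
          rw [LinearMap.lsmul_apply, smul_smul, ← pow_succ])
    have h1 : Un.map Un1.mkQ ≤ LinearMap.range φ := by
      rw [hUn, Submodule.map_sup, sup_le_iff]
      constructor
      · rintro _ ⟨u, hu, rfl⟩
        have : Un1.mkQ u = 0 := by
          rw [Submodule.mkQ_apply, Submodule.Quotient.mk_eq_zero]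
          exact Submodule.mem_sup_left hu
        rw [this]
        exact Submodule.zero_mem _
      · rintro _ ⟨u, hu, rfl⟩
        obtain ⟨w, rfl⟩ := (hmem _ u).1 hu
        exact ⟨U1.mkQ w, rfl⟩
    have h2 : Λ.L (Un.map Un1.mkQ) ≤ Λ.L (V ⧸ U1) :=
      (Λ.L_le_of_injective (Submodule.inclusion h1) (Submodule.inclusion_injective h1)).trans
        (Λ.L_le_of_surjective φ.rangeRestrict φ.surjective_rangeRestrict)
    calc _ ≤ Λ.L (V ⧸ U1) + n * Λ.L (V ⧸ U1) := add_le_add h2 ih
      _ = _ := by push_cast; ring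

/-- `L(V/(z^(N)) V) ≤ N^d L(V/(z)V)`. -/
theorem L_quot_powIdeal_le {d : ℕ} (z : Fin d → A) (n : ℕ) :
    Λ.L (V ⧸ (powIdeal z (fun _ => n) • (⊤ : Submodule A V)))
      ≤ (n : ℝ≥0∞) ^ d * Λ.L (V ⧸ (Ideal.span (Set.range z) • (⊤ : Submodule A V))) := by
  classical
  have key : ∀ s : Finset (Fin d),
      Λ.L (V ⧸ (powIdeal z (fun i => if i ∈ s then n else 1) • (⊤ : Submodule A V)))
      ≤ (n : ℝ≥0∞) ^ s.card * Λ.L (V ⧸ (powIdeal z (fun _ => 1) • (⊤ : Submodule A V))) := by
    intro s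
    induction s using Finset.induction_on with
    | empty =>
      have e0 : (fun i : Fin d => if i ∈ (∅ : Finset (Fin d)) then n else 1) = fun _ => 1 := by
        funext i; simp
      rw [e0, Finset.card_empty, pow_zero, one_mul]
    | insert i s hi ih =>
      rw [Finset.card_insert_of_notMem hi, pow_succ']
      have h := L_quot_pow_step Λ (V := V)
        (powIdealNe z (fun i => if i ∈ s then n else 1) i • ⊤) (z i) n
      have e3 := powIdeal_smul_eq (V := V) z (fun i => if i ∈ s then n else 1) i 1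
      rw [pow_one] at e3
      rw [← e3, ← powIdeal_smul_eq] at h
      have e1 : Function.update (fun i => if i ∈ s then n else 1) i 1
          = (fun i => if i ∈ s then n else 1) := by
        rw [Function.update_eq_self_iff]; simp [hi]
      have e2 : Function.update (fun i => if i ∈ s then n else 1) i n
          = (fun j => if j ∈ insert i s then n else 1) := by
        funext j
        by_cases hj : j = i
        · subst hj; simp
        · rw [Function.update_of_ne hj]; simp [hj]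
      rw [e1, e2] at h
      refine h.trans ?_
      rw [mul_assoc]
      gcongr
  have h := key Finset.univ
  have e0 : (fun i : Fin d => if i ∈ (Finset.univ : Finset (Fin d)) then n else 1) = fun _ => n := by
    funext i; simp
  have e : powIdeal z (fun _ => 1) = Ideal.span (Set.range z) := by
    unfold powIdeal; simp
  rwa [e, e0, Finset.card_univ, Fintype.card_fin] at h


lemma L_le_generators {M : Type v} [AddCommGroup M] [Module A M] {m : ℕ}
    (s : Fin m → M) (hs : Submodule.span A (Set.range s) = ⊤) (c : ℝ≥0∞)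
    (hc : ∀ x : M, Λ.L (Submodule.span A {x}) ≤ c) : Λ.L M ≤ m * c := by
  classical
  have key : ∀ (k : ℕ) (t : Fin k → M), Λ.L (Submodule.span A (Set.range t)) ≤ k * c := by
    intro k
    induction k with
    | zero =>
      intro t
      have : Submodule.span A (Set.range t) = ⊥ := by
        rw [Set.range_eq_empty, Submodule.span_empty]
      rw [this, Λ.L_subsingleton]; simp
    | succ k ih =>
      intro t
      have h1 : Submodule.span A (Set.range t) =
          Submodule.span A {t 0} ⊔ Submodule.span A (Set.range (fun i : Fin k => t i.succ)) := by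
        rw [← Submodule.span_union]
        congr 1
        ext x
        simp only [Set.mem_range, Set.mem_union, Set.mem_singleton_iff]
        constructor
        · rintro ⟨i, rfl⟩
          refine Fin.cases (Or.inl rfl) (fun j => Or.inr ⟨j, rfl⟩) i
        · rintro (rfl | ⟨j, rfl⟩)
          · exact ⟨0, rfl⟩
          · exact ⟨j.succ, rfl⟩
      rw [h1]
      have h2 : Λ.L (Submodule.span A {t 0} ⊔ Submodule.span A (Set.range fun i : Fin k => t i.succ)
          : Submodule A M) ≤ Λ.L (Submodule.span A {t 0})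
            + Λ.L (Submodule.span A (Set.range fun i : Fin k => t i.succ)) := by
        rw [← Λ.L_prod]
        have h3 := LinearMap.range_coprod (Submodule.span A {t 0}).subtype
          (Submodule.span A (Set.range fun i : Fin k => t i.succ)).subtype
        rw [Submodule.range_subtype, Submodule.range_subtype] at h3
        rw [← h3]
        exact Λ.L_le_of_surjective _ (LinearMap.surjective_rangeRestrict _)
      refine h2.trans ?_
      refine (add_le_add (hc _) (ih _)).trans ?_
      push_cast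
      rw [add_mul, one_mul, add_comm]
  have := key m s
  rwa [hs, Λ.L_congr (Submodule.topEquiv (R := A) (M := M))] at this

section bounds

variable {A : Type u} [CommRing A] (Λ : AddLen.{u, u} A)
variable {V X : Type u} [AddCommGroup V] [Module A V] [AddCommGroup X] [Module A X]

/-- cyclic modules killed by `I`. -/
lemma L_span_singleton_le {M : Type u} [AddCommGroup M] [Module A M] (I : Ideal A)
    (hI : ∀ a ∈ I, ∀ x : M, a • x = 0) (x : M) :
    Λ.L (Submodule.span A {x}) ≤ Λ.L (A ⧸ I) := by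
  let f : A →ₗ[A] M := LinearMap.toSpanSingleton A M x
  have hf : I ≤ LinearMap.ker f := fun a ha => hI a ha x
  have hr : Submodule.span A {x} = LinearMap.range (Submodule.liftQ I f hf) := by
    rw [Submodule.range_liftQ]
    exact (LinearMap.range_toSpanSingleton x).symm
  rw [hr]
  exact Λ.L_le_of_surjective (LinearMap.rangeRestrict _) (LinearMap.surjective_rangeRestrict _)

/-- **Upper bound.** -/
theorem ell_le_of_bounded (f : X →ₗ[A] V) (Δ : A) (hΔ : ∀ v : V, Δ • v ∈ LinearMap.range f)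
    (I : Ideal A) (hI : ∀ a ∈ I, ∀ v : V, a • v = 0) (J : Ideal A) {m : ℕ} (s : Fin m → V) :
    ell Λ (Submodule.span A (Set.range s)) (J • ⊤)
      ≤ Λ.L (X ⧸ (J • (⊤ : Submodule A X))) + m * Λ.L (A ⧸ (I ⊔ Ideal.span {Δ} ⊔ J)) := by
  set E := Submodule.span A (Set.range s) with hE
  set U : Submodule A V := J • ⊤ with hU
  let Y := E ⧸ U.comap E.subtype
  change Λ.L Y ≤ _
  have hιle : U.comap E.subtype ≤ U.comap E.subtype := le_rfl
  let ι : Y →ₗ[A] (V ⧸ U) := Submodule.mapQ _ _ E.subtype hιle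
  have hι : Function.Injective ι := by
    rw [← LinearMap.ker_eq_bot, Submodule.ker_mapQ, eq_bot_iff, Submodule.map_le_iff_le_comap]
    intro e he
    rw [Submodule.mem_comap, Submodule.mem_bot, Submodule.mkQ_apply,
      Submodule.Quotient.mk_eq_zero]
    exact he
  set R : Submodule A Y := LinearMap.range (LinearMap.lsmul A Y Δ) with hR
  rw [Λ.L_eq_add_quotient R]
  refine add_le_add ?_ ?_
  · -- `Δ Y`
    have hJ : (J • (⊤ : Submodule A X)) ≤ U.comap f := by
      rw [← Submodule.map_le_iff_le_comap, Submodule.map_smul'', hU]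
      exact Submodule.smul_mono le_rfl le_top
    let F : (X ⧸ (J • (⊤ : Submodule A X))) →ₗ[A] (V ⧸ U) := Submodule.mapQ _ _ f hJ
    have h1 : R.map ι ≤ LinearMap.range F := by
      rintro _ ⟨_, ⟨y, rfl⟩, rfl⟩
      obtain ⟨e, rfl⟩ := Submodule.Quotient.mk_surjective _ y
      obtain ⟨x, hx⟩ := hΔ (e : V)
      refine ⟨Submodule.Quotient.mk x, ?_⟩
      change Submodule.Quotient.mk (f x) = _
      rw [hx]
      rfl
    have h2 : Λ.L R ≤ Λ.L (R.map ι) :=
      (Λ.L_congr (Submodule.equivMapOfInjective ι hι R)).le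
    refine h2.trans ((Λ.L_le_of_injective (Submodule.inclusion h1)
      (Submodule.inclusion_injective h1)).trans ?_)
    exact Λ.L_le_of_surjective F.rangeRestrict F.surjective_rangeRestrict
  · -- `Y / Δ Y`
    have hgen : Submodule.span A (Set.range fun i : Fin m =>
        R.mkQ ((U.comap E.subtype).mkQ ⟨s i, Submodule.subset_span ⟨i, rfl⟩⟩)) = ⊤ := by
      have h1 : Submodule.span A (Set.range fun i : Fin m =>
          (⟨s i, Submodule.subset_span ⟨i, rfl⟩⟩ : E)) = ⊤ := by
        have := Submodule.span_span_coe_preimage (R := A) (s := Set.range s)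
        rw [← this]
        congr 1
        ext ⟨x, hx⟩
        simp only [Set.mem_range, Set.mem_preimage, Subtype.mk.injEq]
      have h2 : (Set.range fun i : Fin m =>
          R.mkQ ((U.comap E.subtype).mkQ ⟨s i, Submodule.subset_span ⟨i, rfl⟩⟩)) =
          (R.mkQ.comp (U.comap E.subtype).mkQ) '' (Set.range fun i : Fin m =>
          (⟨s i, Submodule.subset_span ⟨i, rfl⟩⟩ : E)) := by
        rw [← Set.range_comp]; rfl
      rw [h2, Submodule.span_image, h1, Submodule.map_top, LinearMap.range_comp,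
        Submodule.range_mkQ, Submodule.map_top, Submodule.range_mkQ]
    have hkill : ∀ a ∈ I ⊔ Ideal.span {Δ} ⊔ J, ∀ y : Y ⧸ R, a • y = 0 := by
      intro a ha y
      have hann : I ⊔ Ideal.span {Δ} ⊔ J ≤ Module.annihilator A (Y ⧸ R) := by
        refine sup_le (sup_le ?_ ?_) ?_
        · intro b hb
          rw [Module.mem_annihilator]
          intro y
          obtain ⟨y, rfl⟩ := Submodule.Quotient.mk_surjective _ y
          obtain ⟨e, rfl⟩ := Submodule.Quotient.mk_surjective _ y
          have : b • e = 0 := Subtype.ext (hI b hb e)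
          rw [← Submodule.Quotient.mk_smul, ← Submodule.Quotient.mk_smul, this]
          simp
        · rw [Ideal.span_le, Set.singleton_subset_iff, SetLike.mem_coe, Module.mem_annihilator]
          intro y
          obtain ⟨y, rfl⟩ := Submodule.Quotient.mk_surjective _ y
          rw [← Submodule.Quotient.mk_smul, Submodule.Quotient.mk_eq_zero]
          exact ⟨y, rfl⟩
        · intro b hb
          rw [Module.mem_annihilator]
          intro y
          obtain ⟨y, rfl⟩ := Submodule.Quotient.mk_surjective _ y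
          obtain ⟨e, rfl⟩ := Submodule.Quotient.mk_surjective _ y
          have : (Submodule.Quotient.mk (b • e) : Y) = 0 := by
            rw [Submodule.Quotient.mk_eq_zero]
            exact Submodule.smul_mem_smul hb trivial
          rw [← Submodule.Quotient.mk_smul, ← Submodule.Quotient.mk_smul, this]
          simp
      exact Module.mem_annihilator.1 (hann ha) y
    exact L_le_generators Λ _ hgen _ (fun x => L_span_singleton_le Λ _ hkill x)

/-- `L(Y[Δ]) = L(Y/ΔY)` if `L(Y) < ∞`. -/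
lemma L_ker_eq_L_coker {Y : Type u} [AddCommGroup Y] [Module A Y] (h : Λ.L Y ≠ ⊤)
    (f : Y →ₗ[A] Y) : Λ.L (LinearMap.ker f) = Λ.L (Y ⧸ LinearMap.range f) := by
  have h1 := Λ.L_ker_add_range f
  have h2 := Λ.L_eq_add_quotient (LinearMap.range f)
  have h3 : Λ.L (LinearMap.range f) ≠ ⊤ := by
    intro h4
    rw [h4] at h1
    exact h (by rw [h1]; simp)
  rw [h1, add_comm] at h2
  exact (ENNReal.add_right_inj h3).1 h2

/-- **Lower bound.** -/
theorem L_le_of_bounded (g : X →ₗ[A] V) (Δ : A) (hΔ : ∀ v : V, Δ • v ∈ LinearMap.range g)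
    (hker : ∀ x, g x = 0 → Δ • x = 0) (J : Ideal A)
    (hfin : Λ.L (X ⧸ (J • (⊤ : Submodule A X))) ≠ ⊤) :
    Λ.L (X ⧸ (J • (⊤ : Submodule A X))) ≤ Λ.L (V ⧸ (J • (⊤ : Submodule A V)))
      + Λ.L (X ⧸ ((Ideal.span {Δ ^ 2} ⊔ J) • (⊤ : Submodule A X))) := by
  have hJ : (J • (⊤ : Submodule A X)) ≤ (J • (⊤ : Submodule A V)).comap g := by
    rw [← Submodule.map_le_iff_le_comap, Submodule.map_smul'']
    exact Submodule.smul_mono le_rfl le_top
  let F : (X ⧸ (J • (⊤ : Submodule A X))) →ₗ[A] (V ⧸ (J • (⊤ : Submodule A V))) :=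
    Submodule.mapQ _ _ g hJ
  let D : (X ⧸ (J • (⊤ : Submodule A X))) →ₗ[A] (X ⧸ (J • (⊤ : Submodule A X))) :=
    LinearMap.lsmul A _ (Δ ^ 2)
  rw [Λ.L_ker_add_range F, add_comm]
  refine add_le_add (Λ.L_submodule_le _) ?_
  have hkd : LinearMap.ker F ≤ LinearMap.ker D := by
    intro y hy
    obtain ⟨x, rfl⟩ := Submodule.Quotient.mk_surjective _ y
    rw [LinearMap.mem_ker] at hy
    change Submodule.Quotient.mk (g x) = 0 at hy
    rw [Submodule.Quotient.mk_eq_zero] at hy
    -- `Δ • g x ∈ g (J X)`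
    have h1 : Δ • g x ∈ (J • (⊤ : Submodule A X)).map g := by
      rw [Submodule.map_smul'']
      refine Submodule.smul_induction_on (p := fun v => Δ • v ∈ J • (⊤ : Submodule A X).map g)
        hy ?_ ?_
      · intro a ha v _
        rw [smul_comm]
        refine Submodule.smul_mem_smul ha ?_
        rw [Submodule.map_top]
        exact hΔ v
      · intro v w hv hw
        rw [smul_add]
        exact Submodule.add_mem _ hv hw
    obtain ⟨x', hx', hgx⟩ := h1
    have h2 : Δ • (Δ • x - x') = 0 := hker _ (by rw [map_sub, map_smul, hgx, sub_self])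
    rw [LinearMap.mem_ker]
    change (Δ ^ 2) • (Submodule.Quotient.mk x : X ⧸ (J • (⊤ : Submodule A X))) = 0
    rw [← Submodule.Quotient.mk_smul, Submodule.Quotient.mk_eq_zero]
    have h3 : (Δ ^ 2) • x = Δ • x' := by
      rw [smul_sub, sub_eq_zero, smul_smul, ← pow_two] at h2
      exact h2
    rw [h3]
    exact Submodule.smul_mem _ _ hx'
  have h4 : Λ.L (LinearMap.ker F) ≤ Λ.L (LinearMap.ker D) :=
    Λ.L_le_of_injective (Submodule.inclusion hkd) (Submodule.inclusion_injective hkd)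
  rw [L_ker_eq_L_coker Λ hfin D] at h4
  refine h4.trans ?_
  -- `(X/JX)/Δ² = X/(Δ²,J)X`
  have h5 : ((Ideal.span {Δ ^ 2} ⊔ J) • (⊤ : Submodule A X)) ≤
      LinearMap.ker ((LinearMap.range D).mkQ.comp (J • (⊤ : Submodule A X)).mkQ) := by
    rw [Submodule.sup_smul, sup_le_iff]
    constructor
    · rw [Submodule.ideal_span_singleton_smul]
      intro v hv
      obtain ⟨w, _, rfl⟩ := Submodule.mem_smul_pointwise_iff_exists v (Δ ^ 2) ⊤ |>.1 hv
      rw [LinearMap.mem_ker, LinearMap.comp_apply, Submodule.mkQ_apply _ (Submodule.mkQ _ _),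
        Submodule.Quotient.mk_eq_zero]
      exact ⟨Submodule.Quotient.mk w, rfl⟩
    · intro v hv
      rw [LinearMap.mem_ker, LinearMap.comp_apply]
      have : (J • (⊤ : Submodule A X)).mkQ v = 0 := by
        rw [Submodule.mkQ_apply, Submodule.Quotient.mk_eq_zero]; exact hv
      rw [this, map_zero]
  refine Λ.L_le_of_surjective (Submodule.liftQ _ _ h5) ?_
  rw [← LinearMap.range_eq_top, Submodule.range_liftQ, LinearMap.range_comp,
    Submodule.range_mkQ, Submodule.map_top, Submodule.range_mkQ]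

end bounds

end Crest.Agent.R183.WG
end

-- ▼ part R183/WBound

set_option autoImplicit false

namespace Crest.Agent.R183.WG

open scoped ENNReal
open Crest.Agent.R183 Filter

universe u

variable {A : Type u} [CommRing A] (Λ : AddLen.{u, u} A)
variable {V X : Type u} [AddCommGroup V] [Module A V] [AddCommGroup X] [Module A X]

/-- continuity of an additive length: it is determined by finitely generated submodules. -/
def Cont : Prop :=
  ∀ (M : Type u) [AddCommGroup M] [Module A M] (c : ℝ≥0∞),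
    (∀ E : Submodule A M, E.FG → Λ.L E ≤ c) → Λ.L M ≤ c

/-- elementary: if `n^d x ≤ n^d y + C n^(d-1)` for all large `n`, `C < ∞`, then `x ≤ y`. -/
lemma le_of_growth {d : ℕ} (hd : 0 < d) {x y C : ℝ≥0∞} (hC : C ≠ ⊤)
    (h : ∀ n : ℕ, 0 < n → (n : ℝ≥0∞) ^ d * x ≤ (n : ℝ≥0∞) ^ d * y + C * (n : ℝ≥0∞) ^ (d - 1)) :
    x ≤ y := by
  by_cases hy : y = ⊤
  · rw [hy]; exact le_top
  have h1 : ∀ n : ℕ, 0 < n → x ≤ y + C / n := by
    intro n hn
    have hn0 : (n : ℝ≥0∞) ≠ 0 := by exact_mod_cast hn.ne'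
    have hnt : (n : ℝ≥0∞) ≠ ⊤ := ENNReal.natCast_ne_top n
    have h2 := h n hn
    have h3 : (n : ℝ≥0∞) ^ d * y + C * (n : ℝ≥0∞) ^ (d - 1) = (n : ℝ≥0∞) ^ d * (y + C / n) := by
      rw [mul_add]
      congr 1
      obtain ⟨k, rfl⟩ : ∃ k, d = k + 1 := ⟨d - 1, by omega⟩
      rw [Nat.add_sub_cancel, pow_succ, mul_assoc, ENNReal.mul_div_cancel hn0 hnt, mul_comm]
    rw [h3] at h2
    exact (ENNReal.mul_le_mul_iff_right (pow_ne_zero _ hn0) (ENNReal.pow_ne_top hnt)).1 h2
  have h2 : Tendsto (fun n : ℕ => y + C / n) atTop (nhds (y + 0)) := by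
    refine Tendsto.const_add _ ?_
    have := ENNReal.Tendsto.const_div (a := C) ENNReal.tendsto_nat_nhds_top (Or.inr hC)
    simpa using this
  rw [add_zero] at h2
  refine ge_of_tendsto h2 ?_
  filter_upwards [eventually_gt_atTop 0] with n hn using h1 n hn

/-- finitely generated submodules of `V / U` lift. -/
lemma exists_lift_span {U : Submodule A V} {E : Submodule A (V ⧸ U)} (hE : E.FG) :
    ∃ (m : ℕ) (s : Fin m → V), (Submodule.span A (Set.range s)).map U.mkQ = E := by
  obtain ⟨m, t, ht⟩ := Submodule.fg_iff_exists_fin_generating_family.1 hE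
  choose s hs using fun i => U.mkQ_surjective (t i)
  refine ⟨m, s, ?_⟩
  rw [Submodule.map_span, ← Set.range_comp, ← ht]
  congr 2
  funext i
  exact hs i

/-- **Upper bound, limit form.** `L(V/zV) ≤ r`. -/
theorem L_quot_le {d : ℕ} (hd : 0 < d) (hcont : Cont Λ) (z : Fin d → A) (hz : NullReg Λ z V)
    (f : X →ₗ[A] V) (Δ : A) (hΔ : ∀ v : V, Δ • v ∈ LinearMap.range f)
    (I : Ideal A) (hI : ∀ a ∈ I, ∀ v : V, a • v = 0) (r C C' : ℝ≥0∞) (hC : C ≠ ⊤) (hC' : C' ≠ ⊤)
    (hX : ∀ n : ℕ, 0 < n → Λ.L (X ⧸ (powIdeal z (fun _ => n) • (⊤ : Submodule A X)))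
      ≤ r * (n : ℝ≥0∞) ^ d + C * (n : ℝ≥0∞) ^ (d - 1))
    (hA : ∀ n : ℕ, 0 < n → Λ.L (A ⧸ (I ⊔ Ideal.span {Δ} ⊔ powIdeal z (fun _ => n)))
      ≤ C' * (n : ℝ≥0∞) ^ (d - 1)) :
    Λ.L (V ⧸ (Ideal.span (Set.range z) • (⊤ : Submodule A V))) ≤ r := by
  refine hcont _ _ fun E hE => ?_
  obtain ⟨m, s, rfl⟩ := exists_lift_span hE
  rw [← ell_eq_map]
  refine le_of_growth hd (C := C + m * C')
    (ENNReal.add_ne_top.2 ⟨hC, ENNReal.mul_ne_top (ENNReal.natCast_ne_top m) hC'⟩) ?_
  intro n hn
  obtain ⟨k, rfl⟩ : ∃ k, n = k + 1 := ⟨n - 1, by omega⟩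
  refine (pow_mul_ell_le Λ z hz (Submodule.span A (Set.range s)) k).trans ?_
  refine (ell_le_of_bounded Λ f Δ hΔ I hI (powIdeal z fun _ => k + 1) s).trans ?_
  refine (add_le_add (hX (k + 1) hn) (mul_le_mul_right (hA (k + 1) hn) _)).trans ?_
  apply le_of_eq
  ring

/-- **Lower bound, limit form.** If `r n^d ≤ L(X/w^(n)X)` and the torsion part is small, then
`r ≤ L(V/wV)`. -/
theorem le_L_quot {d : ℕ} (hd : 0 < d) (w : Fin d → A)
    (g : X →ₗ[A] V) (Δ : A) (hΔ : ∀ v : V, Δ • v ∈ LinearMap.range g)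
    (hker : ∀ x, g x = 0 → Δ • x = 0) (r C : ℝ≥0∞) (hC : C ≠ ⊤)
    (hfin : ∀ n : ℕ, 0 < n → Λ.L (X ⧸ (powIdeal w (fun _ => n) • (⊤ : Submodule A X))) ≠ ⊤)
    (hX : ∀ n : ℕ, 0 < n → r * (n : ℝ≥0∞) ^ d ≤
      Λ.L (X ⧸ (powIdeal w (fun _ => n) • (⊤ : Submodule A X))))
    (hT : ∀ n : ℕ, 0 < n →
      Λ.L (X ⧸ ((Ideal.span {Δ ^ 2} ⊔ powIdeal w (fun _ => n)) • (⊤ : Submodule A X)))
      ≤ C * (n : ℝ≥0∞) ^ (d - 1)) :
    r ≤ Λ.L (V ⧸ (Ideal.span (Set.range w) • (⊤ : Submodule A V))) := by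
  refine le_of_growth hd hC fun n hn => ?_
  rw [mul_comm]
  refine (hX n hn).trans ((L_le_of_bounded Λ g Δ hΔ hker _ (hfin n hn)).trans ?_)
  exact add_le_add (L_quot_powIdeal_le Λ w n) (hT n hn)

end Crest.Agent.R183.WG
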