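import Crest.Agent.R183.Z5
import Crest.Agent.R183.HSLech
import Mathlib.LinearAlgebra.TensorProduct.Basis

-- ▼ part R183/Z6
section

set_option autoImplicit false

/-! # R183 block [8b]: the positive characteristic side -/

namespace Crest.Agent.R183.Z

open IsLocalRing MvPowerSeries Crest.Agent.R183.M Filter
open scoped Nat Topology

/-- The inequality of multiplicities for all flat local pairs of dimensions `(d, d)` in
characteristic `p`. -/
def MAINp (p d : ℕ) : Prop :=
  ∀ (R S : Type) [CommRing R] [CommRing S] [IsNoetherianRing R] [IsNoetherianRing S]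
    [IsLocalRing R] [IsLocalRing S] [CharP R p] [Algebra R S] [IsLocalHom (algebraMap R S)]
    [Module.Flat R S], ringKrullDim R = d → ringKrullDim S = d →
    ∃ c : ℝ, UBf (hs R R) d c ∧ LBf (hs S S) d c

section

variable {F : Type} [Field F] {d : ℕ}

/-- power series ring in `d` variables -/
abbrev PS (d : ℕ) (F : Type) [Field F] : Type := MvPowerSeries (Fin d) F

/-- monomials -/
noncomputable def xmon (F : Type) [Field F] {d : ℕ} (α : Fin d →₀ ℕ) : MvPowerSeries (Fin d) F :=
  MvPowerSeries.monomial α 1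

/-- truncation: every series is a finite linear combination of monomials of degree `< c` modulo
`(x)^c` -/
theorem sub_trunc_mem (b : (PS d F)) (c : ℕ) :
    b - ∑ α ∈ expo d c, coeff α b • xmon F α ∈ XI (Fin d) F ^ c := by
  classical
  rw [mem_XI_pow_iff]
  intro β hβ
  rw [map_sub, map_sum, Finset.sum_eq_single β]
  · rw [map_smul, xmon, coeff_monomial_same]
    simp
  · intro α _ hα
    rw [map_smul, xmon, coeff_monomial_ne hα.symm]
    simp
  · intro h
    exact absurd (mem_expo.2 hβ) h


variable {S : Type} [CommRing S] [Algebra (PS d F) S]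

/-- `S = V + Q` from the certificates -/
theorem mem_span_add {κ : Type} {ι : Type*} [Fintype κ] (g : κ → S)
    (hg : Submodule.span (PS d F) (Set.range g) = ⊤)
    (σ : ι → S) (Q : Ideal S) (c : ℕ)
    (hc : (XI (Fin d) F ^ c).map (algebraMap (PS d F) S) ≤ Q)
    (hcert : ∀ α ∈ expo d c, ∀ k, ∃ e : ι →₀ F,
      algebraMap (PS d F) S (xmon F α) * g k - e.sum (fun j a => algebraMap (PS d F) S (C a) * σ j) ∈ Q)
    (s : S) : ∃ e : ι →₀ F, s - e.sum (fun j a => algebraMap (PS d F) S (C a) * σ j) ∈ Q := by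
  classical
  have hadd : ∀ s t : S, (∃ e : ι →₀ F, s - e.sum (fun j a => algebraMap (PS d F) S (C a) * σ j) ∈ Q) →
      (∃ e : ι →₀ F, t - e.sum (fun j a => algebraMap (PS d F) S (C a) * σ j) ∈ Q) →
      (∃ e : ι →₀ F, s + t - e.sum (fun j a => algebraMap (PS d F) S (C a) * σ j) ∈ Q) := by
    rintro s t ⟨e, he⟩ ⟨e', he'⟩
    refine ⟨e + e', ?_⟩
    rw [Finsupp.sum_add_index' (by simp) (by intro a b1 b2; rw [map_add, map_add, add_mul])]
    have := Q.add_mem he he'
    convert this using 1
    ring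
  have hzero : ∀ s ∈ Q, (∃ e : ι →₀ F, s - e.sum (fun j a => algebraMap (PS d F) S (C a) * σ j) ∈ Q) := by
    intro s hs
    exact ⟨0, by simpa using hs⟩
  have hsmul : ∀ (a : F) (s : S),
      (∃ e : ι →₀ F, s - e.sum (fun j a => algebraMap (PS d F) S (C a) * σ j) ∈ Q) →
      (∃ e : ι →₀ F, algebraMap (PS d F) S (C a) * s -
        e.sum (fun j a => algebraMap (PS d F) S (C a) * σ j) ∈ Q) := by
    rintro a s ⟨e, he⟩
    refine ⟨a • e, ?_⟩
    rw [Finsupp.sum_smul_index (by simp)]
    have h1 : (e.sum fun j b => algebraMap (PS d F) S (C (a * b)) * σ j) =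
        algebraMap (PS d F) S (C a) * e.sum (fun j a => algebraMap (PS d F) S (C a) * σ j) := by
      rw [Finsupp.mul_sum]
      refine Finsupp.sum_congr fun j _ => ?_
      rw [map_mul, map_mul, mul_assoc]
    rw [h1, ← mul_sub]
    exact Q.mul_mem_left _ he
  have hsum : ∀ {τ : Type} (t : Finset τ) (f : τ → S),
      (∀ i ∈ t, ∃ e : ι →₀ F, f i - e.sum (fun j a => algebraMap (PS d F) S (C a) * σ j) ∈ Q) →
      (∃ e : ι →₀ F, (∑ i ∈ t, f i) - e.sum (fun j a => algebraMap (PS d F) S (C a) * σ j) ∈ Q) := by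
    intro τ t f h
    refine Finset.sum_induction f
      (fun s => ∃ e : ι →₀ F, s - e.sum (fun j a => algebraMap (PS d F) S (C a) * σ j) ∈ Q)
      hadd (hzero 0 Q.zero_mem) h
  have hmem : s ∈ Submodule.span (PS d F) (Set.range g) := by rw [hg]; trivial
  rw [Submodule.mem_span_range_iff_exists_fun] at hmem
  obtain ⟨b, rfl⟩ := hmem
  refine hsum _ _ fun k _ => ?_
  have h1 : b k • g k = (∑ α ∈ expo d c, algebraMap (PS d F) S (C (coeff α (b k))) *
      (algebraMap (PS d F) S (xmon F α) * g k)) +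
      algebraMap (PS d F) S (b k - ∑ α ∈ expo d c, coeff α (b k) • xmon F α) * g k := by
    rw [map_sub, map_sum, sub_mul, Finset.sum_mul, Algebra.smul_def]
    have h2 : ∀ α ∈ expo d c, algebraMap (PS d F) S (coeff α (b k) • xmon F α) * g k =
        algebraMap (PS d F) S (C (coeff α (b k))) * (algebraMap (PS d F) S (xmon F α) * g k) := by
      intro α _
      rw [← mul_assoc, ← map_mul]
      congr 2
      rw [MvPowerSeries.smul_eq_C_mul]
    rw [Finset.sum_congr rfl h2]
    ring
  rw [h1]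
  refine hadd _ _ (hsum _ _ fun α hα => hsmul _ _ (hcert α hα k)) (hzero _ ?_)
  exact Q.mul_mem_right _ (hc (Ideal.mem_map_of_mem _ (sub_trunc_mem (b k) c)))


/-- the length of `S/Q` is at most the number of generators of `S` modulo `Q` over `F` -/
theorem length_le_of_span {L : ℕ} (σ : Fin L → S) (Q : Ideal S)
    (h : ∀ s : S, ∃ e : Fin L →₀ F, s - e.sum (fun j a => algebraMap (PS d F) S (C a) * σ j) ∈ Q) :
    Module.length S (S ⧸ Q) ≤ L := by
  classical
  let _ : Algebra F S := ((algebraMap (PS d F) S).comp (C (σ := Fin d) (R := F))).toAlgebra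
  have hsm : ∀ (a : F) (x : S), a • x = algebraMap (PS d F) S (C a) * x := fun a x => by
    rw [Algebra.smul_def]; rfl
  let ev : (Fin L →₀ F) →ₗ[F] (S ⧸ Q) :=
    ((Q.restrictScalars F).mkQ.comp (Finsupp.linearCombination F σ) :)
  have hev : Function.Surjective ev := by
    intro y
    obtain ⟨s, rfl⟩ := Submodule.mkQ_surjective _ y
    obtain ⟨e, he⟩ := h s
    refine ⟨e, ?_⟩
    have h1 : Finsupp.linearCombination F σ e =
        e.sum (fun j a => algebraMap (PS d F) S (C a) * σ j) := by
      rw [Finsupp.linearCombination_apply]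
      exact Finsupp.sum_congr fun j _ => hsm _ _
    rw [← h1] at he
    have h2 : s - Finsupp.linearCombination F σ e ∈ Q.restrictScalars F := he
    have h3 := (Submodule.Quotient.mk_eq_zero (Q.restrictScalars F)).2 h2
    rw [Submodule.Quotient.mk_sub, sub_eq_zero] at h3
    exact h3.symm
  calc Module.length S (S ⧸ Q) ≤ Module.length F (S ⧸ Q) := length_le_length_restrict F
    _ ≤ Module.length F (Fin L →₀ F) := Module.length_le_of_surjective ev hev
    _ = L := by
        rw [(Finsupp.linearEquivFunOnFinite F F (Fin L)).length_eq, Module.length_eq_finrank,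
          Module.finrank_fintype_fun_eq_card, Fintype.card_fin]

end

end Crest.Agent.R183.Z
end

-- ▼ part R183/Z7
section

set_option autoImplicit false

/-! # R183 block [8b]: the positive characteristic side, assembled -/

namespace Crest.Agent.R183.Z

open IsLocalRing MvPowerSeries Crest.Agent.R183.M Crest.Agent.R183.HS Filter
open scoped Nat Topology

variable {F : Type} [Field F] {d : ℕ}

instance isDomain_PS (d : ℕ) (F : Type*) [Field F] : IsDomain (MvPowerSeries (Fin d) F) :=
  NoZeroDivisors.to_isDomain _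

theorem map_XI_eq {S : Type} [CommRing S] [Algebra (PS d F) S] :
    (maximalIdeal (PS d F)).map (algebraMap (PS d F) S) =
      Ideal.span (Set.range fun i => algebraMap (PS d F) S (X i)) := by
  rw [maximalIdeal_eq_XI, XI, Ideal.map_span, ← Set.range_comp]
  rfl

/-- local structure from a finite family of generators -/
theorem local_of_cert {S : Type} [CommRing S] [Nontrivial S] [Algebra (PS d F) S]
    [Module.Finite (PS d F) S] {κ : Type} [Fintype κ] (g : κ → S)
    (hg : Submodule.span (PS d F) (Set.range g) = ⊤) (a : κ → F) (n : Ideal S)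
    (hgn : ∀ k, g k - algebraMap (PS d F) S (C (a k)) ∈ n)
    (hxn : ∀ i, algebraMap (PS d F) S (X i) ∈ n) (c : ℕ)
    (hn : n ^ c ≤ Ideal.span (Set.range fun i => algebraMap (PS d F) S (X i))) :
    ∃ _ : IsLocalRing S, maximalIdeal S = n ∧
      Function.Surjective (fun b : PS d F => residue S (algebraMap (PS d F) S b)) := by
  have h1 : ∀ r : S, ∃ b : PS d F, r - algebraMap (PS d F) S b ∈ n := by
    intro r
    have hmem : r ∈ Submodule.span (PS d F) (Set.range g) := by rw [hg]; trivial
    rw [Submodule.mem_span_range_iff_exists_fun] at hmem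
    obtain ⟨b, rfl⟩ := hmem
    refine ⟨∑ k, b k * C (a k), ?_⟩
    rw [map_sum, ← Finset.sum_sub_distrib]
    refine Ideal.sum_mem _ fun k _ => ?_
    rw [Algebra.smul_def, map_mul, ← mul_sub]
    exact n.mul_mem_left _ (hgn k)
  have h3 : (maximalIdeal (PS d F)).map (algebraMap (PS d F) S) ≤ n := by
    rw [map_XI_eq, Ideal.span_le]
    rintro _ ⟨i, rfl⟩
    exact hxn i
  obtain ⟨hloc, hmax⟩ := isLocalRing_of_gen n h1 c (by rw [map_XI_eq]; exact hn) h3
  refine ⟨hloc, hmax, fun y => ?_⟩
  obtain ⟨r, rfl⟩ := residue_surjective y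
  obtain ⟨b, hb⟩ := h1 r
  refine ⟨b, ?_⟩
  change residue S _ = residue S r
  rw [← hmax] at hb
  rw [eq_comm, ← sub_eq_zero, ← map_sub, residue_eq_zero_iff]
  exact hb

theorem Fside {p : ℕ} [CharP F p] (hp : MAINp p d) {R S : Type} [CommRing R] [CommRing S]
    [Algebra (PS d F) R] [Algebra (PS d F) S] [Algebra R S] [IsScalarTower (PS d F) R S]
    [Module.Free R S] [Module.Finite R S] [Nontrivial S]
    {κ κ' : Type} [Fintype κ] [Fintype κ'] (v : κ → R)
    (hv : Submodule.span (PS d F) (Set.range v) = ⊤) (a : κ → F) (m : Ideal R)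
    (hvm : ∀ k, v k - algebraMap (PS d F) R (C (a k)) ∈ m)
    (hxm : ∀ i, algebraMap (PS d F) R (X i) ∈ m) (t : ℕ)
    (hm : m ^ (t + 1) ≤ Ideal.span (Set.range fun i => algebraMap (PS d F) R (X i)) * m ^ t)
    {ρ : ℕ} (hρ : 0 < ρ) (ph : R →ₗ[PS d F] (Fin ρ → PS d F)) (D : PS d F) (hD : D ≠ 0)
    (hph : ∀ i, ∃ r, ph r = Pi.single i D)
    (g : κ' → S) (hg : Submodule.span (PS d F) (Set.range g) = ⊤) (a' : κ' → F) (n : Ideal S)
    (hgn : ∀ k, g k - algebraMap (PS d F) S (C (a' k)) ∈ n)
    (hxn : ∀ i, algebraMap (PS d F) S (X i) ∈ n) (c : ℕ)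
    (hn : n ^ c ≤ Ideal.span (Set.range fun i => algebraMap (PS d F) S (X i)))
    (y : Fin d → S) (hy : ∀ i, y i ∈ n) (q : ℕ) (hq : 0 < q) (c' : ℕ)
    (hc' : (XI (Fin d) F ^ c').map (algebraMap (PS d F) S) ≤
      Ideal.span (Set.range fun i => y i ^ q))
    {L : ℕ} (σ : Fin L → S)
    (hcert : ∀ α ∈ expo d c', ∀ k, ∃ e : Fin L →₀ F,
      algebraMap (PS d F) S (xmon F α) * g k -
        e.sum (fun j a => algebraMap (PS d F) S (C a) * σ j) ∈
        Ideal.span (Set.range fun i => y i ^ q)) :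
    (ρ : ℝ) ≤ (L : ℝ) / (q : ℝ) ^ d := by
  classical
  -- finiteness and nontriviality
  have hfinR : Module.Finite (PS d F) R := by
    refine ⟨⟨Finset.univ.image v, ?_⟩⟩
    rw [Finset.coe_image, Finset.coe_univ, Set.image_univ]
    exact hv
  have hfinS : Module.Finite (PS d F) S := by
    refine ⟨⟨Finset.univ.image g, ?_⟩⟩
    rw [Finset.coe_image, Finset.coe_univ, Set.image_univ]
    exact hg
  have hnR : Nontrivial R := by
    obtain ⟨r, hr⟩ := hph ⟨0, hρ⟩
    refine ⟨⟨r, 0, ?_⟩⟩
    rintro rfl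
    rw [map_zero] at hr
    have := congrFun hr ⟨0, hρ⟩
    simp at this
    exact hD this.symm
  have hNR : IsNoetherianRing R := IsNoetherianRing.of_finite (PS d F) R
  have hNS : IsNoetherianRing S := IsNoetherianRing.of_finite (PS d F) S
  have hcR : CharP R p :=
    charP_of_injective_ringHom (((algebraMap (PS d F) R).comp (C (σ := Fin d) (R := F))).injective) p
  -- local structure
  have hm' : m ^ (t + 1) ≤ Ideal.span (Set.range fun i => algebraMap (PS d F) R (X i)) :=
    hm.trans Ideal.mul_le_left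
  obtain ⟨hlR, hmR, hresR⟩ := local_of_cert v hv a m hvm hxm (t + 1) hm'
  obtain ⟨hlS, hmS, hresS⟩ := local_of_cert g hg a' n hgn hxn c hn
  have hlh : IsLocalHom (algebraMap R S) := by
    have h1 := Ideal.isMaximal_comap_of_isIntegral_of_isMaximal (R := R) (maximalIdeal S)
    exact ((local_hom_TFAE (algebraMap R S)).out 4 0).1 (IsLocalRing.eq_maximalIdeal h1)
  -- lower bound for R
  have hmap := map_XI_eq (F := F) (d := d) (S := R)
  have hLB : LBf (hs R R) d ρ := by
    have h1 : LBf (hs (PS d F) R) d ρ := by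
      have := LBf_of_map (LBf_PS d F) ph D hD hph
      rwa [mul_one] at this
    refine h1.of_shift t (Eventually.of_forall fun N => ?_)
    refine hs_le_shift hresR ?_ N
    rw [hmap, hmR]
    exact hm
  have hdimR : ringKrullDim R = d := by
    apply le_antisymm
    · refine ringKrullDim_le_of_minred (fun i => algebraMap (PS d F) R (X i)) (t + 1) ?_ ?_
      · rw [hmR]; exact hm'
      · intro i; rw [hmR]; exact hxm i
    · exact le_ringKrullDim_of_LBf (by exact_mod_cast hρ) hLB
  have hdimS : ringKrullDim S = d := by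
    apply le_antisymm
    · refine ringKrullDim_le_of_minred (fun i => algebraMap (PS d F) S (X i)) c ?_ ?_
      · rw [hmS]; exact hn
      · intro i; rw [hmS]; exact hxn i
    · rw [← hdimR, ← IsLocalRing.maximalIdeal_height_eq_ringKrullDim,
        ← IsLocalRing.maximalIdeal_height_eq_ringKrullDim]
      have hcomap : (maximalIdeal S).comap (algebraMap R S) = maximalIdeal R :=
        ((local_hom_TFAE (algebraMap R S)).out 0 4).1 hlh
      have hlo : (maximalIdeal S).LiesOver (maximalIdeal R) := ⟨hcomap.symm⟩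
      have := Ideal.height_eq_height_add_of_liesOver_of_hasGoingDown (maximalIdeal R)
        (maximalIdeal S)
      rw [this]
      exact WithBot.coe_le_coe.2 le_self_add
  obtain ⟨e, heR, heS⟩ := hp R S hdimR hdimS
  have h1 : (ρ : ℝ) ≤ e := hLB.le_of_UBf heR
  -- upper bound for S
  set Q : Ideal S := Ideal.span (Set.range fun i => y i ^ q) with hQ
  have hlen : Module.length S (S ⧸ Q) ≤ L :=
    length_le_of_span σ Q (mem_span_add g hg σ Q c' hc' hcert)
  have hQy : Q ≤ Ideal.span (Set.range y) := by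
    rw [hQ, Ideal.span_le]
    rintro _ ⟨i, rfl⟩
    exact Ideal.pow_mem_of_mem _ (Ideal.subset_span (Set.mem_range_self i)) q hq
  have hny : maximalIdeal S ^ (c * c') ≤ Ideal.span (Set.range y) := by
    rw [hmS, pow_mul]
    refine le_trans (Ideal.pow_right_mono hn c') ?_
    rw [← map_XI_eq (F := F) (d := d), maximalIdeal_eq_XI, ← Ideal.map_pow]
    exact hc'.trans hQy
  have hub := UB_quot_pow y (fun i => by rw [hmS]; exact hy i) hny hq
  have h2 := heS.le_of_UBf hub
  refine h1.trans (h2.trans ?_)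
  have h3 : ((Module.length S (S ⧸ Q)).toNat : ℝ) ≤ L := by
    have : (Module.length S (S ⧸ Q)).toNat ≤ L := by
      have := ENat.toNat_le_toNat hlen (ENat.natCast_ne_top L)
      simpa using this
    exact_mod_cast this
  gcongr

end Crest.Agent.R183.Z
end

-- ▼ part R183/Z8
section

set_option autoImplicit false

/-! # R183 block [8b]: from the certificates over `A` to the positive characteristic side -/

namespace Crest.Agent.R183.Z

open IsLocalRing MvPowerSeries Crest.Agent.R183.M Crest.Agent.R183.HS Filter TensorProduct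
open scoped Nat Topology

variable {F : Type} [Field F] {d : ℕ}

theorem xmon_eq (α : Fin d →₀ ℕ) : xmon F α = ∏ i, (X i : PS d F) ^ α i := by
  rw [xmon, MvPowerSeries.monomial_one_eq, Finsupp.prod_fintype]
  intro i
  exact pow_zero _

theorem Sstep {p : ℕ} [CharP F p] (hp : MAINp p d) {RA SA RF : Type} [CommRing RA] [CommRing SA]
    [CommRing RF] [Algebra RA SA] [Algebra RA RF] [Algebra (PS d F) RF]
    {κ J : Type} [Fintype κ] [Fintype J] [Nonempty J] (v0 : κ → RA)
    (hv : Submodule.span (PS d F) (Set.range fun k => algebraMap RA RF (v0 k)) = ⊤)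
    (a : κ → F) (m : Ideal RF)
    (hvm : ∀ k, algebraMap RA RF (v0 k) - algebraMap (PS d F) RF (C (a k)) ∈ m)
    (hxm : ∀ i, algebraMap (PS d F) RF (X i) ∈ m) (t : ℕ)
    (hm : m ^ (t + 1) ≤ Ideal.span (Set.range fun i => algebraMap (PS d F) RF (X i)) * m ^ t)
    {ρ : ℕ} (hρ : 0 < ρ) (ph : RF →ₗ[PS d F] (Fin ρ → PS d F)) (D : PS d F) (hD : D ≠ 0)
    (hph : ∀ i, ∃ r, ph r = Pi.single i D)
    (x0 : Fin d → RA) (hx0 : ∀ i, algebraMap RA RF (x0 i) = algebraMap (PS d F) RF (X i))
    (b : Module.Basis J RA SA) (a' : κ → J → RA)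
    (ha' : ∀ k j, ∃ z : F, algebraMap RA RF (a' k j) = algebraMap (PS d F) RF (C z))
    (n : Ideal SA) (hgn : ∀ k j, v0 k • b j - algebraMap RA SA (a' k j) ∈ n)
    (hxn : ∀ i, algebraMap RA SA (x0 i) ∈ n) (c : ℕ)
    (hn : n ^ c ≤ Ideal.span (Set.range fun i => algebraMap RA SA (x0 i)))
    (y : Fin d → SA) (hy : ∀ i, y i ∈ n) (q : ℕ) (hq : 0 < q) (c' : ℕ)
    (hc' : (Ideal.span (Set.range fun i => algebraMap RA SA (x0 i))) ^ c' ≤
      Ideal.span (Set.range fun i => y i ^ q))
    {L : ℕ} (σ : Fin L → SA)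
    (hcert : ∀ α ∈ expo d c', ∀ k j, ∃ e : Fin L → RA,
      (∀ l, ∃ z : F, algebraMap RA RF (e l) = algebraMap (PS d F) RF (C z)) ∧
      algebraMap RA SA (∏ i, x0 i ^ α i) * (v0 k • b j) - ∑ l, e l • σ l ∈
        Ideal.span (Set.range fun i => y i ^ q)) :
    (ρ : ℝ) ≤ (L : ℝ) / (q : ℝ) ^ d := by
  classical
  have hnR : Nontrivial RF := by
    obtain ⟨r, hr⟩ := hph ⟨0, hρ⟩
    refine ⟨⟨r, 0, ?_⟩⟩
    rintro rfl
    rw [map_zero] at hr
    have := congrFun hr ⟨0, hρ⟩
    simp at this
    exact hD this.symm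
  let bF : Module.Basis J RF (RF ⊗[RA] SA) := b.baseChange RF
  have hbF : ∀ j, bF j = 1 ⊗ₜ b j := fun j => Module.Basis.baseChange_apply RF b j
  have hfree : Module.Free RF (RF ⊗[RA] SA) := Module.Free.of_basis bF
  have hfin : Module.Finite RF (RF ⊗[RA] SA) := Module.Finite.of_basis bF
  have hnt : Nontrivial (RF ⊗[RA] SA) := by
    obtain ⟨j⟩ := ‹Nonempty J›
    exact ⟨⟨bF j, 0, bF.ne_zero j⟩⟩
  have htow : IsScalarTower (PS d F) RF (RF ⊗[RA] SA) := inferInstance
  have hmapP : ∀ z : PS d F, algebraMap (PS d F) (RF ⊗[RA] SA) z =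
      algebraMap RF (RF ⊗[RA] SA) (algebraMap (PS d F) RF z) := fun z => rfl
  let jS : SA →+* RF ⊗[RA] SA := (Algebra.TensorProduct.includeRight : SA →ₐ[RA] RF ⊗[RA] SA)
  have hjS : ∀ s, jS s = 1 ⊗ₜ s := fun s => rfl
  have hkey : ∀ r : RA, jS (algebraMap RA SA r) =
      algebraMap RF (RF ⊗[RA] SA) (algebraMap RA RF r) := by
    intro r
    have h1 : jS (algebraMap RA SA r) = algebraMap RA (RF ⊗[RA] SA) r :=
      (Algebra.TensorProduct.includeRight : SA →ₐ[RA] RF ⊗[RA] SA).commutes r
    rw [h1]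
    exact IsScalarTower.algebraMap_apply RA RF (RF ⊗[RA] SA) r
  have hkx : ∀ i, jS (algebraMap RA SA (x0 i)) = algebraMap (PS d F) (RF ⊗[RA] SA) (X i) := by
    intro i
    rw [hkey, hx0, hmapP]
  choose z hz using ha'
  refine Fside hp (fun k => algebraMap RA RF (v0 k)) hv a m hvm hxm t hm hρ ph D hD hph
    (fun kj : κ × J => jS (v0 kj.1 • b kj.2)) ?_ (fun kj => z kj.1 kj.2) (n.map jS) ?_ ?_ c ?_
    (fun i => jS (y i)) ?_ q hq c' ?_ (fun l => jS (σ l)) ?_
  · -- generation
    rw [eq_top_iff]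
    rintro s -
    rw [← bF.sum_repr s]
    refine Submodule.sum_mem _ fun j _ => ?_
    have h1 : (bF.repr s j) ∈ Submodule.span (PS d F) (Set.range fun k => algebraMap RA RF (v0 k)) := by
      rw [hv]; trivial
    rw [Submodule.mem_span_range_iff_exists_fun] at h1
    obtain ⟨e, he⟩ := h1
    rw [← he, Finset.sum_smul]
    refine Submodule.sum_mem _ fun k _ => ?_
    have h2 : (e k • algebraMap RA RF (v0 k)) • bF j = e k • jS (v0 k • b j) := by
      rw [Algebra.smul_def (v0 k) (b j), map_mul, hkey, hjS, hbF]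
      rw [smul_assoc, Algebra.smul_def (algebraMap RA RF (v0 k))]
    rw [h2]
    exact Submodule.smul_mem _ _ (Submodule.subset_span ⟨(k, j), rfl⟩)
  · -- constants
    rintro ⟨k, j⟩
    have := Ideal.mem_map_of_mem jS (hgn k j)
    rw [map_sub, hkey, hz] at this
    exact this
  · intro i
    have := Ideal.mem_map_of_mem jS (hxn i)
    rwa [hkx] at this
  · have := Ideal.map_mono (f := jS) hn
    rw [Ideal.map_pow, Ideal.map_span, ← Set.range_comp] at this
    refine this.trans (le_of_eq ?_)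
    congr 2
    funext i
    exact hkx i
  · intro i
    exact Ideal.mem_map_of_mem jS (hy i)
  · have := Ideal.map_mono (f := jS) hc'
    rw [Ideal.map_pow, Ideal.map_span, Ideal.map_span, ← Set.range_comp, ← Set.range_comp] at this
    rw [Ideal.map_pow, ← maximalIdeal_eq_XI, map_XI_eq]
    have e1 : (jS ∘ fun i => algebraMap RA SA (x0 i)) =
        fun i => algebraMap (PS d F) (RF ⊗[RA] SA) (X i) := funext hkx
    have e2 : (jS ∘ fun i => y i ^ q) = fun i => jS (y i) ^ q := funext fun i => map_pow jS _ _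
    rw [e1, e2] at this
    exact this
  · rintro α hα ⟨k, j⟩
    obtain ⟨e, he, he'⟩ := hcert α hα k j
    choose w hw using he
    refine ⟨Finsupp.equivFunOnFinite.symm w, ?_⟩
    have h1 := Ideal.mem_map_of_mem jS he'
    rw [Ideal.map_span, ← Set.range_comp] at h1
    have e2 : (jS ∘ fun i => y i ^ q) = fun i => jS (y i) ^ q := funext fun i => map_pow jS _ _
    rw [e2, map_sub, map_mul, hkey, map_sum, map_prod, map_prod] at h1
    rw [Finsupp.sum_fintype _ _ (by simp)]
    convert h1 using 2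
    · congr 1
      rw [xmon_eq, map_prod]
      refine Finset.prod_congr rfl fun i _ => ?_
      rw [map_pow, map_pow, map_pow, hx0, hmapP]
    · refine Finset.sum_congr rfl fun l _ => ?_
      rw [Algebra.smul_def, map_mul, hkey, hw, hmapP]
      rfl

end Crest.Agent.R183.Z
end

-- ▼ part R183/Z9
section

set_option autoImplicit false

/-! # R183 block [8b]: from the certificates over `A` to the positive characteristic side, II -/

namespace Crest.Agent.R183.Z

open IsLocalRing MvPowerSeries Crest.Agent.R183.M Crest.Agent.R183.HS Filter TensorProduct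
open scoped Nat Topology

variable {F : Type} [Field F] {d : ℕ}

theorem Astep {p : ℕ} [CharP F p] (hp : MAINp p d) {A RA SA : Type} [CommRing A] [CommRing RA]
    [CommRing SA] [Algebra A (PS d F)] [Algebra A RA] [Algebra RA SA]
    {κ J : Type} [Fintype κ] [Fintype J] [Nonempty J]
    (x : Fin d → A) (hx : ∀ i, algebraMap A (PS d F) (x i) = X i)
    (v0 : κ → RA) (hv : Submodule.span A (Set.range v0) = ⊤)
    (a : κ → A) (ha : ∀ k, ∃ z : F, algebraMap A (PS d F) (a k) = C z) (m : Ideal RA)
    (hvm : ∀ k, v0 k - algebraMap A RA (a k) ∈ m)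
    (hxm : ∀ i, algebraMap A RA (x i) ∈ m) (t : ℕ)
    (hm : m ^ (t + 1) ≤ Ideal.span (Set.range fun i => algebraMap A RA (x i)) * m ^ t)
    {ρ : ℕ} (hρ : 0 < ρ) (lam : RA →ₗ[A] (Fin ρ → A)) (D : A) (hD : algebraMap A (PS d F) D ≠ 0)
    (hlam : ∀ i, ∃ r, lam r = Pi.single i D)
    (b : Module.Basis J RA SA) (a' : κ → J → A)
    (ha' : ∀ k j, ∃ z : F, algebraMap A (PS d F) (a' k j) = C z)
    (n : Ideal SA) (hgn : ∀ k j, v0 k • b j - algebraMap RA SA (algebraMap A RA (a' k j)) ∈ n)
    (hxn : ∀ i, algebraMap RA SA (algebraMap A RA (x i)) ∈ n) (c : ℕ)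
    (hn : n ^ c ≤ Ideal.span (Set.range fun i => algebraMap RA SA (algebraMap A RA (x i))))
    (y : Fin d → SA) (hy : ∀ i, y i ∈ n) (q : ℕ) (hq : 0 < q) (c' : ℕ)
    (hc' : (Ideal.span (Set.range fun i => algebraMap RA SA (algebraMap A RA (x i)))) ^ c' ≤
      Ideal.span (Set.range fun i => y i ^ q))
    {L : ℕ} (σ : Fin L → SA)
    (hcert : ∀ α ∈ expo d c', ∀ k j, ∃ e : Fin L → A,
      (∀ l, ∃ z : F, algebraMap A (PS d F) (e l) = C z) ∧
      algebraMap RA SA (algebraMap A RA (∏ i, x i ^ α i)) * (v0 k • b j) -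
        ∑ l, algebraMap A RA (e l) • σ l ∈ Ideal.span (Set.range fun i => y i ^ q)) :
    (ρ : ℝ) ≤ (L : ℝ) / (q : ℝ) ^ d := by
  classical
  let _ : Algebra RA (PS d F ⊗[A] RA) := Algebra.TensorProduct.rightAlgebra
  have hright : ∀ r : RA, algebraMap RA (PS d F ⊗[A] RA) r = 1 ⊗ₜ r := fun r => rfl
  have hkey : ∀ r : A, algebraMap RA (PS d F ⊗[A] RA) (algebraMap A RA r) =
      algebraMap (PS d F) (PS d F ⊗[A] RA) (algebraMap A (PS d F) r) := by
    intro r
    have h1 : algebraMap RA (PS d F ⊗[A] RA) (algebraMap A RA r) =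
        algebraMap A (PS d F ⊗[A] RA) r :=
      (Algebra.TensorProduct.includeRight : RA →ₐ[A] PS d F ⊗[A] RA).commutes r
    rw [h1]
    exact IsScalarTower.algebraMap_apply A (PS d F) (PS d F ⊗[A] RA) r
  choose z hz using ha
  choose z' hz' using ha'
  -- the linear map
  let l1 : RA →ₗ[A] (Fin ρ → PS d F) :=
    LinearMap.pi fun i => (Algebra.linearMap A (PS d F)).comp ((LinearMap.proj i).comp lam)
  have hl1 : ∀ r i, l1 r i = algebraMap A (PS d F) (lam r i) := fun r i => rfl
  let ph : (PS d F ⊗[A] RA) →ₗ[PS d F] (Fin ρ → PS d F) := LinearMap.liftBaseChange (PS d F) l1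
  refine Sstep hp v0 ?_ z (m.map (algebraMap RA (PS d F ⊗[A] RA))) ?_ ?_ t ?_ hρ ph
    (algebraMap A (PS d F) D) hD ?_ (fun i => algebraMap A RA (x i)) ?_ b
    (fun k j => algebraMap A RA (a' k j)) ?_ n hgn hxn c hn y hy q hq c' hc' σ ?_
  · -- generation
    rw [eq_top_iff]
    rintro s -
    induction s using TensorProduct.induction_on with
    | zero => exact Submodule.zero_mem _
    | add s1 s2 h1 h2 => exact Submodule.add_mem _ h1 h2
    | tmul f r =>
      have h1 : r ∈ Submodule.span A (Set.range v0) := by rw [hv]; trivial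
      rw [Submodule.mem_span_range_iff_exists_fun] at h1
      obtain ⟨e, rfl⟩ := h1
      rw [TensorProduct.tmul_sum]
      refine Submodule.sum_mem _ fun k _ => ?_
      have h2 : f ⊗ₜ[A] (e k • v0 k) = (f * algebraMap A (PS d F) (e k)) •
          algebraMap RA (PS d F ⊗[A] RA) (v0 k) := by
        rw [hright, TensorProduct.smul_tmul', TensorProduct.tmul_smul, TensorProduct.smul_tmul']
        congr 1
        rw [Algebra.smul_def, smul_eq_mul, mul_one, mul_comm]
      rw [h2]
      exact Submodule.smul_mem _ _ (Submodule.subset_span ⟨k, rfl⟩)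
  · intro k
    have := Ideal.mem_map_of_mem (algebraMap RA (PS d F ⊗[A] RA)) (hvm k)
    rwa [map_sub, hkey, hz] at this
  · intro i
    have := Ideal.mem_map_of_mem (algebraMap RA (PS d F ⊗[A] RA)) (hxm i)
    rwa [hkey, hx] at this
  · have := Ideal.map_mono (f := algebraMap RA (PS d F ⊗[A] RA)) hm
    rw [Ideal.map_pow, Ideal.map_mul, Ideal.map_span, ← Set.range_comp, Ideal.map_pow] at this
    have e1 : (algebraMap RA (PS d F ⊗[A] RA) ∘ fun i => algebraMap A RA (x i)) =
        fun i => algebraMap (PS d F) (PS d F ⊗[A] RA) (X i) := by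
      funext i
      change algebraMap RA (PS d F ⊗[A] RA) (algebraMap A RA (x i)) = _
      rw [hkey, hx]
    rwa [e1] at this
  · intro i
    obtain ⟨r, hr⟩ := hlam i
    refine ⟨1 ⊗ₜ r, ?_⟩
    rw [LinearMap.liftBaseChange_tmul, one_smul]
    funext j
    rw [hl1, hr]
    by_cases hij : j = i
    · subst hij
      simp
    · simp [Pi.single_eq_of_ne hij]
  · intro i
    rw [hkey, hx]
  · intro k j
    exact ⟨z' k j, by rw [hkey, hz']⟩
  · intro α hα k j
    obtain ⟨e, he, he'⟩ := hcert α hα k j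
    refine ⟨fun l => algebraMap A RA (e l), fun l => ?_, ?_⟩
    · obtain ⟨w, hw⟩ := he l
      exact ⟨w, by rw [hkey, hw]⟩
    · rw [map_prod] at he'
      simp only [map_pow] at he'
      exact he'

end Crest.Agent.R183.Z
end

-- ▼ part R183/Z10
section

set_option autoImplicit false

/-! # R183 block [8b]: descent of finitely many identities -/

namespace Crest.Agent.R183.Z

open IsLocalRing MvPowerSeries
open scoped Pointwise

/-- descent of ideal membership -/
theorem desc {R : Type} [CommRing R] {τ υ : Type} [Fintype τ] [Fintype υ] (P : τ → R) (Q : υ → R)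
    (h : ∀ i, P i ∈ Ideal.span (Set.range Q)) :
    ∃ E : Finset R, ∀ (R' : Type) [CommRing R'] (f : R' →+* R), Function.Injective f →
      (∀ e ∈ E, ∃ e', f e' = e) → ∀ (P' : τ → R') (Q' : υ → R'), (∀ i, f (P' i) = P i) →
      (∀ i, f (Q' i) = Q i) → ∀ i, P' i ∈ Ideal.span (Set.range Q') := by
  classical
  simp only [Ideal.mem_span_range_iff_exists_fun] at h
  choose c hc using h
  refine ⟨Finset.univ.image fun tu : τ × υ => c tu.1 tu.2, ?_⟩
  intro R' _ f hf hE P' Q' hP' hQ' i
  have h1 : ∀ t u, ∃ e', f e' = c t u := fun t u =>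
    hE _ (Finset.mem_image_of_mem (fun tu : τ × υ => c tu.1 tu.2) (Finset.mem_univ (t, u)))
  choose c' hc' using h1
  rw [Ideal.mem_span_range_iff_exists_fun]
  refine ⟨c' i, hf ?_⟩
  rw [map_sum, hP', ← hc i]
  refine Finset.sum_congr rfl fun u _ => ?_
  rw [map_mul, hc', hQ']

/-- powers of a finitely generated ideal -/
theorem span_pow_range {R ι : Type*} [CommRing R] (G : ι → R) (k : ℕ) :
    Ideal.span (Set.range G) ^ k = Ideal.span (Set.range fun s : Fin k → ι => ∏ j, G (s j)) := by
  induction k with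
  | zero =>
    rw [pow_zero, Ideal.one_eq_top, eq_comm, Ideal.eq_top_iff_one]
    refine Ideal.subset_span ⟨Fin.elim0, ?_⟩
    simp
  | succ k ih =>
    rw [pow_succ, ih, Ideal.span_mul_span']
    congr 1
    ext z
    rw [Set.mem_mul]
    constructor
    · rintro ⟨_, ⟨s, rfl⟩, _, ⟨i, rfl⟩, rfl⟩
      refine ⟨Fin.snoc s i, ?_⟩
      simp only
      rw [Fin.prod_univ_castSucc]
      simp
    · rintro ⟨s, rfl⟩
      refine ⟨_, ⟨fun j => s j.castSucc, rfl⟩, _, ⟨s (Fin.last k), rfl⟩, ?_⟩
      simp only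
      rw [Fin.prod_univ_castSucc]

theorem span_mul_range {R ι ι' : Type*} [CommRing R] (G : ι → R) (G' : ι' → R) :
    Ideal.span (Set.range G) * Ideal.span (Set.range G') =
      Ideal.span (Set.range fun s : ι × ι' => G s.1 * G' s.2) := by
  rw [Ideal.span_mul_span']
  congr 1
  ext z
  rw [Set.mem_mul]
  constructor
  · rintro ⟨_, ⟨s, rfl⟩, _, ⟨i, rfl⟩, rfl⟩
    exact ⟨(s, i), rfl⟩
  · rintro ⟨s, rfl⟩
    exact ⟨_, ⟨s.1, rfl⟩, _, ⟨s.2, rfl⟩, rfl⟩

/-- **The transfer property** (Artin approximation + specialisation), block [8a]. -/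
def Transfer (d : ℕ) (K : Type) [Field K] : Prop :=
  ∀ T : Finset (MvPowerSeries (Fin d) K), ∃ (p : ℕ) (F : Type) (_ : Field F) (_ : CharP F p)
    (A : Subring (MvPowerSeries (Fin d) K)) (ψ : A →+* MvPowerSeries (Fin d) F),
    p.Prime ∧ (∀ b ∈ T, b ∈ A) ∧ (∀ i, ∃ h : X i ∈ A, ψ ⟨X i, h⟩ = X i) ∧
    ∀ b : K, C b ∈ T → ∃ h : C b ∈ A, ∃ b' : F, ψ ⟨C b, h⟩ = C b'

/-- transfer of coefficients -/
theorem coeff_transfer {d : ℕ} {K : Type} [Field K] (f : MvPowerSeries (Fin d) K)
    (α : Fin d →₀ ℕ) :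
    ∃ T : Finset (MvPowerSeries (Fin d) K), C (coeff α f) ∈ T ∧
      ∀ (F : Type) [Field F]
      (A : Subring (MvPowerSeries (Fin d) K)) (ψ : A →+* MvPowerSeries (Fin d) F),
      (∀ b ∈ T, b ∈ A) → (∀ i, ∃ h : X i ∈ A, ψ ⟨X i, h⟩ = X i) →
      (∀ b : K, C b ∈ T → ∃ h : C b ∈ A, ∃ b' : F, ψ ⟨C b, h⟩ = C b') →
      ∀ (hf : f ∈ A) (h : C (coeff α f) ∈ A),
        C (coeff α (ψ ⟨f, hf⟩)) = ψ ⟨C (coeff α f), h⟩ := by
  classical
  set N := α.degree + 1 with hN
  -- truncation
  have h1 : ∀ u : Unit, (fun _ : Unit => f - ∑ β ∈ expo d N, coeff β f • xmon K β) u ∈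
      Ideal.span (Set.range fun s : Fin N → Fin d => ∏ j, (X (s j) : MvPowerSeries (Fin d) K)) := by
    intro _
    rw [← span_pow_range]
    exact sub_trunc_mem f N
  obtain ⟨E, hE⟩ := desc _ _ h1
  refine ⟨insert (C (coeff α f)) (E ∪ (expo d N).image fun β => C (coeff β f)),
    Finset.mem_insert_self _ _, ?_⟩
  intro F _ A ψ hT hX hC hf h
  have hCin : ∀ β ∈ expo d N, C (coeff β f) ∈ A := by
    intro β hβ
    exact hT _ (Finset.mem_insert_of_mem (Finset.mem_union_right _ (Finset.mem_image_of_mem _ hβ)))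
  have hC' : ∀ β ∈ expo d N, ∃ b' : F, ∀ h : C (coeff β f) ∈ A, ψ ⟨C (coeff β f), h⟩ = C b' := by
    intro β hβ
    obtain ⟨h, b', hb'⟩ := hC (coeff β f)
      (Finset.mem_insert_of_mem (Finset.mem_union_right _ (Finset.mem_image_of_mem _ hβ)))
    exact ⟨b', fun _ => hb'⟩
  choose! b' hb' using hC'
  choose hXA hXψ using hX
  -- the element of `A`
  have hmem := hE A A.subtype Subtype.val_injective
    (fun e he => ⟨⟨e, hT e (Finset.mem_insert_of_mem (Finset.mem_union_left _ he))⟩, rfl⟩)
    (fun _ => ⟨f, hf⟩ - ∑ β ∈ (expo d N).attach, (⟨C (coeff β.1 f), hCin β.1 β.2⟩ : A) *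
      ∏ i, (⟨X i, hXA i⟩ : A) ^ (β.1 i))
    (fun s => ∏ j, (⟨X (s j), hXA (s j)⟩ : A)) ?_ ?_ ()
  · have h2 := Ideal.mem_map_of_mem ψ hmem
    rw [Ideal.map_span, ← Set.range_comp] at h2
    have e1 : (ψ ∘ fun s : Fin N → Fin d => ∏ j, (⟨X (s j), hXA (s j)⟩ : A)) =
        fun s : Fin N → Fin d => ∏ j, (X (s j) : MvPowerSeries (Fin d) F) := by
      funext s
      simp only [Function.comp_apply, map_prod, hXψ]
    rw [e1, ← span_pow_range, map_sub, map_sum] at h2
    have h3 := (mem_XI_pow_iff.1 h2) α (by omega)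
    rw [map_sub, sub_eq_zero] at h3
    rw [h3, map_sum]
    have hα : α ∈ expo d N := mem_expo.2 (by omega)
    have e2 : ∀ β ∈ (expo d N).attach, coeff α (ψ ((⟨C (coeff β.1 f), hCin β.1 β.2⟩ : A) *
        ∏ i, (⟨X i, hXA i⟩ : A) ^ (β.1 i))) = if β.1 = α then b' α else 0 := by
      rintro ⟨β, hβ⟩ _
      rw [map_mul, map_prod, hb' β hβ]
      simp only [map_pow, hXψ]
      rw [← xmon_eq, MvPowerSeries.coeff_C_mul, xmon]
      split_ifs with h4
      · rw [h4, coeff_monomial_same, mul_one]
      · rw [coeff_monomial_ne (Ne.symm h4), mul_zero]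
    rw [Finset.sum_congr rfl e2, Finset.sum_eq_single ⟨α, hα⟩]
    · rw [if_pos rfl, hb' α hα]
    · rintro ⟨β, hβ⟩ _ hne
      rw [if_neg]
      intro h4
      exact hne (Subtype.ext h4)
    · intro h4
      exact absurd (Finset.mem_attach _ _) h4
  · intro _
    simp only [map_sub, map_sum, map_mul, map_prod, map_pow, Subring.subtype_apply]
    congr 1
    rw [← Finset.sum_attach (expo d N)]
    refine Finset.sum_congr rfl fun β _ => ?_
    rw [MvPowerSeries.smul_eq_C_mul, xmon_eq]
  · intro s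
    simp only [map_prod, Subring.subtype_apply]

/-- transfer of non-vanishing -/
theorem nonvanishing_transfer {d : ℕ} {K : Type} [Field K] (D : MvPowerSeries (Fin d) K)
    (hD : D ≠ 0) :
    ∃ T : Finset (MvPowerSeries (Fin d) K),
      ∀ (F : Type) [Field F]
      (A : Subring (MvPowerSeries (Fin d) K)) (ψ : A →+* MvPowerSeries (Fin d) F),
      (∀ b ∈ T, b ∈ A) → (∀ i, ∃ h : X i ∈ A, ψ ⟨X i, h⟩ = X i) →
      (∀ b : K, C b ∈ T → ∃ h : C b ∈ A, ∃ b' : F, ψ ⟨C b, h⟩ = C b') →
      ∀ (hf : D ∈ A), ψ ⟨D, hf⟩ ≠ 0 := by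
  classical
  obtain ⟨α, hα⟩ : ∃ α, coeff α D ≠ 0 := by
    by_contra h
    push Not at h
    exact hD (MvPowerSeries.ext h)
  obtain ⟨T, hT0, hT⟩ := coeff_transfer D α
  refine ⟨insert (C (coeff α D)⁻¹) T, ?_⟩
  intro F _ A ψ hA hX hC hf h0
  have h1 : C (coeff α D) ∈ A := hA _ (Finset.mem_insert_of_mem hT0)
  have h2 : C (coeff α D)⁻¹ ∈ A := hA _ (Finset.mem_insert_self _ _)
  have h3 := hT F A ψ (fun b hb => hA b (Finset.mem_insert_of_mem hb)) hX
    (fun b hb => hC b (Finset.mem_insert_of_mem hb)) hf h1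
  rw [h0, map_zero, map_zero] at h3
  have h4 : (⟨C (coeff α D), h1⟩ : A) * ⟨C (coeff α D)⁻¹, h2⟩ = 1 := by
    apply Subtype.ext
    change C (coeff α D) * C (coeff α D)⁻¹ = 1
    rw [← map_mul, mul_inv_cancel₀ hα, map_one]
  have h5 := congrArg ψ h4
  rw [map_mul, ← h3, zero_mul, map_one] at h5
  exact zero_ne_one h5

end Crest.Agent.R183.Z
end

-- ▼ part R183/Z11
section

set_option autoImplicit false

/-! # R183 block [8b]: subalgebras generated by finite families -/

namespace Crest.Agent.R183.Z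

theorem exists_subalgebra {A R κ : Type*} [CommRing A] [CommRing R] [Algebra A R] (v : κ → R)
    (h1 : (1 : R) ∈ Submodule.span A (Set.range v))
    (hmul : ∀ i j, v i * v j ∈ Submodule.span A (Set.range v)) :
    ∃ RA : Subalgebra A R, Subalgebra.toSubmodule RA = Submodule.span A (Set.range v) := by
  refine ⟨(Submodule.span A (Set.range v)).toSubalgebra h1 ?_, ?_⟩
  · intro x y hx hy
    have h2 : Submodule.span A (Set.range v) * Submodule.span A (Set.range v) ≤
        Submodule.span A (Set.range v) := by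
      rw [Submodule.span_mul_span, Submodule.span_le]
      rintro _ ⟨_, ⟨i, rfl⟩, _, ⟨j, rfl⟩, rfl⟩
      exact hmul i j
    exact h2 (Submodule.mul_mem_mul hx hy)
  · exact Submodule.toSubalgebra_toSubmodule _ _ _

theorem mem_span_of_coord {B R κ : Type*} [CommRing B] [CommRing R] [Algebra B R] [Fintype κ]
    (A : Subring B) (v : κ → R) (c : κ → B) (hc : ∀ k, c k ∈ A) (r : R) (hr : ∑ k, c k • v k = r) :
    r ∈ Submodule.span A (Set.range v) := by
  rw [← hr]
  refine Submodule.sum_mem _ fun k _ => ?_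
  have : c k • v k = (⟨c k, hc k⟩ : A) • v k := rfl
  rw [this]
  exact Submodule.smul_mem _ _ (Submodule.subset_span (Set.mem_range_self k))

theorem mem_span_of_coord' {A R S J : Type*} [CommRing A] [CommRing R] [CommRing S] [Algebra A R]
    [Algebra R S] [Fintype J] (RA : Subalgebra A R) (b : J → S) (c : J → R) (hc : ∀ k, c k ∈ RA)
    (s : S) (hs : ∑ k, c k • b k = s) :
    s ∈ Submodule.span RA (Set.range b) := by
  rw [← hs]
  refine Submodule.sum_mem _ fun k _ => ?_
  have : c k • b k = (⟨c k, hc k⟩ : RA) • b k := rfl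
  rw [this]
  exact Submodule.smul_mem _ _ (Submodule.subset_span (Set.mem_range_self k))

theorem exists_basis {A R S J : Type*} [CommRing A] [CommRing R] [CommRing S] [Algebra A R]
    [Algebra R S] [Fintype J] (RA : Subalgebra A R) (b : Module.Basis J R S) (SA : Subalgebra RA S)
    (hSA : Subalgebra.toSubmodule SA = Submodule.span RA (Set.range b)) :
    ∃ bA : Module.Basis J RA SA, ∀ j, (bA j : S) = b j := by
  have hmem : ∀ j, b j ∈ SA := by
    intro j
    rw [← Subalgebra.mem_toSubmodule, hSA]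
    exact Submodule.subset_span (Set.mem_range_self j)
  let v : J → SA := fun j => ⟨b j, hmem j⟩
  have hli : LinearIndependent RA v := by
    rw [Fintype.linearIndependent_iff]
    intro g hg j
    have h1 := congrArg (Subtype.val : SA → S) hg
    have h2 : ∑ i, (g i : R) • b i = 0 := by
      have h3 : ((∑ i, g i • v i : SA) : S) = ∑ i, (g i : R) • b i := by
        rw [AddSubmonoidClass.coe_finsetSum]
        rfl
      rw [← h3, h1]
      rfl
    have h4 := (Fintype.linearIndependent_iff.1 b.linearIndependent) (fun i => (g i : R)) h2 j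
    exact Subtype.ext h4
  have hsp : ⊤ ≤ Submodule.span RA (Set.range v) := by
    rintro ⟨s, hs⟩ -
    rw [← Subalgebra.mem_toSubmodule, hSA, Submodule.mem_span_range_iff_exists_fun] at hs
    obtain ⟨c, hc⟩ := hs
    rw [Submodule.mem_span_range_iff_exists_fun]
    refine ⟨c, Subtype.ext ?_⟩
    rw [AddSubmonoidClass.coe_finsetSum]
    exact hc
  refine ⟨Module.Basis.mk hli hsp, fun j => ?_⟩
  rw [Module.Basis.mk_apply]

end Crest.Agent.R183.Z
end

-- ▼ part R183/Z12
section

set_option autoImplicit false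

/-! # R183 block [8b]: from characteristic zero to positive characteristic -/

namespace Crest.Agent.R183.Z

open IsLocalRing MvPowerSeries Crest.Agent.R183.M Crest.Agent.R183.HS Filter
open scoped Nat Topology

variable {K : Type} [Field K] {d : ℕ}

/-- generators of the maximal ideal of `R` -/
noncomputable def genR (d : ℕ) {R : Type} [CommRing R] [Algebra (PS d K) R] {κ : Type} (v : κ → R)
    (a : κ → K) : κ ⊕ Fin d → R :=
  Sum.elim (fun k => v k - algebraMap (PS d K) R (C (a k))) (fun i => algebraMap (PS d K) R (X i))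

/-- generators of the maximal ideal of `S` -/
noncomputable def genS (d : ℕ) {R S : Type} [CommRing R] [Algebra (PS d K) R] [CommRing S] [Algebra R S]
    {κ J : Type} (v : κ → R) (b : J → S) (a' : κ → J → K) : (κ × J) ⊕ Fin d → S :=
  Sum.elim (fun k => v k.1 • b k.2 - algebraMap R S (algebraMap (PS d K) R (C (a' k.1 k.2))))
    (fun i => algebraMap R S (algebraMap (PS d K) R (X i)))

set_option maxHeartbeats 1000000 in
theorem Kstep (htr : Transfer d K) (hp : ∀ p, p.Prime → MAINp p d)
    {R S : Type} [CommRing R] [CommRing S] [Algebra (PS d K) R] [Algebra R S]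
    {κ J : Type} [Fintype κ] [Fintype J] [Nonempty J] (v : κ → R)
    (hv : Submodule.span (PS d K) (Set.range v) = ⊤) (b : Module.Basis J R S)
    (a : κ → K) (t : ℕ)
    (hm : Ideal.span (Set.range (genR d v a)) ^ (t + 1) ≤
      Ideal.span (Set.range fun i => algebraMap (PS d K) R (X i)) *
        Ideal.span (Set.range (genR d v a)) ^ t)
    {ρ : ℕ} (hρ : 0 < ρ) (lam : R →ₗ[PS d K] (Fin ρ → PS d K)) (D : PS d K) (hD : D ≠ 0)
    (u : Fin ρ → R) (hu : ∀ i, lam (u i) = Pi.single i D)
    (a' : κ → J → K) (c : ℕ)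
    (hn : Ideal.span (Set.range (genS d v b a')) ^ c ≤
      Ideal.span (Set.range fun i => algebraMap R S (algebraMap (PS d K) R (X i))))
    (y : Fin d → S) (hy : ∀ i, y i ∈ Ideal.span (Set.range (genS d v b a')))
    (q : ℕ) (hq : 0 < q) (c' : ℕ)
    (hc' : Ideal.span (Set.range fun i => algebraMap R S (algebraMap (PS d K) R (X i))) ^ c' ≤
      Ideal.span (Set.range fun i => y i ^ q))
    {L : ℕ} (σ : Fin L → S) (e : (Fin d →₀ ℕ) → κ → J → Fin L → K)
    (hcert : ∀ α ∈ expo d c', ∀ k j,
      algebraMap R S (algebraMap (PS d K) R (∏ i, X i ^ α i)) * (v k • b j) -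
        ∑ l, algebraMap (PS d K) R (C (e α k j l)) • σ l ∈ Ideal.span (Set.range fun i => y i ^ q)) :
    (ρ : ℝ) ≤ (L : ℝ) / (q : ℝ) ^ d := by
  classical
  -- coordinates
  have hcoord : ∀ r : R, ∃ z : κ → PS d K, ∑ k, z k • v k = r := by
    intro r
    have hr : r ∈ Submodule.span (PS d K) (Set.range v) := by rw [hv]; trivial
    rwa [Submodule.mem_span_range_iff_exists_fun] at hr
  choose cR hcR using hcoord
  -- certificates
  obtain ⟨E1, hE1⟩ := desc (fun s : Fin (t + 1) → κ ⊕ Fin d => ∏ j, genR d v a (s j))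
    (fun s : Fin d × (Fin t → κ ⊕ Fin d) =>
      algebraMap (PS d K) R (X s.1) * ∏ j, genR d v a (s.2 j)) (by
      intro s
      rw [← span_mul_range (fun i => algebraMap (PS d K) R (X i))
        (fun s : Fin t → κ ⊕ Fin d => ∏ j, genR d v a (s j)), ← span_pow_range]
      apply hm
      rw [span_pow_range]
      exact Ideal.subset_span ⟨s, rfl⟩)
  obtain ⟨E2, hE2⟩ := desc (fun s : Fin c → (κ × J) ⊕ Fin d => ∏ j, genS d v b a' (s j))
    (fun i : Fin d => algebraMap R S (algebraMap (PS d K) R (X i))) (by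
      intro s
      apply hn
      rw [span_pow_range]
      exact Ideal.subset_span ⟨s, rfl⟩)
  obtain ⟨E3, hE3⟩ := desc y (genS d v b a') hy
  obtain ⟨E4, hE4⟩ := desc (fun s : Fin c' → Fin d => ∏ j, algebraMap R S
      (algebraMap (PS d K) R (X (s j)))) (fun i : Fin d => y i ^ q) (by
      intro s
      apply hc'
      rw [span_pow_range]
      exact Ideal.subset_span ⟨s, rfl⟩)
  obtain ⟨E5, hE5⟩ := desc (fun s : (expo d c') × κ × J =>
      algebraMap R S (algebraMap (PS d K) R (∏ i, X i ^ s.1.1 i)) * (v s.2.1 • b s.2.2) -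
        ∑ l, algebraMap (PS d K) R (C (e s.1.1 s.2.1 s.2.2 l)) • σ l)
      (fun i : Fin d => y i ^ q) (by
      intro s
      exact hcert s.1.1 s.1.2 s.2.1 s.2.2)
  -- the finite sets
  let ES : Finset S := E2 ∪ E3 ∪ E4 ∪ E5 ∪ Finset.univ.image y ∪ Finset.univ.image σ ∪ {1} ∪
    Finset.univ.image (fun jj : J × J => b jj.1 * b jj.2)
  let ER : Finset R := E1 ∪ (ES ×ˢ Finset.univ).image (fun sj : S × J => b.repr sj.1 sj.2) ∪ {1} ∪
    Finset.univ.image (fun kk : κ × κ => v kk.1 * v kk.2) ∪ Finset.univ.image u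
  obtain ⟨TD, hTD⟩ := nonvanishing_transfer D hD
  let T : Finset (PS d K) := (ER ×ˢ Finset.univ).image (fun rk : R × κ => cR rk.1 rk.2) ∪
    Finset.univ.image (fun ki : κ × Fin ρ => lam (v ki.1) ki.2) ∪ {D} ∪ TD ∪
    Finset.univ.image (fun k => C (a k)) ∪ Finset.univ.image (fun kj : κ × J => C (a' kj.1 kj.2)) ∪
    ((expo d c') ×ˢ (Finset.univ : Finset (κ × J × Fin L))).image
      (fun z => C (e z.1 z.2.1 z.2.2.1 z.2.2.2))
  obtain ⟨p, F, _, _, A, ψ, hpp, hTA, hX, hC⟩ := htr T
  -- membership in `A`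
  have hT1 : ∀ r ∈ ER, ∀ k, cR r k ∈ A := by
    intro r hr k
    apply hTA
    simp only [T, Finset.mem_union]
    exact Or.inl (Or.inl (Or.inl (Or.inl (Or.inl (Or.inl
      (Finset.mem_image.2 ⟨(r, k), Finset.mem_product.2 ⟨hr, Finset.mem_univ _⟩, rfl⟩))))))
  have hT2 : ∀ k i, lam (v k) i ∈ A := by
    intro k i
    apply hTA
    simp only [T, Finset.mem_union]
    exact Or.inl (Or.inl (Or.inl (Or.inl (Or.inl (Or.inr
      (Finset.mem_image.2 ⟨(k, i), Finset.mem_univ _, rfl⟩))))))
  have hDA : D ∈ A := by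
    apply hTA
    simp only [T, Finset.mem_union]
    exact Or.inl (Or.inl (Or.inl (Or.inl (Or.inr (Finset.mem_singleton_self D)))))
  have hTDT : ∀ b ∈ TD, b ∈ T := by
    intro b hb
    simp only [T, Finset.mem_union]
    exact Or.inl (Or.inl (Or.inl (Or.inr hb)))
  have ha0 : ∀ k, ∃ h : C (a k) ∈ A, ∃ b' : F, ψ ⟨C (a k), h⟩ = C b' := by
    intro k
    apply hC
    simp only [T, Finset.mem_union]
    exact Or.inl (Or.inl (Or.inr (Finset.mem_image.2 ⟨k, Finset.mem_univ _, rfl⟩)))
  have ha'0 : ∀ k j, ∃ h : C (a' k j) ∈ A, ∃ b' : F, ψ ⟨C (a' k j), h⟩ = C b' := by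
    intro k j
    apply hC
    simp only [T, Finset.mem_union]
    exact Or.inl (Or.inr (Finset.mem_image.2 ⟨(k, j), Finset.mem_univ _, rfl⟩))
  have he0 : ∀ α : expo d c', ∀ k j l, ∃ h : C (e α.1 k j l) ∈ A, ∃ b' : F,
      ψ ⟨C (e α.1 k j l), h⟩ = C b' := by
    intro α k j l
    apply hC
    simp only [T, Finset.mem_union]
    exact Or.inr (Finset.mem_image.2 ⟨(α.1, k, j, l),
      Finset.mem_product.2 ⟨α.2, Finset.mem_univ _⟩, rfl⟩)
  have hDψ : ψ ⟨D, hDA⟩ ≠ 0 :=
    hTD F A ψ (fun b hb => hTA b (hTDT b hb)) hX (fun b hb => hC b (hTDT _ hb)) hDA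
  choose hXA hXψ using hX
  choose haA haψ using ha0
  choose ha'A ha'ψ using ha'0
  choose heA heψ using he0
  -- the subalgebra `RA`
  have hER : ∀ r ∈ ER, r ∈ Submodule.span A (Set.range v) := fun r hr =>
    mem_span_of_coord A v (cR r) (hT1 r hr) r (hcR r)
  have h1ER : (1 : R) ∈ ER := by
    simp only [ER, Finset.mem_union]
    exact Or.inl (Or.inl (Or.inr (Finset.mem_singleton_self _)))
  have hvvER : ∀ i j, v i * v j ∈ ER := by
    intro i j
    simp only [ER, Finset.mem_union]
    exact Or.inl (Or.inr (Finset.mem_image.2 ⟨(i, j), Finset.mem_univ _, rfl⟩))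
  obtain ⟨RA, hRA⟩ := exists_subalgebra (A := A) v (hER 1 h1ER) (fun i j => hER _ (hvvER i j))
  have memRA : ∀ r ∈ ER, r ∈ RA := fun r hr => by
    rw [← Subalgebra.mem_toSubmodule, hRA]; exact hER r hr
  have hvRA : ∀ k, v k ∈ RA := fun k => by
    rw [← Subalgebra.mem_toSubmodule, hRA]
    exact Submodule.subset_span (Set.mem_range_self k)
  have hE1RA : ∀ r ∈ E1, ∃ r' : RA, (RA.val : RA →+* R) r' = r := by
    intro r hr
    refine ⟨⟨r, memRA r ?_⟩, rfl⟩
    simp only [ER, Finset.mem_union]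
    exact Or.inl (Or.inl (Or.inl (Or.inl hr)))
  have huRA : ∀ i, u i ∈ RA := by
    intro i
    apply memRA
    simp only [ER, Finset.mem_union]
    exact Or.inr (Finset.mem_image.2 ⟨i, Finset.mem_univ _, rfl⟩)
  -- the subalgebra `SA`
  have hreprRA : ∀ s ∈ ES, ∀ j, b.repr s j ∈ RA := by
    intro s hs j
    apply memRA
    simp only [ER, Finset.mem_union]
    exact Or.inl (Or.inl (Or.inl (Or.inr (Finset.mem_image.2
      ⟨(s, j), Finset.mem_product.2 ⟨hs, Finset.mem_univ _⟩, rfl⟩))))
  have hES : ∀ s ∈ ES, s ∈ Submodule.span RA (Set.range b) := fun s hs =>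
    mem_span_of_coord' RA b (b.repr s) (hreprRA s hs) s (b.sum_repr s)
  have h1ES : (1 : S) ∈ ES := by
    simp only [ES, Finset.mem_union]
    exact Or.inl (Or.inr (Finset.mem_singleton_self _))
  have hbbES : ∀ i j, b i * b j ∈ ES := by
    intro i j
    simp only [ES, Finset.mem_union]
    exact Or.inr (Finset.mem_image.2 ⟨(i, j), Finset.mem_univ _, rfl⟩)
  obtain ⟨SA, hSA⟩ := exists_subalgebra (A := RA) (fun j => b j) (hES 1 h1ES)
    (fun i j => hES _ (hbbES i j))
  have memSA : ∀ s ∈ ES, s ∈ SA := fun s hs => by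
    rw [← Subalgebra.mem_toSubmodule, hSA]; exact hES s hs
  have hE2SA : ∀ s ∈ E2, ∃ s' : SA, (SA.val : SA →+* S) s' = s := by
    intro s hs
    refine ⟨⟨s, memSA s ?_⟩, rfl⟩
    simp only [ES, Finset.mem_union]
    exact Or.inl (Or.inl (Or.inl (Or.inl (Or.inl (Or.inl (Or.inl hs))))))
  have hE3SA : ∀ s ∈ E3, ∃ s' : SA, (SA.val : SA →+* S) s' = s := by
    intro s hs
    refine ⟨⟨s, memSA s ?_⟩, rfl⟩
    simp only [ES, Finset.mem_union]
    exact Or.inl (Or.inl (Or.inl (Or.inl (Or.inl (Or.inl (Or.inr hs))))))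
  have hE4SA : ∀ s ∈ E4, ∃ s' : SA, (SA.val : SA →+* S) s' = s := by
    intro s hs
    refine ⟨⟨s, memSA s ?_⟩, rfl⟩
    simp only [ES, Finset.mem_union]
    exact Or.inl (Or.inl (Or.inl (Or.inl (Or.inl (Or.inr hs)))))
  have hE5SA : ∀ s ∈ E5, ∃ s' : SA, (SA.val : SA →+* S) s' = s := by
    intro s hs
    refine ⟨⟨s, memSA s ?_⟩, rfl⟩
    simp only [ES, Finset.mem_union]
    exact Or.inl (Or.inl (Or.inl (Or.inl (Or.inr hs))))
  have hySA : ∀ i, y i ∈ SA := by
    intro i
    apply memSA
    simp only [ES, Finset.mem_union]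
    exact Or.inl (Or.inl (Or.inl (Or.inr (Finset.mem_image.2 ⟨i, Finset.mem_univ _, rfl⟩))))
  have hσSA : ∀ l, σ l ∈ SA := by
    intro i
    apply memSA
    simp only [ES, Finset.mem_union]
    exact Or.inl (Or.inl (Or.inr (Finset.mem_image.2 ⟨i, Finset.mem_univ _, rfl⟩)))
  obtain ⟨bA, hbA⟩ := exists_basis RA b SA hSA
  -- the linear map
  have hlamA : ∀ r ∈ RA, ∀ i, lam r i ∈ A := by
    intro r hr i
    rw [← Subalgebra.mem_toSubmodule, hRA, Submodule.mem_span_range_iff_exists_fun] at hr
    obtain ⟨z, rfl⟩ := hr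
    rw [map_sum, Finset.sum_apply]
    refine A.sum_mem fun k _ => ?_
    have : lam (z k • v k) i = (z k : PS d K) * lam (v k) i := by
      have h1 : z k • v k = (z k : PS d K) • v k := rfl
      rw [h1, map_smul]
      rfl
    rw [this]
    exact A.mul_mem (z k).2 (hT2 k i)
  let lamA : RA →ₗ[A] (Fin ρ → A) :=
    { toFun := fun r i => ⟨lam r.1 i, hlamA r.1 r.2 i⟩
      map_add' := fun r r' => by
        funext i
        apply Subtype.ext
        change lam (r.1 + r'.1) i = lam r.1 i + lam r'.1 i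
        rw [map_add]
        rfl
      map_smul' := fun z r => by
        funext i
        apply Subtype.ext
        change lam (z.1 • r.1) i = z.1 * lam r.1 i
        rw [map_smul]
        rfl }
  let _ : Algebra A (PS d F) := ψ.toAlgebra
  let xA : Fin d → A := fun i => ⟨X i, hXA i⟩
  let vA : κ → RA := fun k => ⟨v k, hvRA k⟩
  let aA : κ → A := fun k => ⟨C (a k), haA k⟩
  let a'A : κ → J → A := fun k j => ⟨C (a' k j), ha'A k j⟩
  let GA : κ ⊕ Fin d → RA := Sum.elim (fun k => vA k - algebraMap A RA (aA k))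
    (fun i => algebraMap A RA (xA i))
  let GSA : (κ × J) ⊕ Fin d → SA :=
    Sum.elim (fun k => vA k.1 • bA k.2 - algebraMap RA SA (algebraMap A RA (a'A k.1 k.2)))
      (fun i => algebraMap RA SA (algebraMap A RA (xA i)))
  have hGA : ∀ s, (RA.val : RA →+* R) (GA s) = genR d v a s := by
    rintro (k | i)
    · rfl
    · rfl
  have hGSA : ∀ s, (SA.val : SA →+* S) (GSA s) = genS d v b a' s := by
    rintro (k | i)
    · change (v k.1 : R) • (bA k.2 : S) - algebraMap R S (algebraMap (PS d K) R (C (a' k.1 k.2))) = _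
      rw [hbA]
      rfl
    · rfl
  have hxS : ∀ i, (SA.val : SA →+* S) (algebraMap RA SA (algebraMap A RA (xA i))) =
      algebraMap R S (algebraMap (PS d K) R (X i)) := fun i => rfl
  refine Astep (F := F) (hp p hpp) (A := A) (RA := RA) (SA := SA) xA hXψ vA ?_ aA
    (fun k => haψ k) (Ideal.span (Set.range GA)) ?_ ?_ t ?_ hρ lamA ⟨D, hDA⟩ hDψ ?_ bA a'A
    (fun k j => ha'ψ k j) (Ideal.span (Set.range GSA)) ?_ ?_ c ?_ (fun i => ⟨y i, hySA i⟩) ?_ q hq
    c' ?_ (fun l => ⟨σ l, hσSA l⟩) ?_
  · -- generation of `RA`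
    rw [eq_top_iff]
    rintro ⟨r, hr⟩ -
    rw [← Subalgebra.mem_toSubmodule, hRA, Submodule.mem_span_range_iff_exists_fun] at hr
    obtain ⟨z, hz⟩ := hr
    rw [Submodule.mem_span_range_iff_exists_fun]
    refine ⟨z, Subtype.ext ?_⟩
    rw [AddSubmonoidClass.coe_finsetSum]
    exact hz
  · intro k
    exact Ideal.subset_span ⟨Sum.inl k, rfl⟩
  · intro i
    exact Ideal.subset_span ⟨Sum.inr i, rfl⟩
  · rw [span_pow_range, Ideal.span_le, span_pow_range, span_mul_range]
    rintro _ ⟨s, rfl⟩
    refine hE1 RA (RA.val : RA →+* R) Subtype.val_injective hE1RA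
      (fun s => ∏ j, GA (s j)) _ ?_ ?_ s
    · intro s
      simp only [map_prod, hGA]
    · intro s
      simp only [map_mul, map_prod, hGA]
      rfl
  · intro i
    refine ⟨⟨u i, huRA i⟩, ?_⟩
    funext i'
    apply Subtype.ext
    change lam (u i) i' = ((Pi.single i (⟨D, hDA⟩ : A) : Fin ρ → A) i' : PS d K)
    rw [hu]
    by_cases h : i' = i
    · subst h; simp
    · simp [Pi.single_eq_of_ne h]
  · intro k j
    exact Ideal.subset_span ⟨Sum.inl (k, j), rfl⟩
  · intro i
    exact Ideal.subset_span ⟨Sum.inr i, rfl⟩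
  · rw [span_pow_range, Ideal.span_le]
    rintro _ ⟨s, rfl⟩
    refine hE2 SA (SA.val : SA →+* S) Subtype.val_injective hE2SA
      (fun s => ∏ j, GSA (s j)) _ ?_ ?_ s
    · intro s
      simp only [map_prod, hGSA]
    · intro s
      rfl
  · intro i
    refine hE3 SA (SA.val : SA →+* S) Subtype.val_injective hE3SA
      (fun i => ⟨y i, hySA i⟩) _ ?_ ?_ i
    · intro s
      rfl
    · exact hGSA
  · rw [span_pow_range, Ideal.span_le]
    rintro _ ⟨s, rfl⟩
    refine hE4 SA (SA.val : SA →+* S) Subtype.val_injective hE4SA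
      (fun s : Fin c' → Fin d => ∏ j, algebraMap RA SA (algebraMap A RA (xA (s j)))) _ ?_ ?_ s
    · intro s
      simp only [map_prod, hxS]
    · intro s
      simp only [map_pow]
      rfl
  · intro α hα k j
    refine ⟨fun l => ⟨C (e α k j l), heA ⟨α, hα⟩ k j l⟩, fun l => heψ ⟨α, hα⟩ k j l, ?_⟩
    refine hE5 SA (SA.val : SA →+* S) Subtype.val_injective hE5SA
      (fun s : (expo d c') × κ × J => algebraMap RA SA (algebraMap A RA (∏ i, xA i ^ s.1.1 i)) *
        (vA s.2.1 • bA s.2.2) - ∑ l, algebraMap A RA ⟨C (e s.1.1 s.2.1 s.2.2 l),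
          heA s.1 s.2.1 s.2.2 l⟩ • (⟨σ l, hσSA l⟩ : SA)) _ ?_ ?_ (⟨α, hα⟩, k, j)
    · intro s
      have e1 : (SA.val : SA →+* S) (algebraMap RA SA (algebraMap A RA (∏ i, xA i ^ s.1.1 i))) =
          algebraMap R S (algebraMap (PS d K) R (∏ i, X i ^ s.1.1 i)) := by
        simp only [map_prod, map_pow, hxS]
      have e2 : (SA.val : SA →+* S) (vA s.2.1 • bA s.2.2) = v s.2.1 • b s.2.2 := by
        rw [← hbA]
        rfl
      have e3 : (SA.val : SA →+* S) (∑ l, algebraMap A RA ⟨C (e s.1.1 s.2.1 s.2.2 l),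
          heA s.1 s.2.1 s.2.2 l⟩ • (⟨σ l, hσSA l⟩ : SA)) =
          ∑ l, algebraMap (PS d K) R (C (e s.1.1 s.2.1 s.2.2 l)) • σ l := by
        rw [map_sum]
        rfl
      exact congrArg₂ (· - ·) (congrArg₂ (· * ·) e1 e2) e3
    · intro s
      simp only [map_pow]
      rfl

end Crest.Agent.R183.Z
end

-- ▼ part R183/Z13
section

set_option autoImplicit false

/-! # R183 block [8b]: generic rank data -/

namespace Crest.Agent.R183.Z

open IsLocalRing

theorem rankdata {B R κ : Type} [CommRing B] [IsDomain B] [CommRing R] [Algebra B R] [Fintype κ]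
    (v : κ → R) (hv : Submodule.span B (Set.range v) = ⊤)
    (hinj : Function.Injective (algebraMap B R)) :
    ∃ (ρ : ℕ) (_ : 0 < ρ) (D : B) (_ : D ≠ 0) (e : Fin ρ → R) (lam : R →ₗ[B] (Fin ρ → B))
      (phi : (Fin ρ → B) →ₗ[B] R),
      (∀ i, lam (e i) = Pi.single i D) ∧ ∀ r, D • r ∈ LinearMap.range phi := by
  classical
  obtain ⟨s, hs, hmax⟩ := exists_maximal_linearIndepOn B v
  have hfin : Fintype s := Fintype.ofFinite s
  choose! a ha using hmax
  let a' : κ → B := fun k => if k ∈ s then 1 else a k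
  have ha'0 : ∀ k, a' k ≠ 0 := by
    intro k
    by_cases hk : k ∈ s
    · simp only [a', if_pos hk]; exact one_ne_zero
    · simp only [a', if_neg hk]; exact (ha k hk).1
  have ha's : ∀ k, a' k • v k ∈ Submodule.span B (v '' s) := by
    intro k
    by_cases hk : k ∈ s
    · simp only [a', if_pos hk, one_smul]
      exact Submodule.subset_span ⟨k, hk, rfl⟩
    · simp only [a', if_neg hk]; exact (ha k hk).2
  let D : B := ∏ k, a' k
  have hD : D ≠ 0 := Finset.prod_ne_zero_iff.2 fun k _ => ha'0 k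
  have hDv : ∀ k, D • v k ∈ Submodule.span B (v '' s) := by
    intro k
    have : D = (∏ j ∈ Finset.univ.erase k, a' j) * a' k :=
      (Finset.prod_erase_mul _ _ (Finset.mem_univ k)).symm
    rw [this, mul_smul]
    exact Submodule.smul_mem _ _ (ha's k)
  have hDr : ∀ r : R, D • r ∈ Submodule.span B (v '' s) := by
    intro r
    have hr : r ∈ Submodule.span B (Set.range v) := by rw [hv]; trivial
    rw [Submodule.mem_span_range_iff_exists_fun] at hr
    obtain ⟨c, rfl⟩ := hr
    rw [Finset.smul_sum]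
    refine Submodule.sum_mem _ fun k _ => ?_
    rw [smul_comm]
    exact Submodule.smul_mem _ _ (hDv k)
  let ρ := Fintype.card s
  let eqv : Fin ρ ≃ s := (Fintype.equivFin s).symm
  let e : Fin ρ → R := fun i => v (eqv i)
  have hli : LinearIndependent B e := by
    have h1 : LinearIndependent B (fun x : s => v x) := hs
    exact h1.comp eqv eqv.injective
  have hrange : Set.range e = v '' s := by
    ext z
    constructor
    · rintro ⟨i, rfl⟩
      exact ⟨eqv i, (eqv i).2, rfl⟩
    · rintro ⟨k, hk, rfl⟩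
      refine ⟨eqv.symm ⟨k, hk⟩, ?_⟩
      simp [e]
  let phi : (Fin ρ → B) →ₗ[B] R := Fintype.linearCombination B e
  have hphi : Function.Injective phi := hli.fintypeLinearCombination_injective
  have hphir : LinearMap.range phi = Submodule.span B (v '' s) := by
    rw [← hrange]
    exact Fintype.range_linearCombination B e
  have hρ : 0 < ρ := by
    rw [Nat.pos_iff_ne_zero]
    intro h0
    have h1 : Subsingleton (Fin ρ → B) := by
      have : IsEmpty (Fin ρ) := by rw [h0]; infer_instance
      infer_instance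
    have h2 := hDr 1
    rw [← hphir] at h2
    obtain ⟨x, hx⟩ := h2
    have hx0 : x = 0 := Subsingleton.elim _ _
    rw [hx0, map_zero, Algebra.smul_def, mul_one] at hx
    exact hD (hinj (by rw [← hx, map_zero]))
  let lam : R →ₗ[B] (Fin ρ → B) := (LinearEquiv.ofInjective phi hphi).symm.toLinearMap.comp
    (LinearMap.codRestrict (LinearMap.range phi) (LinearMap.lsmul B R D)
      (fun r => by rw [hphir]; exact hDr r))
  refine ⟨ρ, hρ, D, hD, e, lam, phi, ?_, fun r => by rw [hphir]; exact hDr r⟩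
  intro i
  change (LinearEquiv.ofInjective phi hphi).symm _ = _
  rw [LinearEquiv.symm_apply_eq]
  apply Subtype.ext
  rw [LinearEquiv.ofInjective_apply]
  change D • e i = Fintype.linearCombination B e (Pi.single i D)
  rw [Fintype.linearCombination_apply_single]

end Crest.Agent.R183.Z
end

-- ▼ part R183/Z14

set_option autoImplicit false

/-! # R183 block [8b]: the data of `S` -/

namespace Crest.Agent.R183.Z

open IsLocalRing MvPowerSeries Crest.Agent.R183.M Crest.Agent.R183.HS Filter
open scoped Nat Topology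

variable {K : Type} [Field K] {d : ℕ}

theorem Sdata (htr : Transfer d K) (hp : ∀ p, p.Prime → MAINp p d)
    {R S : Type} [CommRing R] [CommRing S] [Algebra (PS d K) R] [Algebra R S]
    [IsLocalRing S] [IsNoetherianRing S] [Module.Free R S] [Module.Finite R S]
    {κ : Type} [Fintype κ] (v : κ → R)
    (hv : Submodule.span (PS d K) (Set.range v) = ⊤)
    (a : κ → K) (t : ℕ)
    (hm : Ideal.span (Set.range (genR d v a)) ^ (t + 1) ≤
      Ideal.span (Set.range fun i => algebraMap (PS d K) R (X i)) *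
        Ideal.span (Set.range (genR d v a)) ^ t)
    {ρ : ℕ} (hρ : 0 < ρ) (lam : R →ₗ[PS d K] (Fin ρ → PS d K)) (D : PS d K) (hD : D ≠ 0)
    (u : Fin ρ → R) (hu : ∀ i, lam (u i) = Pi.single i D)
    (hres : ∀ s : S, ∃ z : K, s - algebraMap R S (algebraMap (PS d K) R (C z)) ∈ maximalIdeal S)
    (hx : ∀ i, algebraMap R S (algebraMap (PS d K) R (X i)) ∈ maximalIdeal S) (c : ℕ)
    (hn : maximalIdeal S ^ c ≤
      Ideal.span (Set.range fun i => algebraMap R S (algebraMap (PS d K) R (X i))))
    (y : Fin d → S) (hy : ∀ i, y i ∈ maximalIdeal S) (c2 : ℕ)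
    (hy2 : maximalIdeal S ^ c2 ≤ Ideal.span (Set.range y)) (q : ℕ) (hq : 0 < q) :
    (ρ : ℝ) ≤ ((Module.length S (S ⧸ Ideal.span (Set.range fun i => y i ^ q))).toNat : ℝ) /
      (q : ℝ) ^ d := by
  classical
  let b := Module.Free.chooseBasis R S
  have hJ : Nonempty (Module.Free.ChooseBasisIndex R S) := by
    by_contra h
    rw [not_nonempty_iff] at h
    have h1 : (1 : S) = 0 := by
      rw [← b.sum_repr (1 : S)]
      simp
    exact one_ne_zero h1
  choose res hres' using hres
  let a' : κ → Module.Free.ChooseBasisIndex R S → K := fun k j => res (v k • b j)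
  have hCunit : ∀ z : K, algebraMap R S (algebraMap (PS d K) R (C z)) ∈ maximalIdeal S → z = 0 := by
    intro z hz
    by_contra h0
    have h1 : IsUnit (algebraMap R S (algebraMap (PS d K) R (C z))) :=
      (((isUnit_iff_ne_zero.2 h0).map (C (σ := Fin d) (R := K))).map
        (algebraMap (PS d K) R)).map (algebraMap R S)
    exact ((mem_maximalIdeal _).1 hz) h1
  -- the maximal ideal
  have hgen : Ideal.span (Set.range (genS d v b a')) = maximalIdeal S := by
    apply le_antisymm
    · rw [Ideal.span_le]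
      rintro _ ⟨(k | i), rfl⟩
      · exact hres' _
      · exact hx i
    · have hxg : ∀ i, algebraMap R S (algebraMap (PS d K) R (X i)) ∈
          Ideal.span (Set.range (genS d v b a')) := fun i => Ideal.subset_span ⟨Sum.inr i, rfl⟩
      have hB : ∀ f : PS d K, algebraMap R S (algebraMap (PS d K) R f) -
          algebraMap R S (algebraMap (PS d K) R (C (constantCoeff f))) ∈
          Ideal.span (Set.range (genS d v b a')) := by
        intro f
        have h1 : f - C (constantCoeff f) ∈ XI (Fin d) K := by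
          have := (mem_XI_pow_iff (σ := Fin d) (N := 1) (f := f - C (constantCoeff f))).2 ?_
          · rwa [pow_one] at this
          · intro α hα
            have : α = 0 := by
              have : α.degree = 0 := by omega
              exact (Finsupp.degree_eq_zero_iff α).1 this
            subst this
            simp
        have h2 := Ideal.mem_map_of_mem ((algebraMap R S).comp (algebraMap (PS d K) R)) h1
        rw [XI, Ideal.map_span, ← Set.range_comp] at h2
        have h3 : Ideal.span (Set.range ((algebraMap R S).comp (algebraMap (PS d K) R) ∘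
            fun i => (X i : PS d K))) ≤ Ideal.span (Set.range (genS d v b a')) := by
          rw [Ideal.span_le]
          rintro _ ⟨i, rfl⟩
          exact hxg i
        have h4 := h3 h2
        rw [map_sub] at h4
        exact h4
      have hconst : ∀ s : S, ∃ z : K, s - algebraMap R S (algebraMap (PS d K) R (C z)) ∈
          Ideal.span (Set.range (genS d v b a')) := by
        have hadd : ∀ s s' : S, (∃ z : K, s - algebraMap R S (algebraMap (PS d K) R (C z)) ∈
            Ideal.span (Set.range (genS d v b a'))) →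
            (∃ z : K, s' - algebraMap R S (algebraMap (PS d K) R (C z)) ∈
            Ideal.span (Set.range (genS d v b a'))) →
            ∃ z : K, s + s' - algebraMap R S (algebraMap (PS d K) R (C z)) ∈
            Ideal.span (Set.range (genS d v b a')) := by
          rintro s s' ⟨z, hz⟩ ⟨z', hz'⟩
          refine ⟨z + z', ?_⟩
          have := Ideal.add_mem _ hz hz'
          rw [map_add, map_add, map_add]
          convert this using 1
          ring
        have hmul : ∀ s s' : S, (∃ z : K, s - algebraMap R S (algebraMap (PS d K) R (C z)) ∈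
            Ideal.span (Set.range (genS d v b a'))) →
            (∃ z : K, s' - algebraMap R S (algebraMap (PS d K) R (C z)) ∈
            Ideal.span (Set.range (genS d v b a'))) →
            ∃ z : K, s * s' - algebraMap R S (algebraMap (PS d K) R (C z)) ∈
            Ideal.span (Set.range (genS d v b a')) := by
          rintro s s' ⟨z, hz⟩ ⟨z', hz'⟩
          refine ⟨z * z', ?_⟩
          have h1 := Ideal.mul_mem_right s' _ hz
          have h2 := Ideal.mul_mem_left _ (algebraMap R S (algebraMap (PS d K) R (C z))) hz'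
          have := Ideal.add_mem _ h1 h2
          rw [map_mul, map_mul, map_mul]
          convert this using 1
          ring
        have hsum : ∀ {τ : Type} (T : Finset τ) (f : τ → S), (∀ i ∈ T, ∃ z : K,
            f i - algebraMap R S (algebraMap (PS d K) R (C z)) ∈
            Ideal.span (Set.range (genS d v b a'))) →
            ∃ z : K, (∑ i ∈ T, f i) - algebraMap R S (algebraMap (PS d K) R (C z)) ∈
            Ideal.span (Set.range (genS d v b a')) := by
          intro τ T f hf
          exact Finset.sum_induction f (fun s => ∃ z : K,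
            s - algebraMap R S (algebraMap (PS d K) R (C z)) ∈
            Ideal.span (Set.range (genS d v b a'))) hadd ⟨0, by simp⟩ hf
        intro s
        rw [← b.sum_repr s]
        refine hsum _ _ fun j _ => ?_
        have h1 : (b.repr s j) ∈ Submodule.span (PS d K) (Set.range v) := by rw [hv]; trivial
        rw [Submodule.mem_span_range_iff_exists_fun] at h1
        obtain ⟨e, he⟩ := h1
        rw [← he, Finset.sum_smul]
        refine hsum _ _ fun k _ => ?_
        have h2 : (e k • v k) • b j = algebraMap R S (algebraMap (PS d K) R (e k)) * (v k • b j) := by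
          rw [Algebra.smul_def (e k), mul_smul, Algebra.smul_def (algebraMap (PS d K) R (e k))]
        rw [h2]
        refine hmul _ _ ⟨_, hB (e k)⟩ ⟨a' k j, Ideal.subset_span ⟨Sum.inl (k, j), rfl⟩⟩
      have hle : Ideal.span (Set.range (genS d v b a')) ≤ maximalIdeal S := by
        rw [Ideal.span_le]
        rintro _ ⟨(k | i), rfl⟩
        · exact hres' _
        · exact hx i
      intro s hs
      obtain ⟨z, hz⟩ := hconst s
      have h1 : algebraMap R S (algebraMap (PS d K) R (C z)) ∈ maximalIdeal S := by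
        have := Ideal.sub_mem _ hs (hle hz)
        rwa [sub_sub_cancel] at this
      have h2 := hCunit z h1
      rw [h2] at hz
      simpa using hz
  -- parameters
  obtain ⟨c', hc'⟩ := pow_le_span_pow y (maximalIdeal S) hy2 q
  have hxle : Ideal.span (Set.range fun i => algebraMap R S (algebraMap (PS d K) R (X i))) ≤
      maximalIdeal S := by
    rw [Ideal.span_le]
    rintro _ ⟨i, rfl⟩
    exact hx i
  set Q : Ideal S := Ideal.span (Set.range fun i => y i ^ q) with hQ
  -- vector space structure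
  let _ : Algebra K S :=
    ((algebraMap R S).comp ((algebraMap (PS d K) R).comp (C (σ := Fin d) (R := K)))).toAlgebra
  have halg : ∀ z : K, algebraMap K S z = algebraMap R S (algebraMap (PS d K) R (C z)) :=
    fun z => rfl
  have hsurj : Function.Surjective (fun z : K => residue S (algebraMap K S z)) := by
    intro w
    obtain ⟨s, rfl⟩ := residue_surjective w
    refine ⟨res s, ?_⟩
    change residue S _ = residue S s
    rw [eq_comm, ← sub_eq_zero, ← map_sub, residue_eq_zero_iff]
    exact hres' s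
  have hlen : Module.length K (S ⧸ Q) = Module.length S (S ⧸ Q) := length_restrict_eq K hsurj
  have hfin : Module.length S (S ⧸ Q) ≠ ⊤ := length_quot_pow_ne_top y hy2 q
  have hfinK : Module.Finite K (S ⧸ Q) := by
    have h1 : Module.length K (S ⧸ Q) ≠ ⊤ := by rw [hlen]; exact hfin
    rw [Module.length_ne_top_iff] at h1
    have h2 := isFiniteLength_iff_isNoetherian_isArtinian.1 h1
    exact @Module.IsNoetherian.finite K (S ⧸ Q) _ _ _ h2.1
  set L := Module.finrank K (S ⧸ Q) with hL
  have hLlen : (Module.length S (S ⧸ Q)).toNat = L := by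
    rw [← hlen, Module.length_eq_finrank]
    rfl
  rw [hLlen]
  let bb : Module.Basis (Fin L) K (S ⧸ Q) := Module.finBasis K (S ⧸ Q)
  have hlift : ∀ l, ∃ s : S, Ideal.Quotient.mk Q s = bb l := fun l => Ideal.Quotient.mk_surjective _
  choose σ hσ using hlift
  refine Kstep htr hp v hv b a t hm hρ lam D hD u hu a' c (by rw [hgen]; exact hn) y
    (by rw [hgen]; exact hy) q hq c' ((Ideal.pow_right_mono hxle c').trans hc') σ
    (fun α k j l => bb.repr (Ideal.Quotient.mk Q
      (algebraMap R S (algebraMap (PS d K) R (∏ i, X i ^ α i)) * (v k • b j))) l) ?_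
  intro α _ k j
  rw [← Ideal.Quotient.eq_zero_iff_mem, map_sub, sub_eq_zero, map_sum]
  conv_lhs => rw [← bb.sum_repr (Ideal.Quotient.mk Q
      (algebraMap R S (algebraMap (PS d K) R (∏ i, X i ^ α i)) * (v k • b j)))]
  refine Finset.sum_congr rfl fun l _ => ?_
  rw [← hσ l, Algebra.smul_def (algebraMap (PS d K) R _) (σ l), map_mul]
  rw [Algebra.smul_def]
  rfl

end Crest.Agent.R183.Z
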